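import Vale.Agent.P231.MathlibUsed
import Vale.Agent.P234.Defs
import Vale.Agent.P234.MathlibUsed
attribute [-instance] IsTopologicalTorsor.toContinuousSMul IdemSemiring.toCanonicallyOrderedAdd IdemSemiring.toMulLeftMono IdemSemiring.toMulRightMono FiniteDimensional.rclike_to_real IsScalarTower.complexToReal FiniteDimensional.complexToReal

set_option linter.all false

namespace AFast7e28e9x6a
@[reducible] noncomputable def a0.{u1, u2} {x1 : Type u1} [x2 : NormedAddCommGroup x1] [x3 : NormedSpace ℝ x1] {x4 : Type u2} [x5 : MetricSpace x4] [x6 : ChartedSpace x1 x4] {x7 : x4} : SMulZeroClass ℝ (TangentSpace (modelWithCornersSelf ℝ x1) x7) := inferInstance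
@[reducible] noncomputable def a1.{u1, u2} {x1 : Type u1} [x2 : NormedAddCommGroup x1] [x3 : NormedSpace ℝ x1] {x4 : Type u2} [x5 : MetricSpace x4] [x6 : ChartedSpace x1 x4] {x7 : x4} : SMul ℝ (TangentSpace (modelWithCornersSelf ℝ x1) x7) := inferInstance
@[reducible] noncomputable def a2.{u1, u2} {x1 : Type u1} [x2 : NormedAddCommGroup x1] [x3 : NormedSpace ℝ x1] {x4 : Type u2} [x5 : MetricSpace x4] [x6 : ChartedSpace x1 x4] {x7 : x4} : DistribSMul ℝ (TangentSpace (modelWithCornersSelf ℝ x1) x7) := inferInstance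
@[reducible] noncomputable def a3.{u1, u2} {x1 : Type u1} [x2 : NormedAddCommGroup x1] [x3 : NormedSpace ℝ x1] {x4 : Type u2} [x5 : MetricSpace x4] [x6 : ChartedSpace x1 x4] {x7 : x4} : DistribMulAction ℝ (TangentSpace (modelWithCornersSelf ℝ x1) x7) := inferInstance
@[reducible] noncomputable def a4.{u1, u2} {x1 : Type u1} [x2 : NormedAddCommGroup x1] [x3 : NormedSpace ℝ x1] {x4 : Type u2} [x5 : MetricSpace x4] [x6 : ChartedSpace x1 x4] {x7 : x4} : AddCommMonoid (TangentSpace (modelWithCornersSelf ℝ x1) x7) := inferInstance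
theorem a5 : ContinuousSMul ℝ ℝ := inferInstance
@[reducible] noncomputable def a6 : NormedSpace ℝ ℝ := inferInstance
theorem a7 : CovariantClass ℝ ℝ (Function.swap fun x1 x2 => x1 + x2) fun x1 x2 => x1 ≤ x2 := inferInstance
@[reducible] noncomputable def a8.{u1, u2} {x1 : Type u1} [x2 : NormedAddCommGroup x1] [x3 : NormedSpace ℝ x1] {x4 : Type u2} [x5 : MetricSpace x4] [x6 : ChartedSpace x1 x4] {x7 : x4} : Zero (TangentSpace (modelWithCornersSelf ℝ x1) x7) := inferInstance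
theorem a9 : T2Space ℝ := inferInstance
@[reducible] def a10 : SMulZeroClass ℝ ℝ := inferInstance
@[reducible] def a11.{u1} {x1 : Type u1} [x2 : NormedAddCommGroup x1] [x3 : NormedSpace ℝ x1] : Module ℝ (x1 →L[ℝ] ℝ) := inferInstance
@[reducible] noncomputable def a12.{u1, u2} {x1 : Type u1} [x2 : NormedAddCommGroup x1] [x3 : NormedSpace ℝ x1] {x4 : Type u2} [x5 : MetricSpace x4] [x6 : ChartedSpace x1 x4] {x7 : x4} : AddZeroClass (TangentSpace (modelWithCornersSelf ℝ x1) x7) := inferInstance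
@[reducible] noncomputable def a13.{u1, u2} {x1 : Type u1} [x2 : NormedAddCommGroup x1] [x3 : NormedSpace ℝ x1] {x4 : Type u2} [x5 : MetricSpace x4] [x6 : ChartedSpace x1 x4] {x7 : x4} : AddZero (TangentSpace (modelWithCornersSelf ℝ x1) x7) := inferInstance
@[reducible] noncomputable def a14.{u1, u2} {x1 : Type u1} [x2 : NormedAddCommGroup x1] [x3 : NormedSpace ℝ x1] {x4 : Type u2} [x5 : MetricSpace x4] [x6 : ChartedSpace x1 x4] {x7 : x4} : AddMonoid (TangentSpace (modelWithCornersSelf ℝ x1) x7) := inferInstance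
@[reducible] noncomputable def a15.{u1} {x1 : Type u1} [x2 : NormedAddCommGroup x1] [x3 : NormedSpace ℝ x1] : TopologicalSpace (x1 →L[ℝ] ℝ) := inferInstance
@[reducible] noncomputable def a16.{u1, u2} {x1 : Type u1} [x2 : NormedAddCommGroup x1] [x3 : NormedSpace ℝ x1] {x4 : Type u2} [x5 : MetricSpace x4] [x6 : ChartedSpace x1 x4] {x7 : (x : x4) → TangentSpace (modelWithCornersSelf ℝ x1) x → x4} {x8 : x4} {x9 : ℝ} {x10 : TangentSpace (modelWithCornersSelf ℝ x1) x8} : SMul ℝ (TangentSpace (modelWithCornersSelf ℝ x1) (x7 x8 (x9 • x10))) := inferInstance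
@[reducible] noncomputable def a17.{u1, u2} {x1 : Type u1} [x2 : NormedAddCommGroup x1] [x3 : NormedSpace ℝ x1] {x4 : Type u2} [x5 : MetricSpace x4] [x6 : ChartedSpace x1 x4] {x7 : x4} : MulAction ℝ (TangentSpace (modelWithCornersSelf ℝ x1) x7) := inferInstance
@[reducible] noncomputable def a18.{u1, u2} {x1 : Type u1} [x2 : NormedAddCommGroup x1] [x3 : NormedSpace ℝ x1] {x4 : Type u2} [x5 : MetricSpace x4] [x6 : ChartedSpace x1 x4] {x7 : (x : x4) → TangentSpace (modelWithCornersSelf ℝ x1) x → x4} {x8 : x4} {x9 : ℝ} {x10 : TangentSpace (modelWithCornersSelf ℝ x1) x8} : SMulZeroClass ℝ (TangentSpace (modelWithCornersSelf ℝ x1) (x7 x8 (x9 • x10))) := inferInstance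
@[reducible] def a19.{u1} {x1 : Type u1} [x2 : NormedAddCommGroup x1] [x3 : NormedSpace ℝ x1] : AddCommGroup (x1 →L[ℝ] ℝ) := inferInstance
theorem a20 : CharZero ℝ := inferInstance
theorem a21 : AddRightStrictMono ℝ := inferInstance
@[reducible] noncomputable def a22.{u1, u2} {x1 : Type u1} [x2 : NormedAddCommGroup x1] [x3 : NormedSpace ℝ x1] {x4 : Type u2} [x5 : MetricSpace x4] [x6 : ChartedSpace x1 x4] {x7 : x4} : SemigroupAction ℝ (TangentSpace (modelWithCornersSelf ℝ x1) x7) := inferInstance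
@[reducible] def a23 : DistribMulAction ℝ ℝ := inferInstance
theorem a24 : AddRightReflectLE ℝ := inferInstance
@[reducible] noncomputable def a25.{u1, u2} {x1 : Type u1} [x2 : NormedAddCommGroup x1] [x3 : NormedSpace ℝ x1] {x4 : Type u2} [x5 : MetricSpace x4] [x6 : ChartedSpace x1 x4] {x7 : x4} : Module ℝ (TangentSpace (modelWithCornersSelf ℝ x1) x7 →L[ℝ] ℝ) := inferInstance
@[reducible] noncomputable def a26.{u1, u2} {x1 : Type u1} [x2 : NormedAddCommGroup x1] [x3 : NormedSpace ℝ x1] {x4 : Type u2} [x5 : MetricSpace x4] [x6 : ChartedSpace x1 x4] {x7 : x4} : SubNegMonoid (TangentSpace (modelWithCornersSelf ℝ x1) x7) := inferInstance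
@[reducible] noncomputable def a27.{u1, u2} {x1 : Type u1} [x2 : NormedAddCommGroup x1] [x3 : NormedSpace ℝ x1] {x4 : Type u2} [x5 : MetricSpace x4] [x6 : ChartedSpace x1 x4] {x7 : x4} : AddGroup (TangentSpace (modelWithCornersSelf ℝ x1) x7) := inferInstance
theorem a28 : AddLeftMono ℝ := inferInstance
theorem a29 : ContinuousConstSMul ℝ ℝ := inferInstance
@[reducible] def a30.{u1, u2} {x1 : Type u1} {x2 : Type u2} [x3 : NormedAddCommGroup x1] [x4 : NormedAddCommGroup x2] [x5 : NormedSpace ℝ x1] [x6 : NormedSpace ℝ x2] : Module ℝ (x1 × x2) := inferInstance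
theorem a31 : IsSemitopologicalRing ℝ := inferInstance
theorem a32 : IsRightCancelAdd ℝ := inferInstance
theorem a33 : AddLeftReflectLE ℝ := inferInstance
theorem a34 : ContinuousAdd ℝ := inferInstance
@[reducible] noncomputable def a35.{u1, u2} {x1 : Type u1} [x2 : NormedAddCommGroup x1] [x3 : NormedSpace ℝ x1] {x4 : Type u2} [x5 : MetricSpace x4] [x6 : ChartedSpace x1 x4] {x7 : (x : x4) → TangentSpace (modelWithCornersSelf ℝ x1) x → x4} {x8 : x4} {x9 : ℝ} {x10 : TangentSpace (modelWithCornersSelf ℝ x1) x8} : DistribSMul ℝ (TangentSpace (modelWithCornersSelf ℝ x1) (x7 x8 (x9 • x10))) := inferInstance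
theorem a36 : IsModuleTopology ℝ ℝ := inferInstance
theorem a37.{u1, u2} {x1 : Type u1} {x2 : Type u2} [x3 : NormedAddCommGroup x2] [x4 : NormedSpace ℝ x2] [x5 : MetricSpace x1] [x6 : ChartedSpace x2 x1] [x7 : IsManifold (modelWithCornersSelf ℝ x2) (↑⊤) x1] {x8 : x1} : Bundle.Trivialization.IsLinear ℝ (trivializationAt x2 (TangentSpace (modelWithCornersSelf ℝ x2)) x8) := inferInstance
@[reducible] noncomputable def a38.{u1, u2} {x1 : Type u1} [x2 : NormedAddCommGroup x1] [x3 : NormedSpace ℝ x1] {x4 : Type u2} [x5 : MetricSpace x4] [x6 : ChartedSpace x1 x4] {x7 : x4} : SMulWithZero ℝ (TangentSpace (modelWithCornersSelf ℝ x1) x7) := inferInstance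
@[reducible] def a39.{u1} {x1 : Type u1} [x2 : NormedAddCommGroup x1] [x3 : NormedSpace ℝ x1] : AddCommMonoid (x1 →L[ℝ] ℝ) := inferInstance
@[reducible] noncomputable def a40.{u1} {x1 : Type u1} [x2 : NormedAddCommGroup x1] [x3 : NormedSpace ℝ x1] : NormedSpace ℝ (x1 →L[ℝ] ℝ) := inferInstance
theorem a41 : ContravariantClass ℝ ℝ (fun x1 x2 => x1 + x2) fun x1 x2 => x1 < x2 := inferInstance
@[reducible] noncomputable def a42.{u1, u2} {x1 : Type u1} [x2 : NormedAddCommGroup x1] [x3 : NormedSpace ℝ x1] {x4 : Type u2} [x5 : MetricSpace x4] [x6 : ChartedSpace x1 x4] {x7 : x4} : TopologicalSpace (TangentSpace (modelWithCornersSelf ℝ x1) x7 →L[ℝ] ℝ) := inferInstance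
@[reducible] noncomputable def a43.{u1, u2} {x1 : Type u1} [x2 : NormedAddCommGroup x1] [x3 : NormedSpace ℝ x1] {x4 : Type u2} [x5 : MetricSpace x4] [x6 : ChartedSpace x1 x4] {x7 : x4} : MulActionWithZero ℝ (TangentSpace (modelWithCornersSelf ℝ x1) x7) := inferInstance
@[reducible] noncomputable def a44.{u1, u2} {x1 : Type u1} {x2 : Type u2} [x3 : NormedAddCommGroup x1] [x4 : NormedAddCommGroup x2] [x5 : NormedSpace ℝ x1] [x6 : NormedSpace ℝ x2] : TopologicalSpace (x1 × x2 →L[ℝ] ℝ) := inferInstance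
@[reducible] noncomputable def a45.{u1, u2} {x1 : Type u1} [x2 : NormedAddCommGroup x1] [x3 : NormedSpace ℝ x1] {x4 : Type u2} [x5 : MetricSpace x4] [x6 : ChartedSpace x1 x4] {x7 : (x : x4) → TangentSpace (modelWithCornersSelf ℝ x1) x → x4} {x8 : x4} {x9 : ℝ} {x10 : TangentSpace (modelWithCornersSelf ℝ x1) x8} : DistribMulAction ℝ (TangentSpace (modelWithCornersSelf ℝ x1) (x7 x8 (x9 • x10))) := inferInstance
theorem a46 : IsLeftCancelAdd ℝ := inferInstance
@[reducible] def a47.{u1} {x1 : Type u1} [x2 : NormedAddCommGroup x1] [x3 : NormedSpace ℝ x1] : Module ℝ (x1 × x1) := inferInstance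
theorem a48 : SeparatelyContinuousMul ℝ := inferInstance
@[reducible] noncomputable def a49.{u1, u2} {x1 : Type u1} [x2 : NormedAddCommGroup x1] {x3 : Type u2} [x4 : NormedAddCommGroup x3] [x5 : NormedSpace ℝ x1] [x6 : NormedSpace ℝ x3] : TopologicalSpace (x1 →L[ℝ] x3) := inferInstance
theorem a50.{u1} {x1 : Type u1} [x2 : NormedAddCommGroup x1] [x3 : NormedSpace ℝ x1] : ContinuousSMul ℝ (x1 →L[ℝ] ℝ) := inferInstance
@[reducible] noncomputable def a51.{u1, u2} {x1 : Type u1} [x2 : NormedAddCommGroup x1] {x3 : Type u2} [x4 : NormedAddCommGroup x3] [x5 : NormedSpace ℝ x1] [x6 : NormedSpace ℝ x3] : NormedSpace ℝ (x1 →L[ℝ] x3) := inferInstance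
theorem a52 : PosMulReflectLT ℝ := inferInstance
@[reducible] noncomputable def a53.{u1, u2} {x1 : Type u1} [x2 : NormedAddCommGroup x1] [x3 : NormedSpace ℝ x1] {x4 : Type u2} [x5 : MetricSpace x4] [x6 : ChartedSpace x1 x4] {x7 : x4} : AddCommMonoid (TangentSpace (modelWithCornersSelf ℝ x1) x7 →L[ℝ] ℝ) := inferInstance
theorem a54 : PosMulReflectLE ℝ := inferInstance
@[reducible] def a55.{u1} {x1 : Type u1} [x2 : MetricSpace x1] : TopologicalSpace (x1 × x1) := inferInstance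
theorem a56 : ContMDiffMul (modelWithCornersSelf ℝ ℝ) ⊤ ℝ := inferInstance
@[reducible] noncomputable def a57.{u1} {x1 : Type u1} [x2 : NormedAddCommGroup x1] [x3 : NormedSpace ℝ x1] : SeminormedAddCommGroup (x1 →L[ℝ] ℝ) := inferInstance
theorem a58 : IsLeftCancelMulZero ℝ := inferInstance
theorem a59 : PosMulStrictMono ℝ := inferInstance
@[reducible] noncomputable def a60.{u1, u2} {x1 : Type u1} [x2 : NormedAddCommGroup x1] [x3 : NormedSpace ℝ x1] {x4 : Type u2} [x5 : MetricSpace x4] [x6 : ChartedSpace x1 x4] {x7 : x4} : SMul (ℝ → ℝ) (ℝ → TangentSpace (modelWithCornersSelf ℝ x1) x7) := inferInstance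
@[reducible] def a61.{u1, u2} {x1 : Type u1} [x2 : NormedAddCommGroup x1] {x3 : Type u2} [x4 : NormedAddCommGroup x3] [x5 : NormedSpace ℝ x1] [x6 : NormedSpace ℝ x3] : AddCommGroup (x1 →L[ℝ] x3) := inferInstance
@[reducible] def a62.{u1, u2} {x1 : Type u1} [x2 : NormedAddCommGroup x1] {x3 : Type u2} [x4 : NormedAddCommGroup x3] [x5 : NormedSpace ℝ x1] [x6 : NormedSpace ℝ x3] : AddCommMonoid (x1 →L[ℝ] x3) := inferInstance
@[reducible] def a63.{u1} {x1 : Type u1} [x2 : NormedAddCommGroup x1] [x3 : InnerProductSpace ℝ x1] : SMul ℝ (x1 →L[ℝ] ℝ) := inferInstance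
@[reducible] def a64.{u1, u2} {x1 : Type u1} {x2 : Type u2} [x3 : NormedAddCommGroup x1] [x4 : NormedAddCommGroup x2] [x5 : NormedSpace ℝ x1] [x6 : NormedSpace ℝ x2] : Module ℝ (x1 × x2 →L[ℝ] ℝ) := inferInstance
end AFast7e28e9x6a
attribute [local instance] AFast7e28e9x6a.a0 AFast7e28e9x6a.a1 AFast7e28e9x6a.a2 AFast7e28e9x6a.a3
  AFast7e28e9x6a.a4 AFast7e28e9x6a.a5 AFast7e28e9x6a.a6 AFast7e28e9x6a.a7 AFast7e28e9x6a.a8
  AFast7e28e9x6a.a9 AFast7e28e9x6a.a10 AFast7e28e9x6a.a11 AFast7e28e9x6a.a12 AFast7e28e9x6a.a13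
  AFast7e28e9x6a.a14 AFast7e28e9x6a.a15 AFast7e28e9x6a.a16 AFast7e28e9x6a.a17 AFast7e28e9x6a.a18
  AFast7e28e9x6a.a19 AFast7e28e9x6a.a20 AFast7e28e9x6a.a21 AFast7e28e9x6a.a22 AFast7e28e9x6a.a23
  AFast7e28e9x6a.a24 AFast7e28e9x6a.a25 AFast7e28e9x6a.a26 AFast7e28e9x6a.a27 AFast7e28e9x6a.a28
  AFast7e28e9x6a.a29 AFast7e28e9x6a.a30 AFast7e28e9x6a.a31 AFast7e28e9x6a.a32 AFast7e28e9x6a.a33
  AFast7e28e9x6a.a34 AFast7e28e9x6a.a35 AFast7e28e9x6a.a36 AFast7e28e9x6a.a37 AFast7e28e9x6a.a38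
  AFast7e28e9x6a.a39 AFast7e28e9x6a.a40 AFast7e28e9x6a.a41 AFast7e28e9x6a.a42 AFast7e28e9x6a.a43
  AFast7e28e9x6a.a44 AFast7e28e9x6a.a45 AFast7e28e9x6a.a46 AFast7e28e9x6a.a47 AFast7e28e9x6a.a48
  AFast7e28e9x6a.a49 AFast7e28e9x6a.a50 AFast7e28e9x6a.a51 AFast7e28e9x6a.a52 AFast7e28e9x6a.a53
  AFast7e28e9x6a.a54 AFast7e28e9x6a.a55 AFast7e28e9x6a.a56 AFast7e28e9x6a.a57 AFast7e28e9x6a.a58
  AFast7e28e9x6a.a59 AFast7e28e9x6a.a60 AFast7e28e9x6a.a61 AFast7e28e9x6a.a62 AFast7e28e9x6a.a63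
  AFast7e28e9x6a.a64
namespace AFast7e28e9x6b
@[reducible] noncomputable def a0.{u1, u2} {x1 : Type u1} [x2 : NormedAddCommGroup x1] [x3 : NormedSpace ℝ x1] {x4 : Type u2} [x5 : MetricSpace x4] [x6 : ChartedSpace x1 x4] [x7 : IsManifold (modelWithCornersSelf ℝ x1) (↑⊤) x4] : TopologicalSpace (TangentBundle (modelWithCornersSelf ℝ x1) x4) := inferInstance
theorem a1.{u1, u2} {x1 : Type u1} [x2 : NormedAddCommGroup x1] [x3 : NormedSpace ℝ x1] {x4 : Type u2} [x5 : MetricSpace x4] [x6 : ChartedSpace x1 x4] [x7 : IsManifold (modelWithCornersSelf ℝ x1) (↑⊤) x4] : IsManifold (modelWithCornersSelf ℝ x1) 1 x4 := inferInstance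
theorem a2.{u1, u2} {x1 : Type u1} [x2 : NormedAddCommGroup x1] [x3 : NormedSpace ℝ x1] {x4 : Type u2} [x5 : MetricSpace x4] [x6 : ChartedSpace x1 x4] [x7 : IsManifold (modelWithCornersSelf ℝ x1) (↑⊤) x4] : IsManifold (modelWithCornersSelf ℝ x1) 2 x4 := inferInstance
theorem a3.{u1, u2} {x1 : Type u1} [x2 : NormedAddCommGroup x1] [x3 : NormedSpace ℝ x1] {x4 : Type u2} [x5 : MetricSpace x4] [x6 : ChartedSpace x1 x4] [x7 : IsManifold (modelWithCornersSelf ℝ x1) (↑⊤) x4] : IsManifold (modelWithCornersSelf ℝ x1) 3 x4 := inferInstance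
theorem a4.{u1} {x1 : Type u1} [x2 : NormedAddCommGroup x1] [x3 : NormedSpace ℝ x1] : SemilinearMapClass (x1 →L[ℝ] x1 →L[ℝ] ℝ) (RingHom.id ℝ) x1 (x1 →L[ℝ] ℝ) := inferInstance
theorem a5.{u1} {x1 : Type u1} [x2 : NormedAddCommGroup x1] [x3 : NormedSpace ℝ x1] : ContinuousAdd (x1 →L[ℝ] ℝ) := inferInstance
theorem a6.{u1} {x1 : Type u1} [x2 : NormedAddCommGroup x1] [x3 : NormedSpace ℝ x1] : AddMonoidHomClass (x1 →L[ℝ] x1 →L[ℝ] ℝ) x1 (x1 →L[ℝ] ℝ) := inferInstance
theorem a7.{u1} {x1 : Type u1} [x2 : NormedAddCommGroup x1] [x3 : NormedSpace ℝ x1] : DistribMulActionSemiHomClass (x1 →L[ℝ] x1 →L[ℝ] ℝ) (⇑(RingHom.id ℝ)) x1 (x1 →L[ℝ] ℝ) := inferInstance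
@[reducible] noncomputable def a8.{u1} {x1 : Type u1} [x2 : NormedAddCommGroup x1] [x3 : NormedSpace ℝ x1] : NormedSpace ℝ (x1 →L[ℝ] x1 →L[ℝ] ℝ) := inferInstance
theorem a9.{u1} {x1 : Type u1} [x2 : NormedAddCommGroup x1] [x3 : NormedSpace ℝ x1] : T2Space (x1 →L[ℝ] ℝ) := inferInstance
@[reducible] noncomputable def a10.{u1} {x1 : Type u1} [x2 : NormedAddCommGroup x1] [x3 : NormedSpace ℝ x1] : NormedAddCommGroup (x1 →L[ℝ] x1 →L[ℝ] ℝ) := inferInstance
@[reducible] noncomputable def a11.{u1, u2} {x1 : Type u1} [x2 : NormedAddCommGroup x1] [x3 : NormedSpace ℝ x1] {x4 : Type u2} [x5 : MetricSpace x4] [x6 : ChartedSpace x1 x4] [x7 : IsManifold (modelWithCornersSelf ℝ x1) (↑⊤) x4] : TopologicalSpace (ℝ × TangentBundle (modelWithCornersSelf ℝ x1) x4) := inferInstance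
@[reducible] def a12.{u1, u2} {x1 : Type u1} [x2 : NormedAddCommGroup x1] {x3 : Type u2} [x4 : NormedAddCommGroup x3] [x5 : NormedSpace ℝ x1] [x6 : NormedSpace ℝ x3] : Module ℝ (x1 →L[ℝ] x3) := inferInstance
theorem a13.{u1} {x1 : Type u1} [x2 : NormedAddCommGroup x1] [x3 : NormedSpace ℝ x1] : ZeroHomClass (x1 →L[ℝ] x1 →L[ℝ] ℝ) x1 (x1 →L[ℝ] ℝ) := inferInstance
theorem a14.{u1} {x1 : Type u1} [x2 : NormedAddCommGroup x1] [x3 : NormedSpace ℝ x1] : MulActionSemiHomClass (x1 →L[ℝ] x1 →L[ℝ] ℝ) (⇑(RingHom.id ℝ)) x1 (x1 →L[ℝ] ℝ) := inferInstance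
theorem a15.{u1} {x1 : Type u1} [x2 : NormedAddCommGroup x1] [x3 : InnerProductSpace ℝ x1] : IsBoundedSMul ℝ (x1 →L[ℝ] ℝ) := inferInstance
@[reducible] noncomputable def a16.{u1} {x1 : Type u1} [x2 : NormedAddCommGroup x1] [x3 : NormedSpace ℝ x1] : SeminormedAddCommGroup (x1 →L[ℝ] x1 →L[ℝ] ℝ) := inferInstance
theorem a17.{u1} {x1 : Type u1} [x2 : NormedAddCommGroup x1] [x3 : NormedSpace ℝ x1] : SemilinearMapClass (x1 →L[ℝ] ℝ) (RingHom.id ℝ) x1 ℝ := inferInstance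
@[reducible] noncomputable def a18.{u1, u2} {x1 : Type u1} [x2 : NormedAddCommGroup x1] [x3 : NormedSpace ℝ x1] {x4 : Type u2} [x5 : MetricSpace x4] [x6 : ChartedSpace x1 x4] [x7 : IsManifold (modelWithCornersSelf ℝ x1) (↑⊤) x4] : TopologicalSpace (TangentBundle ((modelWithCornersSelf ℝ ℝ).prod (modelWithCornersSelf ℝ x1).tangent) (ℝ × TangentBundle (modelWithCornersSelf ℝ x1) x4)) := inferInstance
@[reducible] noncomputable def a19.{u1} {x1 : Type u1} [x2 : NormedAddCommGroup x1] [x3 : NormedSpace ℝ x1] : Norm (x1 →L[ℝ] x1 →L[ℝ] ℝ) := inferInstance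
theorem a20.{u1, u2} {x1 : Type u1} [x2 : NormedAddCommGroup x1] [x3 : NormedSpace ℝ x1] {x4 : Type u2} [x5 : MetricSpace x4] [x6 : ChartedSpace x1 x4] [x7 : IsManifold (modelWithCornersSelf ℝ x1) (↑⊤) x4] : IsManifold ((modelWithCornersSelf ℝ ℝ).prod (modelWithCornersSelf ℝ x1).tangent) 1 (ℝ × TangentBundle (modelWithCornersSelf ℝ x1) x4) := inferInstance
theorem a21.{u1, u2} {x1 : Type u1} [x2 : NormedAddCommGroup x1] [x3 : NormedSpace ℝ x1] {x4 : Type u2} [x5 : MetricSpace x4] [x6 : ChartedSpace x1 x4] {x7 : x4} : IsScalarTower ℝ ℝ (TangentSpace (modelWithCornersSelf ℝ x1) x7) := inferInstance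
@[reducible] noncomputable def a22.{u1} {x1 : Type u1} [x2 : NormedAddCommGroup x1] [x3 : NormedSpace ℝ x1] : Add (x1 →L[ℝ] x1 →L[ℝ] ℝ) := inferInstance
@[reducible] noncomputable def a23.{u1, u2} {x1 : Type u1} [x2 : NormedAddCommGroup x1] [x3 : NormedSpace ℝ x1] {x4 : Type u2} [x5 : MetricSpace x4] [x6 : ChartedSpace x1 x4] [x7 : IsManifold (modelWithCornersSelf ℝ x1) (↑⊤) x4] : TopologicalSpace (TangentBundle (modelWithCornersSelf ℝ x1).tangent (TangentBundle (modelWithCornersSelf ℝ x1) x4)) := inferInstance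
end AFast7e28e9x6b
attribute [local instance] AFast7e28e9x6b.a0 AFast7e28e9x6b.a1 AFast7e28e9x6b.a2 AFast7e28e9x6b.a3
  AFast7e28e9x6b.a4 AFast7e28e9x6b.a5 AFast7e28e9x6b.a6 AFast7e28e9x6b.a7 AFast7e28e9x6b.a8
  AFast7e28e9x6b.a9 AFast7e28e9x6b.a10 AFast7e28e9x6b.a11 AFast7e28e9x6b.a12 AFast7e28e9x6b.a13
  AFast7e28e9x6b.a14 AFast7e28e9x6b.a15 AFast7e28e9x6b.a16 AFast7e28e9x6b.a17 AFast7e28e9x6b.a18
  AFast7e28e9x6b.a19 AFast7e28e9x6b.a20 AFast7e28e9x6b.a21 AFast7e28e9x6b.a22 AFast7e28e9x6b.a23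
section

section

section

set_option maxSynthPendingDepth 3

open Set Filter
open scoped ContDiff Topology

namespace Vale.Agent.P234

noncomputable section

variable {V : Type*} [NormedAddCommGroup V] [NormedSpace ℝ V]

/-- Second derivative as a bilinear map. -/
def hess (f : V → ℝ) (x : V) : V →L[ℝ] V →L[ℝ] ℝ := fderiv ℝ (fderiv ℝ f) x

lemma contDiffAt_fderiv_one {W : Type*} [NormedAddCommGroup W] [NormedSpace ℝ W] {f : V → W}
    {x₀ : V} (hf : ContDiffAt ℝ 2 f x₀) : ContDiffAt ℝ 1 (fderiv ℝ f) x₀ :=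
  hf.fderiv_right (by norm_num)

lemma differentiableAt_fderiv {W : Type*} [NormedAddCommGroup W] [NormedSpace ℝ W] {f : V → W}
    {x₀ : V} (hf : ContDiffAt ℝ 2 f x₀) : DifferentiableAt ℝ (fderiv ℝ f) x₀ :=
  (contDiffAt_fderiv_one hf).differentiableAt (by norm_num)

lemma eventually_differentiableAt {W : Type*} [NormedAddCommGroup W] [NormedSpace ℝ W] {f : V → W}
    {x₀ : V} (hf : ContDiffAt ℝ 2 f x₀) : ∀ᶠ x in 𝓝 x₀, DifferentiableAt ℝ f x := by
  filter_upwards [hf.eventually (by norm_num)] with x hx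
  exact hx.differentiableAt (by norm_num)

/-- Uniform second order Taylor expansion. -/
lemma taylor2 {f : V → ℝ} {x₀ : V} (hf : ContDiffAt ℝ 2 f x₀) {ε : ℝ} (hε : 0 < ε) :
    ∃ δ > 0, ∀ x h : V, ‖x - x₀‖ < δ → ‖h‖ < δ →
      |f (x + h) - f x - fderiv ℝ f x h - (1 / 2) * hess f x₀ h h| ≤ ε * ‖h‖ ^ 2 := by
  have hs : HasStrictFDerivAt (fderiv ℝ f) (hess f x₀) x₀ :=
    (contDiffAt_fderiv_one hf).hasStrictFDerivAt (by norm_num)
  have h1 := hs.isLittleO.def hε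
  obtain ⟨δ₁, hδ₁, h2⟩ := Metric.eventually_nhds_iff.1 h1
  obtain ⟨δ₂, hδ₂, h3⟩ := Metric.eventually_nhds_iff.1 (eventually_differentiableAt hf)
  refine ⟨min δ₁ δ₂ / 2, by positivity, fun x h hx hh => ?_⟩
  have hmin1 : min δ₁ δ₂ ≤ δ₁ := min_le_left _ _
  have hmin2 : min δ₁ δ₂ ≤ δ₂ := min_le_right _ _
  have hnear : ∀ t ∈ Icc (0 : ℝ) 1, ‖x + t • h - x₀‖ < min δ₁ δ₂ := by
    intro t ht
    have e1 : x + t • h - x₀ = (x - x₀) + t • h := by abel
    rw [e1]
    refine (norm_add_le _ _).trans_lt ?_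
    rw [norm_smul, Real.norm_of_nonneg ht.1]
    have e2 : t * ‖h‖ ≤ 1 * ‖h‖ := mul_le_mul_of_nonneg_right ht.2 (norm_nonneg _)
    linarith only [e2, hh, hx]
  set g : ℝ → ℝ := fun t => f (x + t • h) - t * fderiv ℝ f x h - (t ^ 2 / 2) * hess f x₀ h h with hg
  have hderiv : ∀ t ∈ Icc (0 : ℝ) 1, HasDerivAt g
      (fderiv ℝ f (x + t • h) h - fderiv ℝ f x h - t * hess f x₀ h h) t := by
    intro t ht
    have hd : DifferentiableAt ℝ f (x + t • h) := by
      apply h3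
      rw [dist_eq_norm]
      exact (hnear t ht).trans_le hmin2
    have hl : HasDerivAt (fun t : ℝ => x + t • h) h t := by
      simpa using ((hasDerivAt_id t).smul_const h).const_add x
    have hc : HasDerivAt (fun t : ℝ => f (x + t • h)) (fderiv ℝ f (x + t • h) h) t :=
      hd.hasFDerivAt.comp_hasDerivAt t hl
    have h4 : HasDerivAt (fun t : ℝ => t * fderiv ℝ f x h) (fderiv ℝ f x h) t := by
      simpa using (hasDerivAt_id t).mul_const (fderiv ℝ f x h)
    have h5 : HasDerivAt (fun t : ℝ => (t ^ 2 / 2) * hess f x₀ h h) (t * hess f x₀ h h) t := by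
      have h6 : HasDerivAt (fun t : ℝ => t ^ 2 / 2) t t := by
        have := ((hasDerivAt_id t).pow 2).div_const 2
        simpa using this
      exact h6.mul_const _
    exact (hc.sub h4).sub h5
  have hbound : ∀ t ∈ Ico (0 : ℝ) 1,
      ‖fderiv ℝ f (x + t • h) h - fderiv ℝ f x h - t * hess f x₀ h h‖ ≤ ε * ‖h‖ ^ 2 := by
    intro t ht
    have ht' : t ∈ Icc (0 : ℝ) 1 := ⟨ht.1, ht.2.le⟩
    have h4 := h2 (y := (x + t • h, x)) (by
      rw [Prod.dist_eq]
      apply max_lt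
      · rw [dist_eq_norm]
        exact (hnear t ht').trans_le hmin1
      · rw [dist_eq_norm]
        have : ‖x - x₀‖ < min δ₁ δ₂ := by
          have h0 : 0 < min δ₁ δ₂ := by positivity
          linarith only [h0, hx]
        exact this.trans_le hmin1)
    have e1 : x + t • h - x = t • h := by abel
    simp only [e1] at h4
    have e2 : fderiv ℝ f (x + t • h) h - fderiv ℝ f x h - t * hess f x₀ h h =
        (fderiv ℝ f (x + t • h) - fderiv ℝ f x - hess f x₀ (t • h)) h := by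
      simp
    rw [e2]
    refine (ContinuousLinearMap.le_opNorm _ _).trans ?_
    have h5 : ‖t • h‖ ≤ ‖h‖ := by
      rw [norm_smul, Real.norm_of_nonneg ht.1]
      exact mul_le_of_le_one_left (norm_nonneg _) ht.2.le
    calc ‖fderiv ℝ f (x + t • h) - fderiv ℝ f x - hess f x₀ (t • h)‖ * ‖h‖
        ≤ (ε * ‖t • h‖) * ‖h‖ := mul_le_mul_of_nonneg_right h4 (norm_nonneg _)
      _ ≤ (ε * ‖h‖) * ‖h‖ := by gcongr
      _ = ε * ‖h‖ ^ 2 := by ring
  have hfin := norm_image_sub_le_of_norm_deriv_le_segment_01'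
    (f' := fun t => fderiv ℝ f (x + t • h) h - fderiv ℝ f x h - t * hess f x₀ h h)
    (fun t ht => (hderiv t ht).hasDerivWithinAt) hbound
  have e3 : g 1 - g 0 = f (x + h) - f x - fderiv ℝ f x h - (1 / 2) * hess f x₀ h h := by
    simp only [hg, one_smul, zero_smul, add_zero]
    ring
  rw [e3, Real.norm_eq_abs] at hfin
  exact hfin

lemma hess_symm {f : V → ℝ} {x₀ : V} (hf : ContDiffAt ℝ 2 f x₀) (a b : V) :
    hess f x₀ a b = hess f x₀ b a :=
  (hf.isSymmSndFDerivAt (by simp)).eq a b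

lemma hasFDerivAt_fderiv {f : V → ℝ} {x₀ : V} (hf : ContDiffAt ℝ 2 f x₀) :
    HasFDerivAt (fderiv ℝ f) (hess f x₀) x₀ := (differentiableAt_fderiv hf).hasFDerivAt

/-- Second derivative along a straight line. -/
lemma iteratedDeriv_two_line {f : V → ℝ} {x₀ : V} (hf : ContDiffAt ℝ 2 f x₀) (h : V) :
    iteratedDeriv 2 (fun t : ℝ => f (x₀ + t • h)) 0 = hess f x₀ h h := by
  have hl : ∀ t : ℝ, HasDerivAt (fun t : ℝ => x₀ + t • h) h t := fun t => by
    simpa using ((hasDerivAt_id t).smul_const h).const_add x₀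
  have hcont : Tendsto (fun t : ℝ => x₀ + t • h) (𝓝 0) (𝓝 x₀) := by
    have h1 : ContinuousAt (fun t : ℝ => x₀ + t • h) 0 := (hl 0).continuousAt
    have h2 : x₀ + (0 : ℝ) • h = x₀ := by simp
    simpa [ContinuousAt] using h1
  have h1 : deriv (fun t : ℝ => f (x₀ + t • h)) =ᶠ[𝓝 0] fun t => fderiv ℝ f (x₀ + t • h) h := by
    filter_upwards [hcont.eventually (eventually_differentiableAt hf)] with t ht
    exact (ht.hasFDerivAt.comp_hasDerivAt t (hl t)).deriv
  rw [iteratedDeriv_succ, iteratedDeriv_one, h1.deriv_eq]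
  have h2 : HasFDerivAt (fderiv ℝ f) (hess f x₀) (x₀ + (0 : ℝ) • h) := by
    simpa using hasFDerivAt_fderiv hf
  have h3 : HasDerivAt (fun t : ℝ => fderiv ℝ f (x₀ + t • h)) (hess f x₀ h) 0 :=
    h2.comp_hasDerivAt 0 (hl 0)
  have h4 : HasDerivAt (fun t : ℝ => fderiv ℝ f (x₀ + t • h) h) (hess f x₀ h h) 0 := by
    have := h3.clm_apply (hasDerivAt_const (0 : ℝ) h)
    simpa using this
  exact h4.deriv

lemma hess_nonneg_of_isLocalMin {f : V → ℝ} {x₀ : V} (hf : ContDiffAt ℝ 2 f x₀)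
    (hmin : IsLocalMin f x₀) (h : V) : 0 ≤ hess f x₀ h h := by
  by_contra hneg
  push Not at hneg
  have hh : h ≠ 0 := by rintro rfl; simp at hneg
  have hn : 0 < ‖h‖ := norm_pos_iff.2 hh
  have hε : 0 < - hess f x₀ h h / (4 * ‖h‖ ^ 2) := by
    apply div_pos (by linarith) (by positivity)
  obtain ⟨δ, hδ, ht⟩ := taylor2 hf hε
  obtain ⟨δ', hδ', hm⟩ := Metric.eventually_nhds_iff.1 hmin
  have hd0 : fderiv ℝ f x₀ = 0 := hmin.fderiv_eq_zero
  set t : ℝ := min δ δ' / (2 * ‖h‖) with htdef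
  have ht0 : 0 < t := by positivity
  have hth : ‖t • h‖ = min δ δ' / 2 := by
    rw [norm_smul, Real.norm_of_nonneg ht0.le, htdef]
    field_simp
  have hmm : 0 < min δ δ' := by positivity
  have h1 := ht x₀ (t • h) (by simpa using hδ) (by
    rw [hth]; have := min_le_left δ δ'; linarith only [this, hmm])
  have h2 : f x₀ ≤ f (x₀ + t • h) := by
    apply hm
    rw [dist_eq_norm, add_sub_cancel_left, hth]
    have := min_le_right δ δ'
    linarith only [this, hmm]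
  rw [hd0] at h1
  simp only [zero_apply, map_smul, smul_eq_mul] at h1
  have h3 : hess f x₀ (t • h) (t • h) = t ^ 2 * hess f x₀ h h := by
    simp; ring
  have h4 := (abs_le.1 h1).2
  have h5 : (1 : ℝ) / 2 * hess f x₀ (t • h) (t • h) = 1 / 2 * (t ^ 2 * hess f x₀ h h) := by rw [h3]
  have h6 : ‖t • h‖ ^ 2 = t ^ 2 * ‖h‖ ^ 2 := by
    rw [norm_smul, Real.norm_of_nonneg ht0.le]; ring
  have h7 : - hess f x₀ h h / (4 * ‖h‖ ^ 2) * ‖t • h‖ ^ 2 = - hess f x₀ h h / 4 * t ^ 2 := by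
    rw [h6]; field_simp
  rw [h7] at h4
  have h8 : 0 < t ^ 2 := by positivity
  have h9 : t * hess f x₀ h (t • h) = t ^ 2 * hess f x₀ h h := by
    simp; ring
  simp only [smul_eq_mul, smul_apply] at h4
  linarith only [mul_pos (sub_pos.2 hneg) (sub_pos.2 h8), mul_nonneg (mul_self_nonneg (1 : ℝ)) (sub_nonneg.2 h4), mul_nonneg (mul_self_nonneg (1 : ℝ)) (sub_nonneg.2 h2)]

/-- Second derivative of a composition. -/
lemma hess_comp {W : Type*} [NormedAddCommGroup W] [NormedSpace ℝ W] {f : V → ℝ} {ψ : W → V}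
    {w₀ : W} (hψ : ContDiffAt ℝ 2 ψ w₀) (hf : ContDiffAt ℝ 2 f (ψ w₀)) (a b : W) :
    hess (fun w => f (ψ w)) w₀ a b = hess f (ψ w₀) (fderiv ℝ ψ w₀ a) (fderiv ℝ ψ w₀ b) +
      fderiv ℝ f (ψ w₀) (fderiv ℝ (fderiv ℝ ψ) w₀ a b) := by
  have h1 : fderiv ℝ (fun w => f (ψ w)) =ᶠ[𝓝 w₀] fun w => (fderiv ℝ f (ψ w)).comp (fderiv ℝ ψ w) := by
    filter_upwards [eventually_differentiableAt hψ,
      hψ.continuousAt.eventually (eventually_differentiableAt hf)] with w h1 h2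
    exact (h2.hasFDerivAt.comp w h1.hasFDerivAt).fderiv
  have h2 : HasFDerivAt (fun w => fderiv ℝ f (ψ w)) ((hess f (ψ w₀)).comp (fderiv ℝ ψ w₀)) w₀ :=
    (hasFDerivAt_fderiv hf).comp w₀ (hψ.differentiableAt (by norm_num)).hasFDerivAt
  have h3 : HasFDerivAt (fderiv ℝ ψ) (fderiv ℝ (fderiv ℝ ψ) w₀) w₀ :=
    (differentiableAt_fderiv hψ).hasFDerivAt
  have h4 := h2.clm_comp h3
  unfold hess
  rw [h1.fderiv_eq, h4.fderiv]
  simp [hess, add_comm]

lemma hess_add {f g : V → ℝ} {x₀ : V} (hf : ContDiffAt ℝ 2 f x₀) (hg : ContDiffAt ℝ 2 g x₀) :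
    hess (fun x => f x + g x) x₀ = hess f x₀ + hess g x₀ := by
  have h1 : fderiv ℝ (fun x => f x + g x) =ᶠ[𝓝 x₀] fun x => fderiv ℝ f x + fderiv ℝ g x := by
    filter_upwards [eventually_differentiableAt hf, eventually_differentiableAt hg] with x h1 h2
    exact (h1.hasFDerivAt.add h2.hasFDerivAt).fderiv
  unfold hess
  rw [h1.fderiv_eq]
  exact ((differentiableAt_fderiv hf).hasFDerivAt.add (differentiableAt_fderiv hg).hasFDerivAt).fderiv

lemma hess_const_mul {f : V → ℝ} {x₀ : V} (hf : ContDiffAt ℝ 2 f x₀) (c : ℝ) :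
    hess (fun x => c * f x) x₀ = c • hess f x₀ := by
  have h1 : fderiv ℝ (fun x => c * f x) =ᶠ[𝓝 x₀] fun x => c • fderiv ℝ f x := by
    filter_upwards [eventually_differentiableAt hf] with x h1
    exact (h1.hasFDerivAt.const_mul c).fderiv
  unfold hess
  rw [h1.fderiv_eq]
  exact ((differentiableAt_fderiv hf).hasFDerivAt.const_smul c).fderiv

/-- Second derivative of a composition with an affine map. -/
lemma hess_comp_affine {W : Type*} [NormedAddCommGroup W] [NormedSpace ℝ W] {f : V → ℝ} {x₀ : V}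
    (hf : ContDiffAt ℝ 2 f x₀) (L : W →L[ℝ] V) (w₀ : W) (c : V) (hw : c + L w₀ = x₀) (a b : W) :
    hess (fun w => f (c + L w)) w₀ a b = hess f x₀ (L a) (L b) := by
  have hψ : ContDiffAt ℝ 2 (fun w => c + L w) w₀ := by fun_prop
  have hd : ∀ w, fderiv ℝ (fun w => c + L w) w = L := fun w => by
    rw [fderiv_const_add]; exact L.fderiv
  have hd2 : fderiv ℝ (fun w => c + L w) = fun _ => L := funext hd
  subst hw
  rw [hess_comp (ψ := fun w => c + L w) hψ hf, hd, hd2]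
  simp

/-- Second derivative of a composition at a critical point. -/
lemma hess_comp_crit {W : Type*} [NormedAddCommGroup W] [NormedSpace ℝ W] {f : V → ℝ} {ψ : W → V}
    {w₀ : W} (hψ : ContDiffAt ℝ 2 ψ w₀) (hf : ContDiffAt ℝ 2 f (ψ w₀))
    (hcrit : fderiv ℝ f (ψ w₀) = 0) (a b : W) :
    hess (fun w => f (ψ w)) w₀ a b = hess f (ψ w₀) (fderiv ℝ ψ w₀ a) (fderiv ℝ ψ w₀ b) := by
  rw [hess_comp hψ hf, hcrit]
  simp

/-- One dimensional: if `f 0 = 0`, `f ≥ 0` near `0` and `f` is `C^2` then `f = O(s^2)`. -/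
lemma nonneg_quadratic {f : ℝ → ℝ} (hf : ContDiffAt ℝ 2 f 0) (h0 : f 0 = 0)
    (hp : ∀ᶠ s in 𝓝 (0 : ℝ), 0 ≤ f s) : ∃ C : ℝ, 0 ≤ C ∧ ∀ᶠ s in 𝓝 (0 : ℝ), f s ≤ C * s ^ 2 := by
  have hmin : IsLocalMin f 0 := by
    filter_upwards [hp] with s hs
    rw [h0]; exact hs
  have hd : fderiv ℝ f 0 = 0 := hmin.fderiv_eq_zero
  obtain ⟨δ, hδ, ht⟩ := taylor2 hf one_pos
  refine ⟨1 + 1 / 2 * |hess f 0 1 1|, by (clear * -; positivity), ?_⟩
  filter_upwards [Metric.ball_mem_nhds (0 : ℝ) hδ] with s hs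
  rw [Metric.mem_ball, dist_zero_right] at hs
  have h1 := ht 0 s (by simpa using hδ) hs
  rw [hd, h0] at h1
  have h2 : hess f 0 s s = s ^ 2 * hess f 0 1 1 := by
    have e0 : s • (1 : ℝ) = s := by simp
    have e1 : hess f 0 s = s • hess f 0 1 := by rw [← map_smul, e0]
    have e2 : hess f 0 1 s = s * hess f 0 1 1 := by rw [← smul_eq_mul, ← map_smul, e0]
    rw [e1]
    change s * hess f 0 1 s = _
    rw [e2]
    ring
  rw [h2] at h1
  have h3 := (abs_le.1 h1).2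
  simp only [zero_add, zero_apply, sub_zero, Real.norm_eq_abs, sq_abs] at h3
  have h4 : s ^ 2 * hess f 0 1 1 ≤ s ^ 2 * |hess f 0 1 1| :=
    mul_le_mul_of_nonneg_left (le_abs_self _) (sq_nonneg s)
  linarith only [h4, h3]

end

end Vale.Agent.P234
end
end
end

section

section

section

/-! Pure calculus used for the Hessians of the cost. -/

set_option maxSynthPendingDepth 3

open Set Filter
open scoped ContDiff Topology

namespace Vale.Agent.P234

noncomputable section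

section general

variable {V W : Type*} [NormedAddCommGroup V] [NormedSpace ℝ V]
  [NormedAddCommGroup W] [NormedSpace ℝ W]

omit [NormedAddCommGroup V] [NormedSpace ℝ V] [NormedAddCommGroup W] [NormedSpace ℝ W] in
lemma two_le_infty : (2 : WithTop ℕ∞) ≤ ∞ := by
  norm_cast

lemma contDiffAt_fderiv_fst {G : Type*} [NormedAddCommGroup G] [NormedSpace ℝ G]
    {F : V × W → G} {a : V} {b : W} (h : ContDiffAt ℝ ∞ F (a, b)) :
    ContDiffAt ℝ ∞ (fun p : V × W => fderiv ℝ (fun a' => F (a', p.2)) p.1) (a, b) := by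
  have h1 : ContDiffAt ℝ ∞ (Function.uncurry fun (p : V × W) (a' : V) => F (a', p.2))
      ((a, b), a) := by
    have h2 : ContDiffAt ℝ ∞ (fun q : (V × W) × V => (q.2, q.1.2)) ((a, b), a) := by
      fun_prop
    exact ContDiffAt.comp (g := F) ((a, b), a) h h2
  exact ContDiffAt.fderiv (f := fun (p : V × W) (a' : V) => F (a', p.2)) (g := fun p => p.1)
    h1 contDiffAt_fst (by simp)

lemma contDiffAt_hess_fst {F : V × W → ℝ} {a : V} {b : W} (h : ContDiffAt ℝ ∞ F (a, b)) :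
    ContDiffAt ℝ ∞ (fun p : V × W => hess (fun a' => F (a', p.2)) p.1) (a, b) := by
  have h0 := contDiffAt_fderiv_fst (contDiffAt_fderiv_fst h)
  exact h0

lemma hess_fst {F : V × W → ℝ} {a : V} {b : W} (h : ContDiffAt ℝ ∞ F (a, b)) (ξ η : V) :
    hess F (a, b) (ξ, 0) (η, 0) = hess (fun a' => F (a', b)) a ξ η := by
  have h1 := hess_comp_affine (f := F) (x₀ := (a, b)) (h.of_le two_le_infty)
    (ContinuousLinearMap.inl ℝ V W) a (0, b) (by simp) ξ η
  simp only [ContinuousLinearMap.inl_apply, Prod.mk_add_mk, zero_add, add_zero] at h1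
  exact h1.symm

lemma hess_snd {F : V × W → ℝ} {a : V} {b : W} (h : ContDiffAt ℝ ∞ F (a, b)) (ξ η : W) :
    hess F (a, b) (0, ξ) (0, η) = hess (fun b' => F (a, b')) b ξ η := by
  have h1 := hess_comp_affine (f := F) (x₀ := (a, b)) (h.of_le two_le_infty)
    (ContinuousLinearMap.inr ℝ V W) b (a, 0) (by simp) ξ η
  simp only [ContinuousLinearMap.inr_apply, Prod.mk_add_mk, zero_add, add_zero] at h1
  exact h1.symm

/-- Mixed second derivative. -/
lemma hess_mixed {F : V × W → ℝ} {a : V} {b : W} (h : ContDiffAt ℝ ∞ F (a, b)) (ξ : V) (μ : W)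
    {c : ℝ} (hc : HasDerivAt (fun s : ℝ => fderiv ℝ (fun a' => F (a', b + s • μ)) a ξ) c 0) :
    hess F (a, b) (0, μ) (ξ, 0) = c := by
  have h2 : ContDiffAt ℝ 2 F (a, b) := h.of_le two_le_infty
  have hd : DifferentiableAt ℝ (fderiv ℝ F) (a, b) :=
    (h2.fderiv_right (m := 1) (by norm_num)).differentiableAt (by norm_num)
  have hev : ∀ᶠ p in 𝓝 (a, b), DifferentiableAt ℝ F p := by
    filter_upwards [(h2.eventually (by simp))] with p hp
    exact hp.differentiableAt (by norm_num)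
  -- derivative of `s ↦ fderiv F (a, b + s μ) (ξ, 0)`
  have hline : HasDerivAt (fun s : ℝ => ((a, b + s • μ) : V × W)) (0, μ) 0 := by
    have h3 : HasDerivAt (fun s : ℝ => b + s • μ) μ 0 := by
      simpa using ((hasDerivAt_id (0:ℝ)).smul_const μ).const_add b
    exact (hasDerivAt_const (0:ℝ) a).prodMk h3
  have h4 : HasDerivAt (fun s : ℝ => fderiv ℝ F (a, b + s • μ) (ξ, 0))
      (hess F (a, b) (0, μ) (ξ, 0)) 0 := by
    have h5 : HasFDerivAt (fderiv ℝ F) (hess F (a, b)) ((fun s : ℝ => (a, b + s • μ)) 0) := by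
      simpa [hess] using hd.hasFDerivAt
    have h6 := h5.comp_hasDerivAt (0:ℝ) hline
    have h6' := (ContinuousLinearMap.apply ℝ ℝ ((ξ, 0) : V × W)).hasFDerivAt.comp_hasDerivAt
      (0:ℝ) h6
    exact h6'
  have h7 : (fun s : ℝ => fderiv ℝ F (a, b + s • μ) (ξ, 0)) =ᶠ[𝓝 0]
      fun s : ℝ => fderiv ℝ (fun a' => F (a', b + s • μ)) a ξ := by
    have hcont : Tendsto (fun s : ℝ => ((a, b + s • μ) : V × W)) (𝓝 0) (𝓝 (a, b)) := by
      have := hline.continuousAt.tendsto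
      simpa using this
    filter_upwards [hcont.eventually hev] with s hs
    have h8 : HasFDerivAt (fun a' : V => F (a', b + s • μ))
        ((fderiv ℝ F (a, b + s • μ)).comp (ContinuousLinearMap.inl ℝ V W)) a :=
      HasFDerivAt.comp a hs.hasFDerivAt (hasFDerivAt_prodMk_left a (b + s • μ))
    rw [h8.fderiv]
    simp
  exact (h4.congr_of_eventuallyEq h7.symm).unique hc

lemma hess_expand {F : V × W → ℝ} {a : V} {b : W} (h : ContDiffAt ℝ ∞ F (a, b)) (ξ : V) (μ : W) :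
    hess F (a, b) (ξ, μ) (ξ, μ) = hess F (a, b) (ξ, 0) (ξ, 0) + 2 * hess F (a, b) (0, μ) (ξ, 0)
      + hess F (a, b) (0, μ) (0, μ) := by
  have h2 : ContDiffAt ℝ 2 F (a, b) := h.of_le two_le_infty
  have e1 : ((ξ, μ) : V × W) = (ξ, 0) + (0, μ) := by simp
  rw [e1]
  simp only [map_add, add_apply]
  rw [hess_symm h2 (ξ, 0) (0, μ)]
  ring

end general

section radial

variable {V : Type*} [NormedAddCommGroup V] [InnerProductSpace ℝ V]

lemma hasFDerivAt_norm' {a : V} (ha : a ≠ 0) :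
    HasFDerivAt (fun x : V => ‖x‖) (‖a‖⁻¹ • innerSL ℝ a) a := by
  have hn : ‖a‖ ≠ 0 := norm_ne_zero_iff.mpr ha
  have h1 := (hasStrictFDerivAt_norm_sq a).hasFDerivAt.sqrt (by positivity)
  have h2 : (fun x : V => √(‖x‖ ^ 2)) = fun x => ‖x‖ := by
    funext x
    exact Real.sqrt_sq (norm_nonneg x)
  rw [h2] at h1
  convert h1 using 1
  rw [Real.sqrt_sq (norm_nonneg a)]
  ext ξ
  simp
  field_simp

lemma hess_radial {g : V → ℝ} {v : V} (hg : ContDiffAt ℝ 2 g 0)
    (h0 : HasFDerivAt g (-(innerSL ℝ v)) 0)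
    (hle : ∀ a : V, ‖a‖ ≤ ‖v‖ → (‖v‖ - ‖a‖) ^ 2 / 2 ≤ g a)
    (heq : ∀ t : ℝ, 0 ≤ t → t ≤ 1 → g (t • v) = (1 - t) ^ 2 * ‖v‖ ^ 2 / 2) (ξ : V) :
    hess g 0 v ξ = inner ℝ v ξ := by
  rcases eq_or_ne v 0 with hv | hv
  · subst hv
    simp
  have hn : 0 < ‖v‖ := norm_pos_iff.mpr hv
  have hd : DifferentiableAt ℝ (fderiv ℝ g) 0 :=
    (hg.fderiv_right (m := 1) (by norm_num)).differentiableAt (by norm_num)
  have hev : ∀ᶠ p in 𝓝 (0 : V), DifferentiableAt ℝ g p := by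
    filter_upwards [(hg.eventually (by simp))] with p hp
    exact hp.differentiableAt (by norm_num)
  have hline : HasDerivAt (fun t : ℝ => t • v) v 0 := by
    simpa using (hasDerivAt_id (0:ℝ)).smul_const v
  have h4 : HasDerivAt (fun t : ℝ => fderiv ℝ g (t • v) ξ) (hess g 0 v ξ) 0 := by
    have h5 : HasFDerivAt (fderiv ℝ g) (hess g 0) ((fun t : ℝ => t • v) 0) := by
      simpa [hess] using hd.hasFDerivAt
    have h6 := h5.comp_hasDerivAt (0:ℝ) hline
    exact (ContinuousLinearMap.apply ℝ ℝ ξ).hasFDerivAt.comp_hasDerivAt (0:ℝ) h6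
  have hcont : Tendsto (fun t : ℝ => t • v) (𝓝 0) (𝓝 0) := by
    have := hline.continuousAt.tendsto
    simpa using this
  -- the derivative along the segment
  have hseg : ∀ᶠ t in 𝓝[≥] (0:ℝ), fderiv ℝ g (t • v) ξ = -(1 - t) * inner ℝ v ξ := by
    have hev2 : ∀ᶠ t in 𝓝 (0:ℝ), DifferentiableAt ℝ g (t • v) ∧ t < 1 :=
      (hcont.eventually hev).and (gt_mem_nhds one_pos)
    filter_upwards [mem_nhdsWithin_of_mem_nhds hev2, self_mem_nhdsWithin] with t ht ht0
    rcases eq_or_lt_of_le (show (0:ℝ) ≤ t from ht0) with h | h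
    · rw [← h, zero_smul, h0.fderiv]
      simp
    · obtain ⟨ht1, ht2⟩ := ht
      have htv : t • v ≠ 0 := smul_ne_zero h.ne' hv
      have hh : HasFDerivAt (fun a : V => (‖v‖ - ‖a‖) ^ 2 / 2)
          (-((‖v‖ - ‖t • v‖) • (‖t • v‖⁻¹ • innerSL ℝ (t • v)))) (t • v) := by
        have h7 := ((hasFDerivAt_norm' htv).const_sub ‖v‖).pow 2
        have h8 := h7.mul_const (1/2 : ℝ)
        have h9 : (fun a : V => (‖v‖ - ‖a‖) ^ 2 * (1/2)) = fun a : V => (‖v‖ - ‖a‖) ^ 2 / 2 := by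
          funext a
          ring
        rw [h9] at h8
        have h10 : -((‖v‖ - ‖t • v‖) • (‖t • v‖⁻¹ • innerSL ℝ (t • v))) =
            (1 / 2 : ℝ) • ((2 • (‖v‖ - ‖t • v‖) ^ (2 - 1)) • -(‖t • v‖⁻¹ • innerSL ℝ (t • v))) := by
          ext η
          simp
          ring
        rw [h10]
        exact h8
      have hmin : IsLocalMin (fun a => g a - (‖v‖ - ‖a‖) ^ 2 / 2) (t • v) := by
        have hnt : ‖t • v‖ < ‖v‖ := by
          rw [norm_smul, Real.norm_eq_abs, abs_of_pos h]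
          nlinarith
        have hnear : ∀ᶠ a in 𝓝 (t • v), ‖a‖ < ‖v‖ :=
          continuous_norm.continuousAt.eventually (gt_mem_nhds hnt)
        filter_upwards [hnear] with a ha
        have h10 := hle a ha.le
        have h11 := heq t h.le ht2.le
        have h12 : (‖v‖ - ‖t • v‖) ^ 2 / 2 = (1 - t) ^ 2 * ‖v‖ ^ 2 / 2 := by
          rw [norm_smul, Real.norm_eq_abs, abs_of_pos h]
          ring
        rw [h11, h12]
        linarith only [h10]
      have h13 := hmin.hasFDerivAt_eq_zero (ht1.hasFDerivAt.sub hh)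
      have h14 : fderiv ℝ g (t • v) = -((‖v‖ - ‖t • v‖) • (‖t • v‖⁻¹ • innerSL ℝ (t • v))) :=
        sub_eq_zero.mp h13
      rw [h14, norm_smul, Real.norm_eq_abs, abs_of_pos h]
      simp
      field_simp
      ring
  have h15 : HasDerivWithinAt (fun t : ℝ => -(1 - t) * inner ℝ v ξ) (hess g 0 v ξ) (Ici 0) 0 := by
    refine h4.hasDerivWithinAt.congr_of_eventuallyEq ?_ ?_
    · filter_upwards [hseg] with t ht
      exact ht.symm
    · rw [zero_smul, h0.fderiv]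
      simp
  have h16 : HasDerivWithinAt (fun t : ℝ => -(1 - t) * inner ℝ v ξ) (inner ℝ v ξ) (Ici 0) 0 := by
    have : HasDerivAt (fun t : ℝ => -(1 - t) * inner ℝ v ξ) (inner ℝ v ξ) 0 := by
      have h17 := (((hasDerivAt_id (0:ℝ)).const_sub 1).neg).mul_const (inner ℝ v ξ)
      simpa using h17
    exact this.hasDerivWithinAt
  exact (uniqueDiffWithinAt_Ici (0:ℝ)).eq_deriv _ h15 h16

/-- Second derivative of half the squared norm. -/
lemma hess_half_norm_sq {f : V → ℝ} {v : V} (hf : f =ᶠ[𝓝 v] fun b => ‖b‖ ^ 2 / 2) (ξ μ : V) :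
    hess f v ξ μ = inner ℝ ξ μ := by
  have h1 : ∀ b : V, HasFDerivAt (fun b : V => ‖b‖ ^ 2 / 2) (innerSL ℝ b) b := by
    intro b
    have h2 := (hasStrictFDerivAt_norm_sq b).hasFDerivAt.mul_const (1/2 : ℝ)
    have h3 : (fun b : V => ‖b‖ ^ 2 * (1/2)) = fun b => ‖b‖ ^ 2 / 2 := by
      funext b
      ring
    rw [h3] at h2
    have h4 : innerSL ℝ b = (1 / 2 : ℝ) • (2 • innerSL ℝ b) := by
      ext η
      simp
    rw [h4]
    exact h2
  have h4 : fderiv ℝ f =ᶠ[𝓝 v] fun b => innerSL ℝ b := by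
    filter_upwards [hf.eventuallyEq_nhds] with b hb
    exact (hb.fderiv_eq).trans (h1 b).fderiv
  unfold hess
  rw [h4.fderiv_eq]
  have h5 : fderiv ℝ (fun b : V => innerSL ℝ b) v = innerSL ℝ :=
    (innerSL ℝ (E := V)).fderiv
  rw [h5]
  rfl

end radial

end

end Vale.Agent.P234
end
end
end

section

section

section

/-! Envelope lemma: the value of a nondegenerate critical point depends smoothly on parameters. -/

set_option maxSynthPendingDepth 3

open Set Filter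
open scoped ContDiff Topology

namespace Vale.Agent.P234

noncomputable section

variable {P W : Type*} [NormedAddCommGroup P] [NormedSpace ℝ P] [CompleteSpace P]
  [NormedAddCommGroup W] [NormedSpace ℝ W]

/-- The implicit function theorem with smoothness in a neighbourhood. -/
lemma implicit_eventually [CompleteSpace W] {Z : Type*} [NormedAddCommGroup Z] [NormedSpace ℝ Z]
    [CompleteSpace Z] {F : P × W → Z} {u : P × W} (hF : ∀ᶠ q in 𝓝 u, ContDiffAt ℝ ∞ F q)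
    (hi : (fderiv ℝ F u ∘L .inr ℝ P W).IsInvertible) :
    ∃ ψ : P → W, ψ u.1 = u.2 ∧ (∀ᶠ p in 𝓝 u.1, ContDiffAt ℝ ∞ ψ p) ∧
      ∀ᶠ v in 𝓝 u, F v = F u ↔ ψ v.1 = v.2 := by
  have h0 : ContDiffAt ℝ ∞ F u := hF.self_of_nhds
  have hn : (∞ : WithTop ℕ∞) ≠ 0 := by simp
  set ψ := h0.implicitFunction hn hi with hψ
  have hψu : ψ u.1 = u.2 := h0.implicitFunction_apply_self hn hi
  have hsm : ContDiffAt ℝ ∞ ψ u.1 := h0.contDiffAt_implicitFunction hn hi
  have hiff : ∀ᶠ v in 𝓝 u, F v = F u ↔ ψ v.1 = v.2 :=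
    h0.eventually_apply_eq_iff_implicitFunction hn hi
  refine ⟨ψ, hψu, ?_, hiff⟩
  -- continuity near `u.1`
  have hc1 : ∀ᶠ p in 𝓝 u.1, ContDiffAt ℝ 1 ψ p :=
    (hsm.of_le (by simp)).eventually (by simp)
  have happ : ∀ᶠ p in 𝓝 u.1, F (p, ψ p) = F u := h0.eventually_apply_implicitFunction hn hi
  have hgt : Tendsto (fun p => (p, ψ p)) (𝓝 u.1) (𝓝 u) := by
    have : Tendsto (fun p => (p, ψ p)) (𝓝 u.1) (𝓝 (u.1, ψ u.1)) :=
      (continuousAt_id.prodMk hsm.continuousAt)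
    rwa [hψu] at this
  have hinv : ∀ᶠ q in 𝓝 u, (fderiv ℝ F q ∘L .inr ℝ P W).IsInvertible := by
    have hcont : ContinuousAt (fun q => fderiv ℝ F q ∘L .inr ℝ P W) u := by
      have h1 : ContinuousAt (fderiv ℝ F) u :=
        (h0.fderiv_right (m := 0) (by simp)).continuousAt
      exact h1.clm_comp continuousAt_const
    obtain ⟨L, hL⟩ := hi
    have hnh := L.nhds
    rw [hL] at hnh
    filter_upwards [hcont hnh] with q hq
    obtain ⟨L', hL'⟩ := hq
    exact ⟨L', hL'⟩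
  filter_upwards [hc1.eventually_nhds, happ.eventually_nhds, hgt.eventually hF.eventually_nhds,
    hgt.eventually hinv] with p hp1 hp2 hp3 hp4
  have h0' : ContDiffAt ℝ ∞ F (p, ψ p) := hp3.self_of_nhds
  set ψ' := h0'.implicitFunction hn hp4 with hψ'
  have hsm' : ContDiffAt ℝ ∞ ψ' p := h0'.contDiffAt_implicitFunction hn hp4
  have hiff' : ∀ᶠ v in 𝓝 (p, ψ p), F v = F (p, ψ p) ↔ ψ' v.1 = v.2 :=
    h0'.eventually_apply_eq_iff_implicitFunction hn hp4
  have hgt' : Tendsto (fun p' => (p', ψ p')) (𝓝 p) (𝓝 (p, ψ p)) :=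
    (continuousAt_id.prodMk hp1.self_of_nhds.continuousAt)
  have heq : ψ =ᶠ[𝓝 p] ψ' := by
    filter_upwards [hgt'.eventually hiff', hp2] with p' h1 h2
    rw [h2, hp2.self_of_nhds] at h1
    exact (h1.1 rfl).symm
  exact hsm'.congr_of_eventuallyEq heq

/-- Envelope lemma. -/
lemma envelope [FiniteDimensional ℝ W] {G : P × W → ℝ} {p₀ : P} {b₀ : W}
    (hG : ∀ᶠ q in 𝓝 (p₀, b₀), ContDiffAt ℝ ∞ G q)
    (hcrit : fderiv ℝ (fun b => G (p₀, b)) b₀ = 0)
    (hpos : ∀ ξ : W, ξ ≠ 0 → hess (fun b => G (p₀, b)) b₀ ξ ξ ≠ 0)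
    {f : P → ℝ} (hf : ∀ U ∈ 𝓝 b₀, ∀ᶠ p in 𝓝 p₀, ∃ b ∈ U,
      fderiv ℝ (fun b' => G (p, b')) b = 0 ∧ f p = G (p, b)) :
    ∀ᶠ p in 𝓝 p₀, ContDiffAt ℝ ∞ f p := by
  haveI : CompleteSpace W := FiniteDimensional.complete ℝ W
  set F : P × W → (W →L[ℝ] ℝ) := fun q => fderiv ℝ G q ∘L .inr ℝ P W with hFdef
  have hF : ∀ᶠ q in 𝓝 (p₀, b₀), ContDiffAt ℝ ∞ F q := by
    filter_upwards [hG] with q hq
    have h1 : ContDiffAt ℝ ∞ (fderiv ℝ G) q := hq.fderiv_right (by simp)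
    exact h1.clm_comp contDiffAt_const
  have hFeq : ∀ q : P × W, ContDiffAt ℝ ∞ G q →
      HasFDerivAt (fun b => G (q.1, b)) (F q) q.2 := by
    intro q hq
    have h1 : HasFDerivAt G (fderiv ℝ G q) (q.1, q.2) :=
      (hq.differentiableAt (by simp)).hasFDerivAt
    have h2 : HasFDerivAt (fun b : W => (q.1, b)) (.inr ℝ P W) q.2 := hasFDerivAt_prodMk_right _ _
    exact h1.comp q.2 h2
  have h0 := hG.self_of_nhds
  have hF0 : F (p₀, b₀) = 0 := by
    have := hFeq (p₀, b₀) h0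
    rw [← hcrit]; exact this.fderiv.symm
  -- second derivative
  have hsec : fderiv ℝ F (p₀, b₀) ∘L .inr ℝ P W = hess (fun b => G (p₀, b)) b₀ := by
    have h1 : HasFDerivAt F (fderiv ℝ F (p₀, b₀)) (p₀, b₀) :=
      (hF.self_of_nhds.differentiableAt (by simp)).hasFDerivAt
    have h2 : HasFDerivAt (fun b : W => (p₀, b)) (.inr ℝ P W) b₀ := hasFDerivAt_prodMk_right _ _
    have h3 : HasFDerivAt (fun b => F (p₀, b)) (fderiv ℝ F (p₀, b₀) ∘L .inr ℝ P W) b₀ :=
      HasFDerivAt.comp (g := F) b₀ h1 h2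
    have hcont : Tendsto (fun b : W => (p₀, b)) (𝓝 b₀) (𝓝 (p₀, b₀)) := by
      exact (continuousAt_const.prodMk continuousAt_id)
    have h4 : (fun b => F (p₀, b)) =ᶠ[𝓝 b₀] fderiv ℝ (fun b => G (p₀, b)) := by
      filter_upwards [hcont.eventually hG] with b hb
      exact (hFeq _ hb).fderiv.symm
    unfold hess
    rw [← h4.fderiv_eq]
    exact h3.fderiv.symm
  have hinj : Function.Injective (fderiv ℝ F (p₀, b₀) ∘L .inr ℝ P W) := by
    rw [hsec]
    intro a b hab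
    by_contra hne
    apply hpos (a - b) (sub_ne_zero.2 hne)
    have : hess (fun b => G (p₀, b)) b₀ (a - b) = 0 := by rw [map_sub, hab, sub_self]
    rw [this]; rfl
  have hinv : (fderiv ℝ F (p₀, b₀) ∘L .inr ℝ P W).IsInvertible := by
    have hfr : Module.finrank ℝ W = Module.finrank ℝ (W →L[ℝ] ℝ) := by
      rw [← (LinearMap.toContinuousLinearMap (𝕜 := ℝ) (E := W) (F' := ℝ)).finrank_eq]
      exact (Subspace.dual_finrank_eq (K := ℝ) (V := W)).symm
    let L := LinearEquiv.ofInjectiveOfFinrankEq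
      (fderiv ℝ F (p₀, b₀) ∘L .inr ℝ P W : W →L[ℝ] (W →L[ℝ] ℝ)).toLinearMap hinj hfr
    exact ⟨L.toContinuousLinearEquiv, by ext; rfl⟩
  obtain ⟨ψ, hψ0, hψs, hψiff⟩ := implicit_eventually hF hinv
  simp only at hψ0 hψs
  have hgt : Tendsto (fun p => (p, ψ p)) (𝓝 p₀) (𝓝 (p₀, b₀)) := by
    have : Tendsto (fun p => (p, ψ p)) (𝓝 p₀) (𝓝 (p₀, ψ p₀)) :=
      (continuousAt_id.prodMk hψs.self_of_nhds.continuousAt)
    rwa [hψ0] at this
  -- neighbourhoods
  have hboth := (hψiff.and hG)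
  rw [nhds_prod_eq] at hboth
  obtain ⟨U₁, hU₁, U₂, hU₂, hUU⟩ := Filter.eventually_prod_iff.1 hboth
  have hfeq : f =ᶠ[𝓝 p₀] fun p => G (p, ψ p) := by
    filter_upwards [hf {b | U₂ b} hU₂, hU₁] with p hp hp1
    obtain ⟨b, hb, hb1, hb2⟩ := hp
    obtain ⟨h1, h2⟩ := hUU hp1 hb
    have h3 : F (p, b) = F (p₀, b₀) := by
      rw [hF0, ← hb1]; exact (hFeq _ h2).fderiv.symm
    rw [hb2, h1.1 h3]
  have hsm : ∀ᶠ p in 𝓝 p₀, ContDiffAt ℝ ∞ (fun p => G (p, ψ p)) p := by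
    filter_upwards [hψs, hgt.eventually hG] with p h1 h2
    exact ContDiffAt.comp p h2 (contDiffAt_id.prodMk h1)
  filter_upwards [hfeq.eventually_nhds, hsm] with p h1 h2
  exact h2.congr_of_eventuallyEq h1

end

end Vale.Agent.P234
end
end
end

section

section

section

/-! Interface between the foundation layer and the main argument. -/

set_option maxSynthPendingDepth 3

open Bundle Manifold Set Filter
open scoped ContDiff Manifold Topology

namespace Vale.Agent.P234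

noncomputable section

variable {E : Type*} [NormedAddCommGroup E] [NormedSpace ℝ E]
  {M : Type*} [MetricSpace M] [ChartedSpace E M]

instance finDimTangent [FiniteDimensional ℝ E] (z : M) :
    FiniteDimensional ℝ (TangentSpace 𝓘(ℝ, E) z) :=
  inferInstanceAs (FiniteDimensional ℝ E)

/-- `cost` is smooth in a neighbourhood of the pair `(x, y)`. -/
def SmoothAt (E : Type*) [NormedAddCommGroup E] [NormedSpace ℝ E]
    {M : Type*} [MetricSpace M] [ChartedSpace E M] (x y : M) : Prop :=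
  ∀ᶠ p in 𝓝 (x, y),
    ContMDiffAt (𝓘(ℝ, E).prod 𝓘(ℝ, E)) 𝓘(ℝ, ℝ) ∞ (fun p : M × M => cost p.1 p.2) p

omit [MetricSpace M] [ChartedSpace E M] in
lemma SmoothAt.contMDiffAt {M : Type*} [MetricSpace M] [ChartedSpace E M] {x y : M}
    (h : SmoothAt E x y) :
    ContMDiffAt (𝓘(ℝ, E).prod 𝓘(ℝ, E)) 𝓘(ℝ, ℝ) ∞ (fun p : M × M => cost p.1 p.2) (x, y) :=
  h.self_of_nhds

variable [RiemannianBundle (fun x : M => TangentSpace 𝓘(ℝ, E) x)]

/-- The set of minimizing tangent vectors at `x` (closure of the injectivity domain). -/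
def segMin (e : ∀ x : M, TangentSpace 𝓘(ℝ, E) x → M) (x : M) :
    Set (TangentSpace 𝓘(ℝ, E) x) :=
  {v | dist x (e x v) = ‖v‖}

/-- The classical facts about the exponential map used by the main argument. -/
structure Facts [IsManifold 𝓘(ℝ, E) ∞ M] (e : ∀ x : M, TangentSpace 𝓘(ℝ, E) x → M) : Prop where
  isExp : IsExp e
  hopfRinow : ∀ x y : M, ∃ v : TangentSpace 𝓘(ℝ, E) x, e x v = y ∧ dist x y = ‖v‖
  flow : ∀ (x : M) (v : TangentSpace 𝓘(ℝ, E) x) (s : ℝ),
    ∃ w : TangentSpace 𝓘(ℝ, E) (e x (s • v)), ‖w‖ = ‖v‖ ∧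
      ∀ t : ℝ, e (e x (s • v)) (t • w) = e x ((s + t) • v)
  smooth_cost : ∀ (x : M) (v : TangentSpace 𝓘(ℝ, E) x), v ∈ injDomain e x →
    SmoothAt E x (e x v)

end

end Vale.Agent.P234
end
end
end

section

section

section

/-! Basic metric facts from `IsExp` only. -/

set_option maxSynthPendingDepth 3

open Bundle Manifold Set Filter
open scoped ContDiff Manifold Topology

namespace Vale.Agent.P234

noncomputable section

section costs

variable {M : Type*} [MetricSpace M]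

lemma cost_comm (x y : M) : cost x y = cost y x := by
  unfold cost
  rw [dist_comm]

lemma cost_nonneg (x y : M) : 0 ≤ cost x y := by
  unfold cost
  positivity

lemma cost_ineq (x m y : M) {s t : ℝ} (hs : 0 < s) (ht : 0 < t) :
    cost x y / (s + t) ≤ cost x m / s + cost m y / t := by
  unfold cost
  have h1 : dist x y ≤ dist x m + dist m y := dist_triangle x m y
  have h2 : dist x y ^ 2 ≤ (dist x m + dist m y) ^ 2 :=
    pow_le_pow_left₀ dist_nonneg h1 2
  have h3 : (dist x m + dist m y) ^ 2 / 2 / (s + t) ≤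
      dist x m ^ 2 / 2 / s + dist m y ^ 2 / 2 / t := by
    rw [div_add_div _ _ hs.ne' ht.ne', div_le_div_iff₀ (by positivity) (by positivity)]
    linarith only [sq_nonneg (dist x m * t - dist m y * s)]
  refine le_trans ?_ h3
  gcongr

lemma continuous_cost : Continuous (fun p : M × M => cost p.1 p.2) := by
  unfold cost
  fun_prop

end costs

variable {E : Type*} [NormedAddCommGroup E] [NormedSpace ℝ E]
  {M : Type*} [MetricSpace M] [ChartedSpace E M]
  [RiemannianBundle (fun x : M => TangentSpace 𝓘(ℝ, E) x)]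
  [IsManifold 𝓘(ℝ, E) ∞ M]
  {e : ∀ x : M, TangentSpace 𝓘(ℝ, E) x → M}

lemma dist_exp_le (he : IsExp e) (x : M) (v : TangentSpace 𝓘(ℝ, E) x) (s t : ℝ) :
    dist (e x (s • v)) (e x (t • v)) ≤ |t - s| * ‖v‖ := by
  obtain ⟨ρ, hρ, hmin⟩ := he.minimizing
  obtain ⟨N, hN⟩ := exists_nat_gt (‖v‖ * |t - s| / ρ)
  have hN0 : (0 : ℝ) < N := lt_of_le_of_lt (by positivity) hN
  set δ : ℝ := (t - s) / N with hδ
  have hδabs : |δ| = |t - s| / N := by
    rw [hδ, abs_div, abs_of_pos hN0]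
  have hstep : ∀ r : ℝ, dist (e x (r • v)) (e x ((r + δ) • v)) = ‖v‖ * |δ| := by
    intro r
    have h := hmin x v r (r + δ) (by
      rw [add_sub_cancel_left, hδabs, ← mul_div_assoc, div_le_iff₀ hN0]
      rw [div_lt_iff₀ hρ] at hN
      linarith)
    rw [add_sub_cancel_left] at h
    exact h
  have hk : ∀ k : ℕ, dist (e x (s • v)) (e x ((s + k * δ) • v)) ≤ k * (‖v‖ * |δ|) := by
    intro k
    induction k with
    | zero => simp
    | succ k ih =>
      have h1 := dist_triangle (e x (s • v)) (e x ((s + k * δ) • v)) (e x ((s + k * δ + δ) • v))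
      have h2 := hstep (s + k * δ)
      have h3 : s + ((k + 1 : ℕ) : ℝ) * δ = s + k * δ + δ := by
        push_cast
        ring
      rw [h3]
      push_cast
      linarith only [h2, h1, ih]
  have h := hk N
  have e1 : s + (N : ℝ) * δ = t := by
    rw [hδ]
    field_simp
    ring
  rw [e1, hδabs] at h
  refine le_trans h (le_of_eq ?_)
  field_simp

lemma dist_exp_le' (he : IsExp e) (x : M) (v : TangentSpace 𝓘(ℝ, E) x) :
    dist x (e x v) ≤ ‖v‖ := by
  have h := dist_exp_le he x v 0 1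
  rw [zero_smul, one_smul, he.map_zero] at h
  simpa using h

lemma cost_exp_le (he : IsExp e) (x : M) (v : TangentSpace 𝓘(ℝ, E) x) :
    cost x (e x v) ≤ ‖v‖ ^ 2 / 2 := by
  unfold cost
  have h := dist_exp_le' he x v
  have h2 := pow_le_pow_left₀ dist_nonneg h 2
  linarith

lemma mem_segMin_iff_cost (he : IsExp e) (x : M) (v : TangentSpace 𝓘(ℝ, E) x) :
    v ∈ segMin e x ↔ ‖v‖ ^ 2 / 2 ≤ cost x (e x v) := by
  unfold cost
  change dist x (e x v) = ‖v‖ ↔ _
  constructor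
  · intro h
    rw [h]
  · intro h
    refine le_antisymm (dist_exp_le' he x v) ?_
    have h2 : ‖v‖ ^ 2 ≤ dist x (e x v) ^ 2 := by linarith
    exact (pow_le_pow_iff_left₀ (norm_nonneg v) dist_nonneg two_ne_zero).1 h2

lemma segMin_dist (he : IsExp e) {x : M} {v : TangentSpace 𝓘(ℝ, E) x} (hv : v ∈ segMin e x)
    {s t : ℝ} (hs : 0 ≤ s) (hst : s ≤ t) (ht : t ≤ 1) :
    dist (e x (s • v)) (e x (t • v)) = (t - s) * ‖v‖ := by
  have hv' : dist x (e x v) = ‖v‖ := hv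
  have h1 := dist_exp_le he x v 0 s
  have h2 := dist_exp_le he x v s t
  have h3 := dist_exp_le he x v t 1
  rw [zero_smul, he.map_zero, sub_zero, abs_of_nonneg hs] at h1
  rw [abs_of_nonneg (sub_nonneg.2 hst)] at h2
  rw [one_smul, abs_of_nonneg (sub_nonneg.2 ht)] at h3
  have h4 := dist_triangle x (e x (s • v)) (e x v)
  have h5 := dist_triangle (e x (s • v)) (e x (t • v)) (e x v)
  refine le_antisymm h2 ?_
  linarith only [h5, h4, h3, h1, hv']

lemma segMin_cost (he : IsExp e) {x : M} {v : TangentSpace 𝓘(ℝ, E) x} (hv : v ∈ segMin e x)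
    {s t : ℝ} (hs : 0 ≤ s) (hst : s ≤ t) (ht : t ≤ 1) :
    cost (e x (s • v)) (e x (t • v)) = (t - s) ^ 2 * ‖v‖ ^ 2 / 2 := by
  unfold cost
  rw [segMin_dist he hv hs hst ht]
  ring

lemma smul_mem_segMin (he : IsExp e) {x : M} {v : TangentSpace 𝓘(ℝ, E) x}
    (hv : v ∈ segMin e x) {t : ℝ} (ht0 : 0 ≤ t) (ht1 : t ≤ 1) : t • v ∈ segMin e x := by
  have h := segMin_dist he hv le_rfl ht0 ht1
  rw [zero_smul, he.map_zero, sub_zero] at h
  change dist x (e x (t • v)) = ‖t • v‖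
  rw [h, norm_smul, Real.norm_eq_abs, abs_of_nonneg ht0]

lemma injDomain_subset_segMin (he : IsExp e) (x : M) : injDomain e x ⊆ segMin e x := by
  rintro v ⟨a, ha, hd⟩
  have ha0 : 0 < a := lt_trans one_pos ha
  have hv : a • v ∈ segMin e x := by
    change dist x (e x (a • v)) = ‖a • v‖
    rw [hd, norm_smul, Real.norm_eq_abs, abs_of_pos ha0]
  have h := smul_mem_segMin he hv (t := a⁻¹) (by positivity) (inv_le_one_of_one_le₀ ha.le)
  rwa [smul_smul, inv_mul_cancel₀ ha0.ne', one_smul] at h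

lemma mem_injDomain_iff (he : IsExp e) {x : M} {v : TangentSpace 𝓘(ℝ, E) x} :
    v ∈ injDomain e x ↔ ∃ a : ℝ, 1 < a ∧ a • v ∈ segMin e x := by
  have _ := he
  constructor
  · rintro ⟨a, ha, hd⟩
    refine ⟨a, ha, ?_⟩
    change dist x (e x (a • v)) = ‖a • v‖
    rw [hd, norm_smul, Real.norm_eq_abs, abs_of_pos (lt_trans one_pos ha)]
  · rintro ⟨a, ha, hd⟩
    refine ⟨a, ha, ?_⟩
    change dist x (e x (a • v)) = ‖a • v‖ at hd
    rw [hd, norm_smul, Real.norm_eq_abs, abs_of_pos (lt_trans one_pos ha)]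

lemma smul_mem_injDomain (he : IsExp e) {x : M} {v : TangentSpace 𝓘(ℝ, E) x}
    (hv : v ∈ segMin e x) {t : ℝ} (ht0 : 0 ≤ t) (ht1 : t < 1) : t • v ∈ injDomain e x := by
  rw [mem_injDomain_iff he]
  set a : ℝ := 2 / (1 + t) with ha
  have hpos : (0 : ℝ) < 1 + t := by linarith
  have ha1 : 1 < a := by
    rw [ha, lt_div_iff₀ hpos]
    linarith only [ht1]
  refine ⟨a, ha1, ?_⟩
  rw [smul_smul]
  refine smul_mem_segMin he hv (by positivity) ?_
  rw [ha, div_mul_eq_mul_div, div_le_one hpos]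
  linarith

end

end Vale.Agent.P234
end
end
end

section

section

section

/-! Coordinates by the exponential map, basic metric facts and the gradient formula,
from `IsExp` only. -/

set_option maxSynthPendingDepth 3

open Bundle Manifold Set Filter
open scoped ContDiff Manifold Topology

namespace Vale.Agent.P234

noncomputable section

variable {E : Type*} [NormedAddCommGroup E] [NormedSpace ℝ E] [FiniteDimensional ℝ E]
  {M : Type*} [MetricSpace M] [ChartedSpace E M]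
  [RiemannianBundle (fun x : M => TangentSpace 𝓘(ℝ, E) x)]
  [IsManifold 𝓘(ℝ, E) ∞ M]
  [IsContMDiffRiemannianBundle 𝓘(ℝ, E) ∞ E (fun x : M => TangentSpace 𝓘(ℝ, E) x)]
  {e : ∀ x : M, TangentSpace 𝓘(ℝ, E) x → M}

omit [FiniteDimensional ℝ E] [RiemannianBundle (fun x : M => TangentSpace 𝓘(ℝ, E) x)]
  [IsManifold 𝓘(ℝ, E) ∞ M]
  [IsContMDiffRiemannianBundle 𝓘(ℝ, E) ∞ E (fun x : M => TangentSpace 𝓘(ℝ, E) x)] in
lemma SmoothAt.symm {x y : M} (h : SmoothAt E x y) : SmoothAt E y x := by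
  have h1 : Tendsto (fun p : M × M => (p.2, p.1)) (𝓝 (y, x)) (𝓝 (x, y)) :=
    (continuous_snd.prodMk continuous_fst).tendsto (y, x)
  filter_upwards [h1.eventually h] with p hp
  have h2 : ContMDiffAt (𝓘(ℝ, E).prod 𝓘(ℝ, E)) (𝓘(ℝ, E).prod 𝓘(ℝ, E)) ∞
      (fun p : M × M => (p.2, p.1)) p := contMDiffAt_snd.prodMk contMDiffAt_fst
  have h3 := ContMDiffAt.comp p hp h2
  refine h3.congr_of_eventuallyEq (Filter.Eventually.of_forall fun q => ?_)
  exact cost_comm _ _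

lemma SmoothAt.eventually {x y : M} (h : SmoothAt E x y) :
    ∀ᶠ p in 𝓝 (x, y), SmoothAt E p.1 p.2 :=
  eventually_eventually_nhds.2 h

lemma contMDiff_exp_fiber (he : IsExp e) (z : M) :
    ContMDiff 𝓘(ℝ, TangentSpace 𝓘(ℝ, E) z) 𝓘(ℝ, E) ∞ (e z) := by
  have h1 : ContMDiff 𝓘(ℝ, TangentSpace 𝓘(ℝ, E) z) (𝓘(ℝ, E).tangent) ∞
      (fun v : TangentSpace 𝓘(ℝ, E) z => (⟨z, v⟩ : TangentBundle 𝓘(ℝ, E) M)) := by
    intro v
    rw [Bundle.contMDiffAt_totalSpace]
    refine ⟨contMDiffAt_const, ?_⟩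
    have hz : z ∈ (trivializationAt E (TangentSpace 𝓘(ℝ, E)) z).baseSet :=
      FiberBundle.mem_baseSet_trivializationAt' z
    have h2 := ((trivializationAt E (TangentSpace 𝓘(ℝ, E)) z).continuousLinearMapAt ℝ
      z).contMDiff.contMDiffAt (x := v) (n := ∞)
    refine h2.congr_of_eventuallyEq (Filter.Eventually.of_forall fun w => ?_)
    simp only [Trivialization.continuousLinearMapAt_apply,
      Trivialization.coe_linearMapAt_of_mem _ hz]
  exact he.smooth.comp h1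

/-- `cost` in exponential coordinates is smooth. -/
lemma SmoothAt.coord (he : IsExp e) {x q : M} {a : TangentSpace 𝓘(ℝ, E) x}
    {b : TangentSpace 𝓘(ℝ, E) q} (h : SmoothAt E (e x a) (e q b)) :
    ContDiffAt ℝ ∞ (fun p : TangentSpace 𝓘(ℝ, E) x × TangentSpace 𝓘(ℝ, E) q =>
      cost (e x p.1) (e q p.2)) (a, b) := by
  have h1 := (contMDiff_exp_fiber he x).contMDiffAt (x := a)
  have h2 := (contMDiff_exp_fiber he q).contMDiffAt (x := b)
  have h3 : ContMDiffAt (𝓘(ℝ, TangentSpace 𝓘(ℝ, E) x).prod 𝓘(ℝ, TangentSpace 𝓘(ℝ, E) q))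
      (𝓘(ℝ, E).prod 𝓘(ℝ, E)) ∞ (fun p : TangentSpace 𝓘(ℝ, E) x × TangentSpace 𝓘(ℝ, E) q =>
        (e x p.1, e q p.2)) (a, b) :=
    ContMDiffAt.prodMk (ContMDiffAt.comp (a, b) h1 contMDiffAt_fst)
      (ContMDiffAt.comp (a, b) h2 contMDiffAt_snd)
  have h4 := ContMDiffAt.comp (a, b) h.contMDiffAt h3
  rw [← modelWithCornersSelf_prod, chartedSpaceSelf_prod] at h4
  exact h4.contDiffAt

/-- Gradient formula in exponential coordinates, at the centre. -/
lemma hasFDerivAt_cost_zero (he : IsExp e) (z : M) (v : TangentSpace 𝓘(ℝ, E) z)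
    (hv : v ∈ segMin e z) (hs : SmoothAt E z (e z v)) :
    HasFDerivAt (fun a : TangentSpace 𝓘(ℝ, E) z => cost (e z a) (e z v)) (-(innerSL ℝ v)) 0 := by
  set g : TangentSpace 𝓘(ℝ, E) z → ℝ := fun a => cost (e z a) (e z v) with hg
  have hs' : SmoothAt E (e z 0) (e z v) := by rw [he.map_zero]; exact hs
  have h1 : ContDiffAt ℝ ∞ g 0 := by
    have h2 := hs'.coord he
    exact h2.comp (0 : TangentSpace 𝓘(ℝ, E) z) (f := fun a : TangentSpace 𝓘(ℝ, E) z => (a, v))
      (contDiffAt_id.prodMk contDiffAt_const)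
  have h2 : ∀ᶠ a in 𝓝 (0 : TangentSpace 𝓘(ℝ, E) z), DifferentiableAt ℝ g a := by
    have h3 : ContDiffAt ℝ 1 g 0 := h1.of_le (by exact_mod_cast le_top)
    filter_upwards [h3.eventually (by simp)] with a ha
    exact ha.differentiableAt (by simp)
  have h3 : ContinuousAt (fderiv ℝ g) 0 :=
    (h1.fderiv_right (m := 0) (by simp)).continuousAt
  -- the minimum property
  have hmin : ∀ t : ℝ, 0 < t → t < 1 → ∀ a : TangentSpace 𝓘(ℝ, E) z,
      g (t • v) + (1 - t) / (2 * t) * ‖t • v‖ ^ 2 ≤ g a + (1 - t) / (2 * t) * ‖a‖ ^ 2 := by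
    intro t ht0 ht1 a
    have e1 : g (t • v) = (1 - t) ^ 2 * ‖v‖ ^ 2 / 2 := by
      have := segMin_cost he hv ht0.le ht1.le le_rfl
      rw [one_smul] at this
      exact this
    have e2 : cost z (e z v) = ‖v‖ ^ 2 / 2 := by
      have h5 : dist z (e z v) = ‖v‖ := hv
      rw [cost, h5]
    have e3 := cost_ineq z (e z a) (e z v) ht0 (sub_pos.2 ht1)
    rw [e2, show t + (1 - t) = 1 by ring, div_one] at e3
    have e4 := cost_exp_le he z a
    have h1t : 0 < 1 - t := sub_pos.2 ht1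
    rw [e1, norm_smul, Real.norm_eq_abs, abs_of_pos ht0]
    have e5 : cost z (e z a) / t ≤ ‖a‖ ^ 2 / 2 / t := by gcongr
    have e6 : ‖v‖ ^ 2 / 2 ≤ ‖a‖ ^ 2 / 2 / t + g a / (1 - t) := by linarith only [e5, e3]
    have e7 : (1 - t) * (‖v‖ ^ 2 / 2) ≤ (1 - t) * (‖a‖ ^ 2 / 2 / t + g a / (1 - t)) :=
      mul_le_mul_of_nonneg_left e6 h1t.le
    have e8 : (1 - t) * (‖a‖ ^ 2 / 2 / t + g a / (1 - t)) =
        g a + (1 - t) / (2 * t) * ‖a‖ ^ 2 := by
      field_simp
      ring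
    have e9 : (1 - t) ^ 2 * ‖v‖ ^ 2 / 2 + (1 - t) / (2 * t) * (t * ‖v‖) ^ 2 =
        (1 - t) * (‖v‖ ^ 2 / 2) := by
      field_simp
      ring
    rw [e9]
    linarith only [e8, e7]
  have hT : Tendsto (fun t : ℝ => t • v) (𝓝[>] 0) (𝓝 (0 : TangentSpace 𝓘(ℝ, E) z)) := by
    have : Tendsto (fun t : ℝ => t • v) (𝓝 0) (𝓝 ((0 : ℝ) • v)) :=
      (continuous_id.smul continuous_const).tendsto 0
    rw [zero_smul] at this
    exact this.mono_left nhdsWithin_le_nhds
  have hder : ∀ᶠ t : ℝ in 𝓝[>] 0, fderiv ℝ g (t • v) = -((1 - t) • innerSL ℝ v) := by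
    have h01 : ∀ᶠ t : ℝ in 𝓝[>] 0, t < 1 := by
      filter_upwards [Ioo_mem_nhdsGT (show (0 : ℝ) < 1 by norm_num)] with t ht using ht.2
    filter_upwards [hT.eventually h2, self_mem_nhdsWithin, h01] with t hd ht0 ht1
    have ht0 : 0 < t := ht0
    have h4 : HasFDerivAt (fun a : TangentSpace 𝓘(ℝ, E) z => g a + (1 - t) / (2 * t) * ‖a‖ ^ 2)
        (fderiv ℝ g (t • v) + ((1 - t) / (2 * t)) • (2 • innerSL ℝ (t • v))) (t • v) :=
      hd.hasFDerivAt.add ((hasStrictFDerivAt_norm_sq (t • v)).hasFDerivAt.const_mul _)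
    have h5 : IsLocalMin (fun a : TangentSpace 𝓘(ℝ, E) z => g a + (1 - t) / (2 * t) * ‖a‖ ^ 2)
        (t • v) := Filter.Eventually.of_forall (hmin t ht0 ht1)
    have h6 := h5.hasFDerivAt_eq_zero h4
    have h7 : fderiv ℝ g (t • v) = -(((1 - t) / (2 * t)) • (2 • innerSL ℝ (t • v))) :=
      eq_neg_of_add_eq_zero_left h6
    rw [h7]
    ext w
    simp only [neg_apply, smul_apply, innerSL_apply_apply,
      inner_smul_left, smul_eq_mul, nsmul_eq_mul]
    simp
    field_simp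
  have hlim1 : Tendsto (fun t : ℝ => fderiv ℝ g (t • v)) (𝓝[>] 0) (𝓝 (fderiv ℝ g 0)) :=
    h3.tendsto.comp hT
  have hlim2 : Tendsto (fun t : ℝ => -((1 - t) • innerSL ℝ v)) (𝓝[>] 0)
      (𝓝 (-(innerSL ℝ v))) := by
    have h4 : Tendsto (fun t : ℝ => -((1 - t) • innerSL ℝ v)) (𝓝 0)
        (𝓝 (-((1 - (0 : ℝ)) • innerSL ℝ v))) := by
      refine Continuous.tendsto (f := fun t : ℝ => -((1 - t) • innerSL ℝ v)) ?_ 0
      fun_prop
    rw [sub_zero, one_smul] at h4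
    exact h4.mono_left nhdsWithin_le_nhds
  have h4 : fderiv ℝ g 0 = -(innerSL ℝ v) :=
    tendsto_nhds_unique (hlim1.congr' hder) hlim2
  have h5 := (h2.self_of_nhds).hasFDerivAt
  rw [h4] at h5
  exact h5

lemma mfderiv_congr_point {f : M → ℝ} {p q : M} (h : q = p) (w : E) :
    (mfderiv 𝓘(ℝ, E) 𝓘(ℝ, ℝ) f q : E →L[ℝ] ℝ) w = (mfderiv 𝓘(ℝ, E) 𝓘(ℝ, ℝ) f p : E →L[ℝ] ℝ) w := by
  subst h
  rfl

lemma mdifferentiableAt_cost {p y : M} (hs : SmoothAt E p y) :
    MDifferentiableAt 𝓘(ℝ, E) 𝓘(ℝ, ℝ) (fun q : M => cost q y) p := by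
  have h1 : ContMDiffAt 𝓘(ℝ, E) (𝓘(ℝ, E).prod 𝓘(ℝ, E)) ∞ (fun q : M => (q, y)) p :=
    contMDiffAt_id.prodMk contMDiffAt_const
  exact (ContMDiffAt.comp p hs.contMDiffAt h1).mdifferentiableAt (by simp)

/-- Gradient of the cost on the manifold. -/
lemma mfderiv_cost (he : IsExp e) (p : M) (v : TangentSpace 𝓘(ℝ, E) p) (hv : v ∈ segMin e p)
    (hs : SmoothAt E p (e p v)) (w : TangentSpace 𝓘(ℝ, E) p) :
    mfderiv 𝓘(ℝ, E) 𝓘(ℝ, ℝ) (fun q : M => cost q (e p v)) p w = -inner ℝ v w := by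
  have h0 := hasFDerivAt_cost_zero he p v hv hs
  have hc : MDifferentiableAt 𝓘(ℝ, ℝ) 𝓘(ℝ, E) (fun t : ℝ => e p (t • w)) 0 := by
    have h1 : ContMDiffAt 𝓘(ℝ, ℝ) 𝓘(ℝ, TangentSpace 𝓘(ℝ, E) p) ∞ (fun t : ℝ => t • w) 0 :=
      (contDiff_id.smul contDiff_const).contMDiff.contMDiffAt
    exact (ContMDiffAt.comp (0 : ℝ) ((contMDiff_exp_fiber he p).contMDiffAt)
      h1).mdifferentiableAt (by simp)
  have hp0 : e p ((0 : ℝ) • w) = p := by rw [zero_smul, he.map_zero]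
  have hf : MDifferentiableAt 𝓘(ℝ, E) 𝓘(ℝ, ℝ) (fun q : M => cost q (e p v))
      (e p ((0 : ℝ) • w)) := by
    rw [hp0]
    exact mdifferentiableAt_cost hs
  have h1 : mfderiv 𝓘(ℝ, ℝ) 𝓘(ℝ, ℝ) ((fun q : M => cost q (e p v)) ∘ fun t : ℝ => e p (t • w))
      0 (1 : ℝ) = mfderiv 𝓘(ℝ, E) 𝓘(ℝ, ℝ) (fun q : M => cost q (e p v)) (e p ((0 : ℝ) • w))
        (mfderiv 𝓘(ℝ, ℝ) 𝓘(ℝ, E) (fun t : ℝ => e p (t • w)) 0 (1 : ℝ)) :=
    mfderiv_comp_apply (0 : ℝ) hf hc 1
  have h3 : HasFDerivAt (fun t : ℝ => cost (e p (t • w)) (e p v))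
      ((-(innerSL ℝ v)).comp ((ContinuousLinearMap.id ℝ ℝ).smulRight w)) 0 := by
    have h4 : HasFDerivAt (fun t : ℝ => t • w) ((ContinuousLinearMap.id ℝ ℝ).smulRight w) 0 :=
      (hasFDerivAt_id (0 : ℝ)).smul_const w
    have h5 : HasFDerivAt (fun a : TangentSpace 𝓘(ℝ, E) p => cost (e p a) (e p v))
        (-(innerSL ℝ v)) ((0 : ℝ) • w) := by
      rw [zero_smul]; exact h0
    exact h5.comp (0 : ℝ) h4
  have h4 : mfderiv 𝓘(ℝ, ℝ) 𝓘(ℝ, ℝ) ((fun q : M => cost q (e p v)) ∘ fun t : ℝ => e p (t • w))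
      0 (1 : ℝ) = -inner ℝ v w := by
    rw [mfderiv_eq_fderiv]
    have h5 := h3.fderiv
    change (fderiv ℝ (fun t : ℝ => cost (e p (t • w)) (e p v)) 0) 1 = _
    rw [h5]
    simp
  have h5 := congrArg (fun u => mfderiv 𝓘(ℝ, E) 𝓘(ℝ, ℝ) (fun q : M => cost q (e p v))
    (e p ((0 : ℝ) • w)) u) (he.velocity p w)
  have h6 := mfderiv_congr_point (E := E) (f := fun q : M => cost q (e p v)) hp0 w
  exact (h6.symm.trans (h5.symm.trans h1.symm)).trans h4

/-- Gradient formula in exponential coordinates, at a general point. -/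
lemma hasFDerivAt_cost (he : IsExp e) (x : M) (a : TangentSpace 𝓘(ℝ, E) x)
    (v : TangentSpace 𝓘(ℝ, E) (e x a)) (hv : v ∈ segMin e (e x a))
    (hs : SmoothAt E (e x a) (e (e x a) v)) :
    HasFDerivAt (fun a' : TangentSpace 𝓘(ℝ, E) x => cost (e x a') (e (e x a) v))
      (-((innerSL ℝ v).comp (mfderiv 𝓘(ℝ, TangentSpace 𝓘(ℝ, E) x) 𝓘(ℝ, E) (e x) a))) a := by
  have hex : MDifferentiableAt 𝓘(ℝ, TangentSpace 𝓘(ℝ, E) x) 𝓘(ℝ, E) (e x) a :=
    (contMDiff_exp_fiber he x).mdifferentiable (by simp) a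
  have h1 : HasMFDerivAt 𝓘(ℝ, TangentSpace 𝓘(ℝ, E) x) 𝓘(ℝ, ℝ)
      ((fun q : M => cost q (e (e x a) v)) ∘ e x) a
      ((mfderiv 𝓘(ℝ, E) 𝓘(ℝ, ℝ) (fun q : M => cost q (e (e x a) v)) (e x a)).comp
        (mfderiv 𝓘(ℝ, TangentSpace 𝓘(ℝ, E) x) 𝓘(ℝ, E) (e x) a)) :=
    HasMFDerivAt.comp a (mdifferentiableAt_cost hs).hasMFDerivAt hex.hasMFDerivAt
  have h2 := h1.hasFDerivAt
  have h3 : (mfderiv 𝓘(ℝ, E) 𝓘(ℝ, ℝ) (fun q : M => cost q (e (e x a) v)) (e x a)).comp
        (mfderiv 𝓘(ℝ, TangentSpace 𝓘(ℝ, E) x) 𝓘(ℝ, E) (e x) a) =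
      -((innerSL ℝ v).comp (mfderiv 𝓘(ℝ, TangentSpace 𝓘(ℝ, E) x) 𝓘(ℝ, E) (e x) a)) := by
    ext w
    exact mfderiv_cost he (e x a) v hv hs _
  rw [h3] at h2
  exact h2

end

end Vale.Agent.P234
end
end
end

section

section

section

/-! Sequences in the tangent bundle. -/

set_option maxSynthPendingDepth 3

open Bundle Manifold Set Filter
open scoped ContDiff Manifold Topology

namespace Vale.Agent.P234

noncomputable section

variable {E : Type*} [NormedAddCommGroup E] [NormedSpace ℝ E] [FiniteDimensional ℝ E]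
  {M : Type*} [MetricSpace M] [ChartedSpace E M]
  [RiemannianBundle (fun x : M => TangentSpace 𝓘(ℝ, E) x)]
  [IsManifold 𝓘(ℝ, E) ∞ M]
  [IsContMDiffRiemannianBundle 𝓘(ℝ, E) ∞ E (fun x : M => TangentSpace 𝓘(ℝ, E) x)]
  {e : ∀ x : M, TangentSpace 𝓘(ℝ, E) x → M}

/-- Convergence of tangent vectors with varying base points. -/
def TendstoTB {z : ℕ → M} (v : ∀ k, TangentSpace 𝓘(ℝ, E) (z k)) {z₀ : M}
    (v₀ : TangentSpace 𝓘(ℝ, E) z₀) : Prop :=
  Tendsto (fun k => (⟨z k, v k⟩ : TangentBundle 𝓘(ℝ, E) M)) atTop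
    (𝓝 (⟨z₀, v₀⟩ : TangentBundle 𝓘(ℝ, E) M))

/-- The fibre coordinate of a tangent vector in the trivialization at `z₀`. -/
def bkCrd (z₀ : M) (z : M) : TangentSpace 𝓘(ℝ, E) z →L[ℝ] E :=
  (trivializationAt E (TangentSpace 𝓘(ℝ, E)) z₀).continuousLinearMapAt ℝ z

lemma tendstoTB_iff {z : ℕ → M} {v : ∀ k, TangentSpace 𝓘(ℝ, E) (z k)} {z₀ : M}
    {v₀ : TangentSpace 𝓘(ℝ, E) z₀} :
    TendstoTB v v₀ ↔ Tendsto z atTop (𝓝 z₀) ∧
      Tendsto (fun k => bkCrd z₀ (z k) (v k)) atTop (𝓝 (bkCrd z₀ z₀ v₀)) := by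
  have hz₀ : z₀ ∈ (trivializationAt E (TangentSpace 𝓘(ℝ, E)) z₀).baseSet :=
    FiberBundle.mem_baseSet_trivializationAt' z₀
  have hmem : (⟨z₀, v₀⟩ : TangentBundle 𝓘(ℝ, E) M) ∈
      (trivializationAt E (TangentSpace 𝓘(ℝ, E)) z₀).source := by
    rw [Trivialization.mem_source]
    exact hz₀
  unfold TendstoTB
  rw [Trivialization.tendsto_nhds_iff _ hmem]
  refine and_congr_right fun hz => ?_
  have h1 : ∀ᶠ k in atTop, z k ∈ (trivializationAt E (TangentSpace 𝓘(ℝ, E)) z₀).baseSet :=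
    hz ((trivializationAt E (TangentSpace 𝓘(ℝ, E)) z₀).open_baseSet.mem_nhds hz₀)
  have h2 : bkCrd z₀ z₀ v₀ = ((trivializationAt E (TangentSpace 𝓘(ℝ, E)) z₀)
      (⟨z₀, v₀⟩ : TangentBundle 𝓘(ℝ, E) M)).2 := by
    unfold bkCrd
    rw [Trivialization.continuousLinearMapAt_apply, Trivialization.coe_linearMapAt_of_mem _ hz₀]
  rw [h2]
  refine tendsto_congr' ?_
  filter_upwards [h1] with k hk
  unfold bkCrd
  rw [Trivialization.continuousLinearMapAt_apply, Trivialization.coe_linearMapAt_of_mem _ hk]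

omit [FiniteDimensional ℝ E] in
lemma isContinuousRiemannianBundle_tangent :
    IsContinuousRiemannianBundle E (fun x : M => TangentSpace 𝓘(ℝ, E) x) := by
  obtain ⟨g, hg, h⟩ := IsContMDiffRiemannianBundle.exists_contMDiff (IB := 𝓘(ℝ, E)) (n := ∞)
    (F := E) (E := fun x : M => TangentSpace 𝓘(ℝ, E) x)
  exact ⟨g, hg.continuous, h⟩

omit [FiniteDimensional ℝ E] in
lemma continuous_norm_tangent :
    Continuous (fun p : TangentBundle 𝓘(ℝ, E) M => ‖p.snd‖) := by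
  have := isContinuousRiemannianBundle_tangent (E := E) (M := M)
  have h := Continuous.inner_bundle (F := E) (E := fun x : M => TangentSpace 𝓘(ℝ, E) x)
    (b := fun p : TangentBundle 𝓘(ℝ, E) M => p.proj) (v := fun p => p.snd) (w := fun p => p.snd)
    continuous_id continuous_id
  have h2 : (fun p : TangentBundle 𝓘(ℝ, E) M => ‖p.snd‖) =
      fun p => Real.sqrt (inner ℝ p.snd p.snd) := by
    funext p
    rw [real_inner_self_eq_norm_sq, Real.sqrt_sq (norm_nonneg _)]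
  rw [h2]
  exact h.sqrt

lemma TendstoTB.base {z : ℕ → M} {v : ∀ k, TangentSpace 𝓘(ℝ, E) (z k)} {z₀ : M}
    {v₀ : TangentSpace 𝓘(ℝ, E) z₀} (h : TendstoTB v v₀) : Tendsto z atTop (𝓝 z₀) :=
  (tendstoTB_iff.1 h).1

lemma TendstoTB.subseq {z : ℕ → M} {v : ∀ k, TangentSpace 𝓘(ℝ, E) (z k)} {z₀ : M}
    {v₀ : TangentSpace 𝓘(ℝ, E) z₀} (h : TendstoTB v v₀) {φ : ℕ → ℕ} (hφ : StrictMono φ) :
    TendstoTB (z := fun k => z (φ k)) (fun k => v (φ k)) v₀ := by
  unfold TendstoTB at h ⊢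
  exact h.comp hφ.tendsto_atTop

lemma TendstoTB.norm {z : ℕ → M} {v : ∀ k, TangentSpace 𝓘(ℝ, E) (z k)} {z₀ : M}
    {v₀ : TangentSpace 𝓘(ℝ, E) z₀} (h : TendstoTB v v₀) :
    Tendsto (fun k => ‖v k‖) atTop (𝓝 ‖v₀‖) := by
  have h1 : Tendsto (fun p : TangentBundle 𝓘(ℝ, E) M => ‖p.snd‖)
      (𝓝 (⟨z₀, v₀⟩ : TangentBundle 𝓘(ℝ, E) M)) (𝓝 ‖v₀‖) :=
    (continuous_norm_tangent (E := E) (M := M)).tendsto _
  unfold TendstoTB at h
  have h2 := h1.comp h
  simp only [Function.comp_def] at h2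
  exact h2

lemma TendstoTB.smul {z : ℕ → M} {v : ∀ k, TangentSpace 𝓘(ℝ, E) (z k)} {z₀ : M}
    {v₀ : TangentSpace 𝓘(ℝ, E) z₀} (h : TendstoTB v v₀) {c : ℕ → ℝ} {c₀ : ℝ}
    (hc : Tendsto c atTop (𝓝 c₀)) :
    TendstoTB (fun k => c k • v k) (c₀ • v₀) := by
  rw [tendstoTB_iff] at h ⊢
  refine ⟨h.1, ?_⟩
  simp only [map_smul]
  exact hc.smul h.2

lemma TendstoTB.sum {ι : Type*} [Fintype ι] {z : ℕ → M} {z₀ : M}
    {w : ∀ k, ι → TangentSpace 𝓘(ℝ, E) (z k)} {w₀ : ι → TangentSpace 𝓘(ℝ, E) z₀}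
    {c : ℕ → ι → ℝ} {c₀ : ι → ℝ} (hz : Tendsto z atTop (𝓝 z₀))
    (hw : ∀ j, TendstoTB (fun k => w k j) (w₀ j)) (hc : ∀ j, Tendsto (fun k => c k j) atTop (𝓝 (c₀ j))) :
    TendstoTB (fun k => ∑ j, c k j • w k j) (∑ j, c₀ j • w₀ j) := by
  rw [tendstoTB_iff]
  refine ⟨hz, ?_⟩
  simp only [map_sum, map_smul]
  exact tendsto_finsetSum _ fun j _ => (hc j).smul (tendstoTB_iff.1 (hw j)).2

lemma TendstoTB.exp (he : IsExp e) {z : ℕ → M} {v : ∀ k, TangentSpace 𝓘(ℝ, E) (z k)} {z₀ : M}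
    {v₀ : TangentSpace 𝓘(ℝ, E) z₀} (h : TendstoTB v v₀) :
    Tendsto (fun k => e (z k) (v k)) atTop (𝓝 (e z₀ v₀)) :=
  (he.smooth.continuous.tendsto (⟨z₀, v₀⟩ : TangentBundle 𝓘(ℝ, E) M)).comp h

lemma bkCrd_symm (z₀ z : M) (hz : z ∈ (trivializationAt E (TangentSpace 𝓘(ℝ, E)) z₀).baseSet)
    (v : TangentSpace 𝓘(ℝ, E) z) :
    (trivializationAt E (TangentSpace 𝓘(ℝ, E)) z₀).symmL ℝ z (bkCrd z₀ z v) = v := by
  unfold bkCrd
  exact Trivialization.symmL_continuousLinearMapAt _ hz v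

lemma bkCrd_symm' (z₀ z : M) (hz : z ∈ (trivializationAt E (TangentSpace 𝓘(ℝ, E)) z₀).baseSet)
    (w : E) :
    bkCrd z₀ z ((trivializationAt E (TangentSpace 𝓘(ℝ, E)) z₀).symmL ℝ z w) = w := by
  unfold bkCrd
  exact Trivialization.continuousLinearMapAt_symmL _ hz w

/-- Convergence in a fixed tangent space. -/
lemma tendstoTB_const_base {z₀ : M} {v : ℕ → TangentSpace 𝓘(ℝ, E) z₀}
    {v₀ : TangentSpace 𝓘(ℝ, E) z₀} :
    TendstoTB (z := fun _ => z₀) v v₀ ↔ Tendsto v atTop (𝓝 v₀) := by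
  have hz₀ : z₀ ∈ (trivializationAt E (TangentSpace 𝓘(ℝ, E)) z₀).baseSet :=
    FiberBundle.mem_baseSet_trivializationAt' z₀
  rw [tendstoTB_iff]
  constructor
  · rintro ⟨-, h⟩
    have h2 := (((trivializationAt E (TangentSpace 𝓘(ℝ, E)) z₀).symmL ℝ z₀).continuous.tendsto
      (bkCrd z₀ z₀ v₀)).comp h
    rw [bkCrd_symm z₀ z₀ hz₀] at h2
    refine h2.congr fun k => ?_
    exact bkCrd_symm z₀ z₀ hz₀ (v k)
  · intro h
    exact ⟨tendsto_const_nhds, ((bkCrd z₀ z₀).continuous.tendsto v₀).comp h⟩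

/-- Limits of minimizing vectors are minimizing. -/
lemma TendstoTB.segMin (he : IsExp e) {z : ℕ → M} {v : ∀ k, TangentSpace 𝓘(ℝ, E) (z k)} {z₀ : M}
    {v₀ : TangentSpace 𝓘(ℝ, E) z₀} (h : TendstoTB v v₀) (hv : ∀ k, v k ∈ segMin e (z k)) :
    v₀ ∈ Vale.Agent.P234.segMin e z₀ := by
  have h1 : Tendsto (fun k => dist (z k) (e (z k) (v k))) atTop (𝓝 (dist z₀ (e z₀ v₀))) :=
    h.base.dist (h.exp he)
  have h2 := h.norm
  have h3 : (fun k => dist (z k) (e (z k) (v k))) = fun k => ‖v k‖ := funext fun k => hv k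
  rw [h3] at h1
  exact tendsto_nhds_unique h1 h2

/-- Compactness of bounded sequences in the tangent bundle. -/
lemma exists_tendstoTB [CompactSpace M] (z : ℕ → M) (v : ∀ k, TangentSpace 𝓘(ℝ, E) (z k)) (R : ℝ)
    (hR : ∀ k, ‖v k‖ ≤ R) :
    ∃ (z₀ : M) (v₀ : TangentSpace 𝓘(ℝ, E) z₀) (φ : ℕ → ℕ), StrictMono φ ∧
      TendstoTB (z := fun k => z (φ k)) (fun k => v (φ k)) v₀ := by
  have := isContinuousRiemannianBundle_tangent (E := E) (M := M)
  obtain ⟨z₀, -, φ, hφ, hz⟩ := isCompact_univ.tendsto_subseq (x := z) fun k => mem_univ _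
  obtain ⟨C, hC, hev⟩ := eventually_norm_trivializationAt_lt E
    (fun x : M => TangentSpace 𝓘(ℝ, E) x) z₀
  have hz₀ : z₀ ∈ (trivializationAt E (TangentSpace 𝓘(ℝ, E)) z₀).baseSet :=
    FiberBundle.mem_baseSet_trivializationAt' z₀
  have h1 : ∀ᶠ k in atTop, bkCrd z₀ (z (φ k)) (v (φ k)) ∈ Metric.closedBall (0 : E) (C * R) := by
    filter_upwards [hz.eventually hev] with k hk
    rw [mem_closedBall_zero_iff]
    refine (ContinuousLinearMap.le_opNorm _ _).trans ?_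
    exact mul_le_mul hk.le (hR _) (norm_nonneg _) hC.le
  have : ProperSpace E := FiniteDimensional.proper ℝ E
  obtain ⟨w, -, ψ, hψ, hw⟩ := tendsto_subseq_of_frequently_bounded Metric.isBounded_closedBall
    h1.frequently
  refine ⟨z₀, (trivializationAt E (TangentSpace 𝓘(ℝ, E)) z₀).symmL ℝ z₀ w, φ ∘ ψ, hφ.comp hψ, ?_⟩
  rw [tendstoTB_iff]
  refine ⟨hz.comp hψ.tendsto_atTop, ?_⟩
  rw [bkCrd_symm' z₀ z₀ hz₀]
  exact hw

/-- Version for finitely many vectors over the same base points. -/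
lemma exists_tendstoTB_fin [CompactSpace M] {ι : Type*} [Fintype ι] (z : ℕ → M)
    (v : ∀ k, ι → TangentSpace 𝓘(ℝ, E) (z k)) (R : ℝ) (hR : ∀ k j, ‖v k j‖ ≤ R) :
    ∃ (z₀ : M) (v₀ : ι → TangentSpace 𝓘(ℝ, E) z₀) (φ : ℕ → ℕ), StrictMono φ ∧
      Tendsto (fun k => z (φ k)) atTop (𝓝 z₀) ∧
      ∀ j, TendstoTB (z := fun k => z (φ k)) (fun k => v (φ k) j) (v₀ j) := by
  have := isContinuousRiemannianBundle_tangent (E := E) (M := M)
  obtain ⟨z₀, -, φ, hφ, hz⟩ := isCompact_univ.tendsto_subseq (x := z) fun k => mem_univ _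
  obtain ⟨C, hC, hev⟩ := eventually_norm_trivializationAt_lt E
    (fun x : M => TangentSpace 𝓘(ℝ, E) x) z₀
  have hz₀ : z₀ ∈ (trivializationAt E (TangentSpace 𝓘(ℝ, E)) z₀).baseSet :=
    FiberBundle.mem_baseSet_trivializationAt' z₀
  have : ProperSpace E := FiniteDimensional.proper ℝ E
  have h1 : ∀ᶠ k in atTop, (fun j => bkCrd z₀ (z (φ k)) (v (φ k) j)) ∈
      Metric.closedBall (0 : ι → E) (C * |R|) := by
    filter_upwards [hz.eventually hev] with k hk
    rw [mem_closedBall_zero_iff, pi_norm_le_iff_of_nonneg (by positivity)]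
    intro j
    refine (ContinuousLinearMap.le_opNorm _ _).trans ?_
    exact mul_le_mul hk.le ((hR _ _).trans (le_abs_self R)) (norm_nonneg _) hC.le
  obtain ⟨w, -, ψ, hψ, hw⟩ := tendsto_subseq_of_frequently_bounded Metric.isBounded_closedBall
    h1.frequently
  refine ⟨z₀, fun j => (trivializationAt E (TangentSpace 𝓘(ℝ, E)) z₀).symmL ℝ z₀ (w j), φ ∘ ψ,
    hφ.comp hψ, hz.comp hψ.tendsto_atTop, fun j => ?_⟩
  rw [tendstoTB_iff]
  refine ⟨hz.comp hψ.tendsto_atTop, ?_⟩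
  rw [bkCrd_symm' z₀ z₀ hz₀]
  exact (tendsto_pi_nhds.1 hw) j

end

end Vale.Agent.P234
end
end
end

section

section

section

/-! Consequences of `Facts`: uniqueness, betweenness, continuity. -/

set_option maxSynthPendingDepth 3

open Bundle Manifold Set Filter
open scoped ContDiff Manifold Topology

namespace Vale.Agent.P234

noncomputable section

variable {E : Type*} [NormedAddCommGroup E] [NormedSpace ℝ E] [FiniteDimensional ℝ E]
  {M : Type*} [MetricSpace M] [ChartedSpace E M]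
  [RiemannianBundle (fun x : M => TangentSpace 𝓘(ℝ, E) x)]
  [IsManifold 𝓘(ℝ, E) ∞ M]
  [IsContMDiffRiemannianBundle 𝓘(ℝ, E) ∞ E (fun x : M => TangentSpace 𝓘(ℝ, E) x)]
  [CompactSpace M]
  {e : ∀ x : M, TangentSpace 𝓘(ℝ, E) x → M}

/-- Flow property with a free base point. -/
lemma Facts.flow' (F : Facts e) {x : M} (v : TangentSpace 𝓘(ℝ, E) x) (s : ℝ) {x' : M}
    (hx' : e x (s • v) = x') :
    ∃ w : TangentSpace 𝓘(ℝ, E) x', ‖w‖ = ‖v‖ ∧ ∀ t : ℝ, e x' (t • w) = e x ((s + t) • v) := by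
  subst hx'
  exact F.flow x v s

/-- A vector is determined by the germ of its geodesic. -/
lemma eq_of_exp_smul_eq (he : IsExp e) {x : M} {v w : TangentSpace 𝓘(ℝ, E) x}
    (h : ∀ t : ℝ, e x (t • v) = e x (t • w)) : v = w := by
  have h0 : (fun t : ℝ => e x (t • v)) = fun t : ℝ => e x (t • w) := funext h
  have key : ∀ f g : ℝ → M, f = g →
      (mfderiv 𝓘(ℝ, ℝ) 𝓘(ℝ, E) f 0 (1 : ℝ) : E) = mfderiv 𝓘(ℝ, ℝ) 𝓘(ℝ, E) g 0 (1 : ℝ) := by
    rintro f g rfl
    rfl
  have h1 := he.velocity x v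
  have h2 := he.velocity x w
  have h3 := key _ _ h0
  exact h1.symm.trans (h3.trans h2)

/-- Uniqueness of the minimizing vector when the cost is smooth. -/
lemma segMin_unique (he : IsExp e) {x : M} {v w : TangentSpace 𝓘(ℝ, E) x}
    (hv : v ∈ segMin e x) (hw : w ∈ segMin e x) (hs : SmoothAt E x (e x v))
    (hvw : e x w = e x v) : w = v := by
  have h1 := hasFDerivAt_cost_zero he x v hv hs
  have h2 := hasFDerivAt_cost_zero he x w hw (by rw [hvw]; exact hs)
  rw [hvw] at h2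
  have h3 := h1.unique h2
  have h4 : ∀ ξ : TangentSpace 𝓘(ℝ, E) x, inner ℝ v ξ = inner ℝ w ξ := by
    intro ξ
    have := congrArg (fun L => L ξ) h3
    simpa using this
  exact (ext_inner_right ℝ h4).symm

lemma Facts.injDomain_unique (F : Facts e) {x : M} {v w : TangentSpace 𝓘(ℝ, E) x}
    (hv : v ∈ injDomain e x) (hw : w ∈ segMin e x) (hvw : e x w = e x v) : w = v :=
  segMin_unique F.isExp (injDomain_subset_segMin F.isExp x hv) hw (F.smooth_cost x v hv) hvw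

/-- The cost is smooth at small scale, and geodesics minimize at a uniform scale. -/
lemma Facts.short (F : Facts e) : ∃ ρ : ℝ, 0 < ρ ∧
    (∀ (x : M) (v : TangentSpace 𝓘(ℝ, E) x) (s t : ℝ),
      ‖v‖ * |t - s| ≤ ρ → dist (e x (s • v)) (e x (t • v)) = ‖v‖ * |t - s|) ∧
    (∀ x y : M, dist x y < ρ → SmoothAt E x y) := by
  obtain ⟨ρ, hρ, h⟩ := F.isExp.minimizing
  refine ⟨ρ / 2, by positivity, fun x v s t hst => h x v s t (by linarith), ?_⟩
  intro x y hxy
  obtain ⟨v, hv, hd⟩ := F.hopfRinow x y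
  rw [← hv]
  refine F.smooth_cost x v ⟨2, one_lt_two, ?_⟩
  have h1 := h x v 0 2 (by rw [hd] at hxy; norm_num; linarith)
  rw [zero_smul, F.isExp.map_zero] at h1
  rw [h1]
  norm_num
  ring

/-- Points between `x` and `y` at every fraction. -/
lemma Facts.exists_between (F : Facts e) (x y : M) {s t : ℝ} (hs : 0 < s) (ht : 0 < t) :
    ∃ m : M, cost x y / (s + t) = cost x m / s + cost m y / t := by
  obtain ⟨v, hv, hd⟩ := F.hopfRinow x y
  have hmin : v ∈ segMin e x := by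
    change dist x (e x v) = ‖v‖
    rw [hv, hd]
  have hst : 0 < s + t := by positivity
  have hr0 : 0 ≤ s / (s + t) := by positivity
  have hr1 : s / (s + t) ≤ 1 := by
    rw [div_le_one hst]; linarith
  refine ⟨e x ((s / (s + t)) • v), ?_⟩
  have h1 := segMin_cost F.isExp hmin le_rfl hr0 hr1
  have h2 := segMin_cost F.isExp hmin hr0 hr1 le_rfl
  have h3 := segMin_cost F.isExp hmin le_rfl zero_le_one le_rfl
  rw [zero_smul, F.isExp.map_zero] at h1 h3
  rw [one_smul, hv] at h2 h3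
  rw [h1, h2, h3]
  field_simp
  ring

/-- Distances along a minimizing geodesic, without order. -/
lemma segMin_dist_abs (he : IsExp e) {x : M} {v : TangentSpace 𝓘(ℝ, E) x} (hv : v ∈ segMin e x)
    {s t : ℝ} (hs0 : 0 ≤ s) (hs1 : s ≤ 1) (ht0 : 0 ≤ t) (ht1 : t ≤ 1) :
    dist (e x (s • v)) (e x (t • v)) = |t - s| * ‖v‖ := by
  rcases le_total s t with h | h
  · rw [segMin_dist he hv hs0 h ht1, abs_of_nonneg (by linarith)]
  · rw [dist_comm, segMin_dist he hv ht0 h hs1, abs_of_nonpos (by linarith)]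
    ring

lemma zero_mem_injDomain (he : IsExp e) (x : M) : (0 : TangentSpace 𝓘(ℝ, E) x) ∈ injDomain e x :=
  ⟨2, one_lt_two, by simp [he.map_zero]⟩

/-- The vector pointing from `e x (s • v)` towards `e x (t' • v)`, shortened. -/
lemma flow_mem_injDomain (he : IsExp e) {x : M} {v : TangentSpace 𝓘(ℝ, E) x}
    (hv : v ∈ segMin e x) {s t' θ : ℝ} (hs0 : 0 ≤ s) (hs1 : s ≤ 1) (ht0 : 0 ≤ t') (ht1 : t' ≤ 1)
    (hθ0 : 0 ≤ θ) (hθ1 : θ < 1) {w : TangentSpace 𝓘(ℝ, E) (e x (s • v))} (hw : ‖w‖ = ‖v‖)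
    (hfl : ∀ t : ℝ, e (e x (s • v)) (t • w) = e x ((s + t) • v)) :
    (θ * (t' - s)) • w ∈ injDomain e (e x (s • v)) := by
  rcases hθ0.eq_or_lt with rfl | hθ0
  · rw [zero_mul, zero_smul]
    exact zero_mem_injDomain he _
  · refine ⟨1 / θ, by rw [lt_div_iff₀ hθ0]; linarith, ?_⟩
    rw [smul_smul, hfl, norm_smul, hw]
    have h1 : s + 1 / θ * (θ * (t' - s)) = t' := by field_simp; ring
    rw [h1, segMin_dist_abs he hv hs0 hs1 ht0 ht1, norm_mul, Real.norm_eq_abs, Real.norm_eq_abs,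
      abs_of_pos hθ0]
    field_simp

/-- The cost is smooth at pairs of points of a minimizing geodesic, except the two endpoints. -/
lemma Facts.smooth_between (F : Facts e) {x : M} {v : TangentSpace 𝓘(ℝ, E) x}
    (hv : v ∈ segMin e x) {s t : ℝ} (hs0 : 0 ≤ s) (hs1 : s ≤ 1) (ht0 : 0 ≤ t) (ht1 : t ≤ 1)
    (hst : |t - s| < 1) : SmoothAt E (e x (s • v)) (e x (t • v)) := by
  have main : ∀ s t t' θ : ℝ, 0 ≤ s → s ≤ 1 → 0 ≤ t' → t' ≤ 1 → 0 ≤ θ → θ < 1 →
      t - s = θ * (t' - s) → SmoothAt E (e x (s • v)) (e x (t • v)) := by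
    intro s t t' θ hs0 hs1 ht0 ht1 hθ0 hθ1 h
    obtain ⟨w, hw, hfl⟩ := F.flow x v s
    have h1 := F.smooth_cost _ _ (flow_mem_injDomain F.isExp hv hs0 hs1 ht0 ht1 hθ0 hθ1 hw hfl)
    rw [hfl, ← h] at h1
    have h2 : s + (t - s) = t := by ring
    rwa [h2] at h1
  have main2 : ∀ s t : ℝ, 0 ≤ s → s ≤ t → t ≤ 1 → t - s < 1 →
      SmoothAt E (e x (s • v)) (e x (t • v)) := by
    intro s t hs hst ht h
    rcases ht.lt_or_eq with ht' | rfl
    · have h1 : 0 < 1 - s := by linarith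
      refine main s t 1 ((t - s) / (1 - s)) hs (by linarith) zero_le_one le_rfl
        (div_nonneg (by linarith) h1.le) ?_ ?_
      · rw [div_lt_one h1]; linarith
      · field_simp
    · refine SmoothAt.symm ?_
      exact main 1 s 0 (1 - s) zero_le_one le_rfl le_rfl zero_le_one (by linarith) h (by ring)
  rcases le_total s t with h | h
  · exact main2 s t hs0 h ht1 (by rwa [abs_of_nonneg (by linarith)] at hst)
  · exact SmoothAt.symm (main2 t s ht0 h hs1 (by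
      rw [abs_of_nonpos (by linarith)] at hst; linarith))

/-- Continuity of the unique minimizing vector: if `n k → e z v` with `v` in the injectivity
domain and `w k` minimizing from `z k → z` to `n k`, then `w k → v`. -/
lemma Facts.segMin_tendsto (F : Facts e) {z : ℕ → M} {z₀ : M} (hz : Tendsto z atTop (𝓝 z₀))
    {v : TangentSpace 𝓘(ℝ, E) z₀} (hv : v ∈ injDomain e z₀)
    (w : ∀ k, TangentSpace 𝓘(ℝ, E) (z k)) (hw : ∀ k, w k ∈ segMin e (z k))
    (hn : Tendsto (fun k => e (z k) (w k)) atTop (𝓝 (e z₀ v))) :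
    TendstoTB w v := by
  refine tendsto_of_subseq_tendsto fun ns hns => ?_
  have hbd : Bornology.IsBounded (Set.univ : Set M) := isCompact_univ.isBounded
  obtain ⟨z₁, v₁, φ, hφ, h1⟩ := exists_tendstoTB (fun k => z (ns k)) (fun k => w (ns k))
    (Metric.diam (Set.univ : Set M)) (fun k => by
      rw [← show dist (z (ns k)) (e (z (ns k)) (w (ns k))) = ‖w (ns k)‖ from hw (ns k)]
      exact Metric.dist_le_diam_of_mem hbd (Set.mem_univ _) (Set.mem_univ _))
  have hsub : Tendsto (fun k => ns (φ k)) atTop atTop := hns.comp hφ.tendsto_atTop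
  have h2 : z₁ = z₀ := tendsto_nhds_unique h1.base (hz.comp hsub)
  subst h2
  have h3 : v₁ ∈ segMin e z₁ := h1.segMin F.isExp fun k => hw _
  have h4 : e z₁ v₁ = e z₁ v := tendsto_nhds_unique (h1.exp F.isExp) (hn.comp hsub)
  have h5 : v₁ = v := F.injDomain_unique hv h3 h4
  subst h5
  exact ⟨φ, h1⟩

/-- No corner: if `p₁` and `p₂` are small minimizing vectors at `q` of the same length `ε` whose
end points have distance `2 ε` then `p₁ = -p₂`. -/
lemma Facts.no_corner (F : Facts e) {ρ : ℝ} (hρ : ∀ x y : M, dist x y < ρ → SmoothAt E x y)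
    {q : M} {p₁ p₂ : TangentSpace 𝓘(ℝ, E) q} (h1 : p₁ ∈ segMin e q) (h2 : p₂ ∈ segMin e q)
    {ε : ℝ} (hε : 0 < ε) (hε' : ε < ρ) (hn1 : ‖p₁‖ = ε) (hn2 : ‖p₂‖ = ε)
    (hd : 2 * ε ≤ dist (e q p₁) (e q p₂)) : p₁ + p₂ = 0 := by
  have hd1 : dist q (e q p₁) = ε := by rw [← hn1]; exact h1
  have hd2 : dist q (e q p₂) = ε := by rw [← hn2]; exact h2
  have s1 : SmoothAt E q (e q p₁) := hρ _ _ (by rw [hd1]; exact hε')
  have s2 : SmoothAt E q (e q p₂) := hρ _ _ (by rw [hd2]; exact hε')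
  have g1 := hasFDerivAt_cost_zero F.isExp q p₁ h1 s1
  have g2 := hasFDerivAt_cost_zero F.isExp q p₂ h2 s2
  have g3 := g1.add g2
  have hmin : IsLocalMin (fun a : TangentSpace 𝓘(ℝ, E) q =>
      cost (e q a) (e q p₁) + cost (e q a) (e q p₂)) 0 := by
    refine Filter.Eventually.of_forall fun a => ?_
    simp only [F.isExp.map_zero]
    have h5 := cost_ineq (e q p₁) (e q a) (e q p₂) hε hε
    have h6 : cost q (e q p₁) = ε ^ 2 / 2 := by simp only [cost, hd1]
    have h7 : cost q (e q p₂) = ε ^ 2 / 2 := by simp only [cost, hd2]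
    have h8 : 2 * ε ^ 2 ≤ cost (e q p₁) (e q p₂) := by
      simp only [cost]
      linarith only [mul_nonneg (sub_nonneg.2 hd) (sub_nonneg.2 hd), mul_nonneg (le_of_lt (sub_pos.2 hε)) (sub_nonneg.2 hd)]
    rw [h6, h7]
    rw [cost_comm (e q p₁) (e q a), ← add_div, div_le_div_iff₀ (by positivity) hε] at h5
    (by_contra nlg; linarith only [nlg, mul_nonneg (le_of_lt (sub_pos.2 hε)) (sub_nonneg.2 h8), mul_pos (sub_pos.2 (not_le.1 nlg)) (sub_pos.2 hε), h5])
  have h9 := hmin.hasFDerivAt_eq_zero g3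
  have h10 : ∀ ξ : TangentSpace 𝓘(ℝ, E) q, inner ℝ (p₁ + p₂) ξ = 0 := by
    intro ξ
    have := congrArg (fun L => L ξ) h9
    simp only [_root_.add_apply, _root_.neg_apply, innerSL_apply_apply,
      _root_.zero_apply] at this
    rw [inner_add_left]
    linarith
  exact inner_self_eq_zero.1 (h10 (p₁ + p₂))

/-- A point between `x` and `y` lies on a minimizing geodesic. -/
lemma Facts.between (F : Facts e) {x q y : M} (h : dist x q + dist q y = dist x y) :
    ∃ w ∈ segMin e x, e x w = y ∧ ∃ t : ℝ, 0 ≤ t ∧ t ≤ 1 ∧ e x (t • w) = q ∧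
      dist x q = t * ‖w‖ := by
  have he := F.isExp
  rcases eq_or_ne x q with rfl | hxq
  · obtain ⟨w, hw, hd⟩ := F.hopfRinow x y
    exact ⟨w, by change dist x (e x w) = ‖w‖; rw [hw, hd], hw, 0, le_rfl, zero_le_one,
      by rw [zero_smul, he.map_zero], by simp⟩
  rcases eq_or_ne q y with rfl | hqy
  · obtain ⟨w, hw, hd⟩ := F.hopfRinow x q
    exact ⟨w, by change dist x (e x w) = ‖w‖; rw [hw, hd], hw, 1, zero_le_one, le_rfl,
      by rw [one_smul, hw], by rw [one_mul, hd]⟩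
  obtain ⟨v₁, hv₁, hd₁⟩ := F.hopfRinow x q
  obtain ⟨v₂, hv₂, hd₂⟩ := F.hopfRinow q y
  have hm₁ : v₁ ∈ segMin e x := by change dist x (e x v₁) = ‖v₁‖; rw [hv₁, hd₁]
  have hm₂ : v₂ ∈ segMin e q := by change dist q (e q v₂) = ‖v₂‖; rw [hv₂, hd₂]
  obtain ⟨ρ, hρ, hmin, hsm⟩ := F.short
  have hpos₁ : 0 < ‖v₁‖ := by rw [← hd₁]; exact dist_pos.2 hxq
  have hpos₂ : 0 < ‖v₂‖ := by rw [← hd₂]; exact dist_pos.2 hqy
  obtain ⟨w₁, hw₁, hfl⟩ := F.flow' v₁ 1 (x' := q) (by rw [one_smul, hv₁])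
  obtain ⟨ε, hε, hερ, hε₁, hε₂⟩ : ∃ ε : ℝ, 0 < ε ∧ ε < ρ ∧ ε < ‖v₁‖ ∧ ε < ‖v₂‖ := by
    obtain ⟨ε, hε, hlt⟩ := _root_.exists_between (lt_min hρ (lt_min hpos₁ hpos₂))
    rw [lt_min_iff, lt_min_iff] at hlt
    exact ⟨ε, hε, hlt.1, hlt.2.1, hlt.2.2⟩
  -- the two short vectors at `q`
  set p₁ : TangentSpace 𝓘(ℝ, E) q := (-(ε / ‖v₁‖)) • w₁ with hp₁
  set p₂ : TangentSpace 𝓘(ℝ, E) q := (ε / ‖v₂‖) • v₂ with hp₂
  have hr₁ : 0 < ε / ‖v₁‖ := by (clear * - hε hpos₁; positivity)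
  have hr₁' : ε / ‖v₁‖ < 1 := by rw [div_lt_one hpos₁]; exact hε₁
  have hr₂ : 0 < ε / ‖v₂‖ := by positivity
  have hr₂' : ε / ‖v₂‖ < 1 := by rw [div_lt_one hpos₂]; exact hε₂
  have hn₁ : ‖p₁‖ = ε := by
    rw [hp₁, norm_smul, hw₁, norm_neg, Real.norm_eq_abs, abs_of_pos hr₁]
    field_simp
  have hn₂ : ‖p₂‖ = ε := by
    rw [hp₂, norm_smul, Real.norm_eq_abs, abs_of_pos hr₂]
    field_simp
  have hq₁ : e q p₁ = e x ((1 - ε / ‖v₁‖) • v₁) := by
    rw [hp₁, hfl, sub_eq_add_neg]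
  have hdq₁ : dist (e x ((1 - ε / ‖v₁‖) • v₁)) q = ε := by
    have := segMin_dist he hm₁ (s := 1 - ε / ‖v₁‖) (t := 1) (by linarith only [hr₁']) (by linarith) le_rfl
    rw [one_smul, hv₁] at this
    rw [this]
    field_simp
    ring
  have hs₁ : p₁ ∈ segMin e q := by
    change dist q (e q p₁) = ‖p₁‖
    rw [hn₁, hq₁, dist_comm, hdq₁]
  have hs₂ : p₂ ∈ segMin e q := smul_mem_segMin he hm₂ hr₂.le hr₂'.le
  have hx₁ : dist x (e q p₁) = ‖v₁‖ - ε := by
    have := segMin_dist he hm₁ (s := 0) (t := 1 - ε / ‖v₁‖) le_rfl (by linarith) (by linarith)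
    rw [zero_smul, he.map_zero] at this
    rw [hq₁, this]
    field_simp
    ring
  have hy₂ : dist (e q p₂) y = ‖v₂‖ - ε := by
    have := segMin_dist he hm₂ (s := ε / ‖v₂‖) (t := 1) hr₂.le hr₂'.le le_rfl
    rw [one_smul, hv₂] at this
    rw [hp₂, this]
    field_simp
  have hcorner : 2 * ε ≤ dist (e q p₁) (e q p₂) := by
    have t1 := dist_triangle4 x (e q p₁) (e q p₂) y
    rw [hx₁, hy₂, ← h, hd₁, hd₂] at t1
    linarith
  have hzero := F.no_corner hsm hs₁ hs₂ hε hερ hn₁ hn₂ hcorner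
  have hv₂w : v₂ = (‖v₂‖ / ‖v₁‖) • w₁ := by
    have h1 : (ε / ‖v₂‖) • v₂ = (ε / ‖v₁‖) • w₁ := by
      rw [hp₁, hp₂, neg_smul] at hzero
      rw [eq_comm, ← sub_eq_zero, ← neg_eq_zero, neg_sub, sub_eq_neg_add]
      exact hzero
    have h2 := congrArg (fun u => (‖v₂‖ / ε) • u) h1
    simp only [smul_smul] at h2
    have h3 : ‖v₂‖ / ε * (ε / ‖v₂‖) = 1 := by field_simp
    have h4 : ‖v₂‖ / ε * (ε / ‖v₁‖) = ‖v₂‖ / ‖v₁‖ := by field_simp
    rw [h3, h4, one_smul] at h2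
    exact h2
  have hsum : 0 < 1 + ‖v₂‖ / ‖v₁‖ := by positivity
  have hy : e x ((1 + ‖v₂‖ / ‖v₁‖) • v₁) = y := by
    rw [← hfl, ← hv₂w, hv₂]
  have hnw : ‖(1 + ‖v₂‖ / ‖v₁‖) • v₁‖ = ‖v₁‖ + ‖v₂‖ := by
    rw [norm_smul, Real.norm_eq_abs, abs_of_pos hsum]
    field_simp
  refine ⟨(1 + ‖v₂‖ / ‖v₁‖) • v₁, ?_, hy, 1 / (1 + ‖v₂‖ / ‖v₁‖), by positivity, ?_, ?_, ?_⟩
  · change dist x (e x ((1 + ‖v₂‖ / ‖v₁‖) • v₁)) = ‖(1 + ‖v₂‖ / ‖v₁‖) • v₁‖
    rw [hy, hnw, ← h, hd₁, hd₂]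
  · rw [div_le_one hsum]
    have : 0 < ‖v₂‖ / ‖v₁‖ := by positivity
    linarith only [this]
  · rw [smul_smul, one_div_mul_cancel hsum.ne', one_smul, hv₁]
  · rw [hnw, hd₁]
    field_simp

end

end Vale.Agent.P234
end
end
end

section

section

section

/-! Consequences of `Facts`: the smooth logarithm and openness of the injectivity domain. -/

set_option maxSynthPendingDepth 3

open Bundle Manifold Set Filter
open scoped ContDiff Manifold Topology

namespace Vale.Agent.P234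

noncomputable section

variable {E : Type*} [NormedAddCommGroup E] [NormedSpace ℝ E] [FiniteDimensional ℝ E]
  {M : Type*} [MetricSpace M] [ChartedSpace E M]
  [RiemannianBundle (fun x : M => TangentSpace 𝓘(ℝ, E) x)]
  [IsManifold 𝓘(ℝ, E) ∞ M]
  [IsContMDiffRiemannianBundle 𝓘(ℝ, E) ∞ E (fun x : M => TangentSpace 𝓘(ℝ, E) x)]
  {e : ∀ x : M, TangentSpace 𝓘(ℝ, E) x → M}

/-- Minus the gradient at the centre of `a ↦ cost (e z a) y`. -/
def logMap (e : ∀ x : M, TangentSpace 𝓘(ℝ, E) x → M) (z y : M) : TangentSpace 𝓘(ℝ, E) z :=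
  haveI : FiniteDimensional ℝ (TangentSpace 𝓘(ℝ, E) z) := inferInstanceAs (FiniteDimensional ℝ E)
  haveI : CompleteSpace (TangentSpace 𝓘(ℝ, E) z) := FiniteDimensional.complete ℝ _
  (InnerProductSpace.toDual ℝ (TangentSpace 𝓘(ℝ, E) z)).symm
    (-(fderiv ℝ (fun a : TangentSpace 𝓘(ℝ, E) z => cost (e z a) y) 0))

/-- cost in exponential coordinates in the first variable and a chart in the second -/
lemma contDiffAt_cost_chart (he : IsExp e) {z y₀ : M} (hs : SmoothAt E z y₀) :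
    ContDiffAt ℝ ∞ (fun p : E × TangentSpace 𝓘(ℝ, E) z =>
      cost (e z p.2) ((extChartAt 𝓘(ℝ, E) y₀).symm p.1)) (extChartAt 𝓘(ℝ, E) y₀ y₀, 0) := by
  rw [← contMDiffAt_iff_contDiffAt]
  have h1 : ContMDiffAt (𝓘(ℝ, E).prod 𝓘(ℝ, TangentSpace 𝓘(ℝ, E) z)) 𝓘(ℝ, E) ∞
      (fun p : E × TangentSpace 𝓘(ℝ, E) z => e z p.2) (extChartAt 𝓘(ℝ, E) y₀ y₀, 0) :=
    (contMDiff_exp_fiber he z).contMDiffAt.comp _ contMDiffAt_snd
  have h0 : ContMDiffAt 𝓘(ℝ, E) 𝓘(ℝ, E) ∞ (extChartAt 𝓘(ℝ, E) y₀).symm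
      (extChartAt 𝓘(ℝ, E) y₀ y₀) :=
    (contMDiffOn_extChartAt_symm y₀).contMDiffAt (extChartAt_target_mem_nhds y₀)
  have h2 : ContMDiffAt (𝓘(ℝ, E).prod 𝓘(ℝ, TangentSpace 𝓘(ℝ, E) z)) 𝓘(ℝ, E) ∞
      (fun p : E × TangentSpace 𝓘(ℝ, E) z => (extChartAt 𝓘(ℝ, E) y₀).symm p.1)
      (extChartAt 𝓘(ℝ, E) y₀ y₀, 0) := ContMDiffAt.comp _ h0 contMDiffAt_fst
  have h3 := h1.prodMk h2
  have h4 : ContMDiffAt (𝓘(ℝ, E).prod 𝓘(ℝ, E)) 𝓘(ℝ, ℝ) ∞ (fun p : M × M => cost p.1 p.2)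
      (e z 0, (extChartAt 𝓘(ℝ, E) y₀).symm (extChartAt 𝓘(ℝ, E) y₀ y₀)) := by
    rw [he.map_zero, extChartAt_to_inv]
    exact hs.contMDiffAt
  have h5 := ContMDiffAt.comp (extChartAt 𝓘(ℝ, E) y₀ y₀, (0 : TangentSpace 𝓘(ℝ, E) z)) h4 h3
  rw [modelWithCornersSelf_prod, ← chartedSpaceSelf_prod]
  exact h5

lemma contMDiffAt_logMap (he : IsExp e) {z y₀ : M} (hs : SmoothAt E z y₀) :
    ContMDiffAt 𝓘(ℝ, E) 𝓘(ℝ, TangentSpace 𝓘(ℝ, E) z) ∞ (logMap e z) y₀ := by
  have h1 : ContDiffAt ℝ ∞ (fun u : E => fderiv ℝ (fun a : TangentSpace 𝓘(ℝ, E) z =>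
      cost (e z a) ((extChartAt 𝓘(ℝ, E) y₀).symm u)) 0) (extChartAt 𝓘(ℝ, E) y₀ y₀) :=
    ContDiffAt.fderiv (n := ∞) (contDiffAt_cost_chart he hs) contDiffAt_const (by simp)
  have h2 : ContMDiffAt 𝓘(ℝ, E) 𝓘(ℝ, E) ∞ (extChartAt 𝓘(ℝ, E) y₀) y₀ :=
    contMDiffAt_extChartAt
  have h3 := h1.contMDiffAt.comp y₀ h2
  have : FiniteDimensional ℝ (TangentSpace 𝓘(ℝ, E) z) := inferInstanceAs (FiniteDimensional ℝ E)
  have : CompleteSpace (TangentSpace 𝓘(ℝ, E) z) := FiniteDimensional.complete ℝ _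
  have h4 : ContDiff ℝ ∞ (fun l : TangentSpace 𝓘(ℝ, E) z →L[ℝ] ℝ =>
      (InnerProductSpace.toDual ℝ (TangentSpace 𝓘(ℝ, E) z)).symm (-l)) :=
    (LinearIsometryEquiv.contDiff _).comp contDiff_neg
  have h5 := h4.contMDiff.contMDiffAt.comp y₀ h3
  refine h5.congr_of_eventuallyEq ?_
  filter_upwards [extChartAt_source_mem_nhds (I := 𝓘(ℝ, E)) y₀] with y hy
  simp only [Function.comp_apply, logMap]
  rw [(extChartAt 𝓘(ℝ, E) y₀).left_inv hy]

lemma logMap_eq (he : IsExp e) {z : M} {w : TangentSpace 𝓘(ℝ, E) z} (hw : w ∈ segMin e z)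
    (hs : SmoothAt E z (e z w)) : logMap e z (e z w) = w := by
  unfold logMap
  rw [(hasFDerivAt_cost_zero he z w hw hs).fderiv, neg_neg]
  have : FiniteDimensional ℝ (TangentSpace 𝓘(ℝ, E) z) := inferInstanceAs (FiniteDimensional ℝ E)
  have : CompleteSpace (TangentSpace 𝓘(ℝ, E) z) := FiniteDimensional.complete ℝ _
  rw [LinearIsometryEquiv.symm_apply_eq]
  ext ξ
  simp

/-- The logarithm is a local inverse of the exponential map. -/
lemma eventually_logMap (he : IsExp e)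
    (hr : ∀ x y : M, ∃ v : TangentSpace 𝓘(ℝ, E) x, e x v = y ∧ dist x y = ‖v‖) {z : M} {y₀ : M}
    (hs : SmoothAt E z y₀) :
    ∀ᶠ y in 𝓝 y₀, logMap e z y ∈ segMin e z ∧ e z (logMap e z y) = y := by
  have h1 : ∀ᶠ y in 𝓝 y₀, SmoothAt E z y := by
    have := hs.eventually
    rw [nhds_prod_eq] at this
    exact this.curry.self_of_nhds
  filter_upwards [h1] with y hy
  obtain ⟨w, hw, hd⟩ := hr z y
  have hwm : w ∈ segMin e z := by
    change dist z (e z w) = ‖w‖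
    rw [hw, hd]
  have h2 : logMap e z y = w := by
    rw [← hw]
    exact logMap_eq he hwm (by rw [hw]; exact hy)
  rw [h2]
  exact ⟨hwm, hw⟩

lemma eventually_logMap_exp (he : IsExp e)
    (hr : ∀ x y : M, ∃ v : TangentSpace 𝓘(ℝ, E) x, e x v = y ∧ dist x y = ‖v‖) {z : M}
    {v : TangentSpace 𝓘(ℝ, E) z} (hv : v ∈ segMin e z) (hs : SmoothAt E z (e z v)) :
    ∀ᶠ b in 𝓝 v, logMap e z (e z b) = b := by
  set y₀ := e z v with hy₀
  set φ := extChartAt 𝓘(ℝ, E) y₀ with hφ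
  set u₀ := φ y₀ with hu₀
  have : FiniteDimensional ℝ (TangentSpace 𝓘(ℝ, E) z) := inferInstanceAs (FiniteDimensional ℝ E)
  have : CompleteSpace (TangentSpace 𝓘(ℝ, E) z) := FiniteDimensional.complete ℝ _
  have : CompleteSpace E := FiniteDimensional.complete ℝ _
  have hψ : ContMDiffAt 𝓘(ℝ, E) 𝓘(ℝ, E) ∞ φ.symm u₀ :=
    (contMDiffOn_extChartAt_symm y₀).contMDiffAt (extChartAt_target_mem_nhds y₀)
  have hψ0 : φ.symm u₀ = y₀ := extChartAt_to_inv y₀
  have hL0 : logMap e z y₀ = v := logMap_eq he hv hs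
  have hl : ContDiffAt ℝ ∞ (fun u : E => logMap e z (φ.symm u)) u₀ := by
    have h1 : ContMDiffAt 𝓘(ℝ, E) 𝓘(ℝ, TangentSpace 𝓘(ℝ, E) z) ∞ (logMap e z) (φ.symm u₀) := by
      rw [hψ0]
      exact contMDiffAt_logMap he hs
    exact (h1.comp u₀ hψ).contDiffAt
  have hl0 : logMap e z (φ.symm u₀) = v := by rw [hψ0, hL0]
  have hg : ContDiffAt ℝ ∞ (fun b : TangentSpace 𝓘(ℝ, E) z => φ (e z b)) v := by
    have h2 : ContMDiffAt 𝓘(ℝ, E) 𝓘(ℝ, E) ∞ φ (e z v) := contMDiffAt_extChartAt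
    exact (h2.comp v (contMDiff_exp_fiber he z).contMDiffAt).contDiffAt
  have hev : ∀ᶠ u in 𝓝 u₀, e z (logMap e z (φ.symm u)) = φ.symm u := by
    have h3 := hψ.continuousAt.eventually (by rw [hψ0]; exact eventually_logMap he hr hs)
    filter_upwards [h3] with u hu using hu.2
  have hgl : ∀ᶠ u in 𝓝 u₀, (fun b : TangentSpace 𝓘(ℝ, E) z => φ (e z b))
      (logMap e z (φ.symm u)) = u := by
    filter_upwards [hev, extChartAt_target_mem_nhds (I := 𝓘(ℝ, E)) y₀] with u hu hut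
    simp only [hu]
    exact φ.right_inv hut
  have hdl := (hl.differentiableAt (by simp)).hasFDerivAt
  have hdg : HasFDerivAt (fun b : TangentSpace 𝓘(ℝ, E) z => φ (e z b))
      (fderiv ℝ (fun b : TangentSpace 𝓘(ℝ, E) z => φ (e z b)) v)
      (logMap e z (φ.symm u₀)) := by
    rw [hl0]
    exact (hg.differentiableAt (by simp)).hasFDerivAt
  have hcomp := hdg.comp u₀ hdl
  have hid : (fderiv ℝ (fun b : TangentSpace 𝓘(ℝ, E) z => φ (e z b)) v).comp
      (fderiv ℝ (fun u : E => logMap e z (φ.symm u)) u₀) = ContinuousLinearMap.id ℝ E := by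
    refine hcomp.unique ?_
    exact (hasFDerivAt_id u₀).congr_of_eventuallyEq hgl
  have hinj : Function.Injective (fderiv ℝ (fun u : E => logMap e z (φ.symm u)) u₀) := by
    intro a b hab
    have h4 := congrArg (fun A : E →L[ℝ] E => A a) hid
    have h5 := congrArg (fun A : E →L[ℝ] E => A b) hid
    simp only [ContinuousLinearMap.comp_apply, ContinuousLinearMap.id_apply] at h4 h5
    rw [← h4, ← h5, hab]
  have hsurj : Function.Surjective (fderiv ℝ (fun u : E => logMap e z (φ.symm u)) u₀) := by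
    have hfr : Module.finrank ℝ E = Module.finrank ℝ (TangentSpace 𝓘(ℝ, E) z) := rfl
    exact (LinearMap.injective_iff_surjective_of_finrank_eq_finrank
      (f := (fderiv ℝ (fun u : E => logMap e z (φ.symm u)) u₀).toLinearMap) hfr).mp hinj
  have hmap := (hl.hasStrictFDerivAt (by simp)).map_nhds_eq_of_surj
    (LinearMap.range_eq_top.mpr hsurj)
  rw [hl0] at hmap
  rw [← hmap]
  change ∀ᶠ u in 𝓝 u₀, logMap e z (e z (logMap e z (φ.symm u))) = logMap e z (φ.symm u)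
  filter_upwards [hev] with u hu
  rw [hu]

/-- Smooth local inverse of `e z` at a point `v` of the injectivity domain: take
`L y` representing minus the derivative at `0` of `a ↦ cost (e z a) y`. -/
lemma Facts.smoothLog (F : Facts e) {z : M} {v : TangentSpace 𝓘(ℝ, E) z}
    (hv : v ∈ injDomain e z) :
    ∃ L : M → TangentSpace 𝓘(ℝ, E) z,
      ContMDiffAt 𝓘(ℝ, E) 𝓘(ℝ, TangentSpace 𝓘(ℝ, E) z) ∞ L (e z v) ∧ L (e z v) = v ∧
      (∀ᶠ y in 𝓝 (e z v), L y ∈ segMin e z ∧ e z (L y) = y) ∧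
      (∀ᶠ b in 𝓝 v, L (e z b) = b) := by
  have hs := F.smooth_cost z v hv
  have hm := injDomain_subset_segMin F.isExp z hv
  exact ⟨logMap e z, contMDiffAt_logMap F.isExp hs, logMap_eq F.isExp hm hs,
    eventually_logMap F.isExp F.hopfRinow hs, eventually_logMap_exp F.isExp F.hopfRinow hm hs⟩

lemma Facts.eventually_segMin (F : Facts e) {z : M} {v : TangentSpace 𝓘(ℝ, E) z}
    (hv : v ∈ injDomain e z) : ∀ᶠ b in 𝓝 v, b ∈ segMin e z := by
  obtain ⟨L, -, -, h1, h2⟩ := F.smoothLog hv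
  have h3 := (contMDiff_exp_fiber F.isExp z).continuous.continuousAt.eventually h1
  filter_upwards [h2, h3] with b hb hb'
  rw [hb] at hb'
  exact hb'.1

/-- The injectivity domain is open in the tangent space. -/
lemma Facts.isOpen_injDomain (F : Facts e) (z : M) : IsOpen (injDomain e z) := by
  rw [isOpen_iff_mem_nhds]
  intro v hv
  obtain ⟨a, ha, hav⟩ := (mem_injDomain_iff F.isExp).mp hv
  set b : ℝ := (1 + a) / 2 with hb
  have hb1 : 1 < b := by rw [hb]; linarith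
  have hba : b < a := by rw [hb]; linarith
  have ha0 : 0 < a := by linarith
  have hbv : b • v ∈ injDomain e z := by
    have := smul_mem_injDomain F.isExp hav (t := b / a) (by positivity)
      ((div_lt_one ha0).mpr hba)
    rwa [smul_smul, div_mul_cancel₀ _ ha0.ne'] at this
  have h1 := F.eventually_segMin hbv
  have h2 : Filter.Tendsto (fun w : TangentSpace 𝓘(ℝ, E) z => b • w) (𝓝 v) (𝓝 (b • v)) :=
    (continuous_const_smul b).continuousAt
  filter_upwards [h2.eventually h1] with w hw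
  exact (mem_injDomain_iff F.isExp).mpr ⟨b, hb1, hw⟩

end

end Vale.Agent.P234
end
end
end

section

section

section

/-! Foundation 1: the exponential map near the zero section. -/

set_option maxSynthPendingDepth 3
set_option linter.unusedSectionVars false

open Bundle Manifold Set Filter
open scoped ContDiff Manifold Topology

namespace Vale.Agent.P234

noncomputable section

/-- Inverse function theorem, smooth on a neighbourhood. -/
lemma exists_smooth_local_inverse {E : Type*} [NormedAddCommGroup E] [NormedSpace ℝ E]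
    [FiniteDimensional ℝ E] {G : E → E} {U : Set E} (hU : IsOpen U)
    (hG : ContDiffOn ℝ ∞ G U) {p₀ : E} (hp : p₀ ∈ U)
    (hinj : ∀ ξ, fderiv ℝ G p₀ ξ = 0 → ξ = 0) :
    ∃ H : E → E, H (G p₀) = p₀ ∧
      ∀ᶠ w in 𝓝 (G p₀), ContDiffAt ℝ ∞ H w ∧ H w ∈ U ∧ G (H w) = w := by
  have : CompleteSpace E := FiniteDimensional.complete ℝ E
  have hG0 : ContDiffAt ℝ ∞ G p₀ := hG.contDiffAt (hU.mem_nhds hp)
  have hn : (∞ : WithTop ℕ∞) ≠ 0 := by simp
  have hd : DifferentiableAt ℝ G p₀ := hG0.differentiableAt hn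
  have hinj' : Function.Injective (fderiv ℝ G p₀) :=
    (injective_iff_map_eq_zero _).2 hinj
  let L : E ≃L[ℝ] E := (LinearEquiv.ofInjectiveEndo (fderiv ℝ G p₀).toLinearMap
    hinj').toContinuousLinearEquiv
  have hL : (L : E →L[ℝ] E) = fderiv ℝ G p₀ := by
    ext x; rfl
  have hL' : HasFDerivAt G (L : E →L[ℝ] E) p₀ := by rw [hL]; exact hd.hasFDerivAt
  let g := hG0.toOpenPartialHomeomorph G hL' hn
  have hgc : ∀ x, g x = G x := fun x => rfl
  have hgs : p₀ ∈ g.source := hG0.mem_toOpenPartialHomeomorph_source hL' hn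
  refine ⟨g.symm, g.left_inv hgs, ?_⟩
  have ht : g.target ∈ 𝓝 (G p₀) := g.open_target.mem_nhds (g.map_source hgs)
  have hcont : ContinuousAt g.symm (G p₀) := g.continuousAt_symm (g.map_source hgs)
  have hsymm : g.symm (G p₀) = p₀ := g.left_inv hgs
  have hfd : ContinuousAt (fderiv ℝ G) p₀ := (hG0.fderiv_right (m := 0) (by simp)).continuousAt
  have hopen : ∀ᶠ x in 𝓝 p₀, ∃ L' : E ≃L[ℝ] E, (L' : E →L[ℝ] E) = fderiv ℝ G x := by
    have h1 : Set.range ((↑) : (E ≃L[ℝ] E) → E →L[ℝ] E) ∈ 𝓝 (fderiv ℝ G p₀) := by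
      rw [← hL]; exact ContinuousLinearEquiv.nhds L
    exact hfd h1
  have hU' : ∀ᶠ x in 𝓝 p₀, x ∈ U := hU.mem_nhds hp
  have hcont' : Tendsto g.symm (𝓝 (G p₀)) (𝓝 p₀) := by
    have := hcont.tendsto
    rwa [hsymm] at this
  filter_upwards [ht, hcont'.eventually hopen, hcont'.eventually hU'] with w hw hw2 hw3
  refine ⟨?_, hw3, g.right_inv hw⟩
  obtain ⟨L', hL'⟩ := hw2
  have hGw : ContDiffAt ℝ ∞ G (g.symm w) := hG.contDiffAt (hU.mem_nhds hw3)
  apply g.contDiffAt_symm hw (f₀' := L')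
  · have : HasFDerivAt G (fderiv ℝ G (g.symm w)) (g.symm w) :=
      (hGw.differentiableAt hn).hasFDerivAt
    rw [← hL'] at this
    exact this
  · exact hGw

section param

variable {E : Type*} [NormedAddCommGroup E] [NormedSpace ℝ E]
  {M : Type*} [MetricSpace M] [ChartedSpace E M]
  [IsManifold 𝓘(ℝ, E) ∞ M]

/-- local parametrization of the tangent bundle -/
def prm (x₀ : M) (q : E × E) : TangentBundle 𝓘(ℝ, E) M :=
  (trivializationAt E (TangentSpace 𝓘(ℝ, E)) x₀).toOpenPartialHomeomorph.symm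
    ((extChartAt 𝓘(ℝ, E) x₀).symm q.1, q.2)

lemma prm_mem_target (x₀ : M) {q : E × E} (hq : q.1 ∈ (extChartAt 𝓘(ℝ, E) x₀).target) :
    ((extChartAt 𝓘(ℝ, E) x₀).symm q.1, q.2) ∈
      (trivializationAt E (TangentSpace 𝓘(ℝ, E)) x₀).target := by
  rw [Trivialization.mem_target]
  have h := (extChartAt 𝓘(ℝ, E) x₀).map_target hq
  rw [extChartAt_source] at h
  exact h

lemma prm_proj (x₀ : M) {q : E × E} (hq : q.1 ∈ (extChartAt 𝓘(ℝ, E) x₀).target) :
    (prm x₀ q).proj = (extChartAt 𝓘(ℝ, E) x₀).symm q.1 :=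
  Trivialization.proj_symm_apply _ (prm_mem_target x₀ hq)

lemma contMDiffOn_prm (x₀ : M) : ContMDiffOn 𝓘(ℝ, E × E) (𝓘(ℝ, E).tangent) ∞ (prm (E := E) x₀)
    ((extChartAt 𝓘(ℝ, E) x₀).target ×ˢ univ) := by
  have hmaps : MapsTo (prm (E := E) x₀) ((extChartAt 𝓘(ℝ, E) x₀).target ×ˢ univ)
      (trivializationAt E (TangentSpace 𝓘(ℝ, E)) x₀).source := by
    intro q hq
    exact (trivializationAt E (TangentSpace 𝓘(ℝ, E)) x₀).toOpenPartialHomeomorph.map_target
      (prm_mem_target x₀ hq.1)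
  refine (Trivialization.contMDiffOn_iff hmaps).2 ⟨?_, ?_⟩
  · have h1 : ContMDiffOn 𝓘(ℝ, E × E) 𝓘(ℝ, E) ∞
        (fun q : E × E => (extChartAt 𝓘(ℝ, E) x₀).symm q.1)
        ((extChartAt 𝓘(ℝ, E) x₀).target ×ˢ univ) := by
      refine (contMDiffOn_extChartAt_symm x₀).comp (contDiff_fst.contMDiff.contMDiffOn) ?_
      intro q hq
      exact hq.1
    exact h1.congr (fun q hq => prm_proj x₀ hq.1)
  · have h2 : ContMDiffOn 𝓘(ℝ, E × E) 𝓘(ℝ, E) ∞ (fun q : E × E => q.2)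
        ((extChartAt 𝓘(ℝ, E) x₀).target ×ˢ univ) := contDiff_snd.contMDiff.contMDiffOn
    refine h2.congr (fun q hq => ?_)
    rw [prm, Trivialization.apply_symm_apply _ (prm_mem_target x₀ hq.1)]

/-- value of the parametrization on the fibre over the centre -/
lemma prm_center (x₀ : M) (b : E) :
    prm x₀ (extChartAt 𝓘(ℝ, E) x₀ x₀, b) =
      (⟨x₀, (trivializationAt E (TangentSpace 𝓘(ℝ, E)) x₀).symmL ℝ x₀ b⟩ :
        TangentBundle 𝓘(ℝ, E) M) := by
  rw [prm]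
  simp only [extChartAt_to_inv]
  rw [Trivialization.symmL_apply _ (mem_baseSet_trivializationAt E _ x₀)]
  exact (Trivialization.mk_symm _ (mem_baseSet_trivializationAt E _ x₀) b).symm

lemma isOpen_prm_domain (x₀ : M) :
    IsOpen (((extChartAt 𝓘(ℝ, E) x₀).target ×ˢ univ : Set (E × E))) :=
  (isOpen_extChartAt_target x₀).prod isOpen_univ

lemma symmL_center_injective (x₀ : M) {b : E}
    (h : (trivializationAt E (TangentSpace 𝓘(ℝ, E)) x₀).symmL ℝ x₀ b = 0) : b = 0 := by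
  have h1 := (trivializationAt E (TangentSpace 𝓘(ℝ, E)) x₀).continuousLinearMapAt_symmL (R := ℝ)
    (mem_baseSet_trivializationAt E _ x₀) b
  rw [h, map_zero] at h1
  exact h1.symm

end param

variable {E : Type*} [NormedAddCommGroup E] [NormedSpace ℝ E] [FiniteDimensional ℝ E]
  {M : Type*} [MetricSpace M] [ChartedSpace E M]
  [RiemannianBundle (fun x : M => TangentSpace 𝓘(ℝ, E) x)]
  [IsManifold 𝓘(ℝ, E) ∞ M]
  [IsContMDiffRiemannianBundle 𝓘(ℝ, E) ∞ E (fun x : M => TangentSpace 𝓘(ℝ, E) x)]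
  {e : ∀ x : M, TangentSpace 𝓘(ℝ, E) x → M}

lemma contMDiff_ray (he : IsExp e) (x : M) (v : TangentSpace 𝓘(ℝ, E) x) :
    ContMDiff 𝓘(ℝ, ℝ) 𝓘(ℝ, E) ∞ (fun t : ℝ => e x (t • v)) := by
  have h1 : ContMDiff 𝓘(ℝ, ℝ) 𝓘(ℝ, TangentSpace 𝓘(ℝ, E) x) ∞ (fun t : ℝ => t • v) :=
    (contDiff_id.smul contDiff_const).contMDiff
  exact (contMDiff_exp_fiber he x).comp h1

lemma hasDerivAt_exp_chart (he : IsExp e) (x : M) (v : TangentSpace 𝓘(ℝ, E) x) :
    HasDerivAt (fun t : ℝ => extChartAt 𝓘(ℝ, E) x (e x (t • v))) (v : E) 0 := by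
  have hdiff : MDifferentiableAt 𝓘(ℝ, ℝ) 𝓘(ℝ, E) (fun t : ℝ => e x (t • v)) 0 :=
    (contMDiff_ray he x v).mdifferentiableAt (by simp)
  have h := he.velocity x v
  rw [hdiff.mfderiv] at h
  have hd := hdiff.differentiableWithinAt_writtenInExtChartAt
  have h0 : e x ((0 : ℝ) • v) = x := by rw [zero_smul]; exact he.map_zero x
  simp only [writtenInExtChartAt, h0, mfld_simps] at h hd
  rw [differentiableWithinAt_univ] at hd
  rw [fderivWithin_univ] at h
  have h2 := hd.hasFDerivAt.hasDerivAt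
  simp only [Function.comp_def] at h2 h
  exact h2.congr_deriv h

/-- the map `(x, v) ↦ (x, e x v)` in coordinates -/
def expCoord (e : ∀ x : M, TangentSpace 𝓘(ℝ, E) x → M) (x₀ : M) (q : E × E) : E × E :=
  (q.1, extChartAt 𝓘(ℝ, E) x₀ (e (prm x₀ q).proj (prm x₀ q).snd))

/-- its domain -/
def expDom (e : ∀ x : M, TangentSpace 𝓘(ℝ, E) x → M) (x₀ : M) : Set (E × E) :=
  ((extChartAt 𝓘(ℝ, E) x₀).target ×ˢ univ) ∩
    (fun q => e (prm x₀ q).proj (prm x₀ q).snd) ⁻¹' (extChartAt 𝓘(ℝ, E) x₀).source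

lemma contMDiffOn_expPrm (he : IsExp e) (x₀ : M) :
    ContMDiffOn 𝓘(ℝ, E × E) 𝓘(ℝ, E) ∞
      (fun q => e (prm (E := E) x₀ q).proj (prm x₀ q).snd)
      ((extChartAt 𝓘(ℝ, E) x₀).target ×ˢ univ) :=
  he.smooth.comp_contMDiffOn (contMDiffOn_prm x₀)

lemma isOpen_expDom (he : IsExp e) (x₀ : M) : IsOpen (expDom e x₀) :=
  (contMDiffOn_expPrm he x₀).continuousOn.isOpen_inter_preimage (isOpen_prm_domain x₀)
    (isOpen_extChartAt_source x₀)

lemma exp_prm_center (he : IsExp e) (x₀ : M) :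
    e (prm x₀ (extChartAt 𝓘(ℝ, E) x₀ x₀, (0 : E))).proj
      (prm x₀ (extChartAt 𝓘(ℝ, E) x₀ x₀, (0 : E))).snd = x₀ := by
  rw [prm_center, map_zero]
  exact he.map_zero x₀

lemma center_mem_expDom (he : IsExp e) (x₀ : M) :
    (extChartAt 𝓘(ℝ, E) x₀ x₀, (0 : E)) ∈ expDom e x₀ := by
  refine ⟨⟨mem_extChartAt_target x₀, mem_univ _⟩, ?_⟩
  rw [mem_preimage, exp_prm_center he]
  exact mem_extChartAt_source x₀

lemma contDiffOn_expCoord (he : IsExp e) (x₀ : M) :
    ContDiffOn ℝ ∞ (expCoord e x₀) (expDom e x₀) := by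
  apply contDiff_fst.contDiffOn.prodMk
  rw [← contMDiffOn_iff_contDiffOn]
  have h1 : ContMDiffOn 𝓘(ℝ, E) 𝓘(ℝ, E) ∞ (extChartAt 𝓘(ℝ, E) x₀) (chartAt E x₀).source :=
    contMDiffOn_extChartAt
  refine h1.comp ((contMDiffOn_expPrm he x₀).mono inter_subset_left) ?_
  intro q hq
  have := hq.2
  rw [mem_preimage, extChartAt_source] at this
  exact this

lemma expCoord_center (he : IsExp e) (x₀ : M) :
    expCoord e x₀ (extChartAt 𝓘(ℝ, E) x₀ x₀, (0 : E))
      = (extChartAt 𝓘(ℝ, E) x₀ x₀, extChartAt 𝓘(ℝ, E) x₀ x₀) := by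
  rw [expCoord, exp_prm_center he]

lemma expCoord_injective (he : IsExp e) (x₀ : M) (ξ : E × E)
    (h : fderiv ℝ (expCoord e x₀) (extChartAt 𝓘(ℝ, E) x₀ x₀, (0 : E)) ξ = 0) : ξ = 0 := by
  have hd : DifferentiableAt ℝ (expCoord e x₀) (extChartAt 𝓘(ℝ, E) x₀ x₀, (0 : E)) :=
    ((contDiffOn_expCoord he x₀).contDiffAt
      ((isOpen_expDom he x₀).mem_nhds (center_mem_expDom he x₀))).differentiableAt (by simp)
  have hf := hd.hasFDerivAt
  have h1 : HasFDerivAt (fun q => (expCoord e x₀ q).1)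
      ((ContinuousLinearMap.fst ℝ E E).comp
        (fderiv ℝ (expCoord e x₀) (extChartAt 𝓘(ℝ, E) x₀ x₀, (0 : E))))
      (extChartAt 𝓘(ℝ, E) x₀ x₀, (0 : E)) := hasFDerivAt_fst.comp _ hf
  have h2 : HasFDerivAt (fun q => (expCoord e x₀ q).1) (ContinuousLinearMap.fst ℝ E E)
      (extChartAt 𝓘(ℝ, E) x₀ x₀, (0 : E)) := hasFDerivAt_fst
  have h3 := h1.unique h2
  have h4 : ξ.1 = 0 := by
    have := congrArg (fun L => L ξ) h3
    simp only [ContinuousLinearMap.comp_apply, h, map_zero, ContinuousLinearMap.coe_fst'] at this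
    exact this.symm
  have hline : HasDerivAt (fun t : ℝ => ((extChartAt 𝓘(ℝ, E) x₀ x₀, (0 : E)) : E × E) + t • ξ)
      ξ 0 := by
    simpa using ((hasDerivAt_id (0 : ℝ)).smul_const ξ).const_add
      ((extChartAt 𝓘(ℝ, E) x₀ x₀, (0 : E)) : E × E)
  have hf' : HasFDerivAt (expCoord e x₀)
      (fderiv ℝ (expCoord e x₀) (extChartAt 𝓘(ℝ, E) x₀ x₀, (0 : E)))
      ((fun t : ℝ => ((extChartAt 𝓘(ℝ, E) x₀ x₀, (0 : E)) : E × E) + t • ξ) 0) := by
    simpa using hf
  have h5 := hf'.comp_hasDerivAt (0 : ℝ) hline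
  rw [h] at h5
  have h6 : HasDerivAt (fun t : ℝ => (expCoord e x₀
      (((extChartAt 𝓘(ℝ, E) x₀ x₀, (0 : E)) : E × E) + t • ξ)).2) (0 : E) 0 := by
    exact hasFDerivAt_snd.comp_hasDerivAt (0 : ℝ) h5
  have h7 : (fun t : ℝ => (expCoord e x₀
      (((extChartAt 𝓘(ℝ, E) x₀ x₀, (0 : E)) : E × E) + t • ξ)).2)
      = fun t : ℝ => extChartAt 𝓘(ℝ, E) x₀ (e x₀
        (t • (trivializationAt E (TangentSpace 𝓘(ℝ, E)) x₀).symmL ℝ x₀ ξ.2)) := by
    funext t
    have h8 : ((extChartAt 𝓘(ℝ, E) x₀ x₀, (0 : E)) : E × E) + t • ξ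
        = (extChartAt 𝓘(ℝ, E) x₀ x₀, t • ξ.2) := by
      ext <;> simp [h4]
    rw [h8, expCoord, prm_center, map_smul]
  rw [h7] at h6
  have h9 := hasDerivAt_exp_chart he x₀
    ((trivializationAt E (TangentSpace 𝓘(ℝ, E)) x₀).symmL ℝ x₀ ξ.2)
  have h10 := h6.unique h9
  have h11 : ξ.2 = 0 := symmL_center_injective x₀ h10.symm
  exact Prod.ext h4 h11

/-- Local inverse of the exponential map near the zero section, smooth on a neighbourhood. -/
lemma exists_local_log_open (he : IsExp e) (x₀ : M) :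
    ∃ V : M × M → TangentBundle 𝓘(ℝ, E) M,
      V (x₀, x₀) = ⟨x₀, 0⟩ ∧
      ∀ᶠ p in 𝓝 ((x₀, x₀) : M × M),
        ContMDiffAt (𝓘(ℝ, E).prod 𝓘(ℝ, E)) 𝓘(ℝ, E).tangent ∞ V p ∧
        (V p).proj = p.1 ∧ e (V p).proj (V p).snd = p.2 := by
  obtain ⟨H, hH0, hH⟩ := exists_smooth_local_inverse (isOpen_expDom he x₀)
    (contDiffOn_expCoord he x₀) (center_mem_expDom he x₀) (expCoord_injective he x₀)
  rw [expCoord_center he] at hH0 hH
  refine ⟨fun p => prm x₀ (H (extChartAt 𝓘(ℝ, E) x₀ p.1, extChartAt 𝓘(ℝ, E) x₀ p.2)), ?_, ?_⟩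
  · simp only
    rw [hH0, prm_center, map_zero]
  · have hs : ∀ᶠ p in 𝓝 ((x₀, x₀) : M × M), p.1 ∈ (extChartAt 𝓘(ℝ, E) x₀).source ∧
        p.2 ∈ (extChartAt 𝓘(ℝ, E) x₀).source := by
      have h1 : (extChartAt 𝓘(ℝ, E) x₀).source ∈ 𝓝 x₀ := extChartAt_source_mem_nhds x₀
      exact prod_mem_nhds h1 h1
    have hc : Tendsto (fun p : M × M => (extChartAt 𝓘(ℝ, E) x₀ p.1, extChartAt 𝓘(ℝ, E) x₀ p.2))
        (𝓝 (x₀, x₀)) (𝓝 (extChartAt 𝓘(ℝ, E) x₀ x₀, extChartAt 𝓘(ℝ, E) x₀ x₀)) := by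
      have h1 : ContinuousAt (extChartAt 𝓘(ℝ, E) x₀) x₀ := continuousAt_extChartAt x₀
      have h2 : ContinuousAt (fun p : M × M => extChartAt 𝓘(ℝ, E) x₀ p.1) (x₀, x₀) :=
        ContinuousAt.comp (f := Prod.fst) h1 continuousAt_fst
      have h3 : ContinuousAt (fun p : M × M => extChartAt 𝓘(ℝ, E) x₀ p.2) (x₀, x₀) :=
        ContinuousAt.comp (f := Prod.snd) h1 continuousAt_snd
      exact (h2.prodMk h3).tendsto
    filter_upwards [hs, hc.eventually hH] with p hp hp2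
    obtain ⟨hp3, hp4, hp5⟩ := hp2
    refine ⟨?_, ?_, ?_⟩
    · have h1 : ContMDiffAt (𝓘(ℝ, E).prod 𝓘(ℝ, E)) 𝓘(ℝ, E) ∞
          (fun p : M × M => extChartAt 𝓘(ℝ, E) x₀ p.1) p := by
        have := contMDiffAt_extChartAt' (I := 𝓘(ℝ, E)) (n := ∞) (x := x₀) (x' := p.1)
          (by rw [← extChartAt_source 𝓘(ℝ, E)]; exact hp.1)
        exact this.comp p contMDiffAt_fst
      have h2 : ContMDiffAt (𝓘(ℝ, E).prod 𝓘(ℝ, E)) 𝓘(ℝ, E) ∞
          (fun p : M × M => extChartAt 𝓘(ℝ, E) x₀ p.2) p := by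
        have := contMDiffAt_extChartAt' (I := 𝓘(ℝ, E)) (n := ∞) (x := x₀) (x' := p.2)
          (by rw [← extChartAt_source 𝓘(ℝ, E)]; exact hp.2)
        exact this.comp p contMDiffAt_snd
      have h3 := h1.prodMk_space h2
      have h4 : ContMDiffAt 𝓘(ℝ, E × E) 𝓘(ℝ, E × E) ∞ H
          (extChartAt 𝓘(ℝ, E) x₀ p.1, extChartAt 𝓘(ℝ, E) x₀ p.2) := hp3.contMDiffAt
      have h5 : ContMDiffAt 𝓘(ℝ, E × E) (𝓘(ℝ, E).tangent) ∞ (prm (E := E) x₀)
          (H (extChartAt 𝓘(ℝ, E) x₀ p.1, extChartAt 𝓘(ℝ, E) x₀ p.2)) :=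
        (contMDiffOn_prm x₀).contMDiffAt ((isOpen_prm_domain x₀).mem_nhds hp4.1)
      have h6 := h4.comp p h3
      exact ContMDiffAt.comp (g := prm (E := E) x₀)
        (f := H ∘ fun p : M × M => (extChartAt 𝓘(ℝ, E) x₀ p.1, extChartAt 𝓘(ℝ, E) x₀ p.2)) p h5 h6
    · rw [prm_proj x₀ hp4.1.1]
      have := congrArg Prod.fst hp5
      simp only [expCoord] at this
      rw [this]
      exact (extChartAt 𝓘(ℝ, E) x₀).left_inv hp.1
    · have h1 := congrArg Prod.snd hp5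
      simp only [expCoord] at h1
      exact (extChartAt 𝓘(ℝ, E) x₀).injOn hp4.2 hp.2 h1

/-- the squared norm is a smooth function on the tangent bundle -/
lemma contMDiff_normSq : ContMDiff (𝓘(ℝ, E).tangent) 𝓘(ℝ, ℝ) ∞
    (fun p : TangentBundle 𝓘(ℝ, E) M => inner ℝ p.snd p.snd) := by
  have h : ContMDiff (𝓘(ℝ, E).tangent) (𝓘(ℝ, E).prod 𝓘(ℝ, E)) ∞
      (fun p : TangentBundle 𝓘(ℝ, E) M => (⟨p.proj, p.snd⟩ : TangentBundle 𝓘(ℝ, E) M)) :=
    contMDiff_id
  exact ContMDiff.inner_bundle h h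

lemma continuous_norm_snd : Continuous (fun p : TangentBundle 𝓘(ℝ, E) M => ‖p.snd‖) := by
  have h : Continuous (fun p : TangentBundle 𝓘(ℝ, E) M => Real.sqrt (inner ℝ p.snd p.snd)) :=
    Real.continuous_sqrt.comp contMDiff_normSq.continuous
  refine h.congr (fun p => ?_)
  rw [real_inner_self_eq_norm_sq, Real.sqrt_sq (norm_nonneg _)]

/-- Near the diagonal the cost is smooth and minimizing vectors exist. -/
lemma exists_near_diag [CompactSpace M] (he : IsExp e) : ∃ ρ : ℝ, 0 < ρ ∧ ∀ x y : M, dist x y < ρ →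
    ContMDiffAt (𝓘(ℝ, E).prod 𝓘(ℝ, E)) 𝓘(ℝ, ℝ) ∞ (fun p : M × M => cost p.1 p.2) (x, y) ∧
      ∃ v : TangentSpace 𝓘(ℝ, E) x, e x v = y ∧ dist x y = ‖v‖ := by
  obtain ⟨ρ₀, hρ₀, hmin⟩ := he.minimizing
  have key : ∀ x₀ : M, ∀ᶠ p in 𝓝 ((x₀, x₀) : M × M),
      ContMDiffAt (𝓘(ℝ, E).prod 𝓘(ℝ, E)) 𝓘(ℝ, ℝ) ∞ (fun p : M × M => cost p.1 p.2) p ∧
      ∃ v : TangentSpace 𝓘(ℝ, E) p.1, e p.1 v = p.2 ∧ dist p.1 p.2 = ‖v‖ := by
    intro x₀
    obtain ⟨V, hV0, hV⟩ := exists_local_log_open he x₀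
    have hc : Tendsto (fun p => ‖(V p).snd‖) (𝓝 (x₀, x₀)) (𝓝 0) := by
      have h1 : ContinuousAt (fun p => ‖(V p).snd‖) (x₀, x₀) :=
        continuous_norm_snd.continuousAt.comp hV.self_of_nhds.1.continuousAt
      have h2 := h1.tendsto
      rw [hV0] at h2
      simpa using h2
    have hnear : ∀ᶠ p in 𝓝 ((x₀, x₀) : M × M),
        ContMDiffAt (𝓘(ℝ, E).prod 𝓘(ℝ, E)) 𝓘(ℝ, E).tangent ∞ V p ∧
        (V p).proj = p.1 ∧ e (V p).proj (V p).snd = p.2 ∧ dist p.1 p.2 = ‖(V p).snd‖ := by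
      filter_upwards [hV, hc.eventually (gt_mem_nhds hρ₀)] with p hp hp2
      refine ⟨hp.1, hp.2.1, hp.2.2, ?_⟩
      have h3 := hmin (V p).proj (V p).snd 0 1 (by simpa using hp2.le)
      rw [zero_smul, one_smul, he.map_zero, hp.2.2] at h3
      rw [← hp.2.1]
      simpa using h3
    have hnear2 := eventually_eventually_nhds.2 hnear
    filter_upwards [hnear, hnear2] with p hp hp2
    refine ⟨?_, ?_⟩
    · have h1 : (fun q : M × M => cost q.1 q.2) =ᶠ[𝓝 p]
          (fun q => (1 / 2 : ℝ) * inner ℝ (V q).snd (V q).snd) := by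
        filter_upwards [hp2] with q hq
        rw [cost, hq.2.2.2, real_inner_self_eq_norm_sq]
        ring
      have h2 : ContMDiffAt (𝓘(ℝ, E).prod 𝓘(ℝ, E)) 𝓘(ℝ, ℝ) ∞
          (fun q => inner ℝ (V q).snd (V q).snd) p :=
        (contMDiff_normSq (V p)).comp p hp.1
      have h3 : ContMDiffAt (𝓘(ℝ, E).prod 𝓘(ℝ, E)) 𝓘(ℝ, ℝ) ∞
          (fun q => (1 / 2 : ℝ) * inner ℝ (V q).snd (V q).snd) p :=
        (contMDiffAt_const (c := (1 / 2 : ℝ))).mul h2
      exact h3.congr_of_eventuallyEq h1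
    · obtain ⟨-, h1, h2, h3⟩ := hp
      generalize V p = w at h1 h2 h3
      obtain ⟨x, y⟩ := p
      simp only at h1 h2 h3 ⊢
      subst h1
      exact ⟨w.snd, h2, h3⟩
  have hdiag : ∀ᶠ p in 𝓝ˢ (diagonal M),
      ContMDiffAt (𝓘(ℝ, E).prod 𝓘(ℝ, E)) 𝓘(ℝ, ℝ) ∞ (fun p : M × M => cost p.1 p.2) p ∧
      ∃ v : TangentSpace 𝓘(ℝ, E) p.1, e p.1 v = p.2 ∧ dist p.1 p.2 = ‖v‖ := by
    rw [eventually_nhdsSet_iff_forall]
    rintro ⟨x, y⟩ hxy
    have : x = y := hxy
    subst this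
    exact key x
  rw [nhdsSet_diagonal_eq_uniformity] at hdiag
  obtain ⟨ρ, hρ, h⟩ := Metric.mem_uniformity_dist.1 hdiag
  exact ⟨ρ, hρ, fun x y hxy => h hxy⟩

/-- Near the diagonal the cost is smooth and minimizing vectors exist. -/
lemma exists_near [CompactSpace M] (he : IsExp e) : ∃ ρ : ℝ, 0 < ρ ∧ ∀ x y : M, dist x y < ρ →
    SmoothAt E x y ∧ ∃ v : TangentSpace 𝓘(ℝ, E) x, e x v = y ∧ dist x y = ‖v‖ := by
  obtain ⟨ρ, hρ, h⟩ := exists_near_diag he
  refine ⟨ρ, hρ, fun x y hxy => ⟨?_, (h x y hxy).2⟩⟩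
  have h1 : ∀ᶠ p in 𝓝 (x, y), dist p.1 p.2 < ρ :=
    (continuous_dist.tendsto (x, y)).eventually (gt_mem_nhds hxy)
  filter_upwards [h1] with p hp
  exact (h p.1 p.2 hp).1

end

end Vale.Agent.P234
end
end
end

section

section

section

/-! Foundation 2: short geodesics and the flow property. -/

set_option maxSynthPendingDepth 3

open Bundle Manifold Set Filter
open scoped ContDiff Manifold Topology

namespace Vale.Agent.P234

noncomputable section

variable {E : Type*} [NormedAddCommGroup E] [NormedSpace ℝ E] [FiniteDimensional ℝ E]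
  {M : Type*} [MetricSpace M] [ChartedSpace E M]
  [RiemannianBundle (fun x : M => TangentSpace 𝓘(ℝ, E) x)]
  [IsManifold 𝓘(ℝ, E) ∞ M]
  [IsContMDiffRiemannianBundle 𝓘(ℝ, E) ∞ E (fun x : M => TangentSpace 𝓘(ℝ, E) x)]
  {e : ∀ x : M, TangentSpace 𝓘(ℝ, E) x → M}

/-- Uniqueness of the minimizing vector when the cost is smooth. -/
lemma sh_unique (he : IsExp e) {x : M} {v w : TangentSpace 𝓘(ℝ, E) x}
    (hv : v ∈ segMin e x) (hw : w ∈ segMin e x) (hs : SmoothAt E x (e x v))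
    (hvw : e x w = e x v) : w = v := by
  have h1 := hasFDerivAt_cost_zero he x v hv hs
  have h2 := hasFDerivAt_cost_zero he x w hw (by rw [hvw]; exact hs)
  rw [hvw] at h2
  have h3 := h2.unique h1
  have h4 : innerSL ℝ w = innerSL ℝ v := neg_injective h3
  have h5 : ∀ u : TangentSpace 𝓘(ℝ, E) x, inner ℝ w u = inner ℝ v u := by
    intro u
    have := DFunLike.congr_fun h4 u
    simpa using this
  exact ext_inner_right ℝ h5

/-- No corner at an intermediate point. -/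
lemma sh_corner (he : IsExp e) {x q y : M} {s t : ℝ} (hs : 0 < s) (ht : 0 < t)
    {p w : TangentSpace 𝓘(ℝ, E) q} (hp : p ∈ segMin e q) (hpx : e q p = x)
    (hw : w ∈ segMin e q) (hwy : e q w = y) (hxq : dist q x = s) (hqy : dist q y = t)
    (hxy : dist x y = s + t) (h1 : SmoothAt E q x) (h2 : SmoothAt E q y) :
    w = -((t / s) • p) := by
  subst hpx
  subst hwy
  have d1 := hasFDerivAt_cost_zero he q p hp h1
  have d2 := hasFDerivAt_cost_zero he q w hw h2
  have d3 := (d1.const_mul s⁻¹).add (d2.const_mul t⁻¹)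
  have hmin : IsLocalMin (fun a : TangentSpace 𝓘(ℝ, E) q =>
      s⁻¹ * cost (e q a) (e q p) + t⁻¹ * cost (e q a) (e q w)) 0 := by
    apply Filter.Eventually.of_forall
    intro a
    have h3 := cost_ineq (e q p) (e q a) (e q w) hs ht
    rw [cost_comm (e q p) (e q a)] at h3
    have h4 : cost (e q p) (e q w) / (s + t) = (s + t) / 2 := by
      unfold cost
      rw [hxy]
      field_simp
    have h5 : s⁻¹ * cost (e q 0) (e q p) + t⁻¹ * cost (e q 0) (e q w) = (s + t) / 2 := by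
      rw [he.map_zero]
      unfold cost
      rw [hxq, hqy]
      field_simp
    simp only
    rw [h5, ← h4]
    calc _ ≤ _ := h3
      _ = _ := by ring
  have h6 := hmin.hasFDerivAt_eq_zero d3
  have h7 : ∀ u : TangentSpace 𝓘(ℝ, E) q, inner ℝ (s⁻¹ • p + t⁻¹ • w) u = (0 : ℝ) := by
    intro u
    have h8 := DFunLike.congr_fun h6 u
    have h9 : s⁻¹ * -(inner ℝ p u) + t⁻¹ * -(inner ℝ w u) = (0 : ℝ) := by
      simpa using h8
    rw [inner_add_left, real_inner_smul_left, real_inner_smul_left]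
    linarith
  have h10 : s⁻¹ • p + t⁻¹ • w = 0 := ext_inner_right ℝ (fun u => by rw [h7 u, inner_zero_left])
  have h11 : t⁻¹ • w = -(s⁻¹ • p) := by
    rw [← sub_eq_zero, sub_neg_eq_add, add_comm]
    exact h10
  calc w = t • (t⁻¹ • w) := by rw [smul_smul, mul_inv_cancel₀ ht.ne', one_smul]
    _ = t • (-(s⁻¹ • p)) := by rw [h11]
    _ = _ := by rw [smul_neg, smul_smul, div_eq_mul_inv]

variable [CompactSpace M]

/-- A common small scale. -/
lemma sh_scale (he : IsExp e) : ∃ ρ : ℝ, 0 < ρ ∧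
    (∀ (x : M) (v : TangentSpace 𝓘(ℝ, E) x) (s t : ℝ),
      ‖v‖ * |t - s| ≤ ρ → dist (e x (s • v)) (e x (t • v)) = ‖v‖ * |t - s|) ∧
    (∀ x y : M, dist x y < ρ → SmoothAt E x y ∧
      ∃ v : TangentSpace 𝓘(ℝ, E) x, v ∈ segMin e x ∧ e x v = y) := by
  obtain ⟨ρ1, h1, hm⟩ := he.minimizing
  obtain ⟨ρ2, h2, hn⟩ := exists_near he
  refine ⟨min ρ1 ρ2, lt_min h1 h2, ?_, ?_⟩
  · intro x v s t h
    exact hm x v s t (h.trans (min_le_left _ _))
  · intro x y h
    obtain ⟨hs, v, hv, hd⟩ := hn x y (h.trans_le (min_le_right _ _))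
    refine ⟨hs, v, ?_, hv⟩
    change dist x (e x v) = ‖v‖
    rw [hv, hd]

lemma sh_between_aux (he : IsExp e) {ρ : ℝ}
    (hm : ∀ (x : M) (v : TangentSpace 𝓘(ℝ, E) x) (s t : ℝ),
      ‖v‖ * |t - s| ≤ ρ → dist (e x (s • v)) (e x (t • v)) = ‖v‖ * |t - s|)
    (hn : ∀ x y : M, dist x y < ρ → SmoothAt E x y ∧
      ∃ v : TangentSpace 𝓘(ℝ, E) x, v ∈ segMin e x ∧ e x v = y)
    (x : M) (v : TangentSpace 𝓘(ℝ, E) x) (hv : ‖v‖ < ρ / 2) (q : M)
    (hq : dist x q + dist q (e x v) = dist x (e x v)) :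
      ∃ t : ℝ, 0 ≤ t ∧ t ≤ 1 ∧ e x (t • v) = q := by
  have hv0 : 0 ≤ ‖v‖ := norm_nonneg v
  have hρ : 0 < ρ := by linarith
  -- distances along the curve
  have e0 : e x ((0 : ℝ) • v) = x := by rw [zero_smul, he.map_zero]
  have e1 : e x ((1 : ℝ) • v) = e x v := by rw [one_smul]
  have hxy : dist x (e x v) = ‖v‖ := by
    have := hm x v 0 1 (by norm_num; linarith)
    rw [e0, e1] at this
    simpa using this
  rcases eq_or_lt_of_le (dist_nonneg (x := q) (y := e x v)) with h0 | hpos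
  · refine ⟨1, zero_le_one, le_rfl, ?_⟩
    rw [e1]
    exact (dist_eq_zero.1 h0.symm).symm
  have hvpos : 0 < ‖v‖ := by
    have : 0 ≤ dist x q := dist_nonneg
    linarith
  set τ := dist x q / ‖v‖ with hτ
  have hτ0 : 0 ≤ τ := by positivity
  have hτv : τ * ‖v‖ = dist x q := by rw [hτ]; field_simp
  have hτ1 : τ ≤ 1 := by
    rw [hτ, div_le_one hvpos]
    linarith
  refine ⟨τ, hτ0, hτ1, ?_⟩
  set y := e x v with hy
  set y1 := e x ((2 : ℝ) • v) with hy1
  set q' := e x (τ • v) with hq'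
  set t := dist q y with ht
  have d1 : dist y y1 = ‖v‖ := by
    have := hm x v 1 2 (by norm_num; linarith)
    rw [e1, ← hy1] at this
    rw [this]; norm_num
  have d2 : dist x y1 = 2 * ‖v‖ := by
    have := hm x v 0 2 (by norm_num; linarith)
    rw [e0, ← hy1] at this
    rw [this]; norm_num; ring
  have d3 : dist q y1 = t + ‖v‖ := by
    have h1 := dist_triangle q y y1
    have h2 := dist_triangle x q y1
    linarith
  have d4 : dist q' y = t := by
    have h1 : |1 - τ| = 1 - τ := abs_of_nonneg (by linarith)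
    have := hm x v τ 1 (by rw [h1]; (by_contra nlg; linarith only [nlg, mul_eq_zero_of_left (sub_eq_zero.2 hq) (1 - (τ)), mul_eq_zero_of_left (sub_eq_zero.2 hxy) (1 - (τ)), mul_eq_zero_of_left (sub_eq_zero.2 hτv) (1 - (τ)), mul_nonneg (sub_nonneg.2 hτ0) (le_of_lt (sub_pos.2 hpos)), mul_eq_zero_of_left (sub_eq_zero.2 hq) (τ - (0)), mul_eq_zero_of_left (sub_eq_zero.2 hxy) (τ - (0)), mul_eq_zero_of_left (sub_eq_zero.2 hτv) (τ - (0)), mul_nonneg (le_of_lt (sub_pos.2 hv)) (sub_nonneg.2 hτ1), mul_nonneg (le_of_lt (sub_pos.2 (not_le.1 nlg))) (sub_nonneg.2 hτ1), hpos]))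
    rw [e1, ← hq', h1] at this
    rw [this]
    nlinarith
  have d5 : dist q' y1 = t + ‖v‖ := by
    have h1 : |2 - τ| = 2 - τ := abs_of_nonneg (by linarith)
    have := hm x v τ 2 (by rw [h1]; (by_contra nlg; linarith only [nlg, mul_nonneg (le_of_lt (sub_pos.2 hvpos)) (sub_nonneg.2 hτ0), mul_nonneg (le_of_lt (sub_pos.2 (not_le.1 nlg))) (sub_nonneg.2 hτ1), mul_nonneg (le_of_lt (sub_pos.2 (not_le.1 nlg))) (sub_nonneg.2 hτ0), hv]))
    rw [← hy1, ← hq', h1] at this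
    rw [this]
    nlinarith
  have htv : t ≤ ‖v‖ := by
    have : 0 ≤ dist x q := dist_nonneg
    linarith
  obtain ⟨hs1, p, hp, hpq⟩ := hn y q (by rw [dist_comm]; linarith)
  obtain ⟨hs2, p', hp', hpq'⟩ := hn y q' (by rw [dist_comm, d4]; linarith)
  obtain ⟨hs3, w, hw, hwy⟩ := hn y y1 (by linarith)
  have c1 := sh_corner he hpos hvpos hp hpq hw hwy (by rw [dist_comm]) d1 d3 hs1 hs3
  have c2 := sh_corner he hpos hvpos hp' hpq' hw hwy (by rw [dist_comm, d4]) d1 d5 hs2 hs3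
  rw [c2] at c1
  have c3 : (‖v‖ / t) • p' = (‖v‖ / t) • p := neg_injective c1
  have hne : ‖v‖ / t ≠ 0 := by positivity
  have c4 : p' = p := smul_right_injective _ hne c3
  rw [← hpq', ← hpq, c4]

/-- Uniqueness of intermediate points at small scale. -/
lemma short_between (he : IsExp e) : ∃ ρ : ℝ, 0 < ρ ∧ ∀ (x : M) (v : TangentSpace 𝓘(ℝ, E) x),
    ‖v‖ < ρ → ∀ q : M, dist x q + dist q (e x v) = dist x (e x v) →
      ∃ t : ℝ, 0 ≤ t ∧ t ≤ 1 ∧ e x (t • v) = q := by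
  obtain ⟨ρ, hρ, hm, hn⟩ := sh_scale he
  exact ⟨ρ / 2, by positivity, fun x v hv q hq => sh_between_aux he hm hn x v hv q hq⟩

/-- The local flow property, with a uniform time. -/
lemma sh_local (he : IsExp e) {ρ : ℝ}
    (hm : ∀ (x : M) (v : TangentSpace 𝓘(ℝ, E) x) (s t : ℝ),
      ‖v‖ * |t - s| ≤ ρ → dist (e x (s • v)) (e x (t • v)) = ‖v‖ * |t - s|)
    (hn : ∀ x y : M, dist x y < ρ → SmoothAt E x y ∧
      ∃ v : TangentSpace 𝓘(ℝ, E) x, v ∈ segMin e x ∧ e x v = y)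
    {δ : ℝ} (hδ : 0 < δ) (x : M) (v : TangentSpace 𝓘(ℝ, E) x) (hv : 0 < ‖v‖)
    (hvδ : ‖v‖ * δ < ρ / 2) (r : ℝ) (z : M) (hz : e x (r • v) = z) :
    ∃ w : TangentSpace 𝓘(ℝ, E) z, ‖w‖ = ‖v‖ ∧
      ∀ t : ℝ, |t| ≤ δ → e z (t • w) = e x ((r + t) • v) := by
  have hvδ0 : 0 < ‖v‖ * δ := by positivity
  set y := e x ((r + δ) • v) with hy
  set y' := e x ((r - δ) • v) with hy'
  have d1 : dist z y = ‖v‖ * δ := by
    have h1 : |r + δ - r| = δ := by rw [add_sub_cancel_left, abs_of_pos hδ]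
    have := hm x v r (r + δ) (by rw [h1]; linarith)
    rwa [hz, h1] at this
  have d2 : dist z y' = ‖v‖ * δ := by
    have h1 : |r - δ - r| = δ := by
      rw [show r - δ - r = -δ by ring, abs_neg, abs_of_pos hδ]
    have := hm x v r (r - δ) (by rw [h1]; linarith)
    rwa [hz, h1] at this
  have d3 : dist y y' = ‖v‖ * δ + ‖v‖ * δ := by
    have h1 : |r - δ - (r + δ)| = 2 * δ := by
      rw [show r - δ - (r + δ) = -(2 * δ) by ring, abs_neg, abs_of_pos (by linarith)]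
    have := hm x v (r + δ) (r - δ) (by rw [h1]; linarith)
    rw [h1] at this
    rw [this]; ring
  obtain ⟨hs1, p, hp, hpy⟩ := hn z y (by linarith)
  obtain ⟨hs2, p', hp', hpy'⟩ := hn z y' (by linarith)
  have c1 := sh_corner he hvδ0 hvδ0 hp hpy hp' hpy' d1 d2 d3 hs1 hs2
  rw [div_self hvδ0.ne', one_smul] at c1
  have hpn : ‖p‖ = ‖v‖ * δ := by
    have h1 : dist z (e z p) = ‖p‖ := hp
    rw [← h1, hpy, d1]
  refine ⟨δ⁻¹ • p, ?_, ?_⟩
  · rw [norm_smul, norm_inv, Real.norm_eq_abs, abs_of_pos hδ, hpn]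
    field_simp
  · -- a common argument for both signs
    have key : ∀ (P : TangentSpace 𝓘(ℝ, E) z) (Y : M) (t : ℝ), ‖P‖ = ‖v‖ * δ → e z P = Y →
        dist z Y = ‖v‖ * δ → |t| ≤ δ → dist (e x ((r + t) • v)) Y = ‖v‖ * (δ - |t|) →
        e z ((|t| * δ⁻¹) • P) = e x ((r + t) • v) := by
      intro P Y t hP hPY hzY ht hd
      have h1 : |r + t - r| = |t| := by rw [add_sub_cancel_left]
      have h2 := hm x v r (r + t) (by rw [h1]; (by_contra nlg; linarith only [nlg, mul_nonneg (le_of_lt (sub_pos.2 hvδ0)) (sub_nonneg.2 ht), mul_pos (sub_pos.2 hδ) (sub_pos.2 hvδ0), mul_pos (sub_pos.2 hδ) (sub_pos.2 hvδ), mul_nonneg (le_of_lt (sub_pos.2 (not_le.1 nlg))) (sub_nonneg.2 (abs_nonneg t)), mul_nonneg (le_of_lt (sub_pos.2 (not_le.1 nlg))) (sub_nonneg.2 ht)]))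
      rw [hz, h1] at h2
      obtain ⟨τ, hτ0, hτ1, hτ⟩ := sh_between_aux he hm hn z P (by rw [hP]; exact hvδ)
        (e x ((r + t) • v)) (by rw [hPY, hzY, h2, hd]; ring)
      have h3 := hm z P 0 τ (by
        rw [sub_zero, abs_of_nonneg hτ0, hP]
        (by_contra nlg; linarith only [nlg, mul_nonneg (le_of_lt (sub_pos.2 hvδ0)) (sub_nonneg.2 hτ1), mul_nonneg (le_of_lt (sub_pos.2 hvδ)) (sub_nonneg.2 hτ1), mul_nonneg (le_of_lt (sub_pos.2 hvδ)) (sub_nonneg.2 hτ0), mul_pos (sub_pos.2 hδ) (sub_pos.2 hv), mul_nonneg (le_of_lt (sub_pos.2 (not_le.1 nlg))) (sub_nonneg.2 hτ1), mul_nonneg (le_of_lt (sub_pos.2 (not_le.1 nlg))) (sub_nonneg.2 hτ0)]))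
      rw [zero_smul, he.map_zero, hτ, h2, sub_zero, abs_of_nonneg hτ0, hP] at h3
      have h4 : |t| = τ * δ := by
        have h5 : ‖v‖ * |t| = ‖v‖ * (τ * δ) := by rw [h3]; ring
        exact mul_left_cancel₀ hv.ne' h5
      rw [h4, mul_assoc, mul_inv_cancel₀ hδ.ne', mul_one, hτ]
    intro t ht
    rcases le_total 0 t with h0 | h0
    · have h1 := key p y t hpn hpy d1 ht (by
        have h2 : |r + δ - (r + t)| = δ - |t| := by
          rw [abs_of_nonneg h0] at ht ⊢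
          rw [show r + δ - (r + t) = δ - t by ring, abs_of_nonneg (by linarith)]
        have h3 := hm x v (r + t) (r + δ) (by rw [h2]; (by_contra nlg; linarith only [nlg, mul_nonneg (le_of_lt (sub_pos.2 hvδ0)) (sub_nonneg.2 (abs_nonneg t)), mul_pos (sub_pos.2 hδ) (sub_pos.2 hvδ0), mul_pos (sub_pos.2 hδ) (sub_pos.2 hvδ), mul_nonneg (le_of_lt (sub_pos.2 (not_le.1 nlg))) (sub_nonneg.2 (abs_nonneg t)), mul_nonneg (le_of_lt (sub_pos.2 (not_le.1 nlg))) (sub_nonneg.2 ht)]))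
        rw [h2] at h3
        exact h3)
      rw [abs_of_nonneg h0] at h1
      rw [smul_smul]
      exact h1
    · have h1 := key p' y' t (by rw [c1, norm_neg, hpn]) hpy' d2 ht (by
        have h2 : |r - δ - (r + t)| = δ - |t| := by
          rw [abs_of_nonpos h0] at ht ⊢
          rw [show r - δ - (r + t) = -(δ - -t) by ring, abs_neg, abs_of_nonneg (by linarith)]
        have h3 := hm x v (r + t) (r - δ) (by rw [h2]; (by_contra nlg; linarith only [nlg, mul_nonneg (le_of_lt (sub_pos.2 hvδ0)) (sub_nonneg.2 (abs_nonneg t)), mul_pos (sub_pos.2 hδ) (sub_pos.2 hvδ0), mul_pos (sub_pos.2 hδ) (sub_pos.2 hvδ), mul_nonneg (le_of_lt (sub_pos.2 (not_le.1 nlg))) (sub_nonneg.2 (abs_nonneg t)), mul_nonneg (le_of_lt (sub_pos.2 (not_le.1 nlg))) (sub_nonneg.2 ht)]))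
        rw [h2] at h3
        exact h3)
      rw [abs_of_nonpos h0, c1, smul_neg, ← neg_smul] at h1
      rw [smul_smul, ← h1]
      congr 2
      ring

attribute [-instance] AFast7e28e9x6a.a0 AFast7e28e9x6a.a1 AFast7e28e9x6a.a2 AFast7e28e9x6a.a3 AFast7e28e9x6a.a4 AFast7e28e9x6a.a5 AFast7e28e9x6a.a6 AFast7e28e9x6a.a7 AFast7e28e9x6a.a8 AFast7e28e9x6a.a9 AFast7e28e9x6a.a10 AFast7e28e9x6a.a11 AFast7e28e9x6a.a12 AFast7e28e9x6a.a13 AFast7e28e9x6a.a14 AFast7e28e9x6a.a15 AFast7e28e9x6a.a16 AFast7e28e9x6a.a17 AFast7e28e9x6a.a18 AFast7e28e9x6a.a19 AFast7e28e9x6a.a20 AFast7e28e9x6a.a21 AFast7e28e9x6a.a22 AFast7e28e9x6a.a23 AFast7e28e9x6a.a24 AFast7e28e9x6a.a25 AFast7e28e9x6a.a26 AFast7e28e9x6a.a27 AFast7e28e9x6a.a28 AFast7e28e9x6a.a29 AFast7e28e9x6a.a30 AFast7e28e9x6a.a31 AFast7e28e9x6a.a32 AFast7e28e9x6a.a33 AFast7e28e9x6a.a34 AFast7e28e9x6a.a35 AFast7e28e9x6a.a36 AFast7e28e9x6a.a37 AFast7e28e9x6a.a38 AFast7e28e9x6a.a39 AFast7e28e9x6a.a40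 AFast7e28e9x6a.a41 AFast7e28e9x6a.a42 AFast7e28e9x6a.a43 AFast7e28e9x6a.a44 AFast7e28e9x6a.a45 AFast7e28e9x6a.a46 AFast7e28e9x6a.a47 AFast7e28e9x6a.a48 AFast7e28e9x6a.a49 AFast7e28e9x6a.a50 AFast7e28e9x6a.a51 AFast7e28e9x6a.a52 AFast7e28e9x6a.a53 AFast7e28e9x6a.a54 AFast7e28e9x6a.a55 AFast7e28e9x6a.a56 AFast7e28e9x6a.a57 AFast7e28e9x6a.a58 AFast7e28e9x6a.a59 AFast7e28e9x6a.a60 AFast7e28e9x6a.a61 AFast7e28e9x6a.a62 AFast7e28e9x6a.a63 AFast7e28e9x6a.a64 AFast7e28e9x6b.a0 AFast7e28e9x6b.a1 AFast7e28e9x6b.a2 AFast7e28e9x6b.a3 AFast7e28e9x6b.a4 AFast7e28e9x6b.a5 AFast7e28e9x6b.a6 AFast7e28e9x6b.a7 AFast7e28e9x6b.a8 AFast7e28e9x6b.a9 AFast7e28e9x6b.a10 AFast7e28e9x6b.a11 AFast7e28e9x6b.a12 AFast7e28e9x6b.a13 AFast7e28e9x6b.a14 AFast7e28e9x6b.a15 AFast7e28e9x6b.a16 AFast7e28e9x6b.a17 AFast7e28e9x6b.a18 AFast7e28e9x6b.a19 AFast7e28e9x6b.a20 AFast7e28e9x6b.a21 AFast7e28e9x6b.a22 AFast7e28e9x6b.a23 in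
/-- Flow property. -/
lemma flow_of_isExp (he : IsExp e) (x : M) (v : TangentSpace 𝓘(ℝ, E) x) (s : ℝ) :
    ∃ w : TangentSpace 𝓘(ℝ, E) (e x (s • v)), ‖w‖ = ‖v‖ ∧
      ∀ t : ℝ, e (e x (s • v)) (t • w) = e x ((s + t) • v) := by
  obtain ⟨ρ, hρ, hm, hn⟩ := sh_scale he
  rcases eq_or_lt_of_le (norm_nonneg v) with h0 | hv
  · have hv0 : v = 0 := norm_eq_zero.1 h0.symm
    subst hv0
    refine ⟨0, by simp, ?_⟩
    intro t
    rw [smul_zero, smul_zero, smul_zero, he.map_zero, he.map_zero]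
  set δ := ρ / (4 * ‖v‖) with hδdef
  have hδ : 0 < δ := by positivity
  have hvδ : ‖v‖ * δ < ρ / 2 := by
    have : ‖v‖ * δ = ρ / 4 := by rw [hδdef]; field_simp
    rw [this]; linarith
  obtain ⟨w, hw, hloc⟩ := sh_local he hm hn hδ x v hv hvδ s _ rfl
  refine ⟨w, hw, ?_⟩
  have hw0 : 0 < ‖w‖ := by rw [hw]; exact hv
  have main : ∀ n : ℕ, ∀ t : ℝ, |t| ≤ (n + 1) * δ →
      e (e x (s • v)) (t • w) = e x ((s + t) • v) := by
    intro n
    induction n with
    | zero =>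
      intro t ht
      exact hloc t (by simpa using ht)
    | succ n ih =>
      -- one step in the direction σ
      have step : ∀ σ : ℝ, |σ| = 1 → ∀ u : ℝ, |u| ≤ δ →
          e (e x (s • v)) ((σ * ((n + 1) * δ) + u) • w) =
            e x ((s + (σ * ((n + 1) * δ) + u)) • v) := by
        intro σ hσ u hu
        have hn0 : (0 : ℝ) ≤ (n : ℝ) := Nat.cast_nonneg n
        set t0 := σ * ((n + 1) * δ) with ht0
        have ht0abs : |t0| ≤ (n + 1) * δ := by
          rw [ht0, abs_mul, hσ, one_mul, abs_of_nonneg (by (clear * - hρ hv; positivity))]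
        have hz := ih t0 ht0abs
        obtain ⟨w1, hw1, hl1⟩ := sh_local he hm hn hδ (e x (s • v)) w hw0 (by rw [hw]; exact hvδ)
          t0 _ hz
        obtain ⟨w2, hw2, hl2⟩ := sh_local he hm hn hδ x v hv hvδ (s + t0) _ rfl
        have hσδ : |-σ * δ| ≤ δ := by
          rw [abs_mul, abs_neg, hσ, one_mul, abs_of_pos hδ]
        have e1 := hl1 (-σ * δ) hσδ
        have e2 := hl2 (-σ * δ) hσδ
        have hσ2 : σ * σ = 1 := by
          have := abs_mul_abs_self σ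
          rw [hσ] at this
          linarith
        have e3 : |t0 + -σ * δ| ≤ (n + 1) * δ := by
          have : t0 + -σ * δ = σ * (n * δ) := by rw [ht0]; ring
          rw [this, abs_mul, hσ, one_mul, abs_of_nonneg (by positivity)]
          linarith only [hδ]
        have e4 := ih (t0 + -σ * δ) e3
        have e5 : e (e x ((s + t0) • v)) ((-σ * δ) • w1) = e (e x ((s + t0) • v)) ((-σ * δ) • w2) := by
          rw [e1, e2, e4]
          congr 2
          ring
        have hseg : ∀ W : TangentSpace 𝓘(ℝ, E) (e x ((s + t0) • v)), ‖W‖ = ‖v‖ →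
            (-σ * δ) • W ∈ segMin e (e x ((s + t0) • v)) ∧
            dist (e x ((s + t0) • v)) (e (e x ((s + t0) • v)) ((-σ * δ) • W)) < ρ := by
          intro W hW
          have h1 := hm (e x ((s + t0) • v)) W 0 (-σ * δ) (by
            rw [sub_zero, hW]
            (by_contra nlg; linarith only [nlg, mul_nonneg (le_of_lt (sub_pos.2 hw0)) (sub_nonneg.2 hσδ), mul_eq_zero_of_left (sub_eq_zero.2 hw) (δ - (|-σ * δ|)), mul_eq_zero_of_left (sub_eq_zero.2 hσ2) (ρ / 2 - (‖v‖ * δ)), mul_pos (sub_pos.2 hδ) (sub_pos.2 hw0), mul_eq_zero_of_left (sub_eq_zero.2 hw) (δ - (0)), mul_eq_zero_of_left (sub_eq_zero.2 hσ2) (‖v‖ * |-σ * δ| - (ρ)), mul_nonneg (mul_self_nonneg (σ : ℝ)) (le_of_lt (sub_pos.2 hvδ)), mul_nonneg (mul_self_nonneg (σ : ℝ)) (le_of_lt (sub_pos.2 (not_le.1 nlg)))]))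
          rw [zero_smul, he.map_zero, sub_zero] at h1
          constructor
          · change dist _ _ = ‖_‖
            rw [h1, norm_smul, Real.norm_eq_abs, mul_comm]
          · rw [h1, hW]
            (by_contra nlg; linarith only [nlg, mul_nonneg (le_of_lt (sub_pos.2 hw0)) (sub_nonneg.2 hσδ), mul_eq_zero_of_left (sub_eq_zero.2 hw) (δ - (|-σ * δ|)), mul_eq_zero_of_left (sub_eq_zero.2 hσ2) (ρ / 2 - (‖v‖ * δ)), mul_pos (sub_pos.2 hδ) (sub_pos.2 hw0), mul_eq_zero_of_left (sub_eq_zero.2 hw) (δ - (0)), mul_eq_zero_of_left (sub_eq_zero.2 hσ2) (‖v‖ * |-σ * δ| - (ρ)), mul_nonneg (mul_self_nonneg (σ : ℝ)) (le_of_lt (sub_pos.2 hvδ)), mul_nonneg (mul_self_nonneg (σ : ℝ)) (sub_nonneg.2 (not_lt.1 nlg))])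
        have g1 := hseg w1 (by rw [hw1, hw])
        have g2 := hseg w2 hw2
        have e6 := sh_unique he g2.1 g1.1 (hn _ _ g2.2).1 e5
        have hne : -σ * δ ≠ 0 := by
          intro h
          have : σ = 0 := by
            rcases mul_eq_zero.1 h with h | h
            · linarith
            · exact absurd h hδ.ne'
          rw [this] at hσ
          simp at hσ
        have e7 : w1 = w2 := smul_right_injective _ hne e6
        rw [← hl1 u hu, e7, hl2 u hu]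
        congr 2
        ring
      intro t ht
      push_cast at ht
      rcases le_total 0 t with h0 | h0
      · rcases le_total t ((n + 1) * δ) with h1 | h1
        · exact ih t (by rw [abs_of_nonneg h0]; exact h1)
        · have h2 := step 1 (by norm_num) (t - (n + 1) * δ) (by
            rw [abs_of_nonneg h0] at ht
            rw [abs_of_nonneg (by linarith)]
            linarith)
          have h3 : 1 * ((n + 1) * δ) + (t - (n + 1) * δ) = t := by ring
          rw [h3] at h2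
          exact h2
      · rcases le_total (-((n + 1) * δ)) t with h1 | h1
        · exact ih t (by rw [abs_of_nonpos h0]; linarith)
        · have h2 := step (-1) (by norm_num) (t + (n + 1) * δ) (by
            rw [abs_of_nonpos h0] at ht
            rw [abs_of_nonpos (by linarith)]
            linarith)
          have h3 : -1 * ((n + 1) * δ) + (t + (n + 1) * δ) = t := by ring
          rw [h3] at h2
          exact h2
  intro t
  obtain ⟨n, hn'⟩ := exists_nat_gt (|t| / δ)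
  apply main n t
  rw [div_lt_iff₀ hδ] at hn'
  linarith only [hn', hδ]

end

end Vale.Agent.P234
end
end
end

section

section

section

/-! Hessians of the cost in exponential coordinates, from `IsExp` and local smoothness. -/

set_option maxSynthPendingDepth 3

open Bundle Manifold Set Filter
open scoped ContDiff Manifold Topology

namespace Vale.Agent.P234

noncomputable section

variable {E : Type*} [NormedAddCommGroup E] [NormedSpace ℝ E] [FiniteDimensional ℝ E]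
  {M : Type*} [MetricSpace M] [ChartedSpace E M]
  [RiemannianBundle (fun x : M => TangentSpace 𝓘(ℝ, E) x)]
  [IsManifold 𝓘(ℝ, E) ∞ M]
  [IsContMDiffRiemannianBundle 𝓘(ℝ, E) ∞ E (fun x : M => TangentSpace 𝓘(ℝ, E) x)]
  {e : ∀ x : M, TangentSpace 𝓘(ℝ, E) x → M}

/-- Hessian of the cost in the first variable in exponential coordinates. -/
def costHess (e : ∀ x : M, TangentSpace 𝓘(ℝ, E) x → M) (z : M) (v : TangentSpace 𝓘(ℝ, E) z) :
    TangentSpace 𝓘(ℝ, E) z →L[ℝ] TangentSpace 𝓘(ℝ, E) z →L[ℝ] ℝ :=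
  hess (fun a : TangentSpace 𝓘(ℝ, E) z => cost (e z a) (e z v)) 0

/-- Hessian in the middle variable: `b ↦ cost (e z b) (e z q)` at `b = p`. -/
def midHess (e : ∀ x : M, TangentSpace 𝓘(ℝ, E) x → M) (z : M) (p q : TangentSpace 𝓘(ℝ, E) z) :
    TangentSpace 𝓘(ℝ, E) z →L[ℝ] TangentSpace 𝓘(ℝ, E) z →L[ℝ] ℝ :=
  hess (fun b : TangentSpace 𝓘(ℝ, E) z => cost (e z b) (e z q)) p

/-- The cost in exponential coordinates at the point `z`. -/
lemma coord0 (he : IsExp e) {z : M} {v : TangentSpace 𝓘(ℝ, E) z}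
    (hs : SmoothAt E z (e z v)) :
    ContDiffAt ℝ ∞ (fun p : TangentSpace 𝓘(ℝ, E) z × TangentSpace 𝓘(ℝ, E) z =>
      cost (e z p.1) (e z p.2)) (0, v) := by
  refine SmoothAt.coord he (a := (0 : TangentSpace 𝓘(ℝ, E) z)) (b := v) ?_
  rw [he.map_zero]
  exact hs

lemma contDiffAt_fst0 (he : IsExp e) {z : M} {v : TangentSpace 𝓘(ℝ, E) z}
    (hs : SmoothAt E z (e z v)) :
    ContDiffAt ℝ ∞ (fun a : TangentSpace 𝓘(ℝ, E) z => cost (e z a) (e z v)) 0 := by
  have h1 := coord0 he hs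
  have h2 : ContDiffAt ℝ ∞ (fun a : TangentSpace 𝓘(ℝ, E) z =>
      ((a, v) : TangentSpace 𝓘(ℝ, E) z × TangentSpace 𝓘(ℝ, E) z)) 0 := by fun_prop
  exact ContDiffAt.comp (g := fun p : TangentSpace 𝓘(ℝ, E) z × TangentSpace 𝓘(ℝ, E) z =>
      cost (e z p.1) (e z p.2)) 0 h1 h2

lemma contDiffAt_costHess (he : IsExp e) {z : M} {v : TangentSpace 𝓘(ℝ, E) z}
    (hs : SmoothAt E z (e z v)) : ContDiffAt ℝ ∞ (costHess e z) v := by
  have h1 := contDiffAt_hess_fst (coord0 he hs)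
  have h2 : ContDiffAt ℝ ∞ (fun b : TangentSpace 𝓘(ℝ, E) z =>
      ((0, b) : TangentSpace 𝓘(ℝ, E) z × TangentSpace 𝓘(ℝ, E) z)) v := by fun_prop
  exact ContDiffAt.comp (g := fun p : TangentSpace 𝓘(ℝ, E) z × TangentSpace 𝓘(ℝ, E) z =>
    hess (fun a' => cost (e z a') (e z p.2)) p.1) v h1 h2

lemma contDiffAt_midHess (he : IsExp e) {z : M} {p q : TangentSpace 𝓘(ℝ, E) z}
    (hs : SmoothAt E (e z p) (e z q)) :
    ContDiffAt ℝ ∞ (fun r : TangentSpace 𝓘(ℝ, E) z × TangentSpace 𝓘(ℝ, E) z =>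
      midHess e z r.1 r.2) (p, q) :=
  contDiffAt_hess_fst (SmoothAt.coord he hs)

lemma iteratedDeriv_cost_eq (he : IsExp e) {z : M} {v : TangentSpace 𝓘(ℝ, E) z}
    (hs : SmoothAt E z (e z v)) (ξ : TangentSpace 𝓘(ℝ, E) z) :
    iteratedDeriv 2 (fun t : ℝ => cost (e z (t • ξ)) (e z v)) 0 = costHess e z v ξ ξ := by
  have h := iteratedDeriv_two_line ((contDiffAt_fst0 he hs).of_le two_le_infty) ξ
  simp only [zero_add] at h
  exact h

lemma costHess_symm (he : IsExp e) {z : M} {v : TangentSpace 𝓘(ℝ, E) z}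
    (hs : SmoothAt E z (e z v)) (ξ η : TangentSpace 𝓘(ℝ, E) z) :
    costHess e z v ξ η = costHess e z v η ξ :=
  hess_symm ((contDiffAt_fst0 he hs).of_le two_le_infty) ξ η

/-- The radial direction is an eigenvector of the Hessian with eigenvalue one. -/
lemma costHess_radial (he : IsExp e) {z : M} {v : TangentSpace 𝓘(ℝ, E) z}
    (hv : v ∈ segMin e z) (hs : SmoothAt E z (e z v)) (ξ : TangentSpace 𝓘(ℝ, E) z) :
    costHess e z v v ξ = inner ℝ v ξ := by
  refine hess_radial ((contDiffAt_fst0 he hs).of_le two_le_infty)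
    (hasFDerivAt_cost_zero he z v hv hs) ?_ ?_ ξ
  · intro a ha
    have h1 : dist z (e z v) = ‖v‖ := hv
    have h2 : dist z (e z a) ≤ ‖a‖ := dist_exp_le' he z a
    have h3 : dist z (e z v) ≤ dist z (e z a) + dist (e z a) (e z v) := dist_triangle _ _ _
    have h4 : ‖v‖ - ‖a‖ ≤ dist (e z a) (e z v) := by linarith only [h1, h2, h3]
    have h5 : 0 ≤ ‖v‖ - ‖a‖ := by linarith only [ha]
    unfold cost
    nlinarith only [ha, h1, h2, h3]
  · intro t ht0 ht1
    have h1 := segMin_cost he hv ht0 ht1 le_rfl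
    rw [one_smul] at h1
    exact h1

/-- The full second derivative of `(a, b) ↦ cost (e z a) (e z b)` at `(0, v)`. -/
lemma hess_pair (he : IsExp e) {z : M} {v : TangentSpace 𝓘(ℝ, E) z}
    (hN : ∀ᶠ b in 𝓝 v, b ∈ segMin e z) (hs : SmoothAt E z (e z v))
    (ξ μ : TangentSpace 𝓘(ℝ, E) z) :
    hess (fun p : TangentSpace 𝓘(ℝ, E) z × TangentSpace 𝓘(ℝ, E) z =>
      cost (e z p.1) (e z p.2)) (0, v) (ξ, μ) (ξ, μ) =
      costHess e z v ξ ξ - 2 * inner ℝ ξ μ + ‖μ‖ ^ 2 := by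
  have hF := coord0 he hs
  rw [hess_expand hF, hess_fst hF, hess_snd hF]
  have h1 : hess (fun b' : TangentSpace 𝓘(ℝ, E) z =>
      (fun p : TangentSpace 𝓘(ℝ, E) z × TangentSpace 𝓘(ℝ, E) z =>
      cost (e z p.1) (e z p.2)) (0, b')) v μ μ = ‖μ‖ ^ 2 := by
    rw [hess_half_norm_sq (V := TangentSpace 𝓘(ℝ, E) z) (v := v), real_inner_self_eq_norm_sq]
    filter_upwards [hN] with b hb
    have h2 : dist z (e z b) = ‖b‖ := hb
    simp only [cost, he.map_zero, h2]
  have h3 : hess (fun p : TangentSpace 𝓘(ℝ, E) z × TangentSpace 𝓘(ℝ, E) z =>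
      cost (e z p.1) (e z p.2)) (0, v) (0, μ) (ξ, 0) = - inner ℝ ξ μ := by
    refine hess_mixed hF ξ μ ?_
    have hcont : Tendsto (fun s : ℝ => v + s • μ) (𝓝 0) (𝓝 v) := by
      have : Continuous (fun s : ℝ => v + s • μ) := by fun_prop
      have h4 := this.tendsto 0
      simpa only [zero_smul, add_zero] using h4
    have hev : ∀ᶠ s in 𝓝 (0:ℝ), fderiv ℝ (fun a' : TangentSpace 𝓘(ℝ, E) z =>
        cost (e z a') (e z (v + s • μ))) 0 ξ = - inner ℝ (v + s • μ) ξ := by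
      have hsm : ∀ᶠ b in 𝓝 v, SmoothAt E z (e z b) := by
        have h5 := hs.eventually
        have h6 : Tendsto (fun b : TangentSpace 𝓘(ℝ, E) z => (z, e z b)) (𝓝 v) (𝓝 (z, e z v)) := by
          have h7 : Continuous (e z) := (contMDiff_exp_fiber he z).continuous
          exact (continuous_const.prodMk h7).tendsto v
        exact h6.eventually h5
      filter_upwards [hcont.eventually hsm, hcont.eventually hN] with s h8 h9
      rw [(hasFDerivAt_cost_zero he z _ h9 h8).fderiv]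
      rfl
    have h10 : HasDerivAt (fun s : ℝ => - inner ℝ (v + s • μ) ξ) (- inner ℝ ξ μ) 0 := by
      have h11 : (fun s : ℝ => - inner ℝ (v + s • μ) ξ) =
          fun s : ℝ => - (inner ℝ v ξ + s * inner ℝ ξ μ) := by
        funext s
        rw [inner_add_left, real_inner_smul_left, real_inner_comm μ ξ]
      rw [h11]
      have h12 := (((hasDerivAt_id' (0:ℝ)).mul_const (inner ℝ ξ μ)).const_add (inner ℝ v ξ)).neg
      rw [one_mul] at h12
      exact h12
    exact h10.congr_of_eventuallyEq hev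
  rw [h1, h3]
  unfold costHess
  ring

/-- Key second order inequality (a two-piece path is at least as costly). -/
lemma key_ineq (he : IsExp e) {z : M} {w : TangentSpace 𝓘(ℝ, E) z} {s s' : ℝ}
    (hs : 0 < s) (hss : s < s') (hN : ∀ᶠ b in 𝓝 (s • w), b ∈ segMin e z)
    (hw : s' • w ∈ segMin e z) (h1 : SmoothAt E z (e z (s • w)))
    (h2 : SmoothAt E z (e z (s' • w))) (h3 : SmoothAt E (e z (s • w)) (e z (s' • w)))
    (ξ μ : TangentSpace 𝓘(ℝ, E) z) :
    costHess e z (s' • w) ξ ξ / s' ≤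
      costHess e z (s • w) ξ ξ / s - 2 * inner ℝ ξ μ / s + ‖μ‖ ^ 2 / s +
        midHess e z (s • w) (s' • w) μ μ / (s' - s) := by
  have hs' : 0 < s' := hs.trans hss
  have hd : 0 < s' - s := sub_pos.mpr hss
  -- the three terms as functions of the pair
  set F1 : TangentSpace 𝓘(ℝ, E) z × TangentSpace 𝓘(ℝ, E) z → ℝ :=
    fun p => cost (e z p.1) (e z p.2) with hF1
  set F2 : TangentSpace 𝓘(ℝ, E) z × TangentSpace 𝓘(ℝ, E) z → ℝ :=
    fun p => cost (e z p.2) (e z (s' • w)) with hF2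
  set F3 : TangentSpace 𝓘(ℝ, E) z × TangentSpace 𝓘(ℝ, E) z → ℝ :=
    fun p => cost (e z p.1) (e z (s' • w)) with hF3
  have c1 : ContDiffAt ℝ ∞ F1 (0, s • w) := coord0 he h1
  have c2 : ContDiffAt ℝ ∞ F2 (0, s • w) := by
    have h4 := SmoothAt.coord he h3
    have h5 : ContDiffAt ℝ ∞ (fun p : TangentSpace 𝓘(ℝ, E) z × TangentSpace 𝓘(ℝ, E) z =>
        ((p.2, s' • w) : TangentSpace 𝓘(ℝ, E) z × TangentSpace 𝓘(ℝ, E) z)) (0, s • w) := by
      fun_prop
    exact ContDiffAt.comp (g := fun p : TangentSpace 𝓘(ℝ, E) z × TangentSpace 𝓘(ℝ, E) z =>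
      cost (e z p.1) (e z p.2)) (0, s • w) h4 h5
  have c3 : ContDiffAt ℝ ∞ F3 (0, s • w) := by
    have h4 := contDiffAt_fst0 he h2
    have h5 : ContDiffAt ℝ ∞ (fun p : TangentSpace 𝓘(ℝ, E) z × TangentSpace 𝓘(ℝ, E) z => p.1)
        (0, s • w) := contDiffAt_fst
    exact ContDiffAt.comp (g := fun a : TangentSpace 𝓘(ℝ, E) z => cost (e z a) (e z (s' • w)))
      (0, s • w) h4 h5
  have d1 := c1.of_le two_le_infty
  have d2 := c2.of_le two_le_infty
  have d3 := c3.of_le two_le_infty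
  -- the function with a minimum
  have e1 : ContDiffAt ℝ 2 (fun p => (1 / s) * F1 p) (0, s • w) := contDiffAt_const.mul d1
  have e2 : ContDiffAt ℝ 2 (fun p => (1 / (s' - s)) * F2 p) (0, s • w) := contDiffAt_const.mul d2
  have e3 : ContDiffAt ℝ 2 (fun p => (-(1 / s')) * F3 p) (0, s • w) := contDiffAt_const.mul d3
  have hmin : IsLocalMin (fun p => ((1 / s) * F1 p + (1 / (s' - s)) * F2 p) + (-(1 / s')) * F3 p)
      (0, s • w) := by
    refine Filter.Eventually.of_forall fun p => ?_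
    have h4 := cost_ineq (e z p.1) (e z p.2) (e z (s' • w)) hs hd
    rw [add_sub_cancel] at h4
    have h5 : F1 (0, s • w) = s ^ 2 * ‖w‖ ^ 2 / 2 := by
      have h6 := segMin_cost he hw (s := 0) (t := s / s') le_rfl (by positivity)
        (by rw [div_le_one hs']; exact hss.le)
      rw [smul_smul, smul_smul, div_mul_cancel₀ _ hs'.ne', zero_mul, zero_smul, norm_smul,
        Real.norm_eq_abs, abs_of_pos hs'] at h6
      rw [hF1]
      simp only
      rw [h6]
      field_simp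
      ring
    have h7 : F2 (0, s • w) = (s' - s) ^ 2 * ‖w‖ ^ 2 / 2 := by
      have h6 := segMin_cost he hw (s := s / s') (t := 1) (by positivity)
        (by rw [div_le_one hs']; exact hss.le) le_rfl
      rw [smul_smul, one_smul, div_mul_cancel₀ _ hs'.ne', norm_smul,
        Real.norm_eq_abs, abs_of_pos hs'] at h6
      rw [hF2]
      simp only
      rw [h6]
      (clear * - hs' hd; field_simp)
    have h8 : F3 (0, s • w) = s' ^ 2 * ‖w‖ ^ 2 / 2 := by
      have h6 := segMin_cost he hw (s := 0) (t := 1) le_rfl zero_le_one le_rfl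
      rw [zero_smul, one_smul, norm_smul, Real.norm_eq_abs, abs_of_pos hs'] at h6
      rw [hF3]
      simp only
      rw [h6]
      ring
    simp only [h5, h7, h8]
    have h9 : 1 / s * (s ^ 2 * ‖w‖ ^ 2 / 2) + 1 / (s' - s) * ((s' - s) ^ 2 * ‖w‖ ^ 2 / 2) +
        -(1 / s') * (s' ^ 2 * ‖w‖ ^ 2 / 2) = 0 := by
      field_simp
      ring
    rw [h9]
    have h10 : 1 / s * F1 p + 1 / (s' - s) * F2 p + -(1 / s') * F3 p =
        cost (e z p.1) (e z p.2) / s + cost (e z p.2) (e z (s' • w)) / (s' - s) -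
          cost (e z p.1) (e z (s' • w)) / s' := by
      simp only [hF1, hF2, hF3]
      ring
    rw [h10]
    linarith only [h4]
  have key := hess_nonneg_of_isLocalMin ((e1.add e2).add e3) hmin (ξ, μ)
  rw [hess_add (e1.add e2) e3, hess_add e1 e2, hess_const_mul d1, hess_const_mul d2,
    hess_const_mul d3] at key
  simp only [add_apply, FunLike.coe_smul, Pi.smul_apply, smul_eq_mul] at key
  have k1 : hess F1 (0, s • w) (ξ, μ) (ξ, μ) =
      costHess e z (s • w) ξ ξ - 2 * inner ℝ ξ μ + ‖μ‖ ^ 2 := hess_pair he hN h1 ξ μ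
  have k2 : hess F2 (0, s • w) (ξ, μ) (ξ, μ) = midHess e z (s • w) (s' • w) μ μ := by
    have d2' : ContDiffAt ℝ 2 (fun b : TangentSpace 𝓘(ℝ, E) z => cost (e z b) (e z (s' • w)))
        (s • w) := by
      have h4 := SmoothAt.coord he h3
      have h5 : ContDiffAt ℝ ∞ (fun p : TangentSpace 𝓘(ℝ, E) z =>
          ((p, s' • w) : TangentSpace 𝓘(ℝ, E) z × TangentSpace 𝓘(ℝ, E) z)) (s • w) := by
        fun_prop
      have h6 := ContDiffAt.comp (g := fun p : TangentSpace 𝓘(ℝ, E) z × TangentSpace 𝓘(ℝ, E) z =>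
        cost (e z p.1) (e z p.2)) (s • w) h4 h5
      exact h6.of_le two_le_infty
    have h7 := hess_comp_affine d2' (ContinuousLinearMap.snd ℝ (TangentSpace 𝓘(ℝ, E) z)
      (TangentSpace 𝓘(ℝ, E) z)) (0, s • w) 0 (by simp) (ξ, μ) (ξ, μ)
    simp only [ContinuousLinearMap.coe_snd', zero_add] at h7
    exact h7
  have k3 : hess F3 (0, s • w) (ξ, μ) (ξ, μ) = costHess e z (s' • w) ξ ξ := by
    have h7 := hess_comp_affine ((contDiffAt_fst0 he h2).of_le two_le_infty)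
      (ContinuousLinearMap.fst ℝ (TangentSpace 𝓘(ℝ, E) z)
      (TangentSpace 𝓘(ℝ, E) z)) (0, s • w) 0 (by simp) (ξ, μ) (ξ, μ)
    simp only [ContinuousLinearMap.coe_fst', zero_add] at h7
    exact h7
  rw [k1, k2, k3] at key
  have h11 : 1 / s * (costHess e z (s • w) ξ ξ - 2 * inner ℝ ξ μ + ‖μ‖ ^ 2) +
      1 / (s' - s) * midHess e z (s • w) (s' • w) μ μ + -(1 / s') * costHess e z (s' • w) ξ ξ =
      (costHess e z (s • w) ξ ξ / s - 2 * inner ℝ ξ μ / s + ‖μ‖ ^ 2 / s +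
        midHess e z (s • w) (s' • w) μ μ / (s' - s)) - costHess e z (s' • w) ξ ξ / s' := by
    ring
  rw [h11] at key
  linarith only [key]

/-- Strict monotonicity of the Hessian divided by time. -/
lemma costHess_strict (he : IsExp e) {z : M} {w : TangentSpace 𝓘(ℝ, E) z} {s s' : ℝ}
    (hs : 0 < s) (hss : s < s') (hN : ∀ᶠ b in 𝓝 (s • w), b ∈ segMin e z)
    (hw : s' • w ∈ segMin e z) (h1 : SmoothAt E z (e z (s • w)))
    (h2 : SmoothAt E z (e z (s' • w))) (h3 : SmoothAt E (e z (s • w)) (e z (s' • w)))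
    {ξ : TangentSpace 𝓘(ℝ, E) z} (hξ : ξ ≠ 0) :
    costHess e z (s' • w) ξ ξ / s' < costHess e z (s • w) ξ ξ / s := by
  have hd : 0 < s' - s := sub_pos.mpr hss
  have hn : 0 < ‖ξ‖ ^ 2 := by
    have := norm_pos_iff.mpr hξ
    positivity
  set K : ℝ := ‖ξ‖ ^ 2 / s + |midHess e z (s • w) (s' • w) ξ ξ| / (s' - s) with hK
  have hK0 : 0 < K := by
    have h1 : 0 < ‖ξ‖ ^ 2 / s := by positivity
    have h2 : 0 ≤ |midHess e z (s • w) (s' • w) ξ ξ| / (s' - s) := by (clear * - hss; (clear * - hss; positivity))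
    linarith only [h1, h2]
  set ε : ℝ := ‖ξ‖ ^ 2 / s / K with hε
  have hε0 : 0 < ε := by (clear * - hξ hs hss; (clear * - hξ hs hss; positivity))
  have key := key_ineq he hs hss hN hw h1 h2 h3 ξ (ε • ξ)
  have e1 : inner ℝ ξ (ε • ξ) = ε * ‖ξ‖ ^ 2 := by
    rw [real_inner_smul_right, real_inner_self_eq_norm_sq]
  have e2 : ‖ε • ξ‖ ^ 2 = ε ^ 2 * ‖ξ‖ ^ 2 := by
    rw [norm_smul, mul_pow, Real.norm_eq_abs, sq_abs]
  have e3 : midHess e z (s • w) (s' • w) (ε • ξ) (ε • ξ) =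
      ε ^ 2 * midHess e z (s • w) (s' • w) ξ ξ := by
    simp only [map_smul, FunLike.coe_smul, Pi.smul_apply, smul_eq_mul]
    ring
  rw [e1, e2, e3] at key
  have e4 : ε ^ 2 * midHess e z (s • w) (s' • w) ξ ξ / (s' - s) ≤
      ε ^ 2 * (|midHess e z (s • w) (s' • w) ξ ξ| / (s' - s)) := by
    rw [mul_div_assoc]
    gcongr
    exact le_abs_self _
  have e5 : ε * K = ‖ξ‖ ^ 2 / s := by
    rw [hε]
    (clear * - hK0 hs hξ; field_simp)
  have e6 : ε ^ 2 * ‖ξ‖ ^ 2 / s + ε ^ 2 * (|midHess e z (s • w) (s' • w) ξ ξ| / (s' - s)) =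
      ε * (‖ξ‖ ^ 2 / s) := by
    rw [← e5, hK]
    ring
  have e7 : 2 * (ε * ‖ξ‖ ^ 2) / s = 2 * (ε * (‖ξ‖ ^ 2 / s)) := by ring
  have e8 : 0 < ε * (‖ξ‖ ^ 2 / s) := by (clear * - hξ hs hss; (clear * - hξ hs hss; positivity))
  linarith only [e8, e7, e6, e4, key]

end

end Vale.Agent.P234
end
end
end

section

section

section

/-! Foundation 3: Hopf-Rinow. -/

set_option maxSynthPendingDepth 3

open Bundle Manifold Set Filter
open scoped ContDiff Manifold Topology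

namespace Vale.Agent.P234

noncomputable section

variable {E : Type*} [NormedAddCommGroup E] [NormedSpace ℝ E] [FiniteDimensional ℝ E]
  {M : Type*} [MetricSpace M] [ChartedSpace E M]
  [RiemannianBundle (fun x : M => TangentSpace 𝓘(ℝ, E) x)]
  [IsManifold 𝓘(ℝ, E) ∞ M]
  [IsContMDiffRiemannianBundle 𝓘(ℝ, E) ∞ E (fun x : M => TangentSpace 𝓘(ℝ, E) x)]
  [CompactSpace M]
  {e : ∀ x : M, TangentSpace 𝓘(ℝ, E) x → M}

omit [FiniteDimensional ℝ E] [IsManifold 𝓘(ℝ, E) ∞ M]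
  [IsContMDiffRiemannianBundle 𝓘(ℝ, E) ∞ E (fun x : M => TangentSpace 𝓘(ℝ, E) x)]
  [CompactSpace M] in
/-- Almost intermediate points. -/
lemma exists_almost_between [IsRiemannianManifold 𝓘(ℝ, E) M] (x y : M) {r : ℝ}
    (h0 : 0 ≤ r) (hr : r ≤ dist x y) {ε : ℝ} (hε : 0 < ε) :
    ∃ z : M, dist x z = r ∧ dist z y ≤ dist x y - r + ε := by
  have h1 : riemannianEDist 𝓘(ℝ, E) x y < ENNReal.ofReal (dist x y + ε) := by
    rw [← IsRiemannianManifold.out x y, edist_dist]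
    exact (ENNReal.ofReal_lt_ofReal_iff (by positivity)).2 (by linarith)
  obtain ⟨γ, h2, h3, h4, h5⟩ := exists_lt_of_riemannianEDist_lt h1
  have hcont : ContinuousOn (fun t => dist x (γ t)) (Icc 0 1) :=
    (continuous_const.dist continuous_id).comp_continuousOn h4.continuousOn
  have h6 : r ∈ Icc (dist x (γ 0)) (dist x (γ 1)) := by
    rw [h2, h3, dist_self]; exact ⟨h0, hr⟩
  obtain ⟨t, ht, htr⟩ := intermediate_value_Icc zero_le_one hcont h6
  refine ⟨γ t, htr, ?_⟩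
  have h7 : edist x (γ t) ≤ pathELength 𝓘(ℝ, E) γ 0 t := by
    rw [IsRiemannianManifold.out (I := 𝓘(ℝ, E)) x (γ t)]
    exact riemannianEDist_le_pathELength (h4.mono (Icc_subset_Icc_right ht.2)) h2 rfl ht.1
  have h8 : edist (γ t) y ≤ pathELength 𝓘(ℝ, E) γ t 1 := by
    rw [IsRiemannianManifold.out (I := 𝓘(ℝ, E)) (γ t) y]
    exact riemannianEDist_le_pathELength (h4.mono (Icc_subset_Icc_left ht.1)) rfl h3 ht.2
  have h9 : edist x (γ t) + edist (γ t) y < ENNReal.ofReal (dist x y + ε) := by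
    refine (add_le_add h7 h8).trans_lt ?_
    rwa [pathELength_add ht.1 ht.2]
  rw [edist_dist, edist_dist, ← ENNReal.ofReal_add dist_nonneg dist_nonneg,
    ENNReal.ofReal_lt_ofReal_iff (by positivity)] at h9
  linarith only [htr, h9]

omit [FiniteDimensional ℝ E] [IsManifold 𝓘(ℝ, E) ∞ M]
  [IsContMDiffRiemannianBundle 𝓘(ℝ, E) ∞ E (fun x : M => TangentSpace 𝓘(ℝ, E) x)] in
/-- Existence of intermediate points (from the Riemannian distance and compactness). -/
lemma exists_between_dist [IsRiemannianManifold 𝓘(ℝ, E) M] [ConnectedSpace M] (x y : M) {r : ℝ}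
    (h0 : 0 ≤ r) (hr : r ≤ dist x y) : ∃ z : M, dist x z = r ∧ dist z y = dist x y - r := by
  have hK : IsCompact {z : M | dist x z = r} :=
    (isClosed_eq (continuous_const.dist continuous_id) continuous_const).isCompact
  obtain ⟨z1, hz1, -⟩ := exists_almost_between (E := E) x y h0 hr one_pos
  obtain ⟨z, hz, hmin⟩ := hK.exists_isMinOn ⟨z1, hz1⟩
    ((continuous_id.dist continuous_const).continuousOn (s := {z : M | dist x z = r})
      (f := fun z => dist z y))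
  refine ⟨z, hz, le_antisymm ?_ ?_⟩
  · refine le_of_forall_pos_le_add fun ε hε => ?_
    obtain ⟨w, hw1, hw2⟩ := exists_almost_between (E := E) x y h0 hr hε
    exact (hmin hw1).trans hw2
  · have h1 := dist_triangle x z y
    have h2 : dist x z = r := hz
    linarith

omit [CompactSpace M] in
/-- Short minimizing vectors are unique. -/
lemma segMin_unique_of_smooth (he : IsExp e) {x : M} {v w : TangentSpace 𝓘(ℝ, E) x}
    (hv : v ∈ segMin e x) (hw : w ∈ segMin e x) (hs : SmoothAt E x (e x v))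
    (hvw : e x w = e x v) : w = v := by
  have h1 := hasFDerivAt_cost_zero he x v hv hs
  have h2 := hasFDerivAt_cost_zero he x w hw (hvw ▸ hs)
  rw [hvw] at h2
  have h3 := h1.unique h2
  have h4 : innerSL ℝ v = innerSL ℝ w := neg_injective h3
  refine ext_inner_right ℝ fun u => ?_
  have h5 := congrArg (fun L => L u) h4
  exact h5.symm

/-- Hopf-Rinow. -/
lemma hopfRinow_of_isExp [IsRiemannianManifold 𝓘(ℝ, E) M] [ConnectedSpace M] (he : IsExp e)
    (x y : M) : ∃ v : TangentSpace 𝓘(ℝ, E) x, e x v = y ∧ dist x y = ‖v‖ := by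
  obtain ⟨ρ1, hρ1, hnear⟩ := exists_near he
  obtain ⟨ρ2, hρ2, hshort⟩ := short_between he
  obtain ⟨ρ3, hρ3, hmini⟩ := he.minimizing
  rcases lt_or_ge (dist x y) ρ1 with hD | hD
  · exact (hnear x y hD).2
  set r : ℝ := min ρ1 (min ρ2 ρ3) / 4 with hrdef
  have hm : 0 < min ρ1 (min ρ2 ρ3) := lt_min hρ1 (lt_min hρ2 hρ3)
  have hr : 0 < r := by positivity
  have hr1 : 4 * r ≤ ρ1 := by rw [hrdef]; linarith only [min_le_left ρ1 (min ρ2 ρ3)]
  have hr2 : 4 * r ≤ ρ2 := by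
    rw [hrdef]; linarith only [(min_le_right ρ1 (min ρ2 ρ3)).trans (min_le_left ρ2 ρ3)]
  have hr3 : 4 * r ≤ ρ3 := by
    rw [hrdef]; linarith only [(min_le_right ρ1 (min ρ2 ρ3)).trans (min_le_right ρ2 ρ3)]
  set D : ℝ := dist x y with hDdef
  have hrD : r < D := by linarith only [hr, hr1, hD]
  -- the initial direction
  obtain ⟨z, hz1, hz2⟩ := exists_between_dist (E := E) x y hr.le hrD.le
  obtain ⟨v0, hv0, hv0n⟩ := (hnear x z (by rw [hz1]; linarith only [hr, hr1])).2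
  obtain ⟨u, hu⟩ : ∃ u : TangentSpace 𝓘(ℝ, E) x, u = r⁻¹ • v0 := ⟨_, rfl⟩
  have hun : ‖u‖ = 1 := by
    rw [hu, norm_smul, ← hv0n, hz1, Real.norm_eq_abs, abs_of_pos (inv_pos.2 hr)]
    exact inv_mul_cancel₀ hr.ne'
  have hru : r • u = v0 := by rw [hu, smul_smul, mul_inv_cancel₀ hr.ne', one_smul]
  -- the step
  have hstep : ∀ t : ℝ, r ≤ t → t ≤ D → dist (e x (t • u)) y = D - t →
      dist (e x ((min (t + r) D) • u)) y = D - min (t + r) D := by
    intro t htr htD ht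
    rcases eq_or_lt_of_le htD with htD' | htD'
    · have : min (t + r) D = t := by rw [htD']; exact min_eq_right (by linarith only [hr])
      rw [this]; exact ht
    set s : ℝ := min (t + r) D - t with hs
    have hs0 : 0 < s := by
      rw [hs]; have : t < min (t + r) D := lt_min (by linarith only [hr]) htD'
      linarith only [this]
    have hsr : s ≤ r := by rw [hs]; linarith only [min_le_left (t + r) D]
    have hsD : s ≤ D - t := by rw [hs]; linarith only [min_le_right (t + r) D]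
    have hts : min (t + r) D = t + s := by rw [hs]; ring
    rw [hts]
    obtain ⟨z', hz'1, hz'2⟩ := exists_between_dist (E := E) (e x (t • u)) y hs0.le
      (by rw [ht]; exact hsD)
    have hp'p : dist (e x ((t - r) • u)) (e x (t • u)) = r := by
      have := hmini x u (t - r) t (by
        rw [hun, sub_sub_cancel, abs_of_pos hr]; linarith only [hr, hr3])
      rw [this, hun, sub_sub_cancel, abs_of_pos hr, one_mul]
    have hxp' : dist x (e x ((t - r) • u)) ≤ t - r := by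
      have := dist_exp_le' he x ((t - r) • u)
      rwa [norm_smul, hun, mul_one, Real.norm_eq_abs, abs_of_nonneg (by linarith only [htr])] at this
    have hp'y : D - (t - r) ≤ dist (e x ((t - r) • u)) y := by
      have := dist_triangle x (e x ((t - r) • u)) y
      linarith only [hxp', this]
    have hp'z' : dist (e x ((t - r) • u)) z' = r + s := by
      apply le_antisymm
      · have := dist_triangle (e x ((t - r) • u)) (e x (t • u)) z'
        linarith only [hz'1, hp'p, this]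
      · have := dist_triangle (e x ((t - r) • u)) z' y
        linarith only [ht, hz'2, hp'y, this]
    obtain ⟨hsm, w, hw1, hw2⟩ := hnear (e x ((t - r) • u)) z' (by rw [hp'z']; linarith only [hr, hr1, hsr])
    rw [hp'z'] at hw2
    obtain ⟨τ, hτ0, hτ1, hτ⟩ := hshort _ w (by rw [← hw2]; linarith only [hr, hr2, hsr]) (e x (t • u)) (by
      rw [hw1, hp'p, hz'1, hp'z'])
    -- compute τ
    have hτr : (r + s) * τ = r := by
      have := hmini (e x ((t - r) • u)) w 0 τ (by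
        rw [← hw2, sub_zero, abs_of_nonneg hτ0]
        nlinarith only [hr3, hsr, hτ1, hs0])
      rw [zero_smul, he.map_zero, hτ, hp'p, ← hw2, sub_zero, abs_of_nonneg hτ0] at this
      exact this.symm
    obtain ⟨w1, hw1n, hw1f⟩ := flow_of_isExp he x u (t - r)
    rw [hun] at hw1n
    have hw1p : e (e x ((t - r) • u)) (r • w1) = e x (t • u) := by
      rw [hw1f]; congr 2; ring
    have hsegw : τ • w ∈ segMin e (e x ((t - r) • u)) := by
      show dist _ _ = _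
      rw [hτ, hp'p, norm_smul, ← hw2, Real.norm_eq_abs, abs_of_nonneg hτ0]
      linarith only [hτr]
    have hsegw1 : r • w1 ∈ segMin e (e x ((t - r) • u)) := by
      show dist _ _ = _
      rw [hw1p, hp'p, norm_smul, hw1n, Real.norm_eq_abs, abs_of_pos hr, mul_one]
    have huniq : r • w1 = τ • w := by
      apply segMin_unique_of_smooth he hsegw hsegw1
      · rw [hτ]
        exact (hnear _ _ (by rw [hp'p]; linarith only [hr, hr1])).1
      · rw [hτ, hw1p]
    have hw : w = (r + s) • w1 := by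
      have hrs : 0 < r + s := by linarith only [hr, hs0]
      have h1 : (r + s) • (r • w1) = (r + s) • (τ • w) := by rw [huniq]
      rw [smul_smul, smul_smul, hτr, mul_comm, ← smul_smul] at h1
      exact (smul_right_injective _ hr.ne' h1).symm
    have hz' : z' = e x ((t + s) • u) := by
      rw [← hw1, hw, hw1f]; congr 2; ring
    rw [← hz', hz'2, ht]; ring
  -- iterate
  have hiter : ∀ k : ℕ, dist (e x ((min (r + k * r) D) • u)) y = D - min (r + k * r) D := by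
    intro k
    induction k with
    | zero =>
      rw [Nat.cast_zero, zero_mul, add_zero, min_eq_left hrD.le, hru, hv0, hz2]
    | succ k ih =>
      have h1 := hstep (min (r + k * r) D) (le_min (by
        have : (0 : ℝ) ≤ k * r := by (clear * - hρ1 hρ2 hρ3; positivity)
        linarith only [this]) hrD.le) (min_le_right _ _) ih
      have h2 : min (min (r + k * r) D + r) D = min (r + ((k + 1 : ℕ) : ℝ) * r) D := by
        push_cast
        rcases le_total (r + k * r) D with h | h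
        · rw [min_eq_left h]; congr 1; ring
        · rw [min_eq_right h, min_eq_right (by linarith only [hr]), min_eq_right (by linarith only [h, hr])]
      rw [h2] at h1
      exact h1
  obtain ⟨k, hk⟩ := exists_nat_gt (D / r)
  have hk' : D ≤ r + k * r := by
    have := (div_lt_iff₀ hr).1 hk
    linarith only [hr, this]
  have hfin := hiter k
  rw [min_eq_right hk', sub_self, dist_eq_zero] at hfin
  refine ⟨D • u, hfin, ?_⟩
  rw [norm_smul, hun, mul_one, Real.norm_eq_abs, abs_of_nonneg dist_nonneg]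

end

end Vale.Agent.P234
end
end
end

section

section

section

/-! Core lemma: a two-piece functional with a unique nondegenerate minimizer gives smoothness
of the cost. -/

set_option maxSynthPendingDepth 3

open Bundle Manifold Set Filter
open scoped ContDiff Manifold Topology

namespace Vale.Agent.P234

noncomputable section

variable {E : Type*} [NormedAddCommGroup E] [NormedSpace ℝ E] [FiniteDimensional ℝ E]
  {M : Type*} [MetricSpace M] [ChartedSpace E M]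
  [RiemannianBundle (fun x : M => TangentSpace 𝓘(ℝ, E) x)]
  [IsManifold 𝓘(ℝ, E) ∞ M]
  [IsContMDiffRiemannianBundle 𝓘(ℝ, E) ∞ E (fun x : M => TangentSpace 𝓘(ℝ, E) x)]
  [CompactSpace M]
  {e : ∀ x : M, TangentSpace 𝓘(ℝ, E) x → M}

/-- Local surjectivity of the exponential map at the origin. -/
lemma exp_surj_near (he : IsExp e) (m₀ : M) {U : Set (TangentSpace 𝓘(ℝ, E) m₀)}
    (hU : U ∈ 𝓝 (0 : TangentSpace 𝓘(ℝ, E) m₀)) :
    ∃ V ∈ 𝓝 m₀, ∀ m ∈ V, ∃ b ∈ U, e m₀ b = m := by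
  obtain ⟨ρ, hρ, hnear⟩ := exists_near he
  obtain ⟨δ, hδ, hδU⟩ := Metric.mem_nhds_iff.1 hU
  refine ⟨Metric.ball m₀ (min ρ δ), Metric.ball_mem_nhds _ (lt_min hρ hδ), fun m hm => ?_⟩
  rw [Metric.mem_ball, dist_comm] at hm
  obtain ⟨v, hv, hv2⟩ := (hnear m₀ m (lt_of_lt_of_le hm (min_le_left _ _))).2
  refine ⟨v, hδU ?_, hv⟩
  rw [Metric.mem_ball, dist_zero_right, ← hv2]
  exact lt_of_lt_of_le hm (min_le_right _ _)

/-- Minimizers converge. -/
lemma minimizers_near {x₀ m₀ y₀ : M} {s t : ℝ}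
    (huniq : ∀ m, cost x₀ y₀ / (s + t) = cost x₀ m / s + cost m y₀ / t → m = m₀)
    {V : Set M} (hV : V ∈ 𝓝 m₀) :
    ∀ᶠ n : M × M in 𝓝 (x₀, y₀), ∀ m : M,
      cost n.1 n.2 / (s + t) = cost n.1 m / s + cost m n.2 / t → m ∈ V := by
  obtain ⟨V', hV'V, hV'o, hmV'⟩ := mem_nhds_iff.1 hV
  have hK : IsCompact (V'ᶜ) := hV'o.isClosed_compl.isCompact
  have hcont : Continuous fun z : (M × M) × M =>
      cost z.1.1 z.2 / s + cost z.2 z.1.2 / t - cost z.1.1 z.1.2 / (s + t) := by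
    have h1 : Continuous fun z : (M × M) × M => cost z.1.1 z.2 := by
      unfold cost; fun_prop
    have h2 : Continuous fun z : (M × M) × M => cost z.2 z.1.2 := by
      unfold cost; fun_prop
    have h3 : Continuous fun z : (M × M) × M => cost z.1.1 z.1.2 := by
      unfold cost; fun_prop
    exact ((h1.div_const _).add (h2.div_const _)).sub (h3.div_const _)
  have := hK.eventually_forall_of_forall_eventually (x₀ := ((x₀, y₀) : M × M))
    (P := fun n m => cost n.1 m / s + cost m n.2 / t - cost n.1 n.2 / (s + t) ≠ 0) (by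
      intro m hm
      have hne : cost x₀ m / s + cost m y₀ / t - cost x₀ y₀ / (s + t) ≠ 0 := by
        intro h
        apply hm
        have : m = m₀ := huniq m (by linarith only [h])
        rw [this]; exact hmV'
      exact hcont.continuousAt.eventually_ne hne)
  filter_upwards [this] with n hn m hm
  by_contra hmV
  exact hn m (fun h => hmV (hV'V h)) (by rw [hm]; ring)

/-- Core lemma. -/
lemma core_smooth (he : IsExp e) {x₀ m₀ y₀ : M} {s t : ℝ} (hs : 0 < s) (ht : 0 < t)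
    (h1 : SmoothAt E x₀ m₀) (h2 : SmoothAt E m₀ y₀)
    (hex : ∀ x y : M, ∃ m, cost x y / (s + t) = cost x m / s + cost m y / t)
    (huniq : ∀ m, cost x₀ y₀ / (s + t) = cost x₀ m / s + cost m y₀ / t → m = m₀)
    (hpos : ∀ ξ : TangentSpace 𝓘(ℝ, E) m₀, ξ ≠ 0 →
      0 < hess (fun b : TangentSpace 𝓘(ℝ, E) m₀ =>
        cost x₀ (e m₀ b) / s + cost (e m₀ b) y₀ / t) 0 ξ ξ) :
    SmoothAt E x₀ y₀ := by
  set φ := extChartAt (𝓘(ℝ, E).prod 𝓘(ℝ, E)) ((x₀, y₀) : M × M) with hφ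
  set G : (E × E) × TangentSpace 𝓘(ℝ, E) m₀ → ℝ := fun q =>
    cost (φ.symm q.1).1 (e m₀ q.2) / s + cost (e m₀ q.2) (φ.symm q.1).2 / t with hGdef
  have hφ0 : φ.symm (φ (x₀, y₀)) = (x₀, y₀) := φ.left_inv (mem_extChartAt_source _)
  have hm0 : e m₀ 0 = m₀ := he.map_zero m₀
  have hot : IsOpen φ.target := isOpen_extChartAt_target _
  have hmt : φ (x₀, y₀) ∈ φ.target := mem_extChartAt_target _
  have hsymm : ∀ p ∈ φ.target,
      ContMDiffAt 𝓘(ℝ, E × E) (𝓘(ℝ, E).prod 𝓘(ℝ, E)) ∞ φ.symm p := fun p hp =>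
    (contMDiffOn_extChartAt_symm (n := ∞) (x₀, y₀)).contMDiffAt (hot.mem_nhds hp)
  have hsymmc : ContinuousAt φ.symm (φ (x₀, y₀)) := (hsymm _ hmt).continuousAt
  have hec : Continuous (e m₀) := (contMDiff_exp_fiber he m₀).continuous
  have hGm : ∀ (p : E × E) (b : TangentSpace 𝓘(ℝ, E) m₀),
      G (p, b) = cost (φ.symm p).1 (e m₀ b) / s + cost (e m₀ b) (φ.symm p).2 / t :=
    fun p b => rfl
  -- smoothness of `G`
  have hG : ∀ᶠ q in 𝓝 ((φ (x₀, y₀), 0) : (E × E) × TangentSpace 𝓘(ℝ, E) m₀),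
      ContDiffAt ℝ ∞ G q := by
    have hc1 : Tendsto (fun q : (E × E) × TangentSpace 𝓘(ℝ, E) m₀ =>
        (((φ.symm q.1).1, e m₀ q.2) : M × M)) (𝓝 (φ (x₀, y₀), 0)) (𝓝 (x₀, m₀)) := by
      have hx : Tendsto (fun q : (E × E) × TangentSpace 𝓘(ℝ, E) m₀ => (φ.symm q.1).1)
          (𝓝 (φ (x₀, y₀), 0)) (𝓝 x₀) := by
        have h := (continuous_fst.tendsto _).comp (hsymmc.tendsto.comp
          (continuous_fst.tendsto ((φ (x₀, y₀), 0) : (E × E) × TangentSpace 𝓘(ℝ, E) m₀)))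
        simpa only [hφ0, Function.comp_def] using h
      have hm : Tendsto (fun q : (E × E) × TangentSpace 𝓘(ℝ, E) m₀ => e m₀ q.2)
          (𝓝 (φ (x₀, y₀), 0)) (𝓝 m₀) := by
        have h := (hec.tendsto _).comp
          (continuous_snd.tendsto ((φ (x₀, y₀), 0) : (E × E) × TangentSpace 𝓘(ℝ, E) m₀))
        simpa only [hm0, Function.comp_def] using h
      exact hx.prodMk_nhds hm
    have hc2 : Tendsto (fun q : (E × E) × TangentSpace 𝓘(ℝ, E) m₀ =>
        ((e m₀ q.2, (φ.symm q.1).2) : M × M)) (𝓝 (φ (x₀, y₀), 0)) (𝓝 (m₀, y₀)) := by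
      have hx : Tendsto (fun q : (E × E) × TangentSpace 𝓘(ℝ, E) m₀ => (φ.symm q.1).2)
          (𝓝 (φ (x₀, y₀), 0)) (𝓝 y₀) := by
        have h := (continuous_snd.tendsto _).comp (hsymmc.tendsto.comp
          (continuous_fst.tendsto ((φ (x₀, y₀), 0) : (E × E) × TangentSpace 𝓘(ℝ, E) m₀)))
        simpa only [hφ0, Function.comp_def] using h
      have hm : Tendsto (fun q : (E × E) × TangentSpace 𝓘(ℝ, E) m₀ => e m₀ q.2)
          (𝓝 (φ (x₀, y₀), 0)) (𝓝 m₀) := by
        have h := (hec.tendsto _).comp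
          (continuous_snd.tendsto ((φ (x₀, y₀), 0) : (E × E) × TangentSpace 𝓘(ℝ, E) m₀))
        simpa only [hm0, Function.comp_def] using h
      exact hm.prodMk_nhds hx
    have ht1 : ∀ᶠ q in 𝓝 ((φ (x₀, y₀), 0) : (E × E) × TangentSpace 𝓘(ℝ, E) m₀),
        q.1 ∈ φ.target :=
      (continuous_fst.tendsto _).eventually (hot.mem_nhds hmt)
    filter_upwards [hc1.eventually h1, hc2.eventually h2, ht1] with q hq1 hq2 hq3
    have hf : ContMDiffAt 𝓘(ℝ, (E × E) × TangentSpace 𝓘(ℝ, E) m₀)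
        (𝓘(ℝ, E).prod 𝓘(ℝ, E)) ∞ (fun q : (E × E) × TangentSpace 𝓘(ℝ, E) m₀ => φ.symm q.1) q :=
      (hsymm _ hq3).comp q (contDiffAt_fst.contMDiffAt)
    have hem : ContMDiffAt 𝓘(ℝ, (E × E) × TangentSpace 𝓘(ℝ, E) m₀)
        𝓘(ℝ, E) ∞ (fun q : (E × E) × TangentSpace 𝓘(ℝ, E) m₀ => e m₀ q.2) q :=
      (contMDiff_exp_fiber he m₀ _).comp q (contDiffAt_snd.contMDiffAt)
    have hA : ContDiffAt ℝ ∞ (fun q : (E × E) × TangentSpace 𝓘(ℝ, E) m₀ =>
        cost (φ.symm q.1).1 (e m₀ q.2)) q := by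
      rw [← contMDiffAt_iff_contDiffAt]
      exact hq1.comp q (hf.fst.prodMk hem)
    have hB : ContDiffAt ℝ ∞ (fun q : (E × E) × TangentSpace 𝓘(ℝ, E) m₀ =>
        cost (e m₀ q.2) (φ.symm q.1).2) q := by
      rw [← contMDiffAt_iff_contDiffAt]
      exact hq2.comp q (hem.prodMk hf.snd)
    exact (hA.div_const _).add (hB.div_const _)
  -- the minimizer
  have hmin0 : cost x₀ y₀ / (s + t) = cost x₀ m₀ / s + cost m₀ y₀ / t := by
    obtain ⟨m, hm⟩ := hex x₀ y₀
    have := huniq m hm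
    rwa [this] at hm
  have hcrit : fderiv ℝ (fun b => G (φ (x₀, y₀), b)) 0 = 0 := by
    apply IsLocalMin.fderiv_eq_zero
    refine Filter.Eventually.of_forall fun b => ?_
    simp only [hGm, hφ0, hm0]
    rw [← hmin0]
    exact cost_ineq _ _ _ hs ht
  have hpos' : ∀ ξ : TangentSpace 𝓘(ℝ, E) m₀, ξ ≠ 0 →
      hess (fun b => G (φ (x₀, y₀), b)) 0 ξ ξ ≠ 0 := by
    intro ξ hξ
    simp only [hGm, hφ0]
    exact (hpos ξ hξ).ne'
  -- the value function
  have hval := envelope (f := fun p : E × E => cost (φ.symm p).1 (φ.symm p).2 / (s + t))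
    hG hcrit hpos' (by
      intro U hU
      obtain ⟨V, hV, hVU⟩ := exp_surj_near he m₀ hU
      have hmn := minimizers_near huniq hV
      have hsymmc' : Tendsto φ.symm (𝓝 (φ (x₀, y₀))) (𝓝 (x₀, y₀)) := by
        simpa only [hφ0] using hsymmc.tendsto
      filter_upwards [hsymmc'.eventually hmn] with p hp
      obtain ⟨m, hm⟩ := hex (φ.symm p).1 (φ.symm p).2
      obtain ⟨b, hb, hbm⟩ := hVU m (hp m hm)
      refine ⟨b, hb, ?_, ?_⟩
      · apply IsLocalMin.fderiv_eq_zero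
        refine Filter.Eventually.of_forall fun b' => ?_
        simp only [hGm]
        rw [hbm, ← hm]
        exact cost_ineq _ _ _ hs ht
      · simp only [hGm]
        rw [hbm, ← hm])
  -- back to the manifold
  have hφc : Tendsto φ (𝓝 (x₀, y₀)) (𝓝 (φ (x₀, y₀))) := continuousAt_extChartAt _
  have hsrc : IsOpen φ.source := isOpen_extChartAt_source _
  unfold SmoothAt
  filter_upwards [hφc.eventually hval, hsrc.mem_nhds (mem_extChartAt_source _)] with n hn1 hn2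
  have hφn : ContMDiffAt (𝓘(ℝ, E).prod 𝓘(ℝ, E)) 𝓘(ℝ, E × E) ∞ φ n :=
    contMDiffAt_extChartAt' (by rwa [← extChartAt_source (𝓘(ℝ, E).prod 𝓘(ℝ, E))])
  have hcomp : ContMDiffAt (𝓘(ℝ, E).prod 𝓘(ℝ, E)) 𝓘(ℝ, ℝ) ∞
      (fun n : M × M => cost (φ.symm (φ n)).1 (φ.symm (φ n)).2 / (s + t)) n :=
    ContMDiffAt.comp (g := fun p : E × E => cost (φ.symm p).1 (φ.symm p).2 / (s + t)) n
      hn1.contMDiffAt hφn
  have hcomp2 : ContMDiffAt (𝓘(ℝ, E).prod 𝓘(ℝ, E)) 𝓘(ℝ, ℝ) ∞
      (fun n : M × M => (s + t) * (cost (φ.symm (φ n)).1 (φ.symm (φ n)).2 / (s + t))) n :=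
    contMDiffAt_const.mul hcomp
  refine hcomp2.congr_of_eventuallyEq ?_
  filter_upwards [hsrc.mem_nhds hn2] with n' hn'
  rw [φ.left_inv hn']
  (clear * - hs ht; field_simp)

end

end Vale.Agent.P234
end
end
end

section

section

section

/-! Geometric input for the smoothness of the cost: uniqueness and nondegeneracy of midpoints. -/

set_option maxSynthPendingDepth 3

open Bundle Manifold Set Filter
open scoped ContDiff Manifold Topology

namespace Vale.Agent.P234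

noncomputable section

/-- Equality case of the convexity inequality. -/
lemma split_eq {a b n s t : ℝ} (hs : 0 < s) (ht : 0 < t) (hn : 0 ≤ n)
    (hab : (s + t) * n ≤ a + b)
    (h : ((s + t) * n) ^ 2 / 2 / (s + t) = a ^ 2 / 2 / s + b ^ 2 / 2 / t) :
    a = s * n ∧ b = t * n := by
  have hst : 0 < s + t := by linarith only [hs, ht]
  have h1 : ((s + t) * n) ^ 2 / 2 / (s + t) = (s + t) * n ^ 2 / 2 := by
    field_simp
  rw [h1] at h
  have h2 : (a - s * n) ^ 2 / s + (b - t * n) ^ 2 / t =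
      2 * (a ^ 2 / 2 / s + b ^ 2 / 2 / t) - 2 * n * (a + b) + (s + t) * n ^ 2 := by
    field_simp
    ring
  have h3 : (a - s * n) ^ 2 / s + (b - t * n) ^ 2 / t ≤ 0 := by
    rw [h2, ← h]
    linarith only [mul_nonneg (sub_nonneg.2 hab) (sub_nonneg.2 hn)]
  have h4 : 0 ≤ (a - s * n) ^ 2 / s := by (clear * - hs; positivity)
  have h5 : 0 ≤ (b - t * n) ^ 2 / t := by (clear * - ht; positivity)
  have h6 : (a - s * n) ^ 2 / s = 0 := by (clear * - h4 h3 h5; linarith)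
  have h7 : (b - t * n) ^ 2 / t = 0 := by linarith only [h5, h3, h4]
  rw [div_eq_zero_iff] at h6 h7
  constructor
  · rcases h6 with h6 | h6
    · have := pow_eq_zero_iff (two_ne_zero) |>.1 h6
      linarith only [this]
    · linarith only [hs, h6]
  · rcases h7 with h7 | h7
    · have := pow_eq_zero_iff (two_ne_zero) |>.1 h7
      linarith only [this]
    · linarith only [ht, h7]

variable {E : Type*} [NormedAddCommGroup E] [NormedSpace ℝ E] [FiniteDimensional ℝ E]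
  {M : Type*} [MetricSpace M] [ChartedSpace E M]
  [RiemannianBundle (fun x : M => TangentSpace 𝓘(ℝ, E) x)]
  [IsManifold 𝓘(ℝ, E) ∞ M]
  [IsContMDiffRiemannianBundle 𝓘(ℝ, E) ∞ E (fun x : M => TangentSpace 𝓘(ℝ, E) x)]
  [CompactSpace M]
  {e : ∀ x : M, TangentSpace 𝓘(ℝ, E) x → M}

/-- Uniqueness of the interior point in the convexity inequality, at small distance from the
second endpoint. -/
lemma mid_unique (he : IsExp e) : ∃ ρ > 0, ∀ (x : M) (v : TangentSpace 𝓘(ℝ, E) x),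
    v ∈ segMin e x → ∀ p q t ε : ℝ, 0 ≤ p → p < q - t → 0 < t → 0 < ε → q + ε ≤ 1 →
    (t + ε) * ‖v‖ < ρ → ∀ m : M,
    cost (e x (p • v)) (e x (q • v)) / ((q - t - p) + t) =
      cost (e x (p • v)) m / (q - t - p) + cost m (e x (q • v)) / t →
    m = e x ((q - t) • v) := by
  obtain ⟨ρ1, hρ1, hnear⟩ := exists_near he
  obtain ⟨ρ2, hρ2, hshort⟩ := short_between he
  obtain ⟨ρ3, hρ3, hmini⟩ := he.minimizing
  refine ⟨min ρ1 (min ρ2 ρ3), lt_min hρ1 (lt_min hρ2 hρ3), ?_⟩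
  intro x v hv p q t ε hp hpq ht hε hqε hsmall m hm
  have hs1 : (t + ε) * ‖v‖ < ρ1 := hsmall.trans_le (min_le_left _ _)
  have hs2 : (t + ε) * ‖v‖ < ρ2 :=
    hsmall.trans_le ((min_le_right _ _).trans (min_le_left _ _))
  have hs3 : (t + ε) * ‖v‖ < ρ3 :=
    hsmall.trans_le ((min_le_right _ _).trans (min_le_right _ _))
  have hn : 0 ≤ ‖v‖ := norm_nonneg v
  have hs : 0 < q - t - p := by linarith only [hpq]
  have hd01 : dist (e x (p • v)) (e x (q • v)) = ((q - t - p) + t) * ‖v‖ := by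
    rw [segMin_dist he hv hp (by linarith only [hpq, ht]) (by linarith only [hε, hqε])]; ring
  have hkey : dist (e x (p • v)) m = (q - t - p) * ‖v‖ ∧ dist m (e x (q • v)) = t * ‖v‖ := by
    apply split_eq hs ht hn
    · rw [← hd01]; exact dist_triangle _ _ _
    · rw [← hd01]; exact hm
  obtain ⟨h1, h2⟩ := hkey
  rcases hn.eq_or_lt with hn0 | hn0
  · -- degenerate case
    rw [← hn0, mul_zero] at h2
    have h3 : dist (e x ((q - t) • v)) (e x (q • v)) = 0 := by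
      rw [segMin_dist he hv (by linarith only [hp, hpq]) (by linarith only [ht]) (by linarith only [hε, hqε]), ← hn0, mul_zero]
    rw [dist_eq_zero] at h2 h3
    rw [h2, h3]
  have hd12 : dist (e x (q • v)) (e x ((q + ε) • v)) = ε * ‖v‖ := by
    rw [segMin_dist he hv (by linarith only [hp, hpq, ht]) (by linarith only [hε]) (by linarith only [hqε])]; ring
  have hd02 : dist (e x (p • v)) (e x ((q + ε) • v)) = (q + ε - p) * ‖v‖ := by
    rw [segMin_dist he hv (by linarith only [hp]) (by linarith only [hpq, ht, hε]) (by linarith only [hqε])]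
  have hdm : dist (e x ((q + ε) • v)) m = (t + ε) * ‖v‖ := by
    rw [dist_comm]
    apply le_antisymm
    · have := dist_triangle m (e x (q • v)) (e x ((q + ε) • v))
      linarith only [h2, hd12, this]
    · have := dist_triangle (e x (p • v)) m (e x ((q + ε) • v))
      linarith only [h1, hd02, this]
  obtain ⟨-, w1, hw1, hw1n⟩ := hnear (e x ((q + ε) • v)) m (by rw [hdm]; exact hs1)
  rw [hdm] at hw1n
  have hεn : 0 < ε * ‖v‖ := by positivity
  have htn : 0 < t * ‖v‖ := by (clear * - ht hn0; positivity)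
  obtain ⟨τ, hτ0, hτ1, hτ⟩ := hshort (e x ((q + ε) • v)) w1 (by rw [← hw1n]; exact hs2)
    (e x (q • v)) (by
      rw [hw1, hdm, dist_comm, hd12, dist_comm, h2]; ring)
  have hτ' : ((t + ε) * ‖v‖) * τ = ε * ‖v‖ := by
    have := hmini (e x ((q + ε) • v)) w1 0 τ (by
      rw [← hw1n, sub_zero, abs_of_nonneg hτ0]
      linarith only [mul_nonneg (le_of_lt (sub_pos.2 hs3)) (sub_nonneg.2 hτ0), mul_nonneg (le_of_lt (sub_pos.2 hρ3)) (sub_nonneg.2 hτ1)])
    rw [zero_smul, he.map_zero, hτ, dist_comm, hd12, ← hw1n, sub_zero, abs_of_nonneg hτ0] at this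
    exact this.symm
  have hτ2 : (t + ε) * τ = ε := by
    have h3 : ((t + ε) * τ) * ‖v‖ = ε * ‖v‖ := by rw [← hτ']; ring
    exact mul_right_cancel₀ hn0.ne' h3
  obtain ⟨w', hw'n, hw'f⟩ := flow_of_isExp he x v (q + ε)
  have hy0 : e (e x ((q + ε) • v)) ((-ε) • w') = e x (q • v) := by
    rw [hw'f]; congr 2; ring
  have hseg1 : τ • w1 ∈ segMin e (e x ((q + ε) • v)) := by
    show dist _ _ = _
    rw [hτ, dist_comm, hd12, norm_smul, ← hw1n, Real.norm_eq_abs, abs_of_nonneg hτ0, ← hτ']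
    ring
  have hseg2 : (-ε) • w' ∈ segMin e (e x ((q + ε) • v)) := by
    show dist _ _ = _
    rw [hy0, dist_comm, hd12, norm_smul, hw'n, Real.norm_eq_abs, abs_neg, abs_of_pos hε]
  have huniq : (-ε) • w' = τ • w1 := by
    apply segMin_unique_of_smooth he hseg1 hseg2
    · rw [hτ]
      exact (hnear _ _ (by rw [dist_comm, hd12]; nlinarith only [hs1, htn])).1
    · rw [hτ, hy0]
  have hw1' : w1 = (-(t + ε)) • w' := by
    have h3 : (t + ε) • ((-ε) • w') = (t + ε) • (τ • w1) := by rw [huniq]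
    rw [smul_smul, smul_smul, hτ2] at h3
    have h4 : ε • w1 = ε • ((-(t + ε)) • w') := by
      rw [← h3, smul_smul]; congr 1; ring
    exact smul_right_injective _ hε.ne' h4
  rw [← hw1, hw1', hw'f]
  congr 2; ring

omit [CompactSpace M] in
/-- Nondegeneracy at the centre `m0` of a minimizing geodesic `x0 - m0 - y0 - y1` whose part
after `m0` is short. -/
lemma mid_pos_aux (he : IsExp e) {ρ1 ρ3 : ℝ}
    (hnear : ∀ x y : M, dist x y < ρ1 → SmoothAt E x y ∧
      ∃ v : TangentSpace 𝓘(ℝ, E) x, e x v = y ∧ dist x y = ‖v‖)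
    (hmini : ∀ (x : M) (v : TangentSpace 𝓘(ℝ, E) x) (s t : ℝ),
      ‖v‖ * |t - s| ≤ ρ3 → dist (e x (s • v)) (e x (t • v)) = ‖v‖ * |t - s|)
    {m0 x0 y0 y1 : M} (w ξ : TangentSpace 𝓘(ℝ, E) m0) {s t ε : ℝ}
    (hs : 0 < s) (ht : 0 < t) (hε : 0 < ε)
    (hs1 : (t + ε) * ‖w‖ < ρ1) (hs3 : (t + ε) * ‖w‖ < ρ3)
    (hx0 : x0 = e m0 ((-s) • w)) (hy0 : y0 = e m0 (t • w)) (hy1 : y1 = e m0 ((t + ε) • w))
    (hc : cost x0 y1 / (s + (t + ε)) = cost x0 m0 / s + cost m0 y1 / (t + ε))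
    (hsm : SmoothAt E x0 m0) (hξ : ξ ≠ 0) :
    0 < hess (fun b : TangentSpace 𝓘(ℝ, E) m0 =>
      cost x0 (e m0 b) / s + cost (e m0 b) y0 / t) 0 ξ ξ := by
  have hn : 0 ≤ ‖w‖ := norm_nonneg w
  have htε : 0 < t + ε := by linarith only [ht, hε]
  have hez : e m0 0 = m0 := he.map_zero m0
  -- smoothness of the three functions
  have hsmall' : ∀ r : ℝ, 0 ≤ r → r ≤ t + ε → ‖r • w‖ < ρ1 ∧ ‖r • w‖ < ρ3 := by
    intro r h0 hr
    rw [norm_smul, Real.norm_eq_abs, abs_of_nonneg h0]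
    have : r * ‖w‖ ≤ (t + ε) * ‖w‖ := mul_le_mul_of_nonneg_right hr hn
    exact ⟨this.trans_lt hs1, this.trans_lt hs3⟩
  have hdist : ∀ r r' : ℝ, 0 ≤ r → r ≤ r' → r' ≤ t + ε →
      dist (e m0 (r • w)) (e m0 (r' • w)) = (r' - r) * ‖w‖ := by
    intro r r' h0 hr hr'
    have := hmini m0 w r r' (by
      rw [abs_of_nonneg (sub_nonneg.2 hr)]
      linarith only [mul_nonneg (sub_nonneg.2 hn) (sub_nonneg.2 hr'), mul_nonneg (sub_nonneg.2 hn) (sub_nonneg.2 h0), hs3])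
    rw [this, abs_of_nonneg (sub_nonneg.2 hr), mul_comm]
  have hseg : ∀ r : ℝ, 0 ≤ r → r ≤ t + ε → r • w ∈ segMin e m0 := by
    intro r h0 hr
    show dist _ _ = _
    have := hdist 0 r le_rfl h0 hr
    rw [zero_smul, hez] at this
    rw [this, norm_smul, Real.norm_eq_abs, abs_of_nonneg h0, sub_zero]
  have hsm0 : ∀ r r' : ℝ, 0 ≤ r → r ≤ r' → r' ≤ t + ε →
      SmoothAt E (e m0 (r • w)) (e m0 (r' • w)) := by
    intro r r' h0 hr hr'
    apply (hnear _ _ _).1
    rw [hdist r r' h0 hr hr']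
    linarith only [mul_nonneg (sub_nonneg.2 hn) (sub_nonneg.2 hr'), mul_nonneg (sub_nonneg.2 hn) (sub_nonneg.2 h0), hs1]
  have hsmz : ∀ r : ℝ, 0 ≤ r → r ≤ t + ε → SmoothAt E m0 (e m0 (r • w)) := by
    intro r h0 hr
    have := hsm0 0 r le_rfl h0 hr
    rwa [zero_smul, hez] at this
  have hcd : ∀ u : TangentSpace 𝓘(ℝ, E) m0, SmoothAt E m0 (e m0 u) →
      ContDiffAt ℝ 2 (fun b : TangentSpace 𝓘(ℝ, E) m0 => cost (e m0 b) (e m0 u)) 0 := by
    intro u hu
    have h1 : SmoothAt E (e m0 0) (e m0 u) := by rwa [hez]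
    have h2 := SmoothAt.coord he h1
    have h3 : ContDiffAt ℝ ∞ (fun b : TangentSpace 𝓘(ℝ, E) m0 => (b, u)) 0 := by
      fun_prop
    have h4 := ContDiffAt.comp (0 : TangentSpace 𝓘(ℝ, E) m0) h2 h3
    exact h4.of_le (WithTop.coe_le_coe.2 le_top)
  have hf1 := hcd ((-s) • w) (by rw [← hx0]; exact hsm.symm)
  have hf2 := hcd (t • w) (hsmz t ht.le (by linarith only [hε]))
  have hf3 := hcd ((t + ε) • w) (hsmz (t + ε) (by linarith only [ht, hε]) le_rfl)
  have hmul : ∀ (c : ℝ) {f : TangentSpace 𝓘(ℝ, E) m0 → ℝ}, ContDiffAt ℝ 2 f 0 →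
      ContDiffAt ℝ 2 (fun b => c * f b) 0 := fun c f hf => contDiffAt_const.mul hf
  -- positivity with the longer piece
  have hG : 0 ≤ s⁻¹ * costHess e m0 ((-s) • w) ξ ξ +
      (t + ε)⁻¹ * costHess e m0 ((t + ε) • w) ξ ξ := by
    have hmin : IsLocalMin (fun b : TangentSpace 𝓘(ℝ, E) m0 =>
        s⁻¹ * cost (e m0 b) (e m0 ((-s) • w)) +
          (t + ε)⁻¹ * cost (e m0 b) (e m0 ((t + ε) • w))) 0 := by
      apply Filter.Eventually.of_forall
      intro b
      have h1 := cost_ineq x0 (e m0 b) y1 hs htε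
      show s⁻¹ * cost (e m0 0) (e m0 ((-s) • w)) +
          (t + ε)⁻¹ * cost (e m0 0) (e m0 ((t + ε) • w)) ≤ s⁻¹ * cost (e m0 b) (e m0 ((-s) • w)) +
          (t + ε)⁻¹ * cost (e m0 b) (e m0 ((t + ε) • w))
      rw [hez, ← hx0, ← hy1, cost_comm m0 x0, cost_comm (e m0 b) x0]
      rw [hc] at h1
      simp only [div_eq_inv_mul] at h1
      exact h1
    have h1 := hess_nonneg_of_isLocalMin
      (ContDiffAt.add (hmul s⁻¹ hf1) (hmul (t + ε)⁻¹ hf3)) hmin ξ
    rw [hess_add (hmul s⁻¹ hf1) (hmul (t + ε)⁻¹ hf3), hess_const_mul hf1,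
      hess_const_mul hf3] at h1
    exact h1
  have hstrict := costHess_strict he (w := w) ht (show t < t + ε by linarith only [hε])
    (by
      have h1 : ∀ᶠ b in 𝓝 (t • w), ‖b‖ < ρ3 :=
        (continuous_norm.tendsto (t • w)).eventually_lt_const (hsmall' t ht.le (by linarith only [hε])).2
      filter_upwards [h1] with b hb
      have := hmini m0 b 0 1 (by simpa only [sub_zero, abs_one, mul_one] using hb.le)
      rw [zero_smul, one_smul, hez] at this
      show dist _ _ = _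
      rw [this]; simp)
    (hseg (t + ε) (by linarith only [ht, hε]) le_rfl) (hsmz t ht.le (by linarith only [hε]))
    (hsmz (t + ε) (by linarith only [ht, hε]) le_rfl) (hsm0 t (t + ε) ht.le (by linarith only [hε]) le_rfl) hξ
  have hfun : (fun b : TangentSpace 𝓘(ℝ, E) m0 =>
      cost x0 (e m0 b) / s + cost (e m0 b) y0 / t) =
      fun b => s⁻¹ * cost (e m0 b) (e m0 ((-s) • w)) + t⁻¹ * cost (e m0 b) (e m0 (t • w)) := by
    funext b
    rw [← hx0, ← hy0, cost_comm x0, div_eq_inv_mul, div_eq_inv_mul]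
  rw [hfun, hess_add (hmul s⁻¹ hf1) (hmul t⁻¹ hf2), hess_const_mul hf1, hess_const_mul hf2]
  have h5 : 0 < s⁻¹ * costHess e m0 ((-s) • w) ξ ξ + t⁻¹ * costHess e m0 (t • w) ξ ξ := by
    rw [div_eq_inv_mul, div_eq_inv_mul] at hstrict
    linarith only [hG, hstrict]
  exact h5

/-- Nondegeneracy of the interior point in the convexity inequality. -/
lemma mid_pos (he : IsExp e) : ∃ ρ > 0, ∀ (x : M) (v : TangentSpace 𝓘(ℝ, E) x),
    v ∈ segMin e x → ∀ p q t ε : ℝ, 0 ≤ p → p < q - t → 0 < t → 0 < ε → q + ε ≤ 1 →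
    (t + ε) * ‖v‖ < ρ → SmoothAt E (e x (p • v)) (e x ((q - t) • v)) →
    ∀ ξ : TangentSpace 𝓘(ℝ, E) (e x ((q - t) • v)), ξ ≠ 0 →
    0 < hess (fun b : TangentSpace 𝓘(ℝ, E) (e x ((q - t) • v)) =>
      cost (e x (p • v)) (e (e x ((q - t) • v)) b) / (q - t - p) +
        cost (e (e x ((q - t) • v)) b) (e x (q • v)) / t) 0 ξ ξ := by
  obtain ⟨ρ1, hρ1, hnear⟩ := exists_near he
  obtain ⟨ρ3, hρ3, hmini⟩ := he.minimizing
  refine ⟨min ρ1 ρ3, lt_min hρ1 hρ3, ?_⟩
  intro x v hv p q t ε hp hpq ht hε hqε hsmall hsm ξ hξ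
  have hs1 : (t + ε) * ‖v‖ < ρ1 := hsmall.trans_le (min_le_left _ _)
  have hs3 : (t + ε) * ‖v‖ < ρ3 := hsmall.trans_le (min_le_right _ _)
  obtain ⟨w, hwn, hwf⟩ := flow_of_isExp he x v (q - t)
  have hs : 0 < q - t - p := by linarith only [hpq]
  have htε : 0 < t + ε := by linarith only [ht, hε]
  refine mid_pos_aux he hnear hmini w ξ (y1 := e x ((q + ε) • v)) hs ht hε
    (by rw [hwn]; exact hs1) (by rw [hwn]; exact hs3) ?_ ?_ ?_ ?_ hsm hξ
  · rw [hwf]; congr 2; ring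
  · rw [hwf]; congr 2; ring
  · rw [hwf]; congr 2; ring
  · rw [segMin_cost he hv hp (by linarith only [hpq, ht, hε]) (by linarith only [hqε]),
      segMin_cost he hv hp (by linarith only [hpq]) (by linarith only [ht, hε, hqε]),
      segMin_cost he hv (by linarith only [hp, hpq]) (by linarith only [ht, hε]) (by linarith only [hqε])]
    have h1 : q + ε - p = (q - t - p) + (t + ε) := by ring
    have h2 : q + ε - (q - t) = t + ε := by ring
    rw [h1, h2]
    have h3 : 0 < (q - t - p) + (t + ε) := by linarith only [hpq, ht, hε]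
    (clear * - hs ht hε; field_simp)

end

end Vale.Agent.P234
end
end
end

section

section

section

open Matrix Finset

namespace Vale.Agent.P231.Kazdan

section
variable {ι κ μ : Type*}

end

section Det

variable {ι : Type*} [Fintype ι] [DecidableEq ι]

end Det

end Vale.Agent.P231.Kazdan
end
end
end

section

section

section

/-! P231 core: matrix level Jacobi data of a closed geodesic. -/

open Matrix Real Set Filter Topology MeasureTheory
open scoped ContDiff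

namespace Vale.Agent.P231

noncomputable section

/-- Jacobi data of a closed geodesic of length `2 * D`, written in an arbitrary
`2 * D`-periodic family of orthonormal frames (no regularity of the frames is assumed):
column `j` of `A s t` is the value at `t` of the Jacobi field which vanishes at `s` with
derivative the `j`-th frame vector. -/
structure JData {ι : Type*} [Fintype ι] [DecidableEq ι] (D : ℝ)
    (A : ℝ → ℝ → Matrix ι ι ℝ) : Prop where
  pos : 0 < D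
  diag : ∀ s, A s s = 0
  anti : ∀ s t, A t s = -(A s t)ᵀ
  rel : ∀ s t a b, IsUnit (A a b) →
    A s t = A a t * (A a b)⁻¹ * A s b + A b t * (A b a)⁻¹ * A s a
  smooth : ∀ a b i j, ContDiff ℝ ∞ (fun t => ((A a t)ᵀ * A b t) i j)
  der : ∀ a b i j, HasDerivAt (fun t => ((A a t)ᵀ * A b t) i j) (A a b j i) b
  per : ∀ s t, A s (t + 2 * D) = A s t
  unit : ∀ s t, s < t → t < s + D → IsUnit (A s t)

/-- Coordinate of the Lagrangian at time `t` with respect to the base time `a`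
(normalised to vanish at `b`). -/
def Hc {ι : Type*} [Fintype ι] [DecidableEq ι] (A : ℝ → ℝ → Matrix ι ι ℝ) (a b t : ℝ) :
    Matrix ι ι ℝ :=
  (A a t)⁻¹ * A b t * ((A a b)⁻¹)ᵀ

/-- Gram matrix. -/
def Gm {ι : Type*} [Fintype ι] [DecidableEq ι] (A : ℝ → ℝ → Matrix ι ι ℝ) (a t : ℝ) :
    Matrix ι ι ℝ :=
  (A a t)ᵀ * A a t

/-- The strip `0 < t - s < T`. -/
def strip (T : ℝ) : Set (ℝ × ℝ) := {p | p.1 < p.2 ∧ p.2 < p.1 + T}

end

end Vale.Agent.P231
end
end
end

section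

section

section

open Matrix Real Set Filter Topology MeasureTheory
open scoped ContDiff

namespace Vale.Agent.P231

noncomputable section

variable {κ ν : Type*} [Fintype κ] [DecidableEq κ] [Fintype ν] [DecidableEq ν]

/-- The kernel of `A 0 (π / 2)` is the first block. -/
def Adapted (A : ℝ → ℝ → Matrix (κ ⊕ ν) (κ ⊕ ν) ℝ) : Prop :=
  ∀ v : κ ⊕ ν → ℝ, A 0 (π / 2) *ᵥ v = 0 ↔ ∀ j, v (Sum.inr j) = 0

/-- `cos`-like matrix function. -/
structure CData (C C' : ℝ → Matrix ν ν ℝ) : Prop where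
  der : ∀ t i j, HasDerivAt (fun t => C t i j) (C' t i j) t
  cont : ∀ i j, Continuous (fun t => C' t i j)
  symm : ∀ t, (C t)ᵀ = C t
  anti : ∀ t, C (t + π) = -C t
  zero : C 0 = 1
  pos : ∀ t, (cos t • C t - sin t • C' t).PosDef

/-- `sin (t - s)`-like matrix function -/
def Xc (C : ℝ → Matrix ν ν ℝ) (s t : ℝ) : Matrix ν ν ℝ := sin t • C s - sin s • C t

/-- its weight -/
def Gc (C C' : ℝ → Matrix ν ν ℝ) (t : ℝ) : Matrix ν ν ℝ := cos t • C t - sin t • C' t

end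

end Vale.Agent.P231
end
end
end

section

section

section

/-! Calculus of matrix valued functions of a real variable, entrywise. -/

open Matrix Real Set Filter Topology
open scoped ContDiff

namespace Vale.Agent.P231

namespace MatCalc

variable {ι : Type*} [Fintype ι] [DecidableEq ι]

theorem contDiff_det {n : WithTop ℕ∞} :
    ContDiff ℝ n (fun g : ι → ι → ℝ => (Matrix.of g).det) := by
  simp_rw [Matrix.det_apply']
  apply ContDiff.sum
  intro σ _
  apply ContDiff.mul contDiff_const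
  apply contDiff_prod
  intro i _
  simp only [Matrix.of_apply]
  exact (contDiff_apply_apply (𝕜 := ℝ) (E := ℝ) (σ i) i)

theorem fderiv_det (g h : ι → ι → ℝ) (hg : (Matrix.of g).det ≠ 0) :
    fderiv ℝ (fun g : ι → ι → ℝ => (Matrix.of g).det) g h
      = (Matrix.of g).det * ((Matrix.of g)⁻¹ * Matrix.of h).trace := by
  have hd : HasFDerivAt (fun g : ι → ι → ℝ => (Matrix.of g).det)
      (fderiv ℝ (fun g : ι → ι → ℝ => (Matrix.of g).det) g) g :=
    ((contDiff_det (n := 1)).differentiable (by norm_num) g).hasFDerivAt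
  have h1 : HasDerivAt (fun t : ℝ => (Matrix.of (g + t • h)).det)
      (fderiv ℝ (fun g : ι → ι → ℝ => (Matrix.of g).det) g h) 0 := by
    have hl : HasDerivAt (fun t : ℝ => g + t • h) h 0 := by
      simpa using ((hasDerivAt_id (0 : ℝ)).smul_const h).const_add g
    have hd' : HasFDerivAt (fun g : ι → ι → ℝ => (Matrix.of g).det)
      (fderiv ℝ (fun g : ι → ι → ℝ => (Matrix.of g).det) g) (g + (0 : ℝ) • h) := by
      simpa only [zero_smul, add_zero] using hd
    exact hd'.comp_hasDerivAt (0 : ℝ) hl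
  set A : Matrix ι ι ℝ := (Matrix.of g)⁻¹ * Matrix.of h with hA
  obtain ⟨q, hq⟩ : ∃ q : Polynomial ℝ, ∀ t : ℝ,
      (1 + t • A).det = 1 + A.trace * t + q.eval t * t ^ 2 := by
    exact ⟨_, fun t => Matrix.det_one_add_smul t A⟩
  have h2 : HasDerivAt (fun t : ℝ => (Matrix.of (g + t • h)).det)
      ((Matrix.of g).det * A.trace) 0 := by
    have heq : (fun t : ℝ => (Matrix.of (g + t • h)).det)
        = fun t => (Matrix.of g).det * (1 + A.trace * t + q.eval t * t ^ 2) := by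
      funext t
      rw [← hq, ← Matrix.det_mul]
      congr 1
      rw [Matrix.mul_add, Matrix.mul_one, Matrix.mul_smul, hA, ← Matrix.mul_assoc,
        Matrix.mul_nonsing_inv _ (isUnit_iff_ne_zero.mpr hg), Matrix.one_mul]
      rfl
    rw [heq]
    have : HasDerivAt (fun t : ℝ => 1 + A.trace * t + q.eval t * t ^ 2) A.trace 0 := by
      have e1 : HasDerivAt (fun t : ℝ => A.trace * t) A.trace 0 := by
        simpa only [id_eq, mul_one] using (hasDerivAt_id (0 : ℝ)).const_mul A.trace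
      have e2 : HasDerivAt (fun t : ℝ => q.eval t * t ^ 2) 0 0 := by
        have e3 : HasDerivAt (fun t : ℝ => t ^ 2) 0 0 := by
          simpa only [Nat.cast_ofNat, Nat.add_one_sub_one, pow_one, mul_zero] using hasDerivAt_pow 2 (0 : ℝ)
        have := (q.hasDerivAt (0 : ℝ)).fun_mul e3
        simpa using this
      simpa only [add_zero] using (e1.const_add 1).fun_add e2
    exact this.const_mul _
  exact h1.unique h2

theorem isUnit_iff {A : Matrix ι ι ℝ} : IsUnit A ↔ A.det ≠ 0 := by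
  rw [Matrix.isUnit_iff_isUnit_det, isUnit_iff_ne_zero]

/-- smoothness of the determinant -/
theorem contDiffAt_det {E : Type*} [NormedAddCommGroup E] [NormedSpace ℝ E] {n : WithTop ℕ∞}
    {X : E → Matrix ι ι ℝ} {x : E} (hX : ∀ i j, ContDiffAt ℝ n (fun x => X x i j) x) :
    ContDiffAt ℝ n (fun x => (X x).det) x := by
  have h1 : ContDiffAt ℝ n (fun x => (fun i j => X x i j : ι → ι → ℝ)) x :=
    contDiffAt_pi.2 fun i => contDiffAt_pi.2 fun j => hX i j
  exact (contDiff_det (n := n)).contDiffAt.comp x h1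

/-- Jacobi's formula -/
theorem hasDerivAt_det {X : ℝ → Matrix ι ι ℝ} {X' : Matrix ι ι ℝ} {t : ℝ}
    (hX : ∀ i j, HasDerivAt (fun t => X t i j) (X' i j) t) (hu : IsUnit (X t)) :
    HasDerivAt (fun t => (X t).det) ((X t).det * ((X t)⁻¹ * X').trace) t := by
  have h1 : HasDerivAt (fun t => (fun i j => X t i j : ι → ι → ℝ)) (fun i j => X' i j) t :=
    hasDerivAt_pi.2 fun i => hasDerivAt_pi.2 fun j => hX i j
  have h2 : HasFDerivAt (fun g : ι → ι → ℝ => (Matrix.of g).det)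
      (fderiv ℝ (fun g : ι → ι → ℝ => (Matrix.of g).det) (fun i j => X t i j))
      (fun i j => X t i j) :=
    ((contDiff_det (n := 1)).differentiable (by norm_num) _).hasFDerivAt
  have h3 := h2.comp_hasDerivAt t h1
  have h4 := fderiv_det (fun i j => X t i j) (fun i j => X' i j) (isUnit_iff.1 hu)
  rw [h4] at h3
  exact h3

theorem hasDerivAt_log_det {X : ℝ → Matrix ι ι ℝ} {X' : Matrix ι ι ℝ} {t : ℝ}
    (hX : ∀ i j, HasDerivAt (fun t => X t i j) (X' i j) t) (hu : IsUnit (X t)) :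
    HasDerivAt (fun t => log |(X t).det|) (((X t)⁻¹ * X').trace) t := by
  have h1 := (hasDerivAt_det hX hu).log (isUnit_iff.1 hu)
  have h2 : (X t).det * ((X t)⁻¹ * X').trace / (X t).det = ((X t)⁻¹ * X').trace := by
    field_simp [isUnit_iff.1 hu]
  rw [h2] at h1
  simp only [Real.log_abs]
  exact h1

omit [DecidableEq ι] in
/-- entries of a product -/
theorem hasDerivAt_mul {X Y : ℝ → Matrix ι ι ℝ} {X' Y' : Matrix ι ι ℝ} {t : ℝ}
    (hX : ∀ i j, HasDerivAt (fun t => X t i j) (X' i j) t)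
    (hY : ∀ i j, HasDerivAt (fun t => Y t i j) (Y' i j) t) (i j : ι) :
    HasDerivAt (fun t => (X t * Y t) i j) ((X' * Y t + X t * Y') i j) t := by
  simp only [Matrix.mul_apply, Matrix.add_apply]
  rw [← Finset.sum_add_distrib]
  exact HasDerivAt.fun_sum fun k _ => (hX i k).mul (hY k j)

theorem differentiableAt_det {X : ℝ → Matrix ι ι ℝ} {t : ℝ}
    (hX : ∀ i j, DifferentiableAt ℝ (fun t => X t i j) t) :
    DifferentiableAt ℝ (fun t => (X t).det) t := by
  have h2 : DifferentiableAt ℝ (fun g : ι → ι → ℝ => (Matrix.of g).det) (fun k l => X t k l) :=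
    (contDiff_det (n := 1)).differentiable (by norm_num) _
  have h3 : DifferentiableAt ℝ (fun t => (fun k l => X t k l : ι → ι → ℝ)) t :=
    differentiableAt_pi.2 fun k => differentiableAt_pi.2 fun l => hX k l
  have h4 := h2.comp t h3
  exact h4

/-- derivative of the inverse -/
theorem hasDerivAt_inv {X : ℝ → Matrix ι ι ℝ} {X' : Matrix ι ι ℝ} {t : ℝ}
    (hX : ∀ i j, HasDerivAt (fun t => X t i j) (X' i j) t) (hu : IsUnit (X t)) (i j : ι) :
    HasDerivAt (fun t => (X t)⁻¹ i j) ((-((X t)⁻¹ * X' * (X t)⁻¹)) i j) t := by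
  have hdet : HasDerivAt (fun t => (X t).det) ((X t).det * ((X t)⁻¹ * X').trace) t :=
    hasDerivAt_det hX hu
  have hne : ∀ᶠ s in 𝓝 t, (X s).det ≠ 0 :=
    hdet.continuousAt.eventually_ne (isUnit_iff.1 hu)
  -- differentiability
  have hd : ∀ i j, DifferentiableAt ℝ (fun t => (X t)⁻¹ i j) t := by
    intro i j
    have h1 : (fun x => (X x)⁻¹ i j) = fun x => ((X x).det)⁻¹ * (X x).adjugate i j := by
      funext x
      rw [Matrix.inv_def, Ring.inverse_eq_inv', Matrix.smul_apply, smul_eq_mul]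
    rw [h1]
    refine (hdet.differentiableAt.inv (isUnit_iff.1 hu)).mul ?_
    simp only [Matrix.adjugate_apply]
    refine differentiableAt_det fun k l => ?_
    by_cases hk : k = j
    · subst hk
      simp only [Matrix.updateRow_self]
      exact differentiableAt_const _
    · simp only [Matrix.updateRow_ne hk]
      exact (hX k l).differentiableAt
  set W : Matrix ι ι ℝ := fun i j => deriv (fun t => (X t)⁻¹ i j) t with hW
  have hW' : ∀ i j, HasDerivAt (fun t => (X t)⁻¹ i j) (W i j) t := fun i j =>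
    (hd i j).hasDerivAt
  have h5 : X' * (X t)⁻¹ + X t * W = 0 := by
    ext k l
    have h6 := hasDerivAt_mul hX hW' k l
    have h7 : HasDerivAt (fun t => (X t * (X t)⁻¹) k l) 0 t := by
      refine (hasDerivAt_const t ((1 : Matrix ι ι ℝ) k l)).congr_of_eventuallyEq ?_
      filter_upwards [hne] with s hs
      rw [Matrix.mul_nonsing_inv _ (isUnit_iff_ne_zero.2 hs)]
    exact h6.unique h7
  have h8 : W = -((X t)⁻¹ * X' * (X t)⁻¹) := by
    have hu' : IsUnit (X t).det := isUnit_iff_ne_zero.2 (isUnit_iff.1 hu)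
    have h9 : X t * W = -(X' * (X t)⁻¹) := by
      rw [eq_neg_iff_add_eq_zero, add_comm]; exact h5
    calc W = (X t)⁻¹ * (X t * W) := by
          rw [← Matrix.mul_assoc, Matrix.nonsing_inv_mul _ hu', Matrix.one_mul]
      _ = _ := by rw [h9, Matrix.mul_neg, Matrix.mul_assoc]
  rw [← h8]
  exact hW' i j

omit [DecidableEq ι] in
/-- derivative of the trace of a product -/
theorem hasDerivAt_trace {X : ℝ → Matrix ι ι ℝ} {X' : Matrix ι ι ℝ} {t : ℝ}
    (hX : ∀ i j, HasDerivAt (fun t => X t i j) (X' i j) t) (Y : Matrix ι ι ℝ) :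
    HasDerivAt (fun t => (X t * Y).trace) ((X' * Y).trace) t := by
  have h1 := fun i j => hasDerivAt_mul (Y := fun _ => Y) (Y' := 0) hX
    (fun i j => hasDerivAt_const t (Y i j)) i j
  simp only [Matrix.trace, Matrix.diag]
  refine HasDerivAt.fun_sum fun k _ => ?_
  have h2 := h1 k k
  rw [Matrix.mul_zero, add_zero] at h2
  exact h2

theorem continuousAt_inv {E : Type*} [TopologicalSpace E] {X : E → Matrix ι ι ℝ} {x : E}
    (hX : ContinuousAt X x) (hu : IsUnit (X x)) : ContinuousAt (fun x => (X x)⁻¹) x := by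
  have h1 : (fun x => (X x)⁻¹) = fun x => ((X x).det)⁻¹ • (X x).adjugate := by
    funext x
    rw [Matrix.inv_def, Ring.inverse_eq_inv']
  rw [h1]
  have h2 : ContinuousAt (fun x => (X x).det) x :=
    (continuous_id.matrix_det).continuousAt.comp hX
  have h3 : ContinuousAt (fun x => (X x).adjugate) x :=
    (continuous_id.matrix_adjugate).continuousAt.comp hX
  exact (h2.inv₀ (isUnit_iff.1 hu)).smul h3

omit [Fintype ι] [DecidableEq ι] in
theorem continuousAt_of_entries {E : Type*} [TopologicalSpace E] {X : E → Matrix ι ι ℝ} {x : E}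
    (hX : ∀ i j, ContinuousAt (fun x => X x i j) x) : ContinuousAt X x :=
  continuousAt_pi.2 fun i => continuousAt_pi.2 fun j => hX i j

end MatCalc

end Vale.Agent.P231
end
end
end

section

section

section

/-! P231 geometry: raw differential of the exponential map and Jacobi fields. -/

set_option maxSynthPendingDepth 3

open Bundle Manifold Set Filter
open scoped ContDiff Manifold Topology

namespace Vale.Agent.P231

noncomputable section

open Vale.Agent.P234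

variable {E : Type*} [NormedAddCommGroup E] [NormedSpace ℝ E]
  {M : Type*} [MetricSpace M] [ChartedSpace E M]
  [RiemannianBundle (fun x : M => TangentSpace 𝓘(ℝ, E) x)]

/-- inner product of raw tangent vectors at `x` -/
def ip (x : M) (a b : E) : ℝ :=
  @inner ℝ (TangentSpace 𝓘(ℝ, E) x) _ a b

/-- norm of a raw tangent vector at `x` -/
def nm (x : M) (a : E) : ℝ := @norm (TangentSpace 𝓘(ℝ, E) x) _ a

/-- raw differential of `e x` at `v` in direction `w` -/
def dE (e : ∀ x : M, TangentSpace 𝓘(ℝ, E) x → M) (x : M) (v w : E) : E :=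
  mfderiv 𝓘(ℝ, TangentSpace 𝓘(ℝ, E) x) 𝓘(ℝ, E) (e x)
    (v : TangentSpace 𝓘(ℝ, E) x) (w : TangentSpace 𝓘(ℝ, E) x)

/-- the geodesic with initial point `x` and velocity `u` -/
def gam (e : ∀ x : M, TangentSpace 𝓘(ℝ, E) x → M) (x : M) (u : E) (t : ℝ) : M :=
  e x (t • u : TangentSpace 𝓘(ℝ, E) x)

/-- its velocity at time `t` -/
def vel (e : ∀ x : M, TangentSpace 𝓘(ℝ, E) x → M) (x : M) (u : E) (t : ℝ) : E :=
  dE e x (t • u) u

/-- the Jacobi field along `gam e x u` vanishing at `s` with derivative `w`, at time `t` -/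
def jf (e : ∀ x : M, TangentSpace 𝓘(ℝ, E) x → M) (x : M) (u : E) (s t : ℝ) (w : E) : E :=
  (t - s) • dE e (gam e x u s) ((t - s) • vel e x u s) w

/-- raw pair as an element of the tangent bundle -/
def tb (x : M) (v : E) : TangentBundle 𝓘(ℝ, E) M := ⟨x, v⟩

end

end Vale.Agent.P231
end
end
end

section

section

section

/-! P231 measure part: definitions. -/

set_option maxSynthPendingDepth 3

open Bundle Manifold Set Filter MeasureTheory Module
open scoped ContDiff Manifold Topology ENNReal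

namespace Vale.Agent.P231

noncomputable section

open Vale.Agent.P234

/-- Euclidean space of the dimension of `E` -/
abbrev Eu (E : Type*) [NormedAddCommGroup E] [NormedSpace ℝ E] : Type :=
  EuclideanSpace ℝ (Fin (finrank ℝ E))

/-- The normalised Hausdorff measure of dimension `n` (it is Lebesgue measure on Euclidean
space and the Riemannian volume on a Riemannian manifold of dimension `n`). -/
def riemVol (n : ℕ) (M : Type*) [MetricSpace M] [MeasurableSpace M] [BorelSpace M] :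
    Measure M :=
  (volume (Metric.ball (0 : EuclideanSpace ℝ (Fin n)) 1) /
    Measure.hausdorffMeasure (n : ℝ) (Metric.ball (0 : EuclideanSpace ℝ (Fin n)) 1)) •
    Measure.hausdorffMeasure (n : ℝ)

variable {E : Type*} [NormedAddCommGroup E] [NormedSpace ℝ E]
  {M : Type*} [MetricSpace M] [ChartedSpace E M]
  [RiemannianBundle (fun x : M => TangentSpace 𝓘(ℝ, E) x)]

/-- the differential as a continuous linear map of tangent spaces -/
def dEc (e : ∀ x : M, TangentSpace 𝓘(ℝ, E) x → M) (x : M) (v : TangentSpace 𝓘(ℝ, E) x) :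
    TangentSpace 𝓘(ℝ, E) x →L[ℝ] TangentSpace 𝓘(ℝ, E) (e x v) :=
  mfderiv 𝓘(ℝ, TangentSpace 𝓘(ℝ, E) x) 𝓘(ℝ, E) (e x) v

/-- the raw differential as a linear map -/
def dEl (e : ∀ x : M, TangentSpace 𝓘(ℝ, E) x → M) (x : M) (v : E) : E →ₗ[ℝ] E where
  toFun := dE e x v
  map_add' a b := (dEc e x v).map_add a b
  map_smul' c a := (dEc e x v).map_smul c a

/-- the inverse of the exponential map (inside the injectivity radius) -/
def lg (e : ∀ x : M, TangentSpace 𝓘(ℝ, E) x → M) (x y : M) : E :=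
  Classical.epsilon fun v : E => nm x v = dist x y ∧ gam e x v 1 = y

/-- a real function on the tangent bundle, given by raw vectors, is continuous -/
def ContTB [IsManifold 𝓘(ℝ, E) ∞ M] (G : M → E → ℝ) : Prop :=
  Continuous fun p : TangentBundle 𝓘(ℝ, E) M => G p.proj p.snd

/-- model Jacobian -/
def mj (D : ℝ) (N l : ℕ) (r : ℝ) : ℝ :=
  (Real.sin (Real.pi * r / (2 * D)) / (Real.pi * r / (2 * D))) ^ N *
    Real.cos (Real.pi * r / (2 * D)) ^ l

/-- volume of the model of diameter `D`, dimension `N + 1`, multiplicity `l` -/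
def mvol (D : ℝ) (N l : ℕ) : ℝ :=
  (N + 1) * (volume (Metric.ball (0 : EuclideanSpace ℝ (Fin (N + 1))) 1)).toReal *
    ∫ r in (0 : ℝ)..D, (2 * D / Real.pi * Real.sin (Real.pi * r / (2 * D))) ^ N *
      Real.cos (Real.pi * r / (2 * D)) ^ l

variable [FiniteDimensional ℝ E]

theorem exists_fr (x : M) : ∃ f : Eu E ≃L[ℝ] E, ∀ a b, ip x (f a) (f b) = inner ℝ a b := by
  have hE : FiniteDimensional ℝ (TangentSpace 𝓘(ℝ, E) x) := inferInstanceAs (FiniteDimensional ℝ E)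
  have h1 : finrank ℝ (TangentSpace 𝓘(ℝ, E) x) = finrank ℝ E := rfl
  let o := (stdOrthonormalBasis ℝ (TangentSpace 𝓘(ℝ, E) x)).reindex (finCongr h1)
  let L : Eu E ≃ₗ[ℝ] E := (o.repr.symm.toLinearEquiv : Eu E ≃ₗ[ℝ] TangentSpace 𝓘(ℝ, E) x)
  refine ⟨L.toContinuousLinearEquiv, fun a b => ?_⟩
  exact o.repr.symm.inner_map_map a b

/-- a linear isometry from Euclidean space onto the tangent space at `x` -/
def fr (x : M) : Eu E ≃L[ℝ] E := (exists_fr x).choose

theorem ip_fr (x : M) (a b : Eu E) : ip x (fr x a) (fr x b) = inner ℝ a b :=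
  (exists_fr x).choose_spec a b

omit [FiniteDimensional ℝ E] in
theorem ip_self (x : M) (a : E) : ip x a a = nm x a ^ 2 :=
  real_inner_self_eq_norm_sq (F := TangentSpace 𝓘(ℝ, E) x) a

omit [FiniteDimensional ℝ E] in
theorem nm_nonneg (x : M) (a : E) : 0 ≤ nm x a :=
  norm_nonneg (E := TangentSpace 𝓘(ℝ, E) x) a

theorem nm_fr (x : M) (a : Eu E) : nm x (fr x a) = ‖a‖ := by
  have h := ip_fr x a a
  rw [ip_self, real_inner_self_eq_norm_sq] at h
  exact (sq_eq_sq₀ (nm_nonneg _ _) (norm_nonneg _)).1 h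

/-- the exponential map in orthonormal coordinates of the tangent space -/
def ef (e : ∀ x : M, TangentSpace 𝓘(ℝ, E) x → M) (x : M) (ξ : Eu E) : M :=
  e x (fr x ξ : E)

/-- the Jacobian of the exponential map at `x` in direction `v` -/
def jac (e : ∀ x : M, TangentSpace 𝓘(ℝ, E) x → M) (x : M) (v : E) : ℝ :=
  |(Matrix.of fun i j : Fin (finrank ℝ E) =>
    ip (gam e x v 1) (fr (gam e x v 1) (EuclideanSpace.single i 1))
      (dE e x v (fr x (EuclideanSpace.single j 1)))).det|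

/-- integral over the tangent space at `x` -/
def fint (G : M → E → ℝ) (x : M) : ℝ := ∫ ξ : Eu E, G x (fr x ξ)

/-- integral over the tangent bundle (Liouville measure) -/
def liou [MeasurableSpace M] [BorelSpace M] (G : M → E → ℝ) : ℝ :=
  ∫ x, fint G x ∂(riemVol (finrank ℝ E) M)

end

end Vale.Agent.P231
end
end
end
namespace AFast7e28e9x4201b
theorem a0.{u1} {x1 : Type u1} [x2 : NormedAddCommGroup x1] [x3 : NormedSpace ℝ x1] : AddMonoidHomClass (Vale.Agent.P231.Eu x1 ≃L[ℝ] x1) (Vale.Agent.P231.Eu x1) x1 := inferInstance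
theorem a1.{u1} {x1 : Type u1} [x2 : NormedAddCommGroup x1] [x3 : NormedSpace ℝ x1] : DistribMulActionSemiHomClass (Vale.Agent.P231.Eu x1 ≃L[ℝ] x1) (⇑(RingHom.id ℝ)) (Vale.Agent.P231.Eu x1) x1 := inferInstance
end AFast7e28e9x4201b
attribute [local instance] AFast7e28e9x4201b.a0 AFast7e28e9x4201b.a1

section

section

section

/-! P231 geometry G1: raw differential of the exponential map and the geodesic flow. -/

set_option maxSynthPendingDepth 3
set_option linter.unusedSectionVars false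

open Bundle Manifold Set Filter
open scoped ContDiff Manifold Topology

namespace Vale.Agent.P231

noncomputable section

open Vale.Agent.P234

variable {E : Type*} [NormedAddCommGroup E] [NormedSpace ℝ E] [FiniteDimensional ℝ E]
  {M : Type*} [MetricSpace M] [ChartedSpace E M]
  [RiemannianBundle (fun x : M => TangentSpace 𝓘(ℝ, E) x)]
  [IsManifold 𝓘(ℝ, E) ∞ M]
  [IsContMDiffRiemannianBundle 𝓘(ℝ, E) ∞ E (fun x : M => TangentSpace 𝓘(ℝ, E) x)]
  {e : ∀ x : M, TangentSpace 𝓘(ℝ, E) x → M}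

theorem dE_add (e : ∀ x : M, TangentSpace 𝓘(ℝ, E) x → M) (x : M) (v w z : E) :
    dE e x v (w + z) = dE e x v w + dE e x v z :=
  map_add (mfderiv 𝓘(ℝ, TangentSpace 𝓘(ℝ, E) x) 𝓘(ℝ, E) (e x)
    (v : TangentSpace 𝓘(ℝ, E) x)) (w : TangentSpace 𝓘(ℝ, E) x) (z : TangentSpace 𝓘(ℝ, E) x)

theorem dE_smul (e : ∀ x : M, TangentSpace 𝓘(ℝ, E) x → M) (x : M) (v w : E) (c : ℝ) :
    dE e x v (c • w) = c • dE e x v w :=
  map_smul (mfderiv 𝓘(ℝ, TangentSpace 𝓘(ℝ, E) x) 𝓘(ℝ, E) (e x)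
    (v : TangentSpace 𝓘(ℝ, E) x)) c (w : TangentSpace 𝓘(ℝ, E) x)

lemma mfderiv_ray (he : IsExp e) (x : M) (u : TangentSpace 𝓘(ℝ, E) x) (t : ℝ) :
    mfderiv 𝓘(ℝ, ℝ) 𝓘(ℝ, E) (fun t : ℝ => e x (t • u)) t (1 : ℝ) =
      mfderiv 𝓘(ℝ, TangentSpace 𝓘(ℝ, E) x) 𝓘(ℝ, E) (e x) (t • u) u := by
  have h1 : MDifferentiableAt 𝓘(ℝ, TangentSpace 𝓘(ℝ, E) x) 𝓘(ℝ, E) (e x) (t • u) :=
    ((contMDiff_exp_fiber he x).contMDiffAt).mdifferentiableAt (by simp)
  have h3 : MDifferentiableAt 𝓘(ℝ, ℝ) 𝓘(ℝ, TangentSpace 𝓘(ℝ, E) x)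
      (fun t : ℝ => t • u) t := by
    have h6 : ContMDiff 𝓘(ℝ, ℝ) 𝓘(ℝ, TangentSpace 𝓘(ℝ, E) x) ∞
        (fun t : ℝ => t • u) :=
      (contDiff_id.smul contDiff_const).contMDiff
    exact h6.contMDiffAt.mdifferentiableAt (by simp)
  have h4 := mfderiv_comp_apply t (I'' := 𝓘(ℝ, E))
    (g := e x) (f := fun t : ℝ => t • u) h1 h3 (1 : ℝ)
  have h5 : mfderiv 𝓘(ℝ, ℝ) 𝓘(ℝ, TangentSpace 𝓘(ℝ, E) x)
      (fun t : ℝ => t • u) t (1 : ℝ) = u := by
    rw [mfderiv_eq_fderiv]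
    have h2 : HasFDerivAt (fun t : ℝ => t • u)
        ((ContinuousLinearMap.id ℝ ℝ).smulRight u) t :=
      (hasFDerivAt_id t).smul_const u
    rw [h2.fderiv]
    exact one_smul ℝ u
  rw [h5] at h4
  exact h4

/-- the curve `gam e x u` has velocity `vel` -/
theorem mfderiv_gam (he : IsExp e) (x : M) (u : E) (t : ℝ) :
    mfderiv 𝓘(ℝ, ℝ) 𝓘(ℝ, E) (gam e x u) t (1 : ℝ) = vel e x u t :=
  mfderiv_ray he x u t

theorem dE_zero_base (he : IsExp e) (x : M) (w : E) : dE e x 0 w = w := by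
  have h1 := mfderiv_gam he x w 0
  have h2 := he.velocity x (w : TangentSpace 𝓘(ℝ, E) x)
  have h3 : (mfderiv 𝓘(ℝ, ℝ) 𝓘(ℝ, E) (gam e x w) 0 (1 : ℝ) : E) = w := h2
  have h4 : vel e x w 0 = w := h1.symm.trans h3
  rw [vel, zero_smul] at h4
  exact h4

theorem gam_zero (he : IsExp e) (x : M) (u : E) : gam e x u 0 = x := by
  have h : ((0 : ℝ) • (u : TangentSpace 𝓘(ℝ, E) x)) = 0 := zero_smul ℝ _
  unfold gam
  rw [h]
  exact he.map_zero x

theorem vel_zero (he : IsExp e) (x : M) (u : E) : vel e x u 0 = u := by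
  rw [vel, zero_smul]
  exact dE_zero_base he x u

/-- velocities of equal curves -/
lemma mfderiv_congr_curve {f g : ℝ → M} (h : f = g) (t : ℝ) :
    (mfderiv 𝓘(ℝ, ℝ) 𝓘(ℝ, E) f t (1 : ℝ) : E) = mfderiv 𝓘(ℝ, ℝ) 𝓘(ℝ, E) g t (1 : ℝ) := by
  subst h
  rfl

lemma contMDiff_gam (he : IsExp e) (x : M) (u : E) :
    ContMDiff 𝓘(ℝ, ℝ) 𝓘(ℝ, E) ∞ (gam e x u) :=
  contMDiff_ray he x u

/-- velocity of a shifted geodesic -/
lemma mfderiv_gam_shift (he : IsExp e) (x : M) (u : E) (s t : ℝ) :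
    (mfderiv 𝓘(ℝ, ℝ) 𝓘(ℝ, E) (fun t => gam e x u (s + t)) t (1 : ℝ) : E) =
      vel e x u (s + t) := by
  have h1 : MDifferentiableAt 𝓘(ℝ, ℝ) 𝓘(ℝ, E) (gam e x u) (s + t) :=
    (contMDiff_gam he x u).contMDiffAt.mdifferentiableAt (by simp)
  have h6 : ContMDiff 𝓘(ℝ, ℝ) 𝓘(ℝ, ℝ) ∞ (fun t : ℝ => s + t) :=
    (contDiff_const.add contDiff_id).contMDiff
  have h3 : MDifferentiableAt 𝓘(ℝ, ℝ) 𝓘(ℝ, ℝ) (fun t : ℝ => s + t) t :=
    h6.contMDiffAt.mdifferentiableAt (by simp)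
  have h4 := mfderiv_comp_apply t (I'' := 𝓘(ℝ, E))
    (g := gam e x u) (f := fun t : ℝ => s + t) h1 h3 (1 : ℝ)
  have h5 : mfderiv 𝓘(ℝ, ℝ) 𝓘(ℝ, ℝ) (fun t : ℝ => s + t) t (1 : ℝ) = (1 : ℝ) := by
    rw [mfderiv_eq_fderiv]
    have h2 : HasFDerivAt (fun t : ℝ => s + t) (ContinuousLinearMap.id ℝ ℝ) t :=
      (hasFDerivAt_id t).const_add s
    rw [h2.fderiv]
    rfl
  rw [h5] at h4
  exact h4.trans (mfderiv_gam he x u (s + t))

/-- the vector of the flow property is the velocity -/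
lemma flow_vec (he : IsExp e) (x : M) (u : E) (s : ℝ)
    (w : TangentSpace 𝓘(ℝ, E) (gam e x u s))
    (hw : ∀ t : ℝ, e (gam e x u s) (t • w) = gam e x u (s + t)) :
    (w : E) = vel e x u s := by
  have h1 := he.velocity (gam e x u s) w
  have h2 := mfderiv_congr_curve (E := E) (funext hw) 0
  have h3 := mfderiv_gam_shift he x u s 0
  rw [add_zero] at h3
  exact (h1.symm.trans h2).trans h3

theorem gam_flow (F : Facts e) (x : M) (u : E) (s t : ℝ) :
    gam e (gam e x u s) (vel e x u s) t = gam e x u (s + t) := by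
  obtain ⟨w, -, hw⟩ := F.flow x (u : TangentSpace 𝓘(ℝ, E) x) s
  have h := flow_vec F.isExp x u s w hw
  rw [← h]
  exact hw t

theorem vel_flow (F : Facts e) (x : M) (u : E) (s t : ℝ) :
    vel e (gam e x u s) (vel e x u s) t = vel e x u (s + t) := by
  have h1 := mfderiv_gam F.isExp (gam e x u s) (vel e x u s) t
  have h2 := mfderiv_congr_curve (E := E) (funext (gam_flow F x u s)) t
  have h3 := mfderiv_gam_shift F.isExp x u s t
  exact (h1.symm.trans h2).trans h3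

theorem nm_vel (F : Facts e) (x : M) (u : E) (t : ℝ) :
    nm (gam e x u t) (vel e x u t) = nm x u := by
  obtain ⟨w, hn, hw⟩ := F.flow x (u : TangentSpace 𝓘(ℝ, E) x) t
  have h := flow_vec F.isExp x u t w hw
  rw [← h]
  exact hn

theorem gam_smul (x : M) (u : E) (c t : ℝ) : gam e x (c • u) t = gam e x u (c * t) := by
  have h : (t • c • u : E) = (c * t) • u := by rw [smul_smul, mul_comm]
  exact congrArg (e x) h

theorem vel_smul (x : M) (u : E) (c t : ℝ) :
    vel e x (c • u) t = c • vel e x u (c * t) := by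
  have h : (t • c • u : E) = (c * t) • u := by rw [smul_smul, mul_comm]
  rw [vel, h, dE_smul]
  rfl

/-- scalar multiplication in the tangent bundle is smooth -/
lemma contMDiff_tb_smul :
    ContMDiff (𝓘(ℝ, ℝ).prod 𝓘(ℝ, E).tangent) 𝓘(ℝ, E).tangent ∞
      (fun q : ℝ × TangentBundle 𝓘(ℝ, E) M =>
        (⟨q.2.proj, q.1 • q.2.snd⟩ : TangentBundle 𝓘(ℝ, E) M)) := by
  intro q
  rw [Bundle.contMDiffAt_totalSpace]
  have hp : ContMDiffAt (𝓘(ℝ, ℝ).prod 𝓘(ℝ, E).tangent) 𝓘(ℝ, E).tangent ∞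
      (fun q : ℝ × TangentBundle 𝓘(ℝ, E) M => q.2) q := contMDiffAt_snd
  obtain ⟨hp1, hp2⟩ := Bundle.contMDiffAt_totalSpace.1 hp
  refine ⟨hp1, ?_⟩
  have ht : ContMDiffAt (𝓘(ℝ, ℝ).prod 𝓘(ℝ, E).tangent) 𝓘(ℝ, ℝ) ∞
      (fun q : ℝ × TangentBundle 𝓘(ℝ, E) M => q.1) q := contMDiffAt_fst
  have h := ht.smul hp2
  refine h.congr_of_eventuallyEq ?_
  have hmem : ∀ᶠ q' : ℝ × TangentBundle 𝓘(ℝ, E) M in 𝓝 q, q'.2.proj ∈
      (trivializationAt E (TangentSpace 𝓘(ℝ, E)) q.2.proj).baseSet := by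
    have hc : ContinuousAt (fun q' : ℝ × TangentBundle 𝓘(ℝ, E) M => q'.2.proj) q :=
      hp1.continuousAt
    exact hc ((trivializationAt E (TangentSpace 𝓘(ℝ, E)) q.2.proj).open_baseSet.mem_nhds
      (FiberBundle.mem_baseSet_trivializationAt' q.2.proj))
  filter_upwards [hmem] with q' hq'
  have e1 := Trivialization.coe_linearMapAt_of_mem (R := ℝ)
    (trivializationAt E (TangentSpace 𝓘(ℝ, E)) q.2.proj) hq'
  have e2 := congrFun e1 (q'.1 • q'.2.snd)
  have e3 := congrFun e1 q'.2.snd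
  rw [map_smul, e3] at e2
  exact e2.symm

/-- the map `(t, p) ↦ e p.proj (t • p.snd)` is smooth -/
lemma contMDiff_gamMap (he : IsExp e) :
    ContMDiff (𝓘(ℝ, ℝ).prod 𝓘(ℝ, E).tangent) 𝓘(ℝ, E) ∞
      (fun q : ℝ × TangentBundle 𝓘(ℝ, E) M => gam e q.2.proj (q.2.snd : E) q.1) :=
  he.smooth.comp contMDiff_tb_smul

/-- joint smoothness of the geodesic flow as a map of the tangent bundle -/
theorem contMDiff_flow (F : Facts e) :
    ContMDiff (𝓘(ℝ, ℝ).prod 𝓘(ℝ, E).tangent) 𝓘(ℝ, E).tangent ∞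
      (fun q : ℝ × TangentBundle 𝓘(ℝ, E) M =>
        tb (gam e q.2.proj (q.2.snd : E) q.1) (vel e q.2.proj (q.2.snd : E) q.1)) := by
  have he := F.isExp
  have hΦ := contMDiff_gamMap he
  have hT := hΦ.contMDiff_tangentMap (m := ∞) (by simp)
  have h1 : ContMDiff 𝓘(ℝ, ℝ) 𝓘(ℝ, ℝ).tangent ∞
      (fun t : ℝ => (⟨t, (1 : ℝ)⟩ : TangentBundle 𝓘(ℝ, ℝ) ℝ)) := by
    have h2 : ContDiff ℝ ∞ (fun _ : ℝ => (1 : ℝ)) := contDiff_const
    exact contMDiff_vectorSpace_iff_contDiff.2 h2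
  have h2 : ContMDiff 𝓘(ℝ, E).tangent 𝓘(ℝ, E).tangent.tangent ∞
      (zeroSection (E × E) (TangentSpace 𝓘(ℝ, E).tangent : TangentBundle 𝓘(ℝ, E) M → Type _)) :=
    contMDiff_zeroSection ℝ (TangentSpace 𝓘(ℝ, E).tangent : TangentBundle 𝓘(ℝ, E) M → Type _)
  have h3 := (h1.comp (contMDiff_fst (I := 𝓘(ℝ, ℝ)) (M := ℝ) (J := 𝓘(ℝ, E).tangent)
    (N := TangentBundle 𝓘(ℝ, E) M))).prodMk
    (h2.comp (contMDiff_snd (I := 𝓘(ℝ, ℝ)) (M := ℝ) (J := 𝓘(ℝ, E).tangent)
    (N := TangentBundle 𝓘(ℝ, E) M)))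
  have h4 := (contMDiff_equivTangentBundleProd_symm (n := ∞) (I := 𝓘(ℝ, ℝ)) (M := ℝ)
    (I' := 𝓘(ℝ, E).tangent) (M' := TangentBundle 𝓘(ℝ, E) M)).comp h3
  have h5 := hT.comp h4
  refine h5.congr ?_
  rintro ⟨t, p⟩
  have hd : MDifferentiableAt (𝓘(ℝ, ℝ).prod 𝓘(ℝ, E).tangent) 𝓘(ℝ, E)
      (fun q : ℝ × TangentBundle 𝓘(ℝ, E) M => gam e q.2.proj (q.2.snd : E) q.1) (t, p) :=
    hΦ.contMDiffAt.mdifferentiableAt (by simp)
  have h6 := mfderiv_prod_eq_add_apply (v := ((1 : ℝ), (0 : E × E))) hd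
  have h7 : (mfderiv 𝓘(ℝ, ℝ) 𝓘(ℝ, E) (fun z : ℝ => gam e p.proj (p.snd : E) z) t (1 : ℝ) : E) =
      vel e p.proj (p.snd : E) t := mfderiv_gam he p.proj (p.snd : E) t
  have h8 : (mfderiv 𝓘(ℝ, E).tangent 𝓘(ℝ, E)
      (fun z : TangentBundle 𝓘(ℝ, E) M => gam e z.proj (z.snd : E) t) p (0 : E × E) : E) = 0 :=
    map_zero (mfderiv 𝓘(ℝ, E).tangent 𝓘(ℝ, E)
      (fun z : TangentBundle 𝓘(ℝ, E) M => gam e z.proj (z.snd : E) t) p)
  have h9 : (mfderiv (𝓘(ℝ, ℝ).prod 𝓘(ℝ, E).tangent) 𝓘(ℝ, E)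
      (fun q : ℝ × TangentBundle 𝓘(ℝ, E) M => gam e q.2.proj (q.2.snd : E) q.1) (t, p)
      ((1 : ℝ), (0 : E × E)) : E) = vel e p.proj (p.snd : E) t := by
    refine h6.trans ?_
    refine (congrArg₂ (fun a b : E => a + b) h7 h8).trans ?_
    exact add_zero _
  exact congrArg (fun w : E => tb (gam e p.proj (p.snd : E) t) w) h9.symm

end

end Vale.Agent.P231
end
end
end

section

section

section

/-! P231 measure part: the exponential map is almost an isometry near zero. -/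

set_option maxSynthPendingDepth 3

open Bundle Manifold Set Filter MeasureTheory Module
open scoped ContDiff Manifold Topology ENNReal

namespace Vale.Agent.P231

noncomputable section

open Vale.Agent.P234

section Calculus

variable {T : Type*} [NormedAddCommGroup T] [NormedSpace ℝ T]

lemma LocalIso_second_order (G : T × T → ℝ) (hG : ContDiffAt ℝ 2 G (0, 0))
    (h0 : ∀ᶠ v in 𝓝 (0 : T), G (v, 0) = 0)
    (h1 : ∀ᶠ v in 𝓝 (0 : T), fderiv ℝ (fun h => G (v, h)) 0 = 0)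
    (h2 : ∀ᶠ h in 𝓝 (0 : T), G (0, h) = 0) {η : ℝ} (hη : 0 < η) :
    ∀ᶠ p in 𝓝 ((0 : T), (0 : T)), |G p| ≤ η * ‖p.2‖ ^ 2 := by
  set i₂ : T →L[ℝ] T × T := ContinuousLinearMap.inr ℝ T T with hi₂
  set A : T × T → (T →L[ℝ] ℝ) := fun p => (fderiv ℝ G p).comp i₂ with hA
  have hGe : ∀ᶠ p in 𝓝 ((0 : T), (0 : T)), ContDiffAt ℝ 2 G p := hG.eventually (by simp)
  have hAc : ContDiffAt ℝ 1 A (0, 0) := by
    have h3 : ContDiffAt ℝ 1 (fderiv ℝ G) (0, 0) := hG.fderiv_right (by norm_num)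
    exact h3.clm_comp contDiffAt_const
  have hAe : ∀ᶠ p in 𝓝 ((0 : T), (0 : T)), ContDiffAt ℝ 1 A p := hAc.eventually (by simp)
  -- partial derivatives
  have hpG : ∀ p : T × T, DifferentiableAt ℝ G p →
      HasFDerivAt (fun h => G (p.1, h)) (A p) p.2 := fun p hp => by
    have h3 : HasFDerivAt (fun h : T => (p.1, h)) i₂ p.2 := hasFDerivAt_prodMk_right p.1 p.2
    exact HasFDerivAt.comp p.2 (g := G) (f := fun h => (p.1, h)) hp.hasFDerivAt h3
  have hpA : ∀ p : T × T, DifferentiableAt ℝ A p →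
      HasFDerivAt (fun h => A (p.1, h)) ((fderiv ℝ A p).comp i₂) p.2 := fun p hp => by
    have h3 : HasFDerivAt (fun h : T => (p.1, h)) i₂ p.2 := hasFDerivAt_prodMk_right p.1 p.2
    exact HasFDerivAt.comp p.2 (g := A) (f := fun h => (p.1, h)) hp.hasFDerivAt h3
  have htend : Tendsto (fun h : T => ((0 : T), h)) (𝓝 0) (𝓝 ((0 : T), (0 : T))) :=
    (Continuous.prodMk_right (0 : T)).tendsto 0
  -- second partial derivative vanishes at the origin
  have hB0 : (fderiv ℝ A (0, 0)).comp i₂ = 0 := by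
    have h3 := hpA (0, 0) (hAc.differentiableAt (by norm_num))
    have h4 : (fun h => A ((0 : T), h)) =ᶠ[𝓝 (0 : T)] fun _ => 0 := by
      have h5 : ∀ᶠ h in 𝓝 (0 : T), ∀ᶠ h' in 𝓝 h, G (0, h') = 0 := h2.eventually_nhds
      filter_upwards [h5, htend.eventually hGe] with h h6 h7
      have h8 := hpG (0, h) (h7.differentiableAt (by norm_num))
      have h9 : HasFDerivAt (fun h' => G ((0 : T), h')) (0 : T →L[ℝ] ℝ) h :=
        (hasFDerivAt_const (0 : ℝ) h).congr_of_eventuallyEq h6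
      exact h8.unique h9
    have h10 : HasFDerivAt (fun h => A ((0 : T), h)) (0 : T →L[ℝ] T →L[ℝ] ℝ) 0 :=
      (hasFDerivAt_const (0 : T →L[ℝ] ℝ) (0 : T)).congr_of_eventuallyEq h4
    exact h3.unique h10
  have hBc : ContinuousAt (fun p => (fderiv ℝ A p).comp i₂) (0, 0) := by
    have h3 : ContDiffAt ℝ 0 (fderiv ℝ A) (0, 0) := hAc.fderiv_right (by norm_num)
    exact h3.continuousAt.clm_comp continuousAt_const
  have hBe : ∀ᶠ p in 𝓝 ((0 : T), (0 : T)), ‖(fderiv ℝ A p).comp i₂‖ < η := by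
    have h3 : ContinuousAt (fun p => ‖(fderiv ℝ A p).comp i₂‖) (0, 0) := hBc.norm
    have h4 : ‖(fderiv ℝ A (0, 0)).comp i₂‖ < η := by rw [hB0, norm_zero]; exact hη
    exact h3.eventually_lt continuousAt_const h4
  have hfst : Tendsto (fun p : T × T => p.1) (𝓝 ((0 : T), (0 : T))) (𝓝 0) :=
    continuous_fst.tendsto ((0 : T), (0 : T))
  obtain ⟨r, hr, hball⟩ := Metric.eventually_nhds_iff_ball.mp
    (hGe.and (hAe.and (hBe.and ((hfst.eventually h0).and (hfst.eventually h1)))))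
  have hmem : ∀ v h : T, ‖v‖ < r → ‖h‖ < r → (v, h) ∈ Metric.ball ((0 : T), (0 : T)) r := by
    intro v h hv hh
    rw [Metric.mem_ball, Prod.dist_eq, dist_zero_right, dist_zero_right]
    exact max_lt hv hh
  filter_upwards [Metric.ball_mem_nhds ((0 : T), (0 : T)) hr] with p hp
  obtain ⟨v, h⟩ := p
  have hv : ‖v‖ < r := by
    rw [Metric.mem_ball, Prod.dist_eq, dist_zero_right, dist_zero_right] at hp
    exact (le_max_left _ _).trans_lt hp
  have hh : ‖h‖ < r := by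
    rw [Metric.mem_ball, Prod.dist_eq, dist_zero_right, dist_zero_right] at hp
    exact (le_max_right _ _).trans_lt hp
  have hAv0 : A (v, 0) = 0 := by
    have h3 := hball (v, 0) (hmem v 0 hv (by simpa only [norm_zero, gt_iff_lt] using hr))
    have h4 := hpG (v, 0) (h3.1.differentiableAt (by norm_num))
    rw [← h4.fderiv]
    exact h3.2.2.2.2
  have hAv : ∀ h' : T, ‖h'‖ < r → ‖A (v, h')‖ ≤ η * ‖h'‖ := by
    intro h' hh'
    have h3 := Convex.norm_image_sub_le_of_norm_hasFDerivWithin_le (𝕜 := ℝ)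
      (f := fun h => A (v, h)) (f' := fun h => (fderiv ℝ A (v, h)).comp i₂)
      (s := Metric.ball (0 : T) r) (x := 0) (y := h') (C := η)
      (fun x hx => (hpA (v, x) ((hball (v, x) (hmem v x hv (by simpa only [Metric.mem_ball, dist_zero_right] using hx))).2.1.differentiableAt
        (by norm_num))).hasFDerivWithinAt)
      (fun x hx => (hball (v, x) (hmem v x hv (by simpa using hx))).2.2.1.le)
      (convex_ball 0 r) (by simpa only [Metric.mem_ball, dist_self, gt_iff_lt] using hr) (by simpa using hh')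
    simp only [hAv0, sub_zero] at h3
    exact h3
  have h3 := Convex.norm_image_sub_le_of_norm_hasFDerivWithin_le (𝕜 := ℝ)
    (f := fun h => G (v, h)) (f' := fun h => A (v, h))
    (s := Metric.closedBall (0 : T) ‖h‖) (x := 0) (y := h) (C := η * ‖h‖)
    (fun x hx => (hpG (v, x) ((hball (v, x) (hmem v x hv
      ((by simpa only [Metric.mem_closedBall, dist_zero_right] using hx : ‖x‖ ≤ ‖h‖).trans_lt hh))).1.differentiableAt
      (by norm_num))).hasFDerivWithinAt)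
    (fun x hx => (hAv x ((by simpa only [Metric.mem_closedBall, dist_zero_right] using hx : ‖x‖ ≤ ‖h‖).trans_lt hh)).trans
      (mul_le_mul_of_nonneg_left (by simpa only [Metric.mem_closedBall, dist_zero_right] using hx) hη.le))
    (convex_closedBall 0 _) (by simp only [Metric.mem_closedBall, dist_self, norm_nonneg]) (by simp only [Metric.mem_closedBall, dist_zero_right, Std.le_refl])
  have hG0 : G (v, 0) = 0 := (hball (v, 0) (hmem v 0 hv (by simpa only [norm_zero, gt_iff_lt] using hr))).2.2.2.1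
  simp only [hG0, sub_zero, Real.norm_eq_abs] at h3
  calc |G (v, h)| ≤ η * ‖h‖ * ‖h‖ := h3
    _ = η * ‖(v, h).2‖ ^ 2 := by ring

lemma LocalIso_cost {T : Type*} [NormedAddCommGroup T] [InnerProductSpace ℝ T] (φ : T × T → ℝ)
    (hφ : ContDiffAt ℝ 2 φ (0, 0)) (hd : ∀ v, φ (v, v) = 0) (hpos : ∀ p, 0 ≤ φ p)
    (h1 : ∀ᶠ w in 𝓝 (0 : T), φ (0, w) = ‖w‖ ^ 2 / 2) {η : ℝ} (hη : 0 < η) :
    ∃ δ > 0, ∀ v w : T, ‖v‖ < δ → ‖w‖ < δ → |φ (v, w) - ‖v - w‖ ^ 2 / 2| ≤ η * ‖v - w‖ ^ 2 := by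
  set G : T × T → ℝ := fun p => φ (p.1, p.1 + p.2) - ‖p.2‖ ^ 2 / 2 with hG
  have hn : ContDiff ℝ 2 (fun h : T => ‖h‖ ^ 2 / 2) := (contDiff_norm_sq ℝ).div_const 2
  have hlin : ContDiffAt ℝ 2 (fun p : T × T => (p.1, p.1 + p.2)) (0, 0) := by fun_prop
  have hφ' : ContDiffAt ℝ 2 φ ((fun p : T × T => (p.1, p.1 + p.2)) (0, 0)) := by
    simpa using hφ
  have hG1 : ContDiffAt ℝ 2 (fun p : T × T => φ (p.1, p.1 + p.2)) (0, 0) :=
    ContDiffAt.comp (g := φ) (0, 0) hφ' hlin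
  have hGc : ContDiffAt ℝ 2 G (0, 0) := by
    refine hG1.sub ?_
    exact ContDiffAt.comp (g := fun h : T => ‖h‖ ^ 2 / 2) (f := fun p : T × T => p.2) (0, 0)
      hn.contDiffAt contDiffAt_snd
  have hG0 : ∀ v, G (v, 0) = 0 := fun v => by
    simp [hG, hd]
  have hmin2 : fderiv ℝ (fun h : T => ‖h‖ ^ 2 / 2) 0 = 0 := by
    refine IsLocalMin.fderiv_eq_zero (Eventually.of_forall fun h => ?_)
    have h3 : 0 ≤ ‖h‖ ^ 2 / 2 := by (clear * -; positivity)
    simpa only [norm_zero, ne_eq, OfNat.ofNat_ne_zero, not_false_eq_true, zero_pow, zero_div, ge_iff_le] using h3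
  have hGd : ∀ᶠ v in 𝓝 (0 : T), fderiv ℝ (fun h => G (v, h)) 0 = 0 := by
    have h3 : ∀ᶠ p in 𝓝 ((0 : T), (0 : T)), ContDiffAt ℝ 2 (fun p : T × T => φ (p.1, p.1 + p.2)) p :=
      hG1.eventually (by simp)
    have htend : Tendsto (fun v : T => (v, (0 : T))) (𝓝 0) (𝓝 ((0 : T), (0 : T))) :=
      (Continuous.prodMk_left (0 : T)).tendsto 0
    filter_upwards [htend.eventually h3] with v hv
    have h4 : DifferentiableAt ℝ (fun h : T => φ (v, v + h)) 0 := by
      have h5 : DifferentiableAt ℝ (fun h : T => (v, h)) 0 := by (clear * -; fun_prop)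
      exact DifferentiableAt.comp (g := fun p : T × T => φ (p.1, p.1 + p.2)) (0 : T)
        (hv.differentiableAt (by norm_num)) h5
    have h6 : fderiv ℝ (fun h : T => φ (v, v + h)) 0 = 0 := by
      refine IsLocalMin.fderiv_eq_zero (Eventually.of_forall fun h => ?_)
      simp only [add_zero, hd]
      exact hpos _
    have h7 : fderiv ℝ (fun h => G (v, h)) 0 =
        fderiv ℝ (fun h : T => φ (v, v + h)) 0 - fderiv ℝ (fun h : T => ‖h‖ ^ 2 / 2) 0 :=
      fderiv_fun_sub h4 (hn.contDiffAt.differentiableAt (by norm_num))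
    rw [h7, h6, hmin2, sub_zero]
  have hG2 : ∀ᶠ h in 𝓝 (0 : T), G (0, h) = 0 := by
    filter_upwards [h1] with h hh
    simp [hG, hh]
  have hmain := LocalIso_second_order G hGc (Eventually.of_forall hG0) hGd hG2 hη
  obtain ⟨r, hr, hball⟩ := Metric.eventually_nhds_iff_ball.mp hmain
  refine ⟨r / 2, by positivity, fun v w hv hw => ?_⟩
  have hmem : (v, w - v) ∈ Metric.ball ((0 : T), (0 : T)) r := by
    rw [Metric.mem_ball, Prod.dist_eq, dist_zero_right, dist_zero_right]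
    refine max_lt (by linarith only [hr, hv]) ?_
    have := norm_sub_le w v
    simp only
    linarith only [hv, hw, this]
  have h8 := hball _ hmem
  simp only [hG, add_sub_cancel] at h8
  rw [norm_sub_rev w v] at h8
  exact h8

end Calculus

variable {E : Type*} [NormedAddCommGroup E] [NormedSpace ℝ E] [FiniteDimensional ℝ E]
  {M : Type*} [MetricSpace M] [ChartedSpace E M]
  [RiemannianBundle (fun x : M => TangentSpace 𝓘(ℝ, E) x)]
  [IsManifold 𝓘(ℝ, E) ∞ M]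
  [IsContMDiffRiemannianBundle 𝓘(ℝ, E) ∞ E (fun x : M => TangentSpace 𝓘(ℝ, E) x)]
  {e : ∀ x : M, TangentSpace 𝓘(ℝ, E) x → M}

/-- `e y` is almost isometric near `0` -/
theorem exp_almost_isometry [CompactSpace M] (F : Facts e) (y : M) {ε : ℝ} (hε : 0 < ε) :
    ∃ δ > 0, ∀ v w : E, nm y v < δ → nm y w < δ →
      (1 - ε) * nm y (v - w) ≤ dist (e y v) (e y w) ∧
        dist (e y v) (e y w) ≤ (1 + ε) * nm y (v - w) := by
  obtain ⟨ρ, hρ, hmin, hsm⟩ := F.short
  have hs : SmoothAt E y (e y (0 : TangentSpace 𝓘(ℝ, E) y)) := by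
    rw [F.isExp.map_zero]
    exact hsm y y (by rw [dist_self]; exact hρ)
  have hc := (coord0 F.isExp hs).of_le (m := 2) (by norm_cast)
  set η : ℝ := min ε 1 / 2 with hη
  have hη0 : 0 < η := by positivity
  have h1 : ∀ᶠ w in 𝓝 (0 : TangentSpace 𝓘(ℝ, E) y),
      cost (e y (0 : TangentSpace 𝓘(ℝ, E) y)) (e y w) = ‖w‖ ^ 2 / 2 := by
    filter_upwards [Metric.ball_mem_nhds (0 : TangentSpace 𝓘(ℝ, E) y) hρ] with w hw
    rw [mem_ball_zero_iff] at hw
    have h2 := hmin y w 0 1 (by simpa only [sub_zero, abs_one, mul_one] using hw.le)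
    rw [zero_smul, one_smul] at h2
    rw [cost, h2]
    norm_num
  obtain ⟨δ, hδ, h⟩ := LocalIso_cost
    (fun p : TangentSpace 𝓘(ℝ, E) y × TangentSpace 𝓘(ℝ, E) y => cost (e y p.1) (e y p.2)) hc
    (fun v => by simp [cost]) (fun p => by simp only [cost]; (clear * -; positivity)) h1 hη0
  refine ⟨δ, hδ, fun v w hv hw => ?_⟩
  have h3 := h v w hv hw
  simp only [cost] at h3
  change |dist (e y v) (e y w) ^ 2 / 2 - nm y (v - w) ^ 2 / 2| ≤ η * nm y (v - w) ^ 2 at h3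
  have hn0 : 0 ≤ nm y (v - w) := nm_nonneg _ _
  have hd0 : 0 ≤ dist (e y v) (e y w) := dist_nonneg
  generalize nm y (v - w) = n at *
  generalize dist (e y v) (e y w) = d at *
  rw [abs_le] at h3
  obtain ⟨h4, h5⟩ := h3
  have hηε : η ≤ ε / 2 := by
    rw [hη]; have := min_le_left ε 1; linarith only [this]
  have hη1 : η ≤ 1 / 2 := by
    rw [hη]; have := min_le_right ε 1; linarith only [this]
  constructor
  · rcases le_or_gt 1 ε with h6 | h6
    · linarith only [mul_nonneg (sub_nonneg.2 hn0) (sub_nonneg.2 h6), hd0]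
    · have h7 : η = ε / 2 := by rw [hη, min_eq_left h6.le]
      refine abs_le_of_sq_le_sq' ?_ hd0 |>.2
      rw [h7] at h4
      nlinarith only [h4, hε, h6]
  · refine abs_le_of_sq_le_sq' ?_ (by (clear * - hε hn0; positivity)) |>.2
    nlinarith only [h5, hε, mul_le_mul_of_nonneg_right hηε (sq_nonneg n)]

/-- The normalised Hausdorff measure of Euclidean space is Lebesgue measure. -/
lemma LocalIso_volume (n : ℕ) :
    riemVol n (EuclideanSpace ℝ (Fin n)) = (volume : Measure (EuclideanSpace ℝ (Fin n))) := by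
  have hH : Measure.IsAddHaarMeasure
      (Measure.hausdorffMeasure (n : ℝ) : Measure (EuclideanSpace ℝ (Fin n))) := by
    have h := isAddHaarMeasure_hausdorffMeasure (E := EuclideanSpace ℝ (Fin n))
    rwa [finrank_euclideanSpace_fin] at h
  have h1 := Measure.isAddLeftInvariant_eq_smul
    (volume : Measure (EuclideanSpace ℝ (Fin n)))
    (Measure.hausdorffMeasure (n : ℝ) : Measure (EuclideanSpace ℝ (Fin n)))
  set c := Measure.addHaarScalarFactor (volume : Measure (EuclideanSpace ℝ (Fin n)))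
    (Measure.hausdorffMeasure (n : ℝ) : Measure (EuclideanSpace ℝ (Fin n))) with hc
  have h2 : volume (Metric.ball (0 : EuclideanSpace ℝ (Fin n)) 1) =
      (c : ℝ≥0∞) * Measure.hausdorffMeasure (n : ℝ)
        (Metric.ball (0 : EuclideanSpace ℝ (Fin n)) 1) := by
    conv_lhs => rw [h1]
    rfl
  have h3 : Measure.hausdorffMeasure (n : ℝ)
      (Metric.ball (0 : EuclideanSpace ℝ (Fin n)) 1) ≠ 0 :=
    (Metric.measure_ball_pos _ _ one_pos).ne'
  have h4 : Measure.hausdorffMeasure (n : ℝ)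
      (Metric.ball (0 : EuclideanSpace ℝ (Fin n)) 1) ≠ ⊤ := measure_ball_lt_top.ne
  rw [riemVol, h2, ENNReal.mul_div_cancel_right h3 h4]
  conv_rhs => rw [h1]
  rfl

omit [IsManifold 𝓘(ℝ, E) ∞ M]
  [IsContMDiffRiemannianBundle 𝓘(ℝ, E) ∞ E (fun x : M => TangentSpace 𝓘(ℝ, E) x)] in
lemma LocalIso_nm_sub (y : M) (a b : Eu E) : nm y (fr y a - fr y b) = ‖a - b‖ := by
  rw [← map_sub, nm_fr]

lemma LocalIso_exists_eps (n : ℕ) {ε : ℝ} (hε : 0 < ε) :
    ∃ x : ℝ, 0 < x ∧ x < 1 ∧ (1 + x) ^ n ≤ 1 + ε ∧ (1 - ε) * ((1 - x)⁻¹) ^ n ≤ 1 := by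
  have h1 : ContinuousAt (fun x : ℝ => (1 + x) ^ n) 0 := by fun_prop
  have h2 : ContinuousAt (fun x : ℝ => (1 - ε) * ((1 - x)⁻¹) ^ n) 0 := by
    have h3 : ContinuousAt (fun x : ℝ => (1 - x)⁻¹) 0 :=
      ContinuousAt.inv₀ (by fun_prop) (by norm_num)
    exact continuousAt_const.mul (h3.pow n)
  have h4 : ∀ᶠ x in 𝓝 (0 : ℝ), (1 + x) ^ n < 1 + ε :=
    h1.eventually_lt continuousAt_const (by simpa only [add_zero, one_pow, lt_add_iff_pos_right] using hε)
  have h5 : ∀ᶠ x in 𝓝 (0 : ℝ), (1 - ε) * ((1 - x)⁻¹) ^ n < 1 :=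
    h2.eventually_lt continuousAt_const (by simpa only [sub_zero, inv_one, one_pow, mul_one, sub_lt_self_iff] using hε)
  have h6 : ∀ᶠ x in 𝓝[>] (0 : ℝ), x ∈ Ioo (0 : ℝ) 1 := Ioo_mem_nhdsGT one_pos
  obtain ⟨x, hx, h7, h8⟩ := (h6.and ((h4.filter_mono nhdsWithin_le_nhds).and
    (h5.filter_mono nhdsWithin_le_nhds))).exists
  exact ⟨x, hx.1, hx.2, h7.le, h8.le⟩

/-- hence it almost preserves the measures near `0` -/
theorem riemVol_small [CompactSpace M] [MeasurableSpace M] [BorelSpace M] (F : Facts e)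
    (y : M) {ε : ℝ} (hε : 0 < ε) :
    ∃ δ > 0, ∀ S : Set (Eu E), S ⊆ Metric.ball 0 δ →
      ENNReal.ofReal (1 - ε) * volume S ≤
        riemVol (finrank ℝ E) M (ef e y '' S) ∧
      riemVol (finrank ℝ E) M (ef e y '' S) ≤
        ENNReal.ofReal (1 + ε) * volume S := by
  obtain ⟨η, hη0, hη1, hu, hl⟩ := LocalIso_exists_eps (finrank ℝ E) hε
  obtain ⟨δ, hδ, h⟩ := exp_almost_isometry F y hη0
  refine ⟨δ, hδ, fun S hS => ?_⟩
  have hd : ∀ a ∈ S, ∀ b ∈ S, (1 - η) * ‖a - b‖ ≤ dist (ef e y a) (ef e y b) ∧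
      dist (ef e y a) (ef e y b) ≤ (1 + η) * ‖a - b‖ := by
    intro a ha b hb
    have h1 := h (fr y a) (fr y b) (by rw [nm_fr]; simpa only [Metric.mem_ball, dist_zero_right] using hS ha)
      (by rw [nm_fr]; simpa using hS hb)
    rw [LocalIso_nm_sub] at h1
    exact h1
  set c : ℝ≥0∞ := volume (Metric.ball (0 : EuclideanSpace ℝ (Fin (finrank ℝ E))) 1) /
    Measure.hausdorffMeasure (finrank ℝ E : ℝ)
      (Metric.ball (0 : EuclideanSpace ℝ (Fin (finrank ℝ E))) 1) with hc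
  have hvol : volume S = c * Measure.hausdorffMeasure (finrank ℝ E : ℝ) S := by
    rw [← LocalIso_volume]
    rfl
  have hriem : riemVol (finrank ℝ E) M (ef e y '' S) =
      c * Measure.hausdorffMeasure (finrank ℝ E : ℝ) (ef e y '' S) := rfl
  have hpos : (0 : ℝ) < 1 - η := sub_pos.mpr hη1
  constructor
  · -- lower bound
    have hinj : InjOn (ef e y) S := by
      intro a ha b hb hab
      have h1 := (hd a ha b hb).1
      rw [hab, dist_self] at h1
      have h2 : ‖a - b‖ ≤ 0 := by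
        by_contra hcon
        push Not at hcon
        (clear * - h1 hη1 hcon; linarith only [mul_pos (sub_pos.2 hη1) (sub_pos.2 hcon), h1])
      exact sub_eq_zero.mp (norm_le_zero_iff.mp h2)
    set g : M → Eu E := Function.invFunOn (ef e y) S with hg
    have hgf : ∀ a ∈ S, g (ef e y a) = a := fun a ha => hinj.leftInvOn_invFunOn ha
    have himg : g '' (ef e y '' S) = S := by
      rw [image_image]
      exact (image_congr hgf).trans (image_id' S)
    have hLip : LipschitzOnWith (Real.toNNReal (1 - η)⁻¹) g (ef e y '' S) := by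
      refine LipschitzOnWith.of_dist_le_mul ?_
      rintro _ ⟨a, ha, rfl⟩ _ ⟨b, hb, rfl⟩
      rw [hgf a ha, hgf b hb, Real.coe_toNNReal _ (inv_nonneg.mpr hpos.le), dist_eq_norm,
        inv_mul_eq_div, le_div_iff₀ hpos, mul_comm]
      exact (hd a ha b hb).1
    have h1 := hLip.hausdorffMeasure_image_le (d := (finrank ℝ E : ℝ)) (by positivity)
    rw [himg, ENNReal.rpow_natCast] at h1
    rw [hvol, hriem]
    calc ENNReal.ofReal (1 - ε) * (c * Measure.hausdorffMeasure (finrank ℝ E : ℝ) S)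
        ≤ ENNReal.ofReal (1 - ε) * (c * (((Real.toNNReal (1 - η)⁻¹ : NNReal) : ℝ≥0∞) ^
            (finrank ℝ E) * Measure.hausdorffMeasure (finrank ℝ E : ℝ) (ef e y '' S))) := by
          (clear F hε hη0 hη1 hu hl δ hδ h hS hd hc hvol hriem hpos hinj g hg hgf himg hLip; gcongr)
      _ = (ENNReal.ofReal (1 - ε) * ((Real.toNNReal (1 - η)⁻¹ : NNReal) : ℝ≥0∞) ^
            (finrank ℝ E)) * (c * Measure.hausdorffMeasure (finrank ℝ E : ℝ) (ef e y '' S)) := by
          ring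
      _ ≤ 1 * (c * Measure.hausdorffMeasure (finrank ℝ E : ℝ) (ef e y '' S)) := by
          gcongr
          change ENNReal.ofReal (1 - ε) * ENNReal.ofReal (1 - η)⁻¹ ^ (finrank ℝ E) ≤ 1
          rw [← ENNReal.ofReal_pow (inv_nonneg.mpr hpos.le),
            ← ENNReal.ofReal_mul' (pow_nonneg (inv_nonneg.mpr hpos.le) _),
            ← ENNReal.ofReal_one]
          exact ENNReal.ofReal_le_ofReal hl
      _ = _ := one_mul _
  · -- upper bound
    have hLip : LipschitzOnWith (Real.toNNReal (1 + η)) (ef e y) S := by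
      refine LipschitzOnWith.of_dist_le_mul fun a ha b hb => ?_
      rw [Real.coe_toNNReal _ (by positivity), dist_eq_norm]
      exact (hd a ha b hb).2
    have h1 := hLip.hausdorffMeasure_image_le (d := (finrank ℝ E : ℝ)) (by (clear * -; positivity))
    rw [ENNReal.rpow_natCast] at h1
    rw [hvol, hriem]
    calc c * Measure.hausdorffMeasure (finrank ℝ E : ℝ) (ef e y '' S)
        ≤ c * (((Real.toNNReal (1 + η) : NNReal) : ℝ≥0∞) ^ (finrank ℝ E) *
            Measure.hausdorffMeasure (finrank ℝ E : ℝ) S) := by (clear F ε hε hη0 hη1 hu hl δ hδ h hS hd hc hvol hriem hpos hLip; gcongr)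
      _ = ((Real.toNNReal (1 + η) : NNReal) : ℝ≥0∞) ^ (finrank ℝ E) *
            (c * Measure.hausdorffMeasure (finrank ℝ E : ℝ) S) := by ring
      _ ≤ ENNReal.ofReal (1 + ε) * (c * Measure.hausdorffMeasure (finrank ℝ E : ℝ) S) := by
          gcongr
          change ENNReal.ofReal (1 + η) ^ (finrank ℝ E) ≤ _
          rw [← ENNReal.ofReal_pow (by positivity)]
          exact ENNReal.ofReal_le_ofReal hu

end

end Vale.Agent.P231
end
end
end

section

section

section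

/-! Closed geodesics of length `2D`: periodicity of geodesics, velocities and Jacobi fields. -/

set_option maxSynthPendingDepth 3
set_option linter.unusedSectionVars false

open Bundle Manifold Set Filter
open scoped ContDiff Manifold Topology

namespace Vale.Agent.P231

noncomputable section

open Vale.Agent.P234

variable {E : Type*} [NormedAddCommGroup E] [NormedSpace ℝ E] [FiniteDimensional ℝ E]
  {M : Type*} [MetricSpace M] [ChartedSpace E M]
  [RiemannianBundle (fun x : M => TangentSpace 𝓘(ℝ, E) x)]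
  [IsManifold 𝓘(ℝ, E) ∞ M]
  [IsContMDiffRiemannianBundle 𝓘(ℝ, E) ∞ E (fun x : M => TangentSpace 𝓘(ℝ, E) x)]
  {e : ∀ x : M, TangentSpace 𝓘(ℝ, E) x → M}

theorem nm_smul (x : M) (v : E) (c : ℝ) : nm x (c • v) = |c| * nm x v := by
  have key : ∀ v : TangentSpace 𝓘(ℝ, E) x, ‖c • v‖ = |c| * ‖v‖ := fun v => by
    rw [norm_smul, Real.norm_eq_abs]
  exact key v

theorem gam_per (F : Facts e) {D : ℝ} (hD : 0 ≤ D)
    (hcl : ∀ (x : M) (v : E), nm x v = 2 * D → e x v = x)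
    (x : M) (u : E) (hu : nm x u = 1) (t : ℝ) : gam e x u (t + 2 * D) = gam e x u t := by
  rw [← gam_flow F x u t (2 * D)]
  apply hcl
  rw [nm_smul, nm_vel F, hu, mul_one, abs_of_nonneg (by linarith)]

theorem mfderiv_curve_congr {f g : ℝ → M} (h : f = g) (t : ℝ) (r : ℝ) :
    (mfderiv 𝓘(ℝ, ℝ) 𝓘(ℝ, E) f t r : E) = (mfderiv 𝓘(ℝ, ℝ) 𝓘(ℝ, E) g t r : E) := by
  subst h
  rfl

theorem vel_per (F : Facts e) {D : ℝ} (hD : 0 ≤ D)
    (hcl : ∀ (x : M) (v : E), nm x v = 2 * D → e x v = x)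
    (x : M) (u : E) (hu : nm x u = 1) (t : ℝ) : vel e x u (t + 2 * D) = vel e x u t := by
  have hg : ∀ s, MDifferentiableAt 𝓘(ℝ, ℝ) 𝓘(ℝ, E) (gam e x u) s := fun s =>
    (contMDiff_ray F.isExp x (u : TangentSpace 𝓘(ℝ, E) x)).mdifferentiableAt (by simp)
  have hτ : HasDerivAt (fun s : ℝ => s + 2 * D) 1 t := (hasDerivAt_id t).add_const _
  have hτd : MDifferentiableAt 𝓘(ℝ, ℝ) 𝓘(ℝ, ℝ) (fun s : ℝ => s + 2 * D) t :=
    hτ.differentiableAt.mdifferentiableAt
  have h1 := mfderiv_comp_apply t (hg (t + 2 * D)) hτd (1 : ℝ)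
  have h2 : mfderiv 𝓘(ℝ, ℝ) 𝓘(ℝ, ℝ) (fun s : ℝ => s + 2 * D) t (1 : ℝ) = (1 : ℝ) := by
    rw [mfderiv_eq_fderiv]
    refine (congrArg (fun L : ℝ →L[ℝ] ℝ => L 1) hτ.hasFDerivAt.fderiv).trans ?_
    simp only [ContinuousLinearMap.toSpanSingleton_apply, smul_eq_mul, mul_one]
  have h4 : (gam e x u ∘ fun s : ℝ => s + 2 * D) = gam e x u := by
    funext s
    exact gam_per F hD hcl x u hu s
  have h5 := mfderiv_gam F.isExp x u (t + 2 * D)
  have h6 := mfderiv_gam F.isExp x u t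
  have h7 := mfderiv_curve_congr (E := E) h4 t (1 : ℝ)
  rw [← h5, ← h6, ← h7]
  refine Eq.trans ?_ h1.symm
  exact congrArg (fun r : ℝ => (mfderiv 𝓘(ℝ, ℝ) 𝓘(ℝ, E) (gam e x u) (t + 2 * D) r : E)) h2.symm

/-- derivative of `ε ↦ e y (c ε)` -/
theorem mfderiv_exp_curve (he : IsExp e) (y : M) {c : ℝ → TangentSpace 𝓘(ℝ, E) y}
    {c' : TangentSpace 𝓘(ℝ, E) y} {ε : ℝ} (hc : HasDerivAt c c' ε) :
    (mfderiv 𝓘(ℝ, ℝ) 𝓘(ℝ, E) (fun s => e y (c s)) ε (1 : ℝ) : E) = dE e y (c ε : E) c' := by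
  have hEd : MDifferentiableAt 𝓘(ℝ, TangentSpace 𝓘(ℝ, E) y) 𝓘(ℝ, E) (e y) (c ε) :=
    (contMDiff_exp_fiber he y).mdifferentiableAt (by simp)
  have hcd : MDifferentiableAt 𝓘(ℝ, ℝ) 𝓘(ℝ, TangentSpace 𝓘(ℝ, E) y) c ε :=
    hc.differentiableAt.mdifferentiableAt
  have h1 := mfderiv_comp_apply ε hEd hcd (1 : ℝ)
  have h2 : mfderiv 𝓘(ℝ, ℝ) 𝓘(ℝ, TangentSpace 𝓘(ℝ, E) y) c ε (1 : ℝ) = c' := by
    rw [mfderiv_eq_fderiv]
    refine (congrArg (fun L : ℝ →L[ℝ] TangentSpace 𝓘(ℝ, E) y => L 1)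
      hc.hasFDerivAt.fderiv).trans ?_
    simp
  refine Eq.trans h1 ?_
  exact congrArg (fun z : TangentSpace 𝓘(ℝ, E) y =>
    (mfderiv 𝓘(ℝ, TangentSpace 𝓘(ℝ, E) y) 𝓘(ℝ, E) (e y) (c ε) z : E)) h2

theorem jf_per (F : Facts e) {D : ℝ} (hD : 0 < D)
    (hcl : ∀ (x : M) (v : E), nm x v = 2 * D → e x v = x)
    (x : M) (u : E) (hu : nm x u = 1) (s t : ℝ) (w : E)
    (hw : ip (gam e x u s) w (vel e x u s) = 0) :
    jf e x u s (t + 2 * D) w = jf e x u s t w := by
  have hnu : nm (gam e x u s) (vel e x u s) = 1 := by rw [nm_vel F, hu]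
  unfold jf
  generalize hy : gam e x u s = y at *
  generalize hν : vel e x u s = ν at *
  set ν' : TangentSpace 𝓘(ℝ, E) y := ν with hν'
  set w' : TangentSpace 𝓘(ℝ, E) y := w with hw'
  have hν1 : ‖ν'‖ = 1 := hnu
  have hort : inner ℝ w' ν' = 0 := hw
  rcases eq_or_ne ‖w'‖ 0 with h0 | h0
  · have hw0 : w' = 0 := norm_eq_zero.1 h0
    have h1 : ∀ v : E, dE e y v w = 0 := by
      intro v
      have h2 := dE_smul e y v 0 (0 : ℝ)
      rw [zero_smul, zero_smul] at h2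
      have h3 : w = 0 := hw0
      rw [h3]
      exact h2
    rw [h1, h1, smul_zero, smul_zero]
  · set ŵ : TangentSpace 𝓘(ℝ, E) y := ‖w'‖⁻¹ • w' with hŵ
    have hŵ1 : ‖ŵ‖ = 1 := by
      rw [hŵ, norm_smul, norm_inv, norm_norm, inv_mul_cancel₀ h0]
    have hŵo : inner ℝ ν' ŵ = 0 := by
      rw [hŵ, inner_smul_right, real_inner_comm, hort, mul_zero]
    set γ : ℝ → TangentSpace 𝓘(ℝ, E) y := fun ε => Real.cos ε • ν' + Real.sin ε • ŵ with hγ
    have hγn : ∀ ε, ‖γ ε‖ = 1 := by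
      intro ε
      have h2 : ‖γ ε‖ ^ 2 = 1 := by
        rw [hγ]
        simp only
        rw [norm_add_sq_real, norm_smul, norm_smul, inner_smul_left, inner_smul_right, hŵo, hν1,
          hŵ1]
        simp only [Real.norm_eq_abs, mul_one, mul_zero, add_zero, sq_abs]
        exact Real.cos_sq_add_sin_sq ε
      have h3 : 0 ≤ ‖γ ε‖ := norm_nonneg _
      nlinarith only [h2, h3]
    have hγd : ∀ R : ℝ, HasDerivAt (fun ε => R • γ ε) (R • ŵ) 0 := by
      intro R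
      have h2 : HasDerivAt γ (-Real.sin 0 • ν' + Real.cos 0 • ŵ) 0 :=
        ((Real.hasDerivAt_cos 0).smul_const ν').add ((Real.hasDerivAt_sin 0).smul_const ŵ)
      have h3 : -Real.sin 0 • ν' + Real.cos 0 • ŵ = ŵ := by simp
      rw [h3] at h2
      exact h2.const_smul R
    have hcurve : ∀ R : ℝ, (fun ε => e y ((R + 2 * D) • γ ε)) = fun ε => e y (R • γ ε) := by
      intro R
      funext ε
      exact gam_per F hD.le hcl y (γ ε) (hγn ε) R
    have hmain : dE e y (((t - s) + 2 * D) • γ 0 : TangentSpace 𝓘(ℝ, E) y)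
        (((t - s) + 2 * D) • ŵ : TangentSpace 𝓘(ℝ, E) y) =
        dE e y ((t - s) • γ 0 : TangentSpace 𝓘(ℝ, E) y)
        ((t - s) • ŵ : TangentSpace 𝓘(ℝ, E) y) := by
      have h2 := mfderiv_exp_curve F.isExp y (hγd ((t - s) + 2 * D))
      have h3 := mfderiv_exp_curve F.isExp y (hγd (t - s))
      have h4 := mfderiv_curve_congr (E := E) (hcurve (t - s)) 0 (1 : ℝ)
      exact h2.symm.trans (h4.trans h3)
    have hγ0 : γ 0 = ν' := by simp only [hγ, Real.cos_zero, one_smul, Real.sin_zero, zero_smul, add_zero]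
    rw [hγ0] at hmain
    have hsm : ∀ (R : ℝ) (v : E), dE e y v (R • ŵ : TangentSpace 𝓘(ℝ, E) y) =
        R • ‖w'‖⁻¹ • dE e y v w := by
      intro R v
      have h2 := dE_smul e y v (ŵ : E) R
      have h3 := dE_smul e y v w (‖w'‖⁻¹)
      refine Eq.trans h2 ?_
      congr 1
    have hmain2 := ((hsm (t - s + 2 * D) _).symm.trans hmain).trans (hsm (t - s) _)
    have h5 := congrArg (fun z : E => ‖w'‖ • z) hmain2
    simp only [smul_smul] at h5
    have h6 : ∀ R : ℝ, ‖w'‖ * (R * ‖w'‖⁻¹) = R := by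
      intro R
      (clear * - h0; field_simp)
    rw [h6, h6] at h5
    have h7 : t + 2 * D - s = t - s + 2 * D := by ring
    rw [h7]
    exact h5

end

end Vale.Agent.P231
end
end
end

section

open Matrix Real
open scoped ContDiff

namespace Vale.Agent.P231.Ode

/-- The matrix Jacobi equation `X'' + R X = 0` along a geodesic (`R t` is the symmetric curvature
operator at time `t` in a parallel orthonormal frame of the normal space, of dimension `N`),
together with its two fundamental solutions `C` (with `C 0 = 1`, `C' 0 = 0`) and `S` (with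
`S 0 = 0`, `S' 0 = 1`); `C1` and `S1` are the derivatives of `C` and `S`. All derivatives are
taken entrywise. -/
structure JSys (N : ℕ) where
  R : ℝ → Matrix (Fin N) (Fin N) ℝ
  C : ℝ → Matrix (Fin N) (Fin N) ℝ
  C1 : ℝ → Matrix (Fin N) (Fin N) ℝ
  S : ℝ → Matrix (Fin N) (Fin N) ℝ
  S1 : ℝ → Matrix (Fin N) (Fin N) ℝ
  symR : ∀ t, (R t)ᵀ = R t
  smoothR : ∀ i j, ContDiff ℝ ∞ fun t => R t i j
  dC : ∀ t i j, HasDerivAt (fun x => C x i j) (C1 t i j) t
  dC1 : ∀ t i j, HasDerivAt (fun x => C1 x i j) ((-(R t * C t)) i j) t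
  dS : ∀ t i j, HasDerivAt (fun x => S x i j) (S1 t i j) t
  dS1 : ∀ t i j, HasDerivAt (fun x => S1 x i j) ((-(R t * S t)) i j) t
  C_zero : C 0 = 1
  C1_zero : C1 0 = 0
  S_zero : S 0 = 0
  S1_zero : S1 0 = 1

/-- The Jacobi tensor: `t ↦ A s t` is the solution of the Jacobi equation with `A s s = 0`,
`∂ₜ A s s = 1`. -/
def JSys.A {N : ℕ} (X : JSys N) (s t : ℝ) : Matrix (Fin N) (Fin N) ℝ :=
  X.S t * (X.C s)ᵀ - X.C t * (X.S s)ᵀ

end Vale.Agent.P231.Ode
end

section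

section

section

/-! P231, HD: isometries act linearly in normal coordinates. -/

set_option maxSynthPendingDepth 3
set_option linter.unusedSectionVars false

open Bundle Manifold Set Filter MeasureTheory Module
open scoped ContDiff Manifold Topology ENNReal

namespace Vale.Agent.P231

noncomputable section

open Vale.Agent.P234

variable {E : Type*} [NormedAddCommGroup E] [NormedSpace ℝ E] [FiniteDimensional ℝ E]
  {M : Type*} [MetricSpace M] [ChartedSpace E M]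
  [RiemannianBundle (fun x : M => TangentSpace 𝓘(ℝ, E) x)]
  [IsManifold 𝓘(ℝ, E) ∞ M]
  [IsContMDiffRiemannianBundle 𝓘(ℝ, E) ∞ E (fun x : M => TangentSpace 𝓘(ℝ, E) x)]
  {e : ∀ x : M, TangentSpace 𝓘(ℝ, E) x → M}

/-- A curve which is locally minimizing at a uniform scale is locally a geodesic. -/
theorem linear_local [CompactSpace M] (he : IsExp e) {ρ : ℝ}
    (hm : ∀ (x : M) (v : TangentSpace 𝓘(ℝ, E) x) (s t : ℝ),
      ‖v‖ * |t - s| ≤ ρ → dist (e x (s • v)) (e x (t • v)) = ‖v‖ * |t - s|)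
    (hn : ∀ x y : M, dist x y < ρ → SmoothAt E x y ∧
      ∃ v : TangentSpace 𝓘(ℝ, E) x, v ∈ segMin e x ∧ e x v = y)
    {c : ℝ → M} {κ : ℝ} (hκ : 0 < κ)
    (hc : ∀ s t : ℝ, κ * |t - s| ≤ ρ → dist (c s) (c t) = κ * |t - s|)
    {δ : ℝ} (hδ : 0 < δ) (hvδ : κ * δ < ρ / 2) (r : ℝ) (z : M) (hz : c r = z) :
    ∃ w : TangentSpace 𝓘(ℝ, E) z, ‖w‖ = κ ∧
      ∀ t : ℝ, |t| ≤ δ → e z (t • w) = c (r + t) := by
  have hvδ0 : 0 < κ * δ := by positivity
  set y := c (r + δ) with hy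
  set y' := c (r - δ) with hy'
  have d1 : dist z y = κ * δ := by
    have h1 : |r + δ - r| = δ := by rw [add_sub_cancel_left, abs_of_pos hδ]
    have := hc r (r + δ) (by rw [h1]; linarith only [hvδ, hvδ0])
    rwa [hz, h1] at this
  have d2 : dist z y' = κ * δ := by
    have h1 : |r - δ - r| = δ := by
      rw [show r - δ - r = -δ by ring, abs_neg, abs_of_pos hδ]
    have := hc r (r - δ) (by rw [h1]; linarith only [hvδ, hvδ0])
    rwa [hz, h1] at this
  have d3 : dist y y' = κ * δ + κ * δ := by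
    have h1 : |r - δ - (r + δ)| = 2 * δ := by
      rw [show r - δ - (r + δ) = -(2 * δ) by ring, abs_neg, abs_of_pos (by linarith only [hδ])]
    have := hc (r + δ) (r - δ) (by rw [h1]; linarith only [hvδ])
    rw [h1] at this
    rw [this]; ring
  obtain ⟨hs1, p, hp, hpy⟩ := hn z y (by linarith only [hvδ, hvδ0, d1])
  obtain ⟨hs2, p', hp', hpy'⟩ := hn z y' (by linarith only [hvδ, hvδ0, d2])
  have c1 := sh_corner he hvδ0 hvδ0 hp hpy hp' hpy' d1 d2 d3 hs1 hs2
  rw [div_self hvδ0.ne', one_smul] at c1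
  have hpn : ‖p‖ = κ * δ := by
    have h1 : dist z (e z p) = ‖p‖ := hp
    rw [← h1, hpy, d1]
  refine ⟨δ⁻¹ • p, ?_, ?_⟩
  · rw [norm_smul, norm_inv, Real.norm_eq_abs, abs_of_pos hδ, hpn]
    (clear * - hδ hκ; field_simp)
  · -- a common argument for both signs
    have key : ∀ (P : TangentSpace 𝓘(ℝ, E) z) (Y : M) (t : ℝ), ‖P‖ = κ * δ → e z P = Y →
        dist z Y = κ * δ → |t| ≤ δ → dist (c (r + t)) Y = κ * (δ - |t|) →
        e z ((|t| * δ⁻¹) • P) = c (r + t) := by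
      intro P Y t hP hPY hzY ht hd
      have h1 : |r + t - r| = |t| := by rw [add_sub_cancel_left]
      have h2 := hc r (r + t) (by rw [h1]; nlinarith only [hvδ, hvδ0, hκ, ht])
      rw [hz, h1] at h2
      obtain ⟨τ, hτ0, hτ1, hτ⟩ := sh_between_aux he hm hn z P (by rw [hP]; exact hvδ)
        (c (r + t)) (by rw [hPY, hzY, h2, hd]; ring)
      have h3 := hm z P 0 τ (by
        rw [sub_zero, abs_of_nonneg hτ0, hP]
        nlinarith only [hvδ, hvδ0, hτ1])
      rw [zero_smul, he.map_zero, hτ, h2, sub_zero, abs_of_nonneg hτ0, hP] at h3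
      have h4 : |t| = τ * δ := by
        have h5 : κ * |t| = κ * (τ * δ) := by rw [h3]; ring
        exact mul_left_cancel₀ hκ.ne' h5
      rw [h4, mul_assoc, mul_inv_cancel₀ hδ.ne', mul_one, hτ]
    intro t ht
    rcases le_total 0 t with h0 | h0
    · have h1 := key p y t hpn hpy d1 ht (by
        have h2 : |r + δ - (r + t)| = δ - |t| := by
          rw [abs_of_nonneg h0] at ht ⊢
          rw [show r + δ - (r + t) = δ - t by ring, abs_of_nonneg (by linarith only [ht])]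
        have h3 := hc (r + t) (r + δ) (by rw [h2]; nlinarith only [hvδ, hvδ0, hκ, abs_nonneg t])
        rw [h2] at h3
        exact h3)
      rw [abs_of_nonneg h0] at h1
      rw [smul_smul]
      exact h1
    · have h1 := key p' y' t (by rw [c1, norm_neg, hpn]) hpy' d2 ht (by
        have h2 : |r - δ - (r + t)| = δ - |t| := by
          rw [abs_of_nonpos h0] at ht ⊢
          rw [show r - δ - (r + t) = -(δ - -t) by ring, abs_neg, abs_of_nonneg (by linarith only [ht])]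
        have h3 := hc (r + t) (r - δ) (by rw [h2]; nlinarith only [hvδ, hvδ0, hκ, abs_nonneg t])
        rw [h2] at h3
        exact h3)
      rw [abs_of_nonpos h0, c1, smul_neg, ← neg_smul] at h1
      rw [smul_smul, ← h1]
      congr 2
      ring

/-- A curve which is minimizing at a uniform scale is a geodesic. -/
theorem linear_curve [CompactSpace M] (he : IsExp e) {ρ₀ : ℝ} (hρ₀ : 0 < ρ₀)
    {c : ℝ → M} {κ : ℝ} (hκ : 0 ≤ κ)
    (hc : ∀ s t : ℝ, κ * |t - s| ≤ ρ₀ → dist (c s) (c t) = κ * |t - s|) (x : M)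
    (hx : c 0 = x) :
    ∃ w : TangentSpace 𝓘(ℝ, E) x, ‖w‖ = κ ∧ ∀ t : ℝ, e x (t • w) = c t := by
  obtain ⟨ρ₁, hρ₁, hm₁, hn₁⟩ := sh_scale he
  set ρ := min ρ₀ ρ₁ with hρdef
  have hρ : 0 < ρ := lt_min hρ₀ hρ₁
  have hl0 : ρ ≤ ρ₀ := min_le_left _ _
  have hl1 : ρ ≤ ρ₁ := min_le_right _ _
  have hm : ∀ (x : M) (v : TangentSpace 𝓘(ℝ, E) x) (s t : ℝ),
      ‖v‖ * |t - s| ≤ ρ → dist (e x (s • v)) (e x (t • v)) = ‖v‖ * |t - s| :=
    fun x v s t h => hm₁ x v s t (h.trans hl1)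
  have hn : ∀ x y : M, dist x y < ρ → SmoothAt E x y ∧
      ∃ v : TangentSpace 𝓘(ℝ, E) x, v ∈ segMin e x ∧ e x v = y :=
    fun x y h => hn₁ x y (h.trans_le hl1)
  have hc' : ∀ s t : ℝ, κ * |t - s| ≤ ρ → dist (c s) (c t) = κ * |t - s| :=
    fun s t h => hc s t (h.trans hl0)
  rcases eq_or_lt_of_le hκ with h0 | hκ0
  · subst h0
    refine ⟨0, norm_zero, fun t => ?_⟩
    rw [smul_zero, he.map_zero]
    have h1 := hc' 0 t (by simpa only [sub_zero, zero_mul] using hρ.le)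
    rw [zero_mul, dist_eq_zero] at h1
    rw [← h1, hx]
  set δ := ρ / (4 * κ) with hδdef
  have hδ : 0 < δ := by (clear * - hρ₀ hρ₁ hκ0; positivity)
  have hvδ : κ * δ < ρ / 2 := by
    have : κ * δ = ρ / 4 := by rw [hδdef]; (clear * - hκ0 hρ; field_simp)
    rw [this]; linarith only [hρ]
  obtain ⟨w, hw, hloc⟩ := linear_local he hm hn hκ0 hc' hδ hvδ 0 x hx
  refine ⟨w, hw, ?_⟩
  have hw0 : 0 < ‖w‖ := by rw [hw]; exact hκ0
  have main : ∀ n : ℕ, ∀ t : ℝ, |t| ≤ (n + 1) * δ → e x (t • w) = c t := by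
    intro n
    induction n with
    | zero =>
      intro t ht
      have h1 := hloc t (by simpa only [CharP.cast_eq_zero, zero_add, one_mul] using ht)
      rwa [zero_add] at h1
    | succ n ih =>
      -- one step in the direction σ
      have step : ∀ σ : ℝ, |σ| = 1 → ∀ u : ℝ, |u| ≤ δ →
          e x ((σ * ((n + 1) * δ) + u) • w) = c (σ * ((n + 1) * δ) + u) := by
        intro σ hσ u hu
        have hn0 : (0 : ℝ) ≤ (n : ℝ) := Nat.cast_nonneg n
        set t0 := σ * ((n + 1) * δ) with ht0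
        have ht0abs : |t0| ≤ (n + 1) * δ := by
          rw [ht0, abs_mul, hσ, one_mul, abs_of_nonneg (by (clear * - hρ₀ hρ₁ hκ0; positivity))]
        have hz := ih t0 ht0abs
        obtain ⟨w1, hw1, hl1⟩ := sh_local he hm hn hδ x w hw0 (by rw [hw]; exact hvδ)
          t0 _ hz
        obtain ⟨w2, hw2, hl2⟩ := linear_local he hm hn hκ0 hc' hδ hvδ t0 _ rfl
        have hσδ : |-σ * δ| ≤ δ := by
          rw [abs_mul, abs_neg, hσ, one_mul, abs_of_pos hδ]
        have e1 := hl1 (-σ * δ) hσδ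
        have e2 := hl2 (-σ * δ) hσδ
        have e3 : |t0 + -σ * δ| ≤ (n + 1) * δ := by
          have : t0 + -σ * δ = σ * (n * δ) := by rw [ht0]; ring
          rw [this, abs_mul, hσ, one_mul, abs_of_nonneg (by positivity)]
          nlinarith only [hδ]
        have e4 := ih (t0 + -σ * δ) e3
        have e5 : e (c t0) ((-σ * δ) • w1) = e (c t0) ((-σ * δ) • w2) := by
          rw [e1, e2, e4]
        have hseg : ∀ W : TangentSpace 𝓘(ℝ, E) (c t0), ‖W‖ = κ →
            (-σ * δ) • W ∈ segMin e (c t0) ∧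
            dist (c t0) (e (c t0) ((-σ * δ) • W)) < ρ := by
          intro W hW
          have h1 := hm (c t0) W 0 (-σ * δ) (by
            rw [sub_zero, hW]
            nlinarith only [hρ, hvδ, hκ, hσδ])
          rw [zero_smul, he.map_zero, sub_zero] at h1
          constructor
          · change dist _ _ = ‖_‖
            rw [h1, norm_smul, Real.norm_eq_abs, mul_comm]
          · rw [h1, hW]
            nlinarith only [hρ, hvδ, hκ, hσδ]
        have g1 := hseg w1 (by rw [hw1, hw])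
        have g2 := hseg w2 hw2
        have e6 := sh_unique he g2.1 g1.1 (hn _ _ g2.2).1 e5
        have hne : -σ * δ ≠ 0 := by
          intro h
          have : σ = 0 := by
            rcases mul_eq_zero.1 h with h | h
            · linarith only [h]
            · exact absurd h hδ.ne'
          rw [this] at hσ
          simp at hσ
        have e7 : w1 = w2 := smul_right_injective _ hne e6
        rw [← hl1 u hu, e7, hl2 u hu]
      intro t ht
      push_cast at ht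
      rcases le_total 0 t with h0 | h0
      · rcases le_total t ((n + 1) * δ) with h1 | h1
        · exact ih t (by rw [abs_of_nonneg h0]; exact h1)
        · have h2 := step 1 (by norm_num) (t - (n + 1) * δ) (by
            rw [abs_of_nonneg h0] at ht
            rw [abs_of_nonneg (by linarith only [h1])]
            linarith only [ht])
          have h3 : 1 * ((n + 1) * δ) + (t - (n + 1) * δ) = t := by ring
          rw [h3] at h2
          exact h2
      · rcases le_total (-((n + 1) * δ)) t with h1 | h1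
        · exact ih t (by rw [abs_of_nonpos h0]; linarith only [h1])
        · have h2 := step (-1) (by norm_num) (t + (n + 1) * δ) (by
            rw [abs_of_nonpos h0] at ht
            rw [abs_of_nonpos (by linarith only [h1])]
            linarith only [ht])
          have h3 : -1 * ((n + 1) * δ) + (t + (n + 1) * δ) = t := by ring
          rw [h3] at h2
          exact h2
  intro t
  obtain ⟨n, hn'⟩ := exists_nat_gt (|t| / δ)
  apply main n t
  rw [div_lt_iff₀ hδ] at hn'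
  nlinarith only [hδ, hn']

theorem linear_nm_smul (x : M) (t : ℝ) (v : E) : nm x (t • v) = |t| * nm x v :=
  norm_smul (α := ℝ) (β := TangentSpace 𝓘(ℝ, E) x) t v

/-- the image of a geodesic by an isometry is a geodesic -/
theorem linear_exists [CompactSpace M] (he : IsExp e) (σ : M ≃ᵢ M) (x : M) (v : E) :
    ∃ w : E, nm (σ x) w = nm x v ∧
      ∀ t : ℝ, e (σ x) (t • w : E) = σ (e x (t • v : E)) := by
  obtain ⟨ρ, hρ, hm⟩ := he.minimizing
  obtain ⟨w, hw, hw'⟩ := linear_curve he hρ (c := fun t : ℝ => σ (e x (t • v : E)))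
    (κ := nm x v) (nm_nonneg x v) (fun s t h => by
      rw [σ.isometry.dist_eq]
      exact hm x v s t h) (σ x) (by
      have h : ((0 : ℝ) • (v : TangentSpace 𝓘(ℝ, E) x)) = 0 := zero_smul ℝ _
      exact congrArg σ ((congrArg (e x) h).trans (he.map_zero x)))
  exact ⟨w, hw, hw'⟩

theorem linear_unique (he : IsExp e) {x : M} {v w : E}
    (h : ∀ t : ℝ, e x (t • v : E) = e x (t • w : E)) : v = w := by
  have h0 : (fun t : ℝ => e x (t • v : E)) = fun t : ℝ => e x (t • w : E) := funext h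
  have key : ∀ f g : ℝ → M, f = g →
      (mfderiv 𝓘(ℝ, ℝ) 𝓘(ℝ, E) f 0 (1 : ℝ) : E) = mfderiv 𝓘(ℝ, ℝ) 𝓘(ℝ, E) g 0 (1 : ℝ) := by
    rintro f g rfl
    rfl
  have h1 := he.velocity x v
  have h2 := he.velocity x w
  have h3 := key _ _ h0
  exact h1.symm.trans (h3.trans h2)

/-- the infinitesimal comparison -/
theorem linear_nm_le [CompactSpace M] (F : Facts e) (σ : M ≃ᵢ M) (x : M) {v w v' w' : E}
    (hv : nm (σ x) v' = nm x v) (hw : nm (σ x) w' = nm x w)
    (hv' : ∀ t : ℝ, e (σ x) (t • v' : E) = σ (e x (t • v : E)))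
    (hw' : ∀ t : ℝ, e (σ x) (t • w' : E) = σ (e x (t • w : E))) :
    nm (σ x) (v' - w') = nm x (v - w) := by
  have key : ∀ ε : ℝ, 0 < ε → (1 - ε) * nm x (v - w) ≤ (1 + ε) * nm (σ x) (v' - w') ∧
      (1 - ε) * nm (σ x) (v' - w') ≤ (1 + ε) * nm x (v - w) := by
    intro ε hε
    obtain ⟨δ₁, hδ₁, h1⟩ := exp_almost_isometry F x hε
    obtain ⟨δ₂, hδ₂, h2⟩ := exp_almost_isometry F (σ x) hε
    obtain ⟨t, ht, ht1⟩ : ∃ t : ℝ, 0 < t ∧
        t * (nm x v + nm x w + 1) < min δ₁ δ₂ := by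
      have h3 : 0 < nm x v + nm x w + 1 := by
        have := nm_nonneg x v
        have := nm_nonneg x w
        linarith
      refine ⟨min δ₁ δ₂ / (2 * (nm x v + nm x w + 1)), by (clear * - hδ₁ hδ₂ h3; positivity), ?_⟩
      have h4 : min δ₁ δ₂ / (2 * (nm x v + nm x w + 1)) * (nm x v + nm x w + 1) =
          min δ₁ δ₂ / 2 := by (clear * - h3 hδ₁ hδ₂; field_simp)
      rw [h4]
      have : 0 < min δ₁ δ₂ := lt_min hδ₁ hδ₂
      linarith only [this]
    have hb1 : min δ₁ δ₂ ≤ δ₁ := min_le_left _ _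
    have hb2 : min δ₁ δ₂ ≤ δ₂ := min_le_right _ _
    have hnv := nm_nonneg x v
    have hnw := nm_nonneg x w
    have ntv : nm x (t • v) = t * nm x v := by rw [linear_nm_smul, abs_of_pos ht]
    have ntw : nm x (t • w) = t * nm x w := by rw [linear_nm_smul, abs_of_pos ht]
    have ntv' : nm (σ x) (t • v') = t * nm x v := by rw [linear_nm_smul, abs_of_pos ht, hv]
    have ntw' : nm (σ x) (t • w') = t * nm x w := by rw [linear_nm_smul, abs_of_pos ht, hw]
    have bv : t * nm x v < min δ₁ δ₂ := by nlinarith only [ht, ht1, hnw]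
    have bw : t * nm x w < min δ₁ δ₂ := by nlinarith only [ht, ht1, hnv]
    have h3 := h1 (t • v) (t • w) (by rw [ntv]; linarith only [hb1, bv]) (by rw [ntw]; linarith only [hb1, bw])
    have h4 := h2 (t • v') (t • w') (by rw [ntv']; linarith only [hb2, bv]) (by rw [ntw']; linarith only [hb2, bw])
    rw [hv' t, hw' t, σ.isometry.dist_eq, ← smul_sub, linear_nm_smul, abs_of_pos ht] at h4
    rw [← smul_sub, linear_nm_smul, abs_of_pos ht] at h3
    obtain ⟨h5, h6⟩ := h3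
    obtain ⟨h7, h8⟩ := h4
    constructor
    · have h9 : t * ((1 - ε) * nm x (v - w)) ≤ t * ((1 + ε) * nm (σ x) (v' - w')) := by
        have := h5.trans h8
        linarith only [h5, h8]
      exact le_of_mul_le_mul_left h9 ht
    · have h9 : t * ((1 - ε) * nm (σ x) (v' - w')) ≤ t * ((1 + ε) * nm x (v - w)) := by
        have := h7.trans h6
        linarith only [h6, h7]
      exact le_of_mul_le_mul_left h9 ht
  have hlim : ∀ a b : ℝ, (∀ ε : ℝ, 0 < ε → (1 - ε) * a ≤ (1 + ε) * b) → a ≤ b := by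
    intro a b h
    have h1 : Tendsto (fun ε : ℝ => (1 - ε) * a) (𝓝[>] 0) (𝓝 ((1 - 0) * a)) :=
      ((continuous_const.sub continuous_id).mul continuous_const).continuousWithinAt
    have h2 : Tendsto (fun ε : ℝ => (1 + ε) * b) (𝓝[>] 0) (𝓝 ((1 + 0) * b)) :=
      ((continuous_const.add continuous_id).mul continuous_const).continuousWithinAt
    have h3 := le_of_tendsto_of_tendsto h1 h2 (by
      filter_upwards [self_mem_nhdsWithin] with ε hε
      exact h ε hε)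
    linarith only [h3]
  exact le_antisymm (hlim _ _ fun ε hε => (key ε hε).2) (hlim _ _ fun ε hε => (key ε hε).1)

/-- isometries act linearly in normal coordinates -/
theorem isometry_linear [CompactSpace M] [ConnectedSpace M] [IsRiemannianManifold 𝓘(ℝ, E) M]
    (F : Facts e) (σ : M ≃ᵢ M) (x : M) :
    ∃ L : E ≃ₗ[ℝ] E, (∀ v w, ip (σ x) (L v) (L w) = ip x v w) ∧
      ∀ v : E, σ (e x v) = e (σ x) (L v : E) := by
  have he := F.isExp
  choose f hf1 hf2 using fun v : E => linear_exists he σ x v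
  choose g hg1 hg2 using fun v : E => linear_exists he σ.symm (σ x) v
  have hσx : σ.symm (σ x) = x := σ.symm_apply_apply x
  rw [hσx] at hg1 hg2
  have hgf : ∀ v, g (f v) = v := by
    intro v
    refine linear_unique he (x := x) fun t => ?_
    rw [hg2, hf2, σ.symm_apply_apply]
  have hfg : ∀ v, f (g v) = v := by
    intro v
    refine linear_unique he (x := σ x) fun t => ?_
    rw [hf2, hg2, σ.apply_symm_apply]
  have hf0 : f 0 = 0 := by
    refine linear_unique he (x := σ x) fun t => ?_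
    rw [hf2, smul_zero]
    exact (congrArg σ (he.map_zero x)).trans (he.map_zero (σ x)).symm
  have hfd : ∀ v w, nm (σ x) (f v - f w) = nm x (v - w) := fun v w =>
    linear_nm_le F σ x (hf1 v) (hf1 w) (hf2 v) (hf2 w)
  let A : Eu E ≃ᵢ Eu E := IsometryEquiv.mk'
    (fun a => (fr (σ x)).symm (f (fr x a))) (fun b => (fr x).symm (g (fr (σ x) b)))
    (fun b => by
      simp only [ContinuousLinearEquiv.apply_symm_apply, hfg,
        ContinuousLinearEquiv.symm_apply_apply])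
    (by
      refine Isometry.of_dist_eq fun a b => ?_
      rw [dist_eq_norm, dist_eq_norm, ← map_sub, ← nm_fr (σ x),
        ContinuousLinearEquiv.apply_symm_apply, hfd, ← map_sub, nm_fr])
  have hA0 : A 0 = 0 := by
    change (fr (σ x)).symm (f (fr x 0)) = 0
    rw [map_zero, hf0, map_zero]
  let B : Eu E ≃ₗᵢ[ℝ] Eu E := A.toRealLinearIsometryEquivOfMapZero hA0
  have hB : ∀ a, B a = (fr (σ x)).symm (f (fr x a)) := fun a => rfl
  let L : E ≃ₗ[ℝ] E := ((fr x).symm.toLinearEquiv.trans B.toLinearEquiv).trans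
    (fr (σ x)).toLinearEquiv
  have hL : ∀ v, L v = fr (σ x) (B ((fr x).symm v)) := fun v => rfl
  have hLf : ∀ v, L v = f v := by
    intro v
    rw [hL, hB]
    simp only [ContinuousLinearEquiv.apply_symm_apply]
  refine ⟨L, ?_, ?_⟩
  · intro v w
    rw [hL, hL, ip_fr, B.inner_map_map, ← ip_fr x, ContinuousLinearEquiv.apply_symm_apply,
      ContinuousLinearEquiv.apply_symm_apply]
  · intro v
    rw [hLf]
    have h1 := hf2 v 1
    rw [one_smul, one_smul] at h1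
    exact h1.symm

end

end Vale.Agent.P231
end
end
end

section

section

section

/-! P231: closedness of the geodesics of a Blaschke manifold. Definitions. -/

set_option maxSynthPendingDepth 3

open Bundle Manifold Set Filter
open scoped ContDiff Manifold Topology

namespace Vale.Agent.P231

noncomputable section

open Vale.Agent.P234

set_option linter.unusedSectionVars false

variable {E : Type*} [NormedAddCommGroup E] [NormedSpace ℝ E] [FiniteDimensional ℝ E]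
  {M : Type*} [MetricSpace M] [ChartedSpace E M]
  [RiemannianBundle (fun x : M => TangentSpace 𝓘(ℝ, E) x)]

/-- Link: unit vectors `u` at `y` with `exp_y (D u) = x`. -/
def Lk (e : ∀ x : M, TangentSpace 𝓘(ℝ, E) x → M) (D : ℝ) (x y : M) :
    Set (TangentSpace 𝓘(ℝ, E) y) :=
  {u | ‖u‖ = 1 ∧ e y (D • u) = x}

/-- Tangent directions at `y` of the sphere of radius `D` around `x`
(in exponential coordinates at `y`). -/
def Tn (e : ∀ x : M, TangentSpace 𝓘(ℝ, E) x → M) (D : ℝ) (x y : M) :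
    Set (TangentSpace 𝓘(ℝ, E) y) :=
  {τ | ∃ (t : ℕ → ℝ) (c : ℕ → TangentSpace 𝓘(ℝ, E) y), (∀ j, 0 < t j) ∧
    Tendsto t atTop (𝓝 0) ∧ (∀ j, dist x (e y (c j)) = D) ∧
    Tendsto (fun j => (t j)⁻¹ • c j) atTop (𝓝 τ)}

/-- Exponential coordinates at `y` of `exp_x (T v')`, as a function of `v'`. -/
def kap (e : ∀ x : M, TangentSpace 𝓘(ℝ, E) x → M) (T : ℝ) (x y : M)
    (v' : TangentSpace 𝓘(ℝ, E) x) : TangentSpace 𝓘(ℝ, E) y :=
  logMap e y (e x (T • v'))

end

end Vale.Agent.P231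
end
end
end

section

section

section

open Matrix Finset Real
open scoped ContDiff

namespace Vale.Agent.P231.Ode

open Kazdan

variable {N : ℕ} (X : JSys N)

namespace JSys

end JSys

end Vale.Agent.P231.Ode
end
end
end
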