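import Vale.Agent.P231.MathlibUsed
import Vale.Agent.P234.MathlibUsed
import Vale.Agent.P231.Bd3.B1
import Vale.Agent.P231.Bd3.B2
attribute [-instance] IsTopologicalTorsor.toContinuousSMul IdemSemiring.toCanonicallyOrderedAdd IdemSemiring.toMulLeftMono IdemSemiring.toMulRightMono FiniteDimensional.rclike_to_real IsScalarTower.complexToReal FiniteDimensional.complexToReal

set_option linter.all false

namespace AFast8b3a4bx7a
@[reducible] noncomputable def a0.{u1, u2} {x1 : Type u1} [x2 : NormedAddCommGroup x1] [x3 : NormedSpace ℝ x1] {x4 : Type u2} [x5 : MetricSpace x4] [x6 : ChartedSpace x1 x4] {x7 : x4} : SMulZeroClass ℝ (TangentSpace (modelWithCornersSelf ℝ x1) x7) := inferInstance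
@[reducible] noncomputable def a1.{u1, u2} {x1 : Type u1} [x2 : NormedAddCommGroup x1] [x3 : NormedSpace ℝ x1] {x4 : Type u2} [x5 : MetricSpace x4] [x6 : ChartedSpace x1 x4] {x7 : x4} : SMul ℝ (TangentSpace (modelWithCornersSelf ℝ x1) x7) := inferInstance
@[reducible] noncomputable def a2.{u1, u2} {x1 : Type u1} [x2 : NormedAddCommGroup x1] [x3 : NormedSpace ℝ x1] {x4 : Type u2} [x5 : MetricSpace x4] [x6 : ChartedSpace x1 x4] {x7 : x4} : DistribSMul ℝ (TangentSpace (modelWithCornersSelf ℝ x1) x7) := inferInstance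
@[reducible] noncomputable def a3.{u1, u2} {x1 : Type u1} [x2 : NormedAddCommGroup x1] [x3 : NormedSpace ℝ x1] {x4 : Type u2} [x5 : MetricSpace x4] [x6 : ChartedSpace x1 x4] {x7 : x4} : DistribMulAction ℝ (TangentSpace (modelWithCornersSelf ℝ x1) x7) := inferInstance
@[reducible] noncomputable def a4.{u1, u2} {x1 : Type u1} [x2 : NormedAddCommGroup x1] [x3 : NormedSpace ℝ x1] {x4 : Type u2} [x5 : MetricSpace x4] [x6 : ChartedSpace x1 x4] {x7 : x4} : AddCommMonoid (TangentSpace (modelWithCornersSelf ℝ x1) x7) := inferInstance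
@[reducible] noncomputable def a5.{u1, u2} {x1 : Type u1} [x2 : NormedAddCommGroup x1] [x3 : NormedSpace ℝ x1] {x4 : Type u2} [x5 : MetricSpace x4] [x6 : ChartedSpace x1 x4] {x7 : x4} : Zero (TangentSpace (modelWithCornersSelf ℝ x1) x7) := inferInstance
@[reducible] noncomputable def a6.{u1, u2} {x1 : Type u1} [x2 : NormedAddCommGroup x1] [x3 : NormedSpace ℝ x1] {x4 : Type u2} [x5 : MetricSpace x4] [x6 : ChartedSpace x1 x4] {x7 : x4} : MulAction ℝ (TangentSpace (modelWithCornersSelf ℝ x1) x7) := inferInstance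
@[reducible] noncomputable def a7.{u1, u2} {x1 : Type u1} [x2 : NormedAddCommGroup x1] [x3 : NormedSpace ℝ x1] {x4 : Type u2} [x5 : MetricSpace x4] [x6 : ChartedSpace x1 x4] {x7 : x4} : AddZero (TangentSpace (modelWithCornersSelf ℝ x1) x7) := inferInstance
@[reducible] noncomputable def a8.{u1, u2} {x1 : Type u1} [x2 : NormedAddCommGroup x1] [x3 : NormedSpace ℝ x1] {x4 : Type u2} [x5 : MetricSpace x4] [x6 : ChartedSpace x1 x4] {x7 : x4} : AddZeroClass (TangentSpace (modelWithCornersSelf ℝ x1) x7) := inferInstance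
@[reducible] noncomputable def a9.{u1, u2} {x1 : Type u1} [x2 : NormedAddCommGroup x1] [x3 : NormedSpace ℝ x1] {x4 : Type u2} [x5 : MetricSpace x4] [x6 : ChartedSpace x1 x4] {x7 : x4} : AddMonoid (TangentSpace (modelWithCornersSelf ℝ x1) x7) := inferInstance
theorem a10 : ContinuousSMul ℝ ℝ := inferInstance
theorem a11 : CovariantClass ℝ ℝ (Function.swap fun x1 x2 => x1 + x2) fun x1 x2 => x1 ≤ x2 := inferInstance
@[reducible] noncomputable def a12.{u1} {x1 : Type u1} [x2 : NormedAddCommGroup x1] [x3 : NormedSpace ℝ x1] : MeasureTheory.MeasureSpace (Vale.Agent.P231.Eu x1) := inferInstance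
@[reducible] noncomputable def a13 : NormedSpace ℝ ℝ := inferInstance
theorem a14 : T2Space ℝ := inferInstance
@[reducible] noncomputable def a15.{u1, u2} {x1 : Type u1} [x2 : NormedAddCommGroup x1] [x3 : NormedSpace ℝ x1] {x4 : Type u2} [x5 : MetricSpace x4] [x6 : ChartedSpace x1 x4] {x7 : x4} : SubNegMonoid (TangentSpace (modelWithCornersSelf ℝ x1) x7) := inferInstance
@[reducible] noncomputable def a16.{u1, u2} {x1 : Type u1} [x2 : NormedAddCommGroup x1] [x3 : NormedSpace ℝ x1] {x4 : Type u2} [x5 : MetricSpace x4] [x6 : ChartedSpace x1 x4] {x7 : x4} : AddGroup (TangentSpace (modelWithCornersSelf ℝ x1) x7) := inferInstance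
@[reducible] noncomputable def a17.{u1, u2} {x1 : Type u1} [x2 : NormedAddCommGroup x1] [x3 : NormedSpace ℝ x1] {x4 : Type u2} [x5 : MetricSpace x4] [x6 : ChartedSpace x1 x4] {x7 : x4} : SMulWithZero ℝ (TangentSpace (modelWithCornersSelf ℝ x1) x7) := inferInstance
@[reducible] noncomputable def a18.{u1, u2} {x1 : Type u1} [x2 : NormedAddCommGroup x1] [x3 : NormedSpace ℝ x1] {x4 : Type u2} [x5 : MetricSpace x4] [x6 : ChartedSpace x1 x4] {x7 : x4} : SemigroupAction ℝ (TangentSpace (modelWithCornersSelf ℝ x1) x7) := inferInstance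
@[reducible] noncomputable def a19.{u1, u2} {x1 : Type u1} [x2 : NormedAddCommGroup x1] [x3 : NormedSpace ℝ x1] {x4 : Type u2} [x5 : MetricSpace x4] [x6 : ChartedSpace x1 x4] {x7 : x4} : AddCommMagma (TangentSpace (modelWithCornersSelf ℝ x1) x7) := inferInstance
@[reducible] noncomputable def a20.{u1, u2} {x1 : Type u1} [x2 : NormedAddCommGroup x1] [x3 : NormedSpace ℝ x1] {x4 : Type u2} [x5 : MetricSpace x4] [x6 : ChartedSpace x1 x4] {x7 : x4} : Add (TangentSpace (modelWithCornersSelf ℝ x1) x7) := inferInstance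
@[reducible] def a21.{u1} {x1 : Type u1} [x2 : NormedAddCommGroup x1] [x3 : NormedSpace ℝ x1] : AddCommMonoid (Vale.Agent.P231.Eu x1) := inferInstance
@[reducible] noncomputable def a22.{u1, u2} {x1 : Type u1} [x2 : NormedAddCommGroup x1] [x3 : NormedSpace ℝ x1] {x4 : Type u2} [x5 : MetricSpace x4] [x6 : ChartedSpace x1 x4] {x7 : x4} : AddCommSemigroup (TangentSpace (modelWithCornersSelf ℝ x1) x7) := inferInstance
@[reducible] noncomputable def a23.{u1, u2} {x1 : Type u1} [x2 : NormedAddCommGroup x1] [x3 : NormedSpace ℝ x1] {x4 : Type u2} [x5 : MetricSpace x4] [x6 : ChartedSpace x1 x4] {x7 : x4} : MulActionWithZero ℝ (TangentSpace (modelWithCornersSelf ℝ x1) x7) := inferInstance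
@[reducible] def a24 : SMulZeroClass ℝ ℝ := inferInstance
theorem a25 : AddRightReflectLE ℝ := inferInstance
theorem a26 : AddRightStrictMono ℝ := inferInstance
theorem a27 : CharZero ℝ := inferInstance
theorem a28 : ContinuousAdd ℝ := inferInstance
theorem a29.{u1} {x1 : Type u1} [x2 : NormedAddCommGroup x1] [x3 : NormedSpace ℝ x1] : FiniteDimensional ℝ (Fin (Module.finrank ℝ x1) → ℝ) := inferInstance
theorem a30 : AddLeftMono ℝ := inferInstance
theorem a31 : SeparatelyContinuousMul ℝ := inferInstance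
theorem a32 : IsRightCancelAdd ℝ := inferInstance
theorem a33 : AddLeftReflectLE ℝ := inferInstance
theorem a34 : ContinuousConstSMul ℝ ℝ := inferInstance
@[reducible] noncomputable def a35.{u1, u2} {x1 : Type u1} [x2 : NormedAddCommGroup x1] [x3 : NormedSpace ℝ x1] {x4 : Type u2} [x5 : MetricSpace x4] [x6 : ChartedSpace x1 x4] {x7 : x4} : SMul (ℝ → ℝ) (ℝ → TangentSpace (modelWithCornersSelf ℝ x1) x7) := inferInstance
@[reducible] def a36 : DistribMulAction ℝ ℝ := inferInstance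
@[reducible] def a37.{u1} {x1 : Type u1} [x2 : NormedAddCommGroup x1] [x3 : InnerProductSpace ℝ x1] : Module ℝ (x1 →L[ℝ] ℝ) := inferInstance
@[reducible] noncomputable def a38.{u1, u2} {x1 : Type u1} [x2 : NormedAddCommGroup x1] [x3 : NormedSpace ℝ x1] {x4 : Type u2} [x5 : MetricSpace x4] [x6 : ChartedSpace x1 x4] {x7 : (x : x4) → TangentSpace (modelWithCornersSelf ℝ x1) x → x4} {x8 : x4} {x9 : ℝ} {x10 : TangentSpace (modelWithCornersSelf ℝ x1) x8} : SMul ℝ (TangentSpace (modelWithCornersSelf ℝ x1) (x7 x8 (x9 • x10))) := inferInstance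
@[reducible] def a39.{u1} {x1 : Type u1} [x2 : NormedAddCommGroup x1] [x3 : NormedSpace ℝ x1] : Zero (Vale.Agent.P231.Eu x1) := inferInstance
@[reducible] def a40.{u1} {x1 : Type u1} [x2 : MetricSpace x1] : TopologicalSpace (x1 × x1) := inferInstance
theorem a41 : IsLeftCancelAdd ℝ := inferInstance
theorem a42 : ContravariantClass ℝ ℝ (fun x1 x2 => x1 + x2) fun x1 x2 => x1 < x2 := inferInstance
@[reducible] noncomputable def a43.{u1} {x1 : Type u1} [x2 : NormedAddCommGroup x1] [x3 : InnerProductSpace ℝ x1] : TopologicalSpace (x1 →L[ℝ] ℝ) := inferInstance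
theorem a44 : IsTopologicalDivisionRing ℝ := inferInstance
@[reducible] noncomputable def a45.{u1, u2} {x1 : Type u1} [x2 : NormedAddCommGroup x1] [x3 : NormedSpace ℝ x1] {x4 : Type u2} [x5 : MetricSpace x4] [x6 : ChartedSpace x1 x4] {x7 : (x : x4) → TangentSpace (modelWithCornersSelf ℝ x1) x → x4} {x8 : x4} {x9 : ℝ} {x10 : TangentSpace (modelWithCornersSelf ℝ x1) x8} : DistribMulAction ℝ (TangentSpace (modelWithCornersSelf ℝ x1) (x7 x8 (x9 • x10))) := inferInstance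
@[reducible] noncomputable def a46.{u1} {x1 : Type u1} [x2 : NormedAddCommGroup x1] [x3 : @NormedSpace Real x1 Real.normedField (@NormedAddCommGroup.toSeminormedAddCommGroup x1 x2)] : @InnerProductSpace Real (@PiLp (@OfNat.ofNat ENNReal (nat_lit 2) (@instOfNatAtLeastTwo ENNReal (nat_lit 2) (@AddMonoidWithOne.toNatCast ENNReal (@AddCommMonoidWithOne.toAddMonoidWithOne ENNReal ENNReal.instAddCommMonoidWithOne)) ⋯)) (Fin (@Module.finrank Real x1 Real.semiring (@AddCommGroup.toAddCommMonoid x1 (@NormedAddCommGroup.toAddCommGroup x1 x2)) (@NormedSpace.toModule Real x1 Real.normedField (@NormedAddCommGroup.toSeminormedAddCommGroup x1 x2) x3))) fun x => Real) Real.instRCLike (@PiLp.seminormedAddCommGroup (@OfNat.ofNat ENNReal (nat_lit 2) (@instOfNatAtLeastTwo ENNReal (nat_lit 2) (@AddMonoidWithOne.toNatCast ENNReal (@AddCommMonoidWithOne.toAddMonoidWithOne ENNReal ENNReal.instAddCommMonoidWithOne)) ⋯)) (Fin (@Module.finrank Real x1 Real.semiring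 (@AddCommGroup.toAddCommMonoid x1 (@NormedAddCommGroup.toAddCommGroup x1 x2)) (@NormedSpace.toModule Real x1 Real.normedField (@NormedAddCommGroup.toSeminormedAddCommGroup x1 x2) x3))) (fun x => Real) fact_one_le_two_ennreal (Fin.fintype (@Module.finrank Real x1 Real.semiring (@AddCommGroup.toAddCommMonoid x1 (@NormedAddCommGroup.toAddCommGroup x1 x2)) (@NormedSpace.toModule Real x1 Real.normedField (@NormedAddCommGroup.toSeminormedAddCommGroup x1 x2) x3))) fun i => @NormedAddCommGroup.toSeminormedAddCommGroup Real Real.normedAddCommGroup) := inferInstance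
@[reducible] noncomputable def a47.{u1, u2} {x1 : Type u1} [x2 : NormedAddCommGroup x1] [x3 : NormedSpace ℝ x1] {x4 : Type u2} [x5 : MetricSpace x4] [x6 : ChartedSpace x1 x4] {x7 : (x : x4) → TangentSpace (modelWithCornersSelf ℝ x1) x → x4} {x8 : x4} {x9 : x1} {x10 : ℝ} : SMul ℝ (TangentSpace (modelWithCornersSelf ℝ x1) (Vale.Agent.P231.gam x7 x8 x9 x10)) := inferInstance
@[reducible] def a48.{u1} {x1 : Type u1} [x2 : NormedAddCommGroup x1] : TopologicalSpace (ModelProd x1 x1) := inferInstance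
theorem a49 : ContMDiffMul (modelWithCornersSelf ℝ ℝ) ⊤ ℝ := inferInstance
@[reducible] noncomputable def a50.{u1, u2} {x1 : Type u1} [x2 : NormedAddCommGroup x1] [x3 : NormedSpace ℝ x1] {x4 : Type u2} [x5 : MetricSpace x4] [x6 : ChartedSpace x1 x4] {x7 : (x : x4) → TangentSpace (modelWithCornersSelf ℝ x1) x → x4} {x8 : x4} {x9 : ℝ} {x10 : TangentSpace (modelWithCornersSelf ℝ x1) x8} : SMulZeroClass ℝ (TangentSpace (modelWithCornersSelf ℝ x1) (x7 x8 (x9 • x10))) := inferInstance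
@[reducible] def a51.{u1} {x1 : Type u1} [x2 : NormedAddCommGroup x1] [x3 : NormedSpace ℝ x1] : Module ℝ (x1 × x1 →L[ℝ] ℝ) := inferInstance
end AFast8b3a4bx7a
attribute [local instance] AFast8b3a4bx7a.a0 AFast8b3a4bx7a.a1 AFast8b3a4bx7a.a2 AFast8b3a4bx7a.a3
  AFast8b3a4bx7a.a4 AFast8b3a4bx7a.a5 AFast8b3a4bx7a.a6 AFast8b3a4bx7a.a7 AFast8b3a4bx7a.a8
  AFast8b3a4bx7a.a9 AFast8b3a4bx7a.a10 AFast8b3a4bx7a.a11 AFast8b3a4bx7a.a12 AFast8b3a4bx7a.a13
  AFast8b3a4bx7a.a14 AFast8b3a4bx7a.a15 AFast8b3a4bx7a.a16 AFast8b3a4bx7a.a17 AFast8b3a4bx7a.a18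
  AFast8b3a4bx7a.a19 AFast8b3a4bx7a.a20 AFast8b3a4bx7a.a21 AFast8b3a4bx7a.a22 AFast8b3a4bx7a.a23
  AFast8b3a4bx7a.a24 AFast8b3a4bx7a.a25 AFast8b3a4bx7a.a26 AFast8b3a4bx7a.a27 AFast8b3a4bx7a.a28
  AFast8b3a4bx7a.a29 AFast8b3a4bx7a.a30 AFast8b3a4bx7a.a31 AFast8b3a4bx7a.a32 AFast8b3a4bx7a.a33
  AFast8b3a4bx7a.a34 AFast8b3a4bx7a.a35 AFast8b3a4bx7a.a36 AFast8b3a4bx7a.a37 AFast8b3a4bx7a.a38
  AFast8b3a4bx7a.a39 AFast8b3a4bx7a.a40 AFast8b3a4bx7a.a41 AFast8b3a4bx7a.a42 AFast8b3a4bx7a.a43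
  AFast8b3a4bx7a.a44 AFast8b3a4bx7a.a45 AFast8b3a4bx7a.a46 AFast8b3a4bx7a.a47 AFast8b3a4bx7a.a48
  AFast8b3a4bx7a.a49 AFast8b3a4bx7a.a50 AFast8b3a4bx7a.a51
namespace AFast8b3a4bx7b
@[reducible] noncomputable def a0.{u1, u2} {x1 : Type u1} [x2 : NormedAddCommGroup x1] [x3 : NormedSpace ℝ x1] {x4 : Type u2} [x5 : MetricSpace x4] [x6 : ChartedSpace x1 x4] [x7 : IsManifold (modelWithCornersSelf ℝ x1) (↑⊤) x4] : TopologicalSpace (TangentBundle (modelWithCornersSelf ℝ x1) x4) := inferInstance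
theorem a1.{u1, u2} {x1 : Type u1} [x2 : NormedAddCommGroup x1] [x3 : NormedSpace ℝ x1] {x4 : Type u2} [x5 : MetricSpace x4] [x6 : ChartedSpace x1 x4] [x7 : IsManifold (modelWithCornersSelf ℝ x1) (↑⊤) x4] : IsManifold (modelWithCornersSelf ℝ x1) 1 x4 := inferInstance
theorem a2.{u1, u2} {x1 : Type u1} [x2 : NormedAddCommGroup x1] [x3 : NormedSpace ℝ x1] {x4 : Type u2} [x5 : MetricSpace x4] [x6 : ChartedSpace x1 x4] [x7 : IsManifold (modelWithCornersSelf ℝ x1) (↑⊤) x4] : IsManifold (modelWithCornersSelf ℝ x1) 2 x4 := inferInstance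
theorem a3.{u1, u2} {x1 : Type u1} [x2 : NormedAddCommGroup x1] [x3 : NormedSpace ℝ x1] {x4 : Type u2} [x5 : MetricSpace x4] [x6 : ChartedSpace x1 x4] [x7 : IsManifold (modelWithCornersSelf ℝ x1) (↑⊤) x4] : IsManifold (modelWithCornersSelf ℝ x1) 3 x4 := inferInstance
theorem a4.{u1, u2} {x1 : Type u1} [x2 : NormedAddCommGroup x1] [x3 : NormedSpace ℝ x1] {x4 : Type u2} [x5 : MetricSpace x4] [x6 : ChartedSpace x1 x4] {x7 : x4} : IsScalarTower ℝ ℝ (TangentSpace (modelWithCornersSelf ℝ x1) x7) := inferInstance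
theorem a5.{u1} {x1 : Type u1} [x2 : NormedAddCommGroup x1] [x3 : NormedSpace ℝ x1] : AddMonoidHomClass (Vale.Agent.P231.Eu x1 ≃L[ℝ] x1) (Vale.Agent.P231.Eu x1) x1 := inferInstance
theorem a6.{u1} {x1 : Type u1} [x2 : NormedAddCommGroup x1] [x3 : NormedSpace ℝ x1] : DistribMulActionSemiHomClass (Vale.Agent.P231.Eu x1 ≃L[ℝ] x1) (⇑(RingHom.id ℝ)) (Vale.Agent.P231.Eu x1) x1 := inferInstance
theorem a7.{u1, u2} {x1 : Type u1} [x2 : NormedAddCommGroup x1] [x3 : NormedSpace ℝ x1] {x4 : Type u2} [x5 : MetricSpace x4] [x6 : ChartedSpace x1 x4] {x7 : x4} : Module.Flat ℝ (TangentSpace (modelWithCornersSelf ℝ x1) x7) := inferInstance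
theorem a8.{u1} {x1 : Type u1} [x2 : NormedAddCommGroup x1] [x3 : NormedSpace ℝ x1] : SemilinearMapClass (Vale.Agent.P231.Eu x1 ≃L[ℝ] x1) (RingHom.id ℝ) (Vale.Agent.P231.Eu x1) x1 := inferInstance
theorem a9.{u1} {x1 : Type u1} [x2 : NormedAddCommGroup x1] [x3 : NormedSpace ℝ x1] : ZeroHomClass (Vale.Agent.P231.Eu x1 ≃L[ℝ] x1) (Vale.Agent.P231.Eu x1) x1 := inferInstance
theorem a10.{u1} {x1 : Type u1} [x2 : NormedAddCommGroup x1] [x3 : NormedSpace ℝ x1] : ContinuousSemilinearMapClass (Vale.Agent.P231.Eu x1 ≃L[ℝ] x1) (RingHom.id ℝ) (Vale.Agent.P231.Eu x1) x1 := inferInstance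
theorem a11.{u1, u2} {x1 : Type u1} [x2 : NormedAddCommGroup x1] [x3 : NormedSpace ℝ x1] {x4 : Type u2} [x5 : MetricSpace x4] [x6 : ChartedSpace x1 x4] {x7 : x4} {x8 : x4} : ZeroHomClass (TangentSpace (modelWithCornersSelf ℝ x1) x7 →L[ℝ] TangentSpace (modelWithCornersSelf ℝ x1) x8) (TangentSpace (modelWithCornersSelf ℝ x1) x7) (TangentSpace (modelWithCornersSelf ℝ x1) x8) := inferInstance
theorem a12.{u1, u2} {x1 : Type u1} [x2 : NormedAddCommGroup x1] [x3 : NormedSpace ℝ x1] {x4 : Type u2} [x5 : MetricSpace x4] [x6 : ChartedSpace x1 x4] {x7 : x4} {x8 : x4} : AddMonoidHomClass (TangentSpace (modelWithCornersSelf ℝ x1) x7 →L[ℝ] TangentSpace (modelWithCornersSelf ℝ x1) x8) (TangentSpace (modelWithCornersSelf ℝ x1) x7) (TangentSpace (modelWithCornersSelf ℝ x1) x8) := inferInstance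
theorem a13.{u1, u2} {x1 : Type u1} [x2 : NormedAddCommGroup x1] [x3 : NormedSpace ℝ x1] {x4 : Type u2} [x5 : MetricSpace x4] [x6 : ChartedSpace x1 x4] {x7 : x4} {x8 : x4} : DistribMulActionSemiHomClass (TangentSpace (modelWithCornersSelf ℝ x1) x7 →L[ℝ] TangentSpace (modelWithCornersSelf ℝ x1) x8) (⇑(RingHom.id ℝ)) (TangentSpace (modelWithCornersSelf ℝ x1) x7) (TangentSpace (modelWithCornersSelf ℝ x1) x8) := inferInstance
@[reducible] def a14.{u1} {x1 : Type u1} [x2 : NormedAddCommGroup x1] [x3 : InnerProductSpace ℝ x1] : SMul ℝ (x1 →L[ℝ] x1) := inferInstance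
end AFast8b3a4bx7b
attribute [local instance] AFast8b3a4bx7b.a0 AFast8b3a4bx7b.a1 AFast8b3a4bx7b.a2 AFast8b3a4bx7b.a3
  AFast8b3a4bx7b.a4 AFast8b3a4bx7b.a5 AFast8b3a4bx7b.a6 AFast8b3a4bx7b.a7 AFast8b3a4bx7b.a8
  AFast8b3a4bx7b.a9 AFast8b3a4bx7b.a10 AFast8b3a4bx7b.a11 AFast8b3a4bx7b.a12 AFast8b3a4bx7b.a13
  AFast8b3a4bx7b.a14
section

section

section

/-! Consequences of `Facts`: uniqueness, betweenness, continuity (`GeoBasic`), smooth local
inverse and openness of the injectivity domain (`GeoLog`). -/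
end
end
end

section

section

section

/-! Uniqueness of the exponential map. -/

set_option maxSynthPendingDepth 3
set_option linter.unusedSectionVars false

open Bundle Manifold Set Filter
open scoped ContDiff Manifold Topology

namespace Vale.Agent.P234

noncomputable section

variable {E : Type*} [NormedAddCommGroup E] [NormedSpace ℝ E] [FiniteDimensional ℝ E]
  {M : Type*} [MetricSpace M] [ChartedSpace E M]
  [RiemannianBundle (fun x : M => TangentSpace 𝓘(ℝ, E) x)]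
  [IsManifold 𝓘(ℝ, E) ∞ M]
  [IsContMDiffRiemannianBundle 𝓘(ℝ, E) ∞ E (fun x : M => TangentSpace 𝓘(ℝ, E) x)]
  [CompactSpace M]
  {e e' : ∀ x : M, TangentSpace 𝓘(ℝ, E) x → M}

/-- Two exponential maps whose rays with initial vectors `v` and `u` agree on `[0, 1]` have
`u = v`. -/
theorem uniq_vector (he : IsExp e) (he' : IsExp e') (x : M) (u v : TangentSpace 𝓘(ℝ, E) x)
    (h : ∀ t : ℝ, 0 ≤ t → t ≤ 1 → e' x (t • v) = e x (t • u)) : u = v := by
  have h1 := hasDerivAt_exp_chart he x u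
  have h2 := hasDerivAt_exp_chart he' x v
  have h3 : HasDerivWithinAt (fun t : ℝ => extChartAt 𝓘(ℝ, E) x (e x (t • u))) (u : E)
      (Icc 0 1) 0 := h1.hasDerivWithinAt
  have h4 : HasDerivWithinAt (fun t : ℝ => extChartAt 𝓘(ℝ, E) x (e' x (t • v))) (v : E)
      (Icc 0 1) 0 := h2.hasDerivWithinAt
  have h5 : HasDerivWithinAt (fun t : ℝ => extChartAt 𝓘(ℝ, E) x (e x (t • u))) (v : E)
      (Icc 0 1) 0 := by
    refine h4.congr (fun t ht => ?_) ?_
    · rw [h t ht.1 ht.2]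
    · rw [h 0 le_rfl zero_le_one]
  have hU : UniqueDiffWithinAt ℝ (Icc (0 : ℝ) 1) 0 :=
    uniqueDiffOn_Icc zero_lt_one 0 ⟨le_rfl, zero_le_one⟩
  exact hU.eq_deriv _ h3 h5

/-- Two exponential maps agree on short vectors. -/
theorem exp_agree_short (he : IsExp e) (he' : IsExp e') :
    ∃ ρ : ℝ, 0 < ρ ∧ ∀ (x : M) (v : TangentSpace 𝓘(ℝ, E) x), ‖v‖ < ρ → e' x v = e x v := by
  obtain ⟨ρ₁, hρ₁, hm, hn⟩ := sh_scale he
  obtain ⟨ρ₂, hρ₂, hm'⟩ := he'.minimizing
  refine ⟨min (ρ₁ / 2) ρ₂, lt_min (by positivity) hρ₂, ?_⟩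
  intro x v hv
  have hv1 : ‖v‖ < ρ₁ / 2 := hv.trans_le (min_le_left _ _)
  have hv2 : ‖v‖ < ρ₂ := hv.trans_le (min_le_right _ _)
  rcases eq_or_lt_of_le (norm_nonneg v) with h0 | hpos
  · have hv0 : v = 0 := norm_eq_zero.1 h0.symm
    rw [hv0, he.map_zero, he'.map_zero]
  have e0 : e' x ((0 : ℝ) • v) = x := by rw [zero_smul, he'.map_zero]
  have e1 : e' x ((1 : ℝ) • v) = e' x v := by rw [one_smul]
  have d0 : ∀ t : ℝ, 0 ≤ t → t ≤ 1 → dist x (e' x (t • v)) = t * ‖v‖ := by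
    intro t ht0 ht1
    have h1 := hm' x v 0 t (by
      rw [sub_zero, abs_of_nonneg ht0]
      (clear * - hρ₂ ht1 hv2 ht0; nlinarith))
    rw [e0, sub_zero, abs_of_nonneg ht0] at h1
    rw [h1, mul_comm]
  have d1 : ∀ t : ℝ, 0 ≤ t → t ≤ 1 → dist (e' x (t • v)) (e' x v) = (1 - t) * ‖v‖ := by
    intro t ht0 ht1
    have h1 := hm' x v t 1 (by
      rw [abs_of_nonneg (by linarith only [ht1])]
      nlinarith only [hρ₂, ht0, hv2, ht1])
    rw [e1, abs_of_nonneg (by linarith only [ht1])] at h1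
    rw [h1, mul_comm]
  have dxy : dist x (e' x v) = ‖v‖ := by
    have := d0 1 zero_le_one le_rfl
    rwa [one_smul, one_mul] at this
  obtain ⟨-, u, hu, huy⟩ := hn x (e' x v) (by rw [dxy]; linarith only [hv1, hpos])
  have hun : ‖u‖ = ‖v‖ := by
    have h1 : dist x (e x u) = ‖u‖ := hu
    rw [← h1, huy, dxy]
  have key : ∀ t : ℝ, 0 ≤ t → t ≤ 1 → e' x (t • v) = e x (t • u) := by
    intro t ht0 ht1
    obtain ⟨τ, hτ0, hτ1, hτ⟩ := sh_between_aux he hm hn x u (by rw [hun]; exact hv1)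
      (e' x (t • v)) (by
        rw [huy, d0 t ht0 ht1, d1 t ht0 ht1, dxy]
        ring)
    have h1 := hm x u 0 τ (by
      rw [sub_zero, abs_of_nonneg hτ0, hun]
      (by_contra nlg; linarith only [nlg, mul_nonneg (le_of_lt (sub_pos.2 hρ₁)) (sub_nonneg.2 hτ1), mul_nonneg (le_of_lt (sub_pos.2 hv1)) (sub_nonneg.2 hτ0), mul_nonneg (le_of_lt (sub_pos.2 (not_le.1 nlg))) (sub_nonneg.2 hτ0), mul_nonneg (le_of_lt (sub_pos.2 (not_le.1 nlg))) (sub_nonneg.2 hτ1), hρ₁]))
    rw [zero_smul, he.map_zero, hτ, sub_zero, abs_of_nonneg hτ0, hun, d0 t ht0 ht1] at h1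
    have h2 : t = τ := by
      have h3 : ‖v‖ * t = ‖v‖ * τ := by rw [← h1]; ring
      exact mul_left_cancel₀ hpos.ne' h3
    rw [← hτ, h2]
  have huv := uniq_vector he he' x u v key
  rw [← huy, huv]

/-- Flow property, based at a named point. -/
lemma uniq_flow (he : IsExp e) (x : M) (v : TangentSpace 𝓘(ℝ, E) x) (s : ℝ) (z : M)
    (hz : e x (s • v) = z) :
    ∃ w : TangentSpace 𝓘(ℝ, E) z, ‖w‖ = ‖v‖ ∧
      ∀ t : ℝ, e z (t • w) = e x ((s + t) • v) := by
  subst hz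
  exact flow_of_isExp he x v s

/-- Agreement on vectors of norm less than `R` propagates to norm less than `2 * R`. -/
lemma uniq_step (he : IsExp e) (he' : IsExp e') {ρ R : ℝ} (hρ : 0 < ρ) (hρR : ρ ≤ R)
    (hm : ∀ (x : M) (v : TangentSpace 𝓘(ℝ, E) x) (s t : ℝ),
      ‖v‖ * |t - s| ≤ ρ → dist (e x (s • v)) (e x (t • v)) = ‖v‖ * |t - s|)
    (hn : ∀ x y : M, dist x y < ρ → SmoothAt E x y ∧
      ∃ v : TangentSpace 𝓘(ℝ, E) x, v ∈ segMin e x ∧ e x v = y)
    (hR : ∀ (x : M) (v : TangentSpace 𝓘(ℝ, E) x), ‖v‖ < R → e' x v = e x v)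
    (x : M) (v : TangentSpace 𝓘(ℝ, E) x) (hv : ‖v‖ < 2 * R) : e' x v = e x v := by
  rcases eq_or_lt_of_le (norm_nonneg v) with h0 | hpos
  · have hv0 : v = 0 := norm_eq_zero.1 h0.symm
    rw [hv0, he.map_zero, he'.map_zero]
  have hsm : ∀ s : ℝ, |s| ≤ 1 / 2 → ‖s • v‖ < R := by
    intro s hs
    rw [norm_smul, Real.norm_eq_abs]
    (by_contra nlg; linarith only [nlg, mul_nonneg (le_of_lt (sub_pos.2 hpos)) (sub_nonneg.2 hs), mul_nonneg (mul_self_nonneg (1 : ℝ)) (sub_nonneg.2 (not_lt.1 nlg)), hv])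
  have hhalf : ‖((1 / 2 : ℝ)) • v‖ < R := hsm (1 / 2) (by rw [abs_of_pos (by norm_num)])
  obtain ⟨z, hz⟩ : ∃ z : M, e x ((1 / 2 : ℝ) • v) = z := ⟨_, rfl⟩
  obtain ⟨w, hw, hwf⟩ := uniq_flow he x v (1 / 2) z hz
  obtain ⟨w', hw', hwf'⟩ := uniq_flow he' x v (1 / 2) z ((hR _ _ hhalf).trans hz)
  set δ := min (1 / 2) (ρ / (2 * ‖v‖)) with hδdef
  have hδ : 0 < δ := lt_min (by norm_num) (by positivity)
  have hδ1 : δ ≤ 1 / 2 := min_le_left _ _
  have hδ2 : δ * ‖v‖ < ρ := by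
    have h1 : δ ≤ ρ / (2 * ‖v‖) := min_le_right _ _
    have h2 : δ * ‖v‖ ≤ ρ / (2 * ‖v‖) * ‖v‖ := mul_le_mul_of_nonneg_right h1 hpos.le
    have h3 : ρ / (2 * ‖v‖) * ‖v‖ = ρ / 2 := by (clear * - hpos hρ; field_simp)
    rw [h3] at h2
    linarith only [hρ, h2]
  have hnw : ∀ W : TangentSpace 𝓘(ℝ, E) z, ‖W‖ = ‖v‖ → ‖(-δ) • W‖ = δ * ‖v‖ := by
    intro W hW
    rw [norm_smul, norm_neg, Real.norm_eq_abs, abs_of_pos hδ, hW]
  have hseg : ∀ W : TangentSpace 𝓘(ℝ, E) z, ‖W‖ = ‖v‖ →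
      dist z (e z ((-δ) • W)) = δ * ‖v‖ := by
    intro W hW
    have h1 := hm z W 0 (-δ) (by
      rw [sub_zero, abs_neg, abs_of_pos hδ, hW, mul_comm]
      exact hδ2.le)
    rw [zero_smul, he.map_zero, sub_zero, abs_neg, abs_of_pos hδ, hW] at h1
    rw [h1, mul_comm]
  have e1 : e z ((-δ) • w') = e z ((-δ) • w) := by
    rw [hwf (-δ), ← hR z ((-δ) • w') (by rw [hnw w' hw']; linarith only [hρR, hδ2]), hwf' (-δ)]
    exact hR _ _ (hsm _ (by rw [abs_le]; constructor <;> linarith only [hδ1, hδ]))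
  have s1 : (-δ) • w ∈ segMin e z := by
    change dist z (e z ((-δ) • w)) = ‖(-δ) • w‖
    rw [hseg w hw, hnw w hw]
  have s2 : (-δ) • w' ∈ segMin e z := by
    change dist z (e z ((-δ) • w')) = ‖(-δ) • w'‖
    rw [hseg w' hw', hnw w' hw']
  have e2 := sh_unique he s1 s2 (hn z _ (by rw [hseg w hw]; exact hδ2)).1 e1
  have e3 : w' = w := smul_right_injective _ (by linarith only [hδ] : (-δ) ≠ 0) e2
  have e4 := hwf (1 / 2)
  have e5 := hwf' (1 / 2)
  rw [show (1 / 2 + 1 / 2 : ℝ) = 1 by norm_num, one_smul] at e4 e5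
  rw [← e4, ← e5, e3]
  apply hR
  rw [norm_smul, Real.norm_eq_abs, abs_of_pos (by norm_num), hw]
  linarith only [hv]

/-- The exponential map is unique. -/
theorem isExp_unique (he : IsExp e) (he' : IsExp e') : e' = e := by
  obtain ⟨ρ₁, hρ₁, hm, hn⟩ := sh_scale he
  obtain ⟨ρ₂, hρ₂, hs⟩ := exp_agree_short he he'
  set ρ := min ρ₁ ρ₂ with hρdef
  have hρ : 0 < ρ := lt_min hρ₁ hρ₂
  have hl1 : ρ ≤ ρ₁ := min_le_left _ _
  have hl2 : ρ ≤ ρ₂ := min_le_right _ _
  have main : ∀ n : ℕ, ∀ (x : M) (v : TangentSpace 𝓘(ℝ, E) x), ‖v‖ < 2 ^ n * ρ →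
      e' x v = e x v := by
    intro n
    induction n with
    | zero =>
      intro x v hv
      exact hs x v (by rw [pow_zero, one_mul] at hv; exact hv.trans_le hl2)
    | succ n ih =>
      intro x v hv
      have h1 : (1 : ℝ) ≤ 2 ^ n := one_le_pow₀ (by norm_num)
      exact uniq_step he he' hρ (R := 2 ^ n * ρ) (by linarith only [mul_nonneg (le_of_lt (sub_pos.2 hρ)) (sub_nonneg.2 h1)])
        (fun x v s t h => hm x v s t (h.trans hl1))
        (fun x y h => hn x y (h.trans_le hl1)) ih x v (by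
          rw [pow_succ] at hv
          linarith)
  funext x v
  obtain ⟨n, hn'⟩ := pow_unbounded_of_one_lt (‖v‖ / ρ) (one_lt_two)
  exact main n x v (by rwa [div_lt_iff₀ hρ] at hn')

end

end Vale.Agent.P234
end
end
end

section

section

section

/-! Inside the injectivity radius the differential of the exponential map is injective. -/

set_option maxSynthPendingDepth 3
set_option linter.unusedSectionVars false

open Bundle Manifold Set Filter
open scoped ContDiff Manifold Topology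

namespace Vale.Agent.P231

noncomputable section

open Vale.Agent.P234

variable {E : Type*} [NormedAddCommGroup E] [NormedSpace ℝ E] [FiniteDimensional ℝ E]
  {M : Type*} [MetricSpace M] [ChartedSpace E M]
  [RiemannianBundle (fun x : M => TangentSpace 𝓘(ℝ, E) x)]
  [IsManifold 𝓘(ℝ, E) ∞ M]
  [IsContMDiffRiemannianBundle 𝓘(ℝ, E) ∞ E (fun x : M => TangentSpace 𝓘(ℝ, E) x)]
  {e : ∀ x : M, TangentSpace 𝓘(ℝ, E) x → M}

/-- `D` is at most the injectivity radius -/
def InjGE (e : ∀ x : M, TangentSpace 𝓘(ℝ, E) x → M) (D : ℝ) : Prop :=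
  ∀ (x : M) (v : TangentSpace 𝓘(ℝ, E) x), ‖v‖ ≤ D → dist x (e x v) = ‖v‖

theorem InjGE.mem_injDomain {D : ℝ} (hB : InjGE e D) {x : M} {v : TangentSpace 𝓘(ℝ, E) x}
    (hv : ‖v‖ < D) : v ∈ injDomain e x := by
  have hn : 0 ≤ ‖v‖ := norm_nonneg v
  have hd : 0 < D - ‖v‖ := by linarith only [hv]
  refine ⟨1 + (D - ‖v‖) / (‖v‖ + 1), ?_, ?_⟩
  · have : 0 < (D - ‖v‖) / (‖v‖ + 1) := div_pos hd (by linarith only [hn])
    linarith only [this]
  · set a : ℝ := 1 + (D - ‖v‖) / (‖v‖ + 1) with ha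
    have ha0 : 0 ≤ a := by
      have : 0 < (D - ‖v‖) / (‖v‖ + 1) := div_pos hd (by linarith only [hn])
      rw [ha]; linarith only [this]
    have h1 : ‖a • v‖ = a * ‖v‖ := by rw [norm_smul, Real.norm_of_nonneg ha0]
    have h2 : a * ‖v‖ ≤ D := by
      have h3 : (D - ‖v‖) / (‖v‖ + 1) * ‖v‖ ≤ D - ‖v‖ := by
        rw [div_mul_eq_mul_div, div_le_iff₀ (by linarith only [hn])]
        linarith only [hv]
      rw [ha]
      linarith only [h3]
    rw [hB x (a • v) (by rw [h1]; exact h2), h1]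

theorem mfderiv_exp_injective (F : Facts e) {x : M} {v : TangentSpace 𝓘(ℝ, E) x}
    (hmem : v ∈ injDomain e x) (w : TangentSpace 𝓘(ℝ, TangentSpace 𝓘(ℝ, E) x) v)
    (hw : mfderiv 𝓘(ℝ, TangentSpace 𝓘(ℝ, E) x) 𝓘(ℝ, E) (e x) v w = 0) : w = 0 := by
  obtain ⟨L, hL, -, -, hLe⟩ := F.smoothLog hmem
  have hLd : MDifferentiableAt 𝓘(ℝ, E) 𝓘(ℝ, TangentSpace 𝓘(ℝ, E) x) L (e x v) :=
    hL.mdifferentiableAt (by simp)
  have hEd : MDifferentiableAt 𝓘(ℝ, TangentSpace 𝓘(ℝ, E) x) 𝓘(ℝ, E) (e x) v :=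
    (contMDiff_exp_fiber F.isExp x).mdifferentiableAt (by simp)
  have hcomp := mfderiv_comp_apply v hLd hEd w
  have hev : (L ∘ e x) =ᶠ[𝓝 v] id := hLe
  have hid : mfderiv 𝓘(ℝ, TangentSpace 𝓘(ℝ, E) x) 𝓘(ℝ, TangentSpace 𝓘(ℝ, E) x) (L ∘ e x) v =
      mfderiv 𝓘(ℝ, TangentSpace 𝓘(ℝ, E) x) 𝓘(ℝ, TangentSpace 𝓘(ℝ, E) x) id v := hev.mfderiv_eq
  rw [hid, mfderiv_id, hw, map_zero] at hcomp
  exact hcomp

theorem dE_injective [CompactSpace M] [ConnectedSpace M] [IsRiemannianManifold 𝓘(ℝ, E) M]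
    (F : Facts e) {D : ℝ} (hB : InjGE e D) {x : M} {v : E} (hv : nm x v < D) {w : E}
    (hw : dE e x v w = 0) : w = 0 :=
  mfderiv_exp_injective F (hB.mem_injDomain hv) w hw

end

end Vale.Agent.P231
end
end
end

section

section

section

/-! P231 measure part MB: the Jacobian of the exponential map. -/

set_option maxSynthPendingDepth 3
set_option linter.unusedSectionVars false

open Bundle Manifold Set Filter MeasureTheory Module
open scoped ContDiff Manifold Topology ENNReal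

namespace Vale.Agent.P231

noncomputable section

open Vale.Agent.P234

variable {E : Type*} [NormedAddCommGroup E] [NormedSpace ℝ E] [FiniteDimensional ℝ E]
  {M : Type*} [MetricSpace M] [ChartedSpace E M]
  [RiemannianBundle (fun x : M => TangentSpace 𝓘(ℝ, E) x)]
  [IsManifold 𝓘(ℝ, E) ∞ M]
  [IsContMDiffRiemannianBundle 𝓘(ℝ, E) ∞ E (fun x : M => TangentSpace 𝓘(ℝ, E) x)]
  {e : ∀ x : M, TangentSpace 𝓘(ℝ, E) x → M}

lemma Jac.gam_one (x : M) (v : E) : gam e x v 1 = e x v := by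
  have h : ((1 : ℝ) • (v : TangentSpace 𝓘(ℝ, E) x)) = v := one_smul ℝ _
  unfold gam
  rw [h]

/-- coordinates of a raw vector in the frame `fr x` -/
lemma Jac.ip_fr_left (x : M) (a : Eu E) (z : E) :
    ip x (fr x a) z = ∑ k, a k * ((fr x).symm z) k := by
  have h := ip_fr x a ((fr x).symm z)
  rw [ContinuousLinearEquiv.apply_symm_apply] at h
  rw [h, PiLp.inner_apply]
  apply Finset.sum_congr rfl
  intro k _
  simp [mul_comm]

lemma Jac.abs_det_of_orthonormal {x : M} {p : Fin (finrank ℝ E) → E}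
    (hp : ∀ i j, ip x (p i) (p j) = if i = j then 1 else 0) :
    |(Matrix.of fun k j : Fin (finrank ℝ E) => ((fr x).symm (p j)) k).det| = 1 := by
  set P : Matrix (Fin (finrank ℝ E)) (Fin (finrank ℝ E)) ℝ :=
    Matrix.of fun k j => ((fr x).symm (p j)) k with hP
  have h1 : P.transpose * P = 1 := by
    ext i j
    rw [Matrix.mul_apply, Matrix.one_apply, ← hp i j]
    have h := Jac.ip_fr_left x ((fr x).symm (p i)) (p j)
    rw [ContinuousLinearEquiv.apply_symm_apply] at h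
    rw [h]
    rfl
  have h2 := congrArg Matrix.det h1
  rw [Matrix.det_mul, Matrix.det_transpose, Matrix.det_one] at h2
  have h3 : |P.det| * |P.det| = 1 := by rw [← abs_mul, h2, abs_one]
  (clear * - h3; nlinarith [abs_nonneg P.det])

lemma Jac.dE_sum (x : M) (v : E) {ι : Type*} (s : Finset ι) (c : ι → ℝ) (w : ι → E) :
    dE e x v (∑ i ∈ s, c i • w i) = ∑ i ∈ s, c i • dE e x v (w i) := by
  have h := map_sum (dEl e x v) (fun i => c i • w i) s
  have h2 : ∀ i, dEl e x v (c i • w i) = c i • dEl e x v (w i) := fun i => map_smul _ _ _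
  simp only [h2] at h
  exact h

lemma Jac.eq_sum_fr (x : M) (z : E) :
    z = ∑ k, ((fr x).symm z) k • fr x (EuclideanSpace.single k 1) := by
  have h1 : (fr x).symm z = ∑ k, ((fr x).symm z) k • (EuclideanSpace.single k (1 : ℝ) : Eu E) := by
    ext j
    simp only [WithLp.ofLp_sum, WithLp.ofLp_smul, PiLp.ofLp_single, Finset.sum_apply, Pi.smul_apply, Pi.single_apply, smul_eq_mul, mul_ite, mul_one, mul_zero, Finset.sum_ite_eq, Finset.mem_univ, ↓reduceIte]
  have h2 := congrArg (fr x) h1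
  rw [ContinuousLinearEquiv.apply_symm_apply, map_sum] at h2
  simp only [map_smul] at h2
  exact h2

theorem jac_eq_fin (x : M) (v : E) {p q : Fin (finrank ℝ E) → E}
    (hp : ∀ i j, ip x (p i) (p j) = if i = j then 1 else 0)
    (hq : ∀ i j, ip (e x v) (q i) (q j) = if i = j then 1 else 0) :
    jac e x v = |(Matrix.of fun i j => ip (e x v) (q i) (dE e x v (p j))).det| := by
  unfold jac
  rw [Jac.gam_one]
  set y : M := e x v with hy
  set P : Matrix (Fin (finrank ℝ E)) (Fin (finrank ℝ E)) ℝ :=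
    Matrix.of fun k j => ((fr x).symm (p j)) k with hP
  set Q : Matrix (Fin (finrank ℝ E)) (Fin (finrank ℝ E)) ℝ :=
    Matrix.of fun k j => ((fr y).symm (q j)) k with hQ
  set T : Matrix (Fin (finrank ℝ E)) (Fin (finrank ℝ E)) ℝ :=
    Matrix.of fun i j => ip y (fr y (EuclideanSpace.single i 1))
      (dE e x v (fr x (EuclideanSpace.single j 1))) with hT
  have h1 : (Matrix.of fun i j => ip y (q i) (dE e x v (p j))) = Q.transpose * T * P := by
    ext i j
    rw [Matrix.of_apply, Matrix.mul_apply]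
    have h2 : dE e x v (p j) = ∑ l, P l j • dE e x v (fr x (EuclideanSpace.single l 1)) := by
      conv_lhs => rw [Jac.eq_sum_fr x (p j)]
      exact Jac.dE_sum x v _ _ _
    have h3 : ∀ z : E, ip y (q i) z = ∑ k, Q k i * ip y (fr y (EuclideanSpace.single k 1)) z := by
      intro z
      have h4 := Jac.ip_fr_left y ((fr y).symm (q i)) z
      rw [ContinuousLinearEquiv.apply_symm_apply] at h4
      rw [h4]
      apply Finset.sum_congr rfl
      intro k _
      rw [Jac.ip_fr_left]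
      simp only [hQ, Matrix.of_apply, PiLp.single_apply, ite_mul, one_mul, zero_mul, Finset.sum_ite_eq', Finset.mem_univ, ↓reduceIte]
    rw [h3, h2]
    have h5 : ∀ (z : E) (c : Fin (finrank ℝ E) → ℝ) (w : Fin (finrank ℝ E) → E),
        ip y z (∑ l, c l • w l) = ∑ l, c l * ip y z (w l) := by
      intro z c w
      have h6 := inner_sum (𝕜 := ℝ) (E := TangentSpace 𝓘(ℝ, E) y) Finset.univ
        (fun l => c l • w l) z
      refine h6.trans ?_
      apply Finset.sum_congr rfl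
      intro l _
      exact real_inner_smul_right (F := TangentSpace 𝓘(ℝ, E) y) _ _ _
    simp only [h5, Finset.mul_sum, Matrix.mul_apply, Matrix.transpose_apply, Finset.sum_mul]
    rw [Finset.sum_comm]
    apply Finset.sum_congr rfl
    intro l _
    apply Finset.sum_congr rfl
    intro k _
    rw [hT, Matrix.of_apply]
    ring
  rw [h1, Matrix.det_mul, Matrix.det_mul, Matrix.det_transpose, abs_mul, abs_mul,
    Jac.abs_det_of_orthonormal hp, Jac.abs_det_of_orthonormal hq]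
  simp only [one_mul, mul_one]

theorem jac_eq {ι : Type*} [Fintype ι] [DecidableEq ι] (hι : Fintype.card ι = finrank ℝ E)
    (x : M) (v : E) {p q : ι → E} (hp : ∀ i j, ip x (p i) (p j) = if i = j then 1 else 0)
    (hq : ∀ i j, ip (e x v) (q i) (q j) = if i = j then 1 else 0) :
    jac e x v = |(Matrix.of fun i j => ip (e x v) (q i) (dE e x v (p j))).det| := by
  let σ : Fin (finrank ℝ E) ≃ ι := (Fintype.equivFinOfCardEq hι).symm
  have h1 := jac_eq_fin (e := e) x v (p := fun i => p (σ i)) (q := fun i => q (σ i))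
    (fun i j => by rw [hp]; simp) (fun i j => by rw [hq]; simp)
  rw [h1]
  congr 1
  exact Matrix.det_submatrix_equiv_self σ
    (Matrix.of fun i j => ip (e x v) (q i) (dE e x v (p j)))

omit [FiniteDimensional ℝ E] [RiemannianBundle fun x : M => TangentSpace 𝓘(ℝ, E) x]
  [IsManifold 𝓘(ℝ, E) ∞ M]
  [IsContMDiffRiemannianBundle 𝓘(ℝ, E) ∞ E fun x : M => TangentSpace 𝓘(ℝ, E) x] in
theorem Jac.tb_congr {x x' : M} {v v' : E} (h : x = x') (h' : v = v') : tb x v = tb x' v' := by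
  rw [h, h']

/-- velocity of a straight line mapped by the exponential map -/
lemma Jac.mfderiv_line (he : IsExp e) (x : M) (a b : TangentSpace 𝓘(ℝ, E) x) :
    mfderiv 𝓘(ℝ, ℝ) 𝓘(ℝ, E) (fun t : ℝ => e x (a + t • b)) 0 (1 : ℝ) = dE e x a b := by
  have h0 : a + (0 : ℝ) • b = a := by rw [zero_smul, add_zero]
  have h1 : MDifferentiableAt 𝓘(ℝ, TangentSpace 𝓘(ℝ, E) x) 𝓘(ℝ, E) (e x) (a + (0 : ℝ) • b) :=
    ((contMDiff_exp_fiber he x).contMDiffAt).mdifferentiableAt (by simp)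
  have h3 : MDifferentiableAt 𝓘(ℝ, ℝ) 𝓘(ℝ, TangentSpace 𝓘(ℝ, E) x)
      (fun t : ℝ => a + t • b) 0 := by
    have h6 : ContMDiff 𝓘(ℝ, ℝ) 𝓘(ℝ, TangentSpace 𝓘(ℝ, E) x) ∞
        (fun t : ℝ => a + t • b) :=
      (contDiff_const.add (contDiff_id.smul contDiff_const)).contMDiff
    exact h6.contMDiffAt.mdifferentiableAt (by simp)
  have h4 := mfderiv_comp_apply (0 : ℝ) (I'' := 𝓘(ℝ, E))
    (g := e x) (f := fun t : ℝ => a + t • b) h1 h3 (1 : ℝ)
  have h5 : mfderiv 𝓘(ℝ, ℝ) 𝓘(ℝ, TangentSpace 𝓘(ℝ, E) x)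
      (fun t : ℝ => a + t • b) 0 (1 : ℝ) = b := by
    rw [mfderiv_eq_fderiv]
    have h2 : HasFDerivAt (fun t : ℝ => a + t • b)
        ((ContinuousLinearMap.id ℝ ℝ).smulRight b) 0 :=
      ((hasFDerivAt_id (0 : ℝ)).smul_const b).const_add a
    rw [h2.fderiv]
    exact one_smul ℝ b
  rw [h5] at h4
  have h6 : (mfderiv 𝓘(ℝ, TangentSpace 𝓘(ℝ, E) x) 𝓘(ℝ, E) (e x) (a + (0 : ℝ) • b) b : E) =
      dE e x a b := by
    rw [h0]
    rfl
  exact (show (_ : E) = _ from h4).trans h6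

/-- the exponential map along vertical lines, in a trivialization -/
def Jac.Fl (e : ∀ x : M, TangentSpace 𝓘(ℝ, E) x → M) (z₀ : M) (p : M × (E × E)) (s : ℝ) : M :=
  (fun r : TangentBundle 𝓘(ℝ, E) M => e r.proj r.snd)
    ((trivializationAt E (TangentSpace 𝓘(ℝ, E)) z₀).toOpenPartialHomeomorph.symm
      (p.1, p.2.1 + s • p.2.2))

lemma Jac.contMDiffAt_Fl (he : IsExp e) (z₀ : M) (ξ η : E) :
    ContMDiffAt ((𝓘(ℝ, E).prod 𝓘(ℝ, E × E)).prod 𝓘(ℝ, ℝ)) 𝓘(ℝ, E) ∞
      (Function.uncurry (Jac.Fl e z₀)) ((z₀, (ξ, η)), (0 : ℝ)) := by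
  have hz₀ : z₀ ∈ (trivializationAt E (TangentSpace 𝓘(ℝ, E)) z₀).baseSet :=
    FiberBundle.mem_baseSet_trivializationAt' z₀
  have h1 : ContMDiffOn (𝓘(ℝ, E).prod 𝓘(ℝ, E)) (𝓘(ℝ, E).prod 𝓘(ℝ, E)) ∞
      (trivializationAt E (TangentSpace 𝓘(ℝ, E)) z₀).toOpenPartialHomeomorph.symm
      (trivializationAt E (TangentSpace 𝓘(ℝ, E)) z₀).target :=
    Bundle.Trivialization.contMDiffOn_symm _
  have h2 : ContMDiffAt ((𝓘(ℝ, E).prod 𝓘(ℝ, E × E)).prod 𝓘(ℝ, ℝ)) (𝓘(ℝ, E).prod 𝓘(ℝ, E)) ∞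
      (fun q : (M × (E × E)) × ℝ => (q.1.1, q.1.2.1 + q.2 • q.1.2.2)) ((z₀, (ξ, η)), (0 : ℝ)) := by
    apply ContMDiffAt.prodMk
    · exact (contMDiff_fst.comp contMDiff_fst).contMDiffAt
    · have h3 : ContMDiff ((𝓘(ℝ, E).prod 𝓘(ℝ, E × E)).prod 𝓘(ℝ, ℝ)) 𝓘(ℝ, (E × E) × ℝ) ∞
          (fun q : (M × (E × E)) × ℝ => (q.1.2, q.2)) :=
        (contMDiff_snd.comp contMDiff_fst).prodMk_space contMDiff_snd
      have h4 : ContDiff ℝ ∞ (fun r : (E × E) × ℝ => r.1.1 + r.2 • r.1.2) := by (clear * -; fun_prop)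
      exact (h4.contMDiff.comp h3).contMDiffAt
  have h3 : ContMDiffAt (𝓘(ℝ, E).prod 𝓘(ℝ, E)) (𝓘(ℝ, E).prod 𝓘(ℝ, E)) ∞
      (trivializationAt E (TangentSpace 𝓘(ℝ, E)) z₀).toOpenPartialHomeomorph.symm
      (z₀, ξ + (0 : ℝ) • η) := by
    refine h1.contMDiffAt ?_
    apply (trivializationAt E (TangentSpace 𝓘(ℝ, E)) z₀).open_target.mem_nhds
    rw [(trivializationAt E (TangentSpace 𝓘(ℝ, E)) z₀).mem_target]
    exact hz₀
  have h4 := he.smooth
  exact (h4.contMDiffAt.comp _ h3).comp ((z₀, (ξ, η)), (0 : ℝ)) h2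

lemma Jac.Fl_eq (e : ∀ x : M, TangentSpace 𝓘(ℝ, E) x → M) (z₀ z : M)
    (hz : z ∈ (trivializationAt E (TangentSpace 𝓘(ℝ, E)) z₀).baseSet)
    (v w : TangentSpace 𝓘(ℝ, E) z) :
    Jac.Fl e z₀ (z, (bkCrd z₀ z v, bkCrd z₀ z w)) = fun s => e z (v + s • w) := by
  funext s
  unfold Jac.Fl
  have h1 := (trivializationAt E (TangentSpace 𝓘(ℝ, E)) z₀).mk_symm hz
    (bkCrd z₀ z v + s • bkCrd z₀ z w)
  rw [← h1]
  have h2 : (trivializationAt E (TangentSpace 𝓘(ℝ, E)) z₀).symm z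
      (bkCrd z₀ z v + s • bkCrd z₀ z w) = v + s • w := by
    have h3 := bkCrd_symm z₀ z hz (v + s • w)
    rw [map_add, map_smul] at h3
    exact ((Trivialization.symmL_apply (R := ℝ) (trivializationAt E (TangentSpace 𝓘(ℝ, E)) z₀) hz
      (bkCrd z₀ z v + s • bkCrd z₀ z w)).symm).trans h3
  show e z _ = _
  rw [h2]

/-- continuity of the vertical differential -/
lemma Jac.tendstoTB_dE (he : IsExp e) {z : ℕ → M} {v w : ∀ k, TangentSpace 𝓘(ℝ, E) (z k)}
    {z₀ : M} {v₀ w₀ : TangentSpace 𝓘(ℝ, E) z₀} (hv : TendstoTB v v₀) (hw : TendstoTB w w₀) :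
    Tendsto (fun k => tb (e (z k) (v k)) (dE e (z k) (v k) (w k))) atTop
      (𝓝 (tb (e z₀ v₀) (dE e z₀ v₀ w₀))) := by
  have hz₀ : z₀ ∈ (trivializationAt E (TangentSpace 𝓘(ℝ, E)) z₀).baseSet :=
    FiberBundle.mem_baseSet_trivializationAt' z₀
  obtain ⟨hz, hv'⟩ := tendstoTB_iff.1 hv
  obtain ⟨-, hw'⟩ := tendstoTB_iff.1 hw
  have hev : ∀ᶠ k in atTop, z k ∈ (trivializationAt E (TangentSpace 𝓘(ℝ, E)) z₀).baseSet :=
    hz ((trivializationAt E (TangentSpace 𝓘(ℝ, E)) z₀).open_baseSet.mem_nhds hz₀)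
  set P : ℕ → M × (E × E) := fun k => (z k, (bkCrd z₀ (z k) (v k), bkCrd z₀ (z k) (w k))) with hP
  set P₀ : M × (E × E) := (z₀, (bkCrd z₀ z₀ v₀, bkCrd z₀ z₀ w₀)) with hP₀
  have hPt : Tendsto P atTop (𝓝 P₀) := hz.prodMk_nhds (hv'.prodMk_nhds hw')
  have hF := Jac.contMDiffAt_Fl he z₀ (bkCrd z₀ z₀ v₀) (bkCrd z₀ z₀ w₀)
  have h1 := ContMDiffAt.mfderiv (m := 0) (Jac.Fl e z₀) (fun _ => (0 : ℝ)) (x₀ := P₀) hF
    contMDiffAt_const (by simp only [zero_add, WithTop.one_le_coe, le_top])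
  have h2 := (h1.continuousAt.tendsto).comp hPt
  have h3 : Tendsto (fun k => Jac.Fl e z₀ (P k) 0) atTop (𝓝 (Jac.Fl e z₀ P₀ 0)) := by
    have h4 := hF.continuousAt.tendsto
    have h5 : Tendsto (fun k => (P k, (0 : ℝ))) atTop (𝓝 (P₀, (0 : ℝ))) :=
      hPt.prodMk_nhds tendsto_const_nhds
    exact h4.comp h5
  have h4 : TendstoTB (z := fun k => Jac.Fl e z₀ (P k) 0)
      (fun k => mfderiv 𝓘(ℝ, ℝ) 𝓘(ℝ, E) (Jac.Fl e z₀ (P k)) 0 (1 : ℝ))
      (z₀ := Jac.Fl e z₀ P₀ 0) (mfderiv 𝓘(ℝ, ℝ) 𝓘(ℝ, E) (Jac.Fl e z₀ P₀) 0 (1 : ℝ)) := by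
    rw [tendstoTB_iff]
    refine ⟨h3, ?_⟩
    have h5 := ((ContinuousLinearMap.apply ℝ E (1 : ℝ)).continuous.tendsto _).comp h2
    have h6 : ∀ p : M × (E × E), (ContinuousLinearMap.apply ℝ E (1 : ℝ))
        (inTangentCoordinates 𝓘(ℝ, ℝ) 𝓘(ℝ, E) (fun _ => (0 : ℝ)) (fun x => Jac.Fl e z₀ x 0)
          (fun x => mfderiv 𝓘(ℝ, ℝ) 𝓘(ℝ, E) (Jac.Fl e z₀ x) 0) P₀ p) =
        bkCrd (Jac.Fl e z₀ P₀ 0) (Jac.Fl e z₀ p 0)
          (mfderiv 𝓘(ℝ, ℝ) 𝓘(ℝ, E) (Jac.Fl e z₀ p) 0 (1 : ℝ)) := by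
      intro p
      unfold inTangentCoordinates ContinuousLinearMap.inCoordinates bkCrd
      rw [TangentBundle.symmL_model_space]
      rfl
    have h7 := h6 P₀
    simp only [Function.comp_def] at h5
    rw [h7] at h5
    exact h5.congr fun k => h6 (P k)
  have key : ∀ (z : M) (v w : TangentSpace 𝓘(ℝ, E) z),
      z ∈ (trivializationAt E (TangentSpace 𝓘(ℝ, E)) z₀).baseSet →
      (⟨Jac.Fl e z₀ (z, (bkCrd z₀ z v, bkCrd z₀ z w)) 0,
        mfderiv 𝓘(ℝ, ℝ) 𝓘(ℝ, E) (Jac.Fl e z₀ (z, (bkCrd z₀ z v, bkCrd z₀ z w))) 0 (1 : ℝ)⟩ :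
          TangentBundle 𝓘(ℝ, E) M) = tb (e z v) (dE e z v w) := by
    intro z v w hz
    have h5 := congrArg (fun c : ℝ → M => (⟨c 0, mfderiv 𝓘(ℝ, ℝ) 𝓘(ℝ, E) c 0 (1 : ℝ)⟩ :
      TangentBundle 𝓘(ℝ, E) M)) (Jac.Fl_eq e z₀ z hz v w)
    refine h5.trans ?_
    have h6 : e z (v + (0 : ℝ) • w) = e z v := by rw [zero_smul, add_zero]
    have h7 := Jac.mfderiv_line he z v w
    exact Jac.tb_congr h6 h7
  unfold TendstoTB at h4
  rw [hP₀, key z₀ v₀ w₀ hz₀] at h4
  refine h4.congr' ?_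
  filter_upwards [hev] with k hk
  exact key (z k) (v k) (w k) hk

lemma Jac.ip_polar (x : M) (a b : E) :
    ip x a b = (nm x (a + b) ^ 2 - nm x a ^ 2 - nm x b ^ 2) / 2 := by
  have h := norm_add_sq_real (F := TangentSpace 𝓘(ℝ, E) x) a b
  have h' : nm x (a + b) ^ 2 = nm x a ^ 2 + 2 * ip x a b + nm x b ^ 2 := h
  rw [h']
  ring

/-- a raw vector seen as a tangent vector -/
def Jac.up (x : M) (v : E) : TangentSpace 𝓘(ℝ, E) x := v

lemma Jac.toTB {z : ℕ → M} {v : ℕ → E} {z₀ : M} {v₀ : E}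
    (h : Tendsto (fun k => tb (z k) (v k)) atTop (𝓝 (tb z₀ v₀))) :
    TendstoTB (z := z) (fun k => Jac.up (z k) (v k)) (Jac.up z₀ v₀) := h

lemma Jac.tendsto_nm {z : ℕ → M} {v : ℕ → E} {z₀ : M} {v₀ : E}
    (h : Tendsto (fun k => tb (z k) (v k)) atTop (𝓝 (tb z₀ v₀))) :
    Tendsto (fun k => nm (z k) (v k)) atTop (𝓝 (nm z₀ v₀)) := by
  have h1 := (Jac.toTB h).norm
  exact h1

lemma Jac.tendsto_add {z : ℕ → M} {v w : ℕ → E} {z₀ : M} {v₀ w₀ : E}
    (hv : Tendsto (fun k => tb (z k) (v k)) atTop (𝓝 (tb z₀ v₀)))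
    (hw : Tendsto (fun k => tb (z k) (w k)) atTop (𝓝 (tb z₀ w₀))) :
    Tendsto (fun k => tb (z k) (v k + w k)) atTop (𝓝 (tb z₀ (v₀ + w₀))) := by
  have hv' := tendstoTB_iff.1 (Jac.toTB hv)
  have hw' := tendstoTB_iff.1 (Jac.toTB hw)
  have h : TendstoTB (z := z) (fun k => Jac.up (z k) (v k) + Jac.up (z k) (w k))
    (Jac.up z₀ v₀ + Jac.up z₀ w₀) := by
    rw [tendstoTB_iff]
    refine ⟨hv'.1, ?_⟩
    simp only [map_add]
    exact hv'.2.add hw'.2
  exact h

lemma Jac.tendsto_ip {z : ℕ → M} {v w : ℕ → E} {z₀ : M} {v₀ w₀ : E}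
    (hv : Tendsto (fun k => tb (z k) (v k)) atTop (𝓝 (tb z₀ v₀)))
    (hw : Tendsto (fun k => tb (z k) (w k)) atTop (𝓝 (tb z₀ w₀))) :
    Tendsto (fun k => ip (z k) (v k) (w k)) atTop (𝓝 (ip z₀ v₀ w₀)) := by
  simp only [Jac.ip_polar]
  exact ((((Jac.tendsto_nm (Jac.tendsto_add hv hw)).pow 2).sub ((Jac.tendsto_nm hv).pow 2)).sub
    ((Jac.tendsto_nm hw).pow 2)).div_const 2

/-- the square of the Jacobian is a Gram determinant -/
lemma Jac.sq_eq (x : M) (v : E) {p : Fin (finrank ℝ E) → E}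
    (hp : ∀ i j, ip x (p i) (p j) = if i = j then 1 else 0) :
    jac e x v ^ 2 =
      (Matrix.of fun i j => ip (e x v) (dE e x v (p i)) (dE e x v (p j))).det := by
  have hq : ∀ i j : Fin (finrank ℝ E), ip (E := E) (e x v)
      (fr (E := E) (e x v) (EuclideanSpace.single i 1))
      (fr (E := E) (e x v) (EuclideanSpace.single j (1 : ℝ))) = if i = j then 1 else 0 := by
    intro i j
    rw [ip_fr, EuclideanSpace.inner_single_left]
    simp only [Real.ringHom_apply, PiLp.single_apply, mul_ite, mul_one, mul_zero]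
  rw [jac_eq_fin x v hp hq, sq_abs, pow_two]
  set y : M := e x v
  set A : Matrix (Fin (finrank ℝ E)) (Fin (finrank ℝ E)) ℝ :=
    Matrix.of fun i j => ip y (fr y (EuclideanSpace.single i (1 : ℝ))) (dE e x v (p j)) with hA
  have h0 : A.det * A.det = (A.transpose * A).det := by
    rw [Matrix.det_mul, Matrix.det_transpose]
  rw [h0]
  congr 1
  ext i j
  rw [Matrix.mul_apply, Matrix.of_apply]
  have h1 : ∀ (z : E) (k : Fin (finrank ℝ E)), ip y (fr y (EuclideanSpace.single k 1)) z =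
      ((fr y).symm z) k := by
    intro z k
    rw [Jac.ip_fr_left]
    simp only [PiLp.single_apply, ite_mul, one_mul, zero_mul, Finset.sum_ite_eq', Finset.mem_univ, ↓reduceIte]
  have h2 := Jac.ip_fr_left y ((fr y).symm (dE e x v (p i))) (dE e x v (p j))
  rw [ContinuousLinearEquiv.apply_symm_apply] at h2
  rw [h2]
  apply Finset.sum_congr rfl
  intro k _
  exact congrArg₂ (fun a b : ℝ => a * b) (h1 _ k) (h1 _ k)

lemma Jac.nonneg (x : M) (v : E) : 0 ≤ jac e x v := abs_nonneg _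

lemma Jac.countably_generated (p : TangentBundle 𝓘(ℝ, E) M) :
    (𝓝 p).IsCountablyGenerated := by
  have hp : p ∈ (trivializationAt E (TangentSpace 𝓘(ℝ, E)) p.proj).source := by
    rw [(trivializationAt E (TangentSpace 𝓘(ℝ, E)) p.proj).mem_source]
    exact FiberBundle.mem_baseSet_trivializationAt' p.proj
  have h := (trivializationAt E (TangentSpace 𝓘(ℝ, E)) p.proj).toOpenPartialHomeomorph.symm_map_nhds_eq hp
  rw [← h]
  infer_instance

lemma Jac.tendstoTB_dE' (he : IsExp e) {z : ℕ → M} {v w : ℕ → E}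
    {z₀ : M} {v₀ w₀ : E} (hv : Tendsto (fun k => tb (z k) (v k)) atTop (𝓝 (tb z₀ v₀)))
    (hw : Tendsto (fun k => tb (z k) (w k)) atTop (𝓝 (tb z₀ w₀))) :
    Tendsto (fun k => tb (e (z k) (v k)) (dE e (z k) (v k) (w k))) atTop
      (𝓝 (tb (e z₀ v₀) (dE e z₀ v₀ w₀))) :=
  Jac.tendstoTB_dE he (Jac.toTB hv) (Jac.toTB hw)

lemma Jac.tendsto_jac (he : IsExp e) {z : ℕ → M} {v : ℕ → E} {z₀ : M} {v₀ : E}
    (hv : Tendsto (fun k => tb (z k) (v k)) atTop (𝓝 (tb z₀ v₀)))
    {p : ℕ → Fin (finrank ℝ E) → E} {p₀ : Fin (finrank ℝ E) → E}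
    (hp : ∀ j, Tendsto (fun k => tb (z k) (p k j)) atTop (𝓝 (tb z₀ (p₀ j))))
    (horth : ∀ k i j, ip (z k) (p k i) (p k j) = if i = j then 1 else 0) :
    Tendsto (fun k => jac e (z k) (v k)) atTop (𝓝 (jac e z₀ v₀)) := by
  have hf0 : ∀ i j, ip z₀ (p₀ i) (p₀ j) = if i = j then 1 else 0 := by
    intro i j
    have h1 := Jac.tendsto_ip (hp i) (hp j)
    simp only [horth] at h1
    exact tendsto_nhds_unique h1 tendsto_const_nhds
  have hd : ∀ j, Tendsto (fun k => tb (e (z k) (v k)) (dE e (z k) (v k) (p k j))) atTop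
      (𝓝 (tb (e z₀ v₀) (dE e z₀ v₀ (p₀ j)))) := fun j =>
    Jac.tendstoTB_dE' he hv (hp j)
  have hsq : Tendsto (fun k => jac e (z k) (v k) ^ 2) atTop (𝓝 (jac e z₀ v₀ ^ 2)) := by
    have h1 : ∀ k, (Matrix.of fun i j =>
        ip (e (z k) (v k)) (dE e (z k) (v k) (p k i)) (dE e (z k) (v k) (p k j))).det =
            jac e (z k) (v k) ^ 2 :=
      fun k => (Jac.sq_eq (z k) (v k) (horth k)).symm
    refine Tendsto.congr h1 ?_
    rw [Jac.sq_eq z₀ v₀ hf0]
    have h2 : Continuous fun A : Matrix (Fin (finrank ℝ E)) (Fin (finrank ℝ E)) ℝ => A.det :=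
      continuous_id.matrix_det
    have h3 : Tendsto (fun k => (Matrix.of fun i j =>
        ip (e (z k) (v k)) (dE e (z k) (v k) (p k i)) (dE e (z k) (v k) (p k j)) :
          Matrix (Fin (finrank ℝ E)) (Fin (finrank ℝ E)) ℝ)) atTop
        (𝓝 (Matrix.of fun i j => ip (e z₀ v₀) (dE e z₀ v₀ (p₀ i)) (dE e z₀ v₀ (p₀ j)))) := by
      refine tendsto_pi_nhds.2 fun i => tendsto_pi_nhds.2 fun j => ?_
      exact Jac.tendsto_ip (hd i) (hd j)
    exact (h2.tendsto _).comp h3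
  have h3 := hsq.sqrt
  simp only [Real.sqrt_sq (Jac.nonneg _ _)] at h3
  exact h3

theorem contTB_jac [CompactSpace M] (he : IsExp e) : ContTB (jac e) := by
  unfold ContTB
  rw [continuous_iff_continuousAt]
  rintro ⟨x₀, v₀⟩
  have := Jac.countably_generated (⟨x₀, v₀⟩ : TangentBundle 𝓘(ℝ, E) M)
  unfold ContinuousAt
  rw [tendsto_iff_seq_tendsto]
  intro s hs
  apply tendsto_of_subseq_tendsto
  intro ns hns
  set z : ℕ → M := fun k => (s (ns k)).proj with hz
  set v : ∀ k, TangentSpace 𝓘(ℝ, E) (z k) := fun k => (s (ns k)).snd with hv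
  have hzv : TendstoTB v v₀ := by
    unfold TendstoTB
    exact hs.comp hns
  have hfr1 : ∀ (x : M) (j : Fin (finrank ℝ E)),
      nm x (fr x (EuclideanSpace.single j (1 : ℝ))) = 1 := by
    intro x j
    rw [nm_fr]
    simp
  obtain ⟨z', f, φ, hφ, hz', hf⟩ := exists_tendstoTB_fin z
    (fun k (j : Fin (finrank ℝ E)) => Jac.up (z k) (fr (z k) (EuclideanSpace.single j (1 : ℝ)))) 1
    (fun k j => (hfr1 (z k) j).le)
  have hz'' : z' = x₀ := tendsto_nhds_unique hz' (hzv.base.comp hφ.tendsto_atTop)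
  subst hz''
  refine ⟨φ, ?_⟩
  have horth : ∀ (x : M) (i j : Fin (finrank ℝ E)), ip x (fr x (EuclideanSpace.single i 1))
      (fr x (EuclideanSpace.single j (1 : ℝ))) = if i = j then 1 else 0 := by
    intro x i j
    rw [ip_fr, EuclideanSpace.inner_single_left]
    simp only [Real.ringHom_apply, PiLp.single_apply, mul_ite, mul_one, mul_zero]
  exact Jac.tendsto_jac (E := E) he (z := fun k => z (φ k)) (v := fun k => v (φ k))
    (hzv.subseq hφ) (p := fun k j => fr (z (φ k)) (EuclideanSpace.single j (1 : ℝ))) hf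
    (fun k i j => horth _ i j)

theorem jac_pos [CompactSpace M] [ConnectedSpace M] [IsRiemannianManifold 𝓘(ℝ, E) M]
    (F : Facts e) {D : ℝ} (hB : InjGE e D) {x : M} {v : E} (hv : nm x v < D) :
    0 < jac e x v := by
  refine lt_of_le_of_ne (Jac.nonneg x v) (Ne.symm fun h0 => ?_)
  unfold jac at h0
  rw [abs_eq_zero] at h0
  obtain ⟨c, hc, hc0⟩ := Matrix.exists_mulVec_eq_zero_iff.2 h0
  set y : M := gam e x v 1
  have h1 : ∀ (z : E) (k : Fin (finrank ℝ E)), ip y (fr y (EuclideanSpace.single k 1)) z =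
      ((fr y).symm z) k := by
    intro z k
    rw [Jac.ip_fr_left]
    simp only [PiLp.single_apply, ite_mul, one_mul, zero_mul, Finset.sum_ite_eq', Finset.mem_univ, ↓reduceIte]
  have h2 : dE e x v (∑ j, c j • fr x (EuclideanSpace.single j (1 : ℝ))) = 0 := by
    have h3 : (fr y).symm (dE e x v (∑ j, c j • fr x (EuclideanSpace.single j (1 : ℝ)))) = 0 := by
      ext i
      have h4 := congrFun hc0 i
      rw [Jac.dE_sum, map_sum]
      simp only [Matrix.mulVec, dotProduct, h1, Matrix.of_apply, Pi.zero_apply, map_smul] at h4 ⊢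
      rw [PiLp.zero_apply, ← h4]
      simp only [WithLp.ofLp_sum, WithLp.ofLp_smul, Finset.sum_apply, Pi.smul_apply, smul_eq_mul, mul_comm]
    simpa using congrArg (fr y) h3
  have h5 := dE_injective F hB hv h2
  apply hc
  funext j
  have h6 := congrArg (fun w => ((fr x).symm w) j) h5
  simpa only [Pi.zero_apply, map_sum, map_smul, ContinuousLinearEquiv.symm_apply_apply, WithLp.ofLp_sum,     WithLp.ofLp_smul, PiLp.ofLp_single, Finset.sum_apply, Pi.smul_apply, Pi.single_apply, smul_eq_mul, mul_ite, mul_one,     mul_zero, Finset.sum_ite_eq, Finset.mem_univ, ↓reduceIte, map_zero, PiLp.zero_apply] using h6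

end

end Vale.Agent.P231
end
end
end

section

section

section

/-! The area formula for the exponential map. -/

set_option maxSynthPendingDepth 3
set_option linter.unusedSectionVars false
set_option linter.unusedVariables false

open Bundle Manifold Set Filter MeasureTheory Module
open scoped ContDiff Manifold Topology ENNReal

namespace Vale.Agent.P231

noncomputable section

open Vale.Agent.P234

variable {E : Type*} [NormedAddCommGroup E] [NormedSpace ℝ E] [FiniteDimensional ℝ E]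
  {M : Type*} [MetricSpace M] [ChartedSpace E M]
  [RiemannianBundle (fun x : M => TangentSpace 𝓘(ℝ, E) x)]
  [IsManifold 𝓘(ℝ, E) ∞ M]
  [IsContMDiffRiemannianBundle 𝓘(ℝ, E) ∞ E (fun x : M => TangentSpace 𝓘(ℝ, E) x)]
  {e : ∀ x : M, TangentSpace 𝓘(ℝ, E) x → M}

theorem area_smoothAt_diag [CompactSpace M] (F : Facts e) (y : M) : SmoothAt E y y := by
  have h := F.smooth_cost y 0 (zero_mem_injDomain F.isExp y)
  rwa [F.isExp.map_zero] at h

theorem area_logMap_self [CompactSpace M] (F : Facts e) (y : M) : logMap e y y = 0 := by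
  have h := logMap_eq F.isExp (z := y) (w := 0)
    (injDomain_subset_segMin F.isExp y (zero_mem_injDomain F.isExp y))
    (F.smooth_cost y 0 (zero_mem_injDomain F.isExp y))
  rwa [F.isExp.map_zero] at h

/-- the derivative of the logarithm at the centre is the identity -/
theorem area_dlog [CompactSpace M] (F : Facts e) (y : M) (w : TangentSpace 𝓘(ℝ, E) y) :
    mfderiv 𝓘(ℝ, E) 𝓘(ℝ, TangentSpace 𝓘(ℝ, E) y) (logMap e y) y w = w := by
  have he := F.isExp
  have hd : MDifferentiableAt 𝓘(ℝ, E) 𝓘(ℝ, TangentSpace 𝓘(ℝ, E) y) (logMap e y) (e y 0) := by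
    rw [he.map_zero]
    exact (contMDiffAt_logMap he (area_smoothAt_diag F y)).mdifferentiableAt (by simp)
  have hE : MDifferentiableAt 𝓘(ℝ, TangentSpace 𝓘(ℝ, E) y) 𝓘(ℝ, E) (e y) 0 :=
    (contMDiff_exp_fiber he y).mdifferentiableAt (by simp)
  have hc := mfderiv_comp_apply (0 : TangentSpace 𝓘(ℝ, E) y) hd hE w
  have hev : (logMap e y ∘ e y) =ᶠ[𝓝 0] id :=
    eventually_logMap_exp he F.hopfRinow
      (injDomain_subset_segMin F.isExp y (zero_mem_injDomain F.isExp y))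
      (F.smooth_cost y 0 (zero_mem_injDomain F.isExp y))
  have hid : mfderiv 𝓘(ℝ, TangentSpace 𝓘(ℝ, E) y) 𝓘(ℝ, TangentSpace 𝓘(ℝ, E) y)
      (logMap e y ∘ e y) 0 =
      mfderiv 𝓘(ℝ, TangentSpace 𝓘(ℝ, E) y) 𝓘(ℝ, TangentSpace 𝓘(ℝ, E) y) id 0 := hev.mfderiv_eq
  rw [hid, mfderiv_id] at hc
  have hE0 : mfderiv 𝓘(ℝ, TangentSpace 𝓘(ℝ, E) y) 𝓘(ℝ, E) (e y) 0 w = w :=
    dE_zero_base he y w
  have hk : ∀ z : M, z = y → ∀ a : E,
      (mfderiv 𝓘(ℝ, E) 𝓘(ℝ, TangentSpace 𝓘(ℝ, E) y) (logMap e y) z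
        (a : TangentSpace 𝓘(ℝ, E) z) : E) =
      mfderiv 𝓘(ℝ, E) 𝓘(ℝ, TangentSpace 𝓘(ℝ, E) y) (logMap e y) y
        (a : TangentSpace 𝓘(ℝ, E) y) := by
    rintro z rfl a
    rfl
  have h1 := hk (e y 0) (he.map_zero y) w
  refine Eq.trans h1.symm ?_
  refine Eq.trans ?_ hc.symm
  exact congrArg (fun a : E => (mfderiv 𝓘(ℝ, E) 𝓘(ℝ, TangentSpace 𝓘(ℝ, E) y) (logMap e y)
    (e y 0) (a : TangentSpace 𝓘(ℝ, E) (e y 0)) : E)) hE0.symm

theorem area_chain {V T₁ T₂ W : Type*} [NormedAddCommGroup V] [NormedSpace ℝ V]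
    [NormedAddCommGroup T₁] [NormedSpace ℝ T₁] [NormedAddCommGroup T₂] [NormedSpace ℝ T₂]
    [NormedAddCommGroup W] [NormedSpace ℝ W] (A : V →L[ℝ] T₁) (f : T₁ → M) (L : M → T₂)
    (B : T₂ →L[ℝ] W) {ξ : V} {y : M} (hy : f (A ξ) = y)
    (hf : ContMDiffAt 𝓘(ℝ, T₁) 𝓘(ℝ, E) ∞ f (A ξ)) (hL : ContMDiffAt 𝓘(ℝ, E) 𝓘(ℝ, T₂) ∞ L y) :
    ContDiffAt ℝ ∞ (fun v => B (L (f (A v)))) ξ ∧
      ∀ a : V, fderiv ℝ (fun v => B (L (f (A v)))) ξ a =
        B (mfderiv 𝓘(ℝ, E) 𝓘(ℝ, T₂) L (f (A ξ)) (mfderiv 𝓘(ℝ, T₁) 𝓘(ℝ, E) f (A ξ) (A a))) := by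
  subst hy
  have h1 : ContMDiffAt 𝓘(ℝ, V) 𝓘(ℝ, T₁) ∞ A ξ := A.contMDiff.contMDiffAt
  have h2 : ContMDiffAt 𝓘(ℝ, V) 𝓘(ℝ, E) ∞ (f ∘ A) ξ := ContMDiffAt.comp ξ hf h1
  have h3 : ContMDiffAt 𝓘(ℝ, V) 𝓘(ℝ, T₂) ∞ (L ∘ (f ∘ A)) ξ := ContMDiffAt.comp ξ hL h2
  have h3' : ContDiffAt ℝ ∞ (L ∘ (f ∘ A)) ξ := h3.contDiffAt
  refine ⟨B.contDiff.contDiffAt.comp ξ h3', fun a => ?_⟩
  have c2 := mfderiv_comp_apply ξ (g := L) (f := f ∘ A) (hL.mdifferentiableAt (by simp))
    (h2.mdifferentiableAt (by simp)) a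
  have c3 := mfderiv_comp_apply ξ (g := f) (f := A) (hf.mdifferentiableAt (by simp))
    (h1.mdifferentiableAt (by simp)) a
  have d1 : mfderiv 𝓘(ℝ, V) 𝓘(ℝ, T₁) A ξ = A := by
    rw [mfderiv_eq_fderiv, ContinuousLinearMap.fderiv]
  rw [c3, d1, mfderiv_eq_fderiv] at c2
  have h5 : HasFDerivAt (fun v => B (L (f (A v))))
      (B.comp (fderiv ℝ (L ∘ (f ∘ A)) ξ)) ξ :=
    B.hasFDerivAt.comp ξ (h3'.differentiableAt (by simp)).hasFDerivAt
  rw [h5.fderiv]
  exact congrArg B c2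

/-- `fr x` with values in the tangent space -/
def areaA (x : M) : Eu E →L[ℝ] TangentSpace 𝓘(ℝ, E) x := ((fr x : Eu E ≃L[ℝ] E) : Eu E →L[ℝ] E)

/-- the inverse of `fr y` on the tangent space -/
def areaB (y : M) : TangentSpace 𝓘(ℝ, E) y →L[ℝ] Eu E :=
  (((fr y).symm : E ≃L[ℝ] Eu E) : E →L[ℝ] Eu E)

/-- the exponential map in orthonormal coordinates at both ends -/
def areaPsi (e : ∀ x : M, TangentSpace 𝓘(ℝ, E) x → M) (x y : M) (ξ : Eu E) : Eu E :=
  areaB (E := E) y (logMap e y (e x (areaA (E := E) x ξ)))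

theorem area_psi [CompactSpace M] (F : Facts e) (x : M) {ξ₀ : Eu E} {y : M}
    (hy : ef e x ξ₀ = y) :
    ContDiffAt ℝ ∞ (areaPsi e x y) ξ₀ ∧
      ∀ a : Eu E, fderiv ℝ (areaPsi e x y) ξ₀ a =
        (fr y).symm (dE e x (fr x ξ₀) (fr x a)) := by
  have he := F.isExp
  obtain ⟨h1, h2⟩ := area_chain (E := E) (areaA (E := E) x) (e x) (logMap e y)
    (areaB (E := E) y) (ξ := ξ₀) (y := y) hy (contMDiff_exp_fiber he x).contMDiffAt
    (contMDiffAt_logMap he (area_smoothAt_diag F y))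
  refine ⟨h1, fun a => (h2 a).trans ?_⟩
  have key : ∀ z : M, z = y → ∀ w : E,
      (mfderiv 𝓘(ℝ, E) 𝓘(ℝ, TangentSpace 𝓘(ℝ, E) y) (logMap e y) z
        (w : TangentSpace 𝓘(ℝ, E) z) : E) = w := by
    rintro z rfl w
    exact area_dlog F z w
  exact congrArg (fr (E := E) y).symm (key (e x (fr x ξ₀ : E)) hy (dE e x (fr x ξ₀) (fr x a)))

/-- the determinant of the coordinate expression is the Jacobian -/
theorem area_det [CompactSpace M] (F : Facts e) (x : M) {ξ₀ : Eu E} {y : M}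
    (hy : ef e x ξ₀ = y) :
    |(fderiv ℝ (areaPsi e x y) ξ₀).det| = jac e x (fr x ξ₀) := by
  have hg : gam e x (fr x ξ₀) 1 = y := by
    rw [← hy]
    have h1 : ((1 : ℝ) • (fr x ξ₀ : E)) = fr x ξ₀ := one_smul ℝ _
    exact congrArg (e x) h1
  unfold jac
  rw [hg]
  congr 1
  let b := (EuclideanSpace.basisFun (Fin (finrank ℝ E)) ℝ).toBasis
  have h1 : (fderiv ℝ (areaPsi e x y) ξ₀).det =
      (LinearMap.toMatrix b b (fderiv ℝ (areaPsi e x y) ξ₀ : Eu E →ₗ[ℝ] Eu E)).det := by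
    rw [LinearMap.det_toMatrix]
  rw [h1]
  congr 1
  ext i j
  rw [LinearMap.toMatrix_apply]
  simp only [OrthonormalBasis.coe_toBasis, EuclideanSpace.basisFun_apply, ContinuousLinearMap.coe_coe, OrthonormalBasis.coe_toBasis_repr_apply, Matrix.of_apply, b]
  rw [(area_psi F x hy).2, EuclideanSpace.basisFun_repr]
  set w := dE e x (fr x ξ₀) (fr x (EuclideanSpace.single j 1)) with hw
  have h2 : ip y (fr y (EuclideanSpace.single i 1)) w =
      ip y (fr y (EuclideanSpace.single i 1)) (fr y ((fr y).symm w)) := by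
    rw [ContinuousLinearEquiv.apply_symm_apply]
  rw [h2, ip_fr, EuclideanSpace.inner_single_left]
  simp

theorem area_cont_fr {G : M → E → ℝ} (hG : ContTB G) (x : M) :
    Continuous fun ξ : Eu E => G x (fr x ξ) := by
  have h1 : Continuous fun v : TangentSpace 𝓘(ℝ, E) x =>
      (⟨x, v⟩ : TangentBundle 𝓘(ℝ, E) M) :=
    FiberBundle.continuous_totalSpaceMk E (TangentSpace 𝓘(ℝ, E)) x
  exact (Continuous.comp hG h1).comp (areaA (E := E) x).continuous

theorem area_continuous_ef (he : IsExp e) (x : M) : Continuous (ef e x) := by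
  have h1 : Continuous (e x) := (contMDiff_exp_fiber he x).continuous
  exact h1.comp (areaA (E := E) x).continuous

theorem area_injOn [CompactSpace M] (F : Facts e) {D : ℝ} (hB : InjGE e D) (x : M) :
    InjOn (ef e x) (Metric.ball (0 : Eu E) D) := by
  intro ξ hξ η hη h
  have hn : ∀ ζ : Eu E, ζ ∈ Metric.ball (0 : Eu E) D → nm x (fr x ζ) < D := by
    intro ζ hζ
    rw [nm_fr]
    simpa using hζ
  have h1 : (fr x ξ : E) ∈ injDomain e x := hB.mem_injDomain (hn ξ hξ)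
  have h2 : (fr x η : E) ∈ injDomain e x := hB.mem_injDomain (hn η hη)
  have h3 : (fr x ξ : E) = fr x η :=
    F.injDomain_unique h2 (injDomain_subset_segMin F.isExp x h1) h
  exact (fr x).injective h3

theorem area_local [CompactSpace M] [ConnectedSpace M] [IsRiemannianManifold 𝓘(ℝ, E) M]
    [MeasurableSpace M] [BorelSpace M] (F : Facts e) {D : ℝ} (hB : InjGE e D)
    (x : M) {ξ₀ : Eu E} (hξ₀ : ξ₀ ∈ Metric.ball (0 : Eu E) D) {ε : ℝ} (hε : 0 < ε) (hε1 : ε < 1) :
    ∃ V : Set (Eu E), IsOpen V ∧ ξ₀ ∈ V ∧ ∀ S, MeasurableSet S → S ⊆ V →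
      S ⊆ Metric.ball (0 : Eu E) D →
      ENNReal.ofReal (1 - ε) * ∫⁻ ξ in S, ENNReal.ofReal (jac e x (fr x ξ)) ≤
        riemVol (finrank ℝ E) M (ef e x '' S) ∧
      riemVol (finrank ℝ E) M (ef e x '' S) ≤
        ENNReal.ofReal (1 + ε) * ∫⁻ ξ in S, ENNReal.ofReal (jac e x (fr x ξ)) := by
  have he := F.isExp
  set y := ef e x ξ₀ with hy
  set η : ℝ := ε / 3 with hη
  have hη0 : 0 < η := by positivity
  have hη1 : η < 1 := by rw [hη]; linarith only [hε1]
  obtain ⟨δ, hδ, hδS⟩ := riemVol_small F y hη0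
  set ψ := areaPsi e x y with hψ
  have hψd : ContDiffAt ℝ ∞ ψ ξ₀ := (area_psi F x rfl).1
  have hψ1 : ContDiffAt ℝ 1 ψ ξ₀ := hψd.of_le (by simp only [WithTop.one_le_coe, le_top])
  have hψ0 : ψ ξ₀ = 0 := by
    have h1 : logMap e y (e x (areaA (E := E) x ξ₀)) = 0 := area_logMap_self F y
    change areaB (E := E) y (logMap e y (e x (areaA (E := E) x ξ₀))) = 0
    rw [h1, map_zero]
  have hJ0 : 0 < jac e x (fr x ξ₀) := jac_pos F hB (by rw [nm_fr]; simpa only [Metric.mem_ball, dist_zero_right] using hξ₀)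
  have hJc : Continuous fun ξ : Eu E => jac e x (fr x ξ) := area_cont_fr (contTB_jac he) x
  have hdc : ContinuousAt (fun ξ => |(fderiv ℝ ψ ξ).det|) ξ₀ := by
    have h1 : ContinuousAt (fderiv ℝ ψ) ξ₀ :=
      (hψ1.fderiv_right (m := 0) (by simp)).continuousAt
    exact (ContinuousLinearMap.continuous_det.continuousAt.comp h1).abs
  have hdet : |(fderiv ℝ ψ ξ₀).det| = jac e x (fr x ξ₀) := area_det F x rfl
  -- eventual facts
  have e1 : ∀ᶠ ξ in 𝓝 ξ₀, DifferentiableAt ℝ ψ ξ :=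
    (hψ1.eventually (by simp)).mono fun ξ h => h.differentiableAt (by simp)
  have e2 : ∀ᶠ ξ in 𝓝 ξ₀, |(fderiv ℝ ψ ξ).det| < (1 + η) * jac e x (fr x ξ) := by
    refine hdc.eventually_lt (continuousAt_const.mul hJc.continuousAt) ?_
    rw [hdet]
    change jac e x (fr x ξ₀) < (1 + η) * jac e x (fr x ξ₀)
    (clear hε1 he y hy hη0 hη1 δ hδ hδS ψ hψ hψd hψ1 hψ0 hJc hdc hdet e1; nlinarith)
  have e3 : ∀ᶠ ξ in 𝓝 ξ₀, (1 - η) * jac e x (fr x ξ) < |(fderiv ℝ ψ ξ).det| := by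
    refine (continuousAt_const.mul hJc.continuousAt).eventually_lt hdc ?_
    rw [hdet]
    change (1 - η) * jac e x (fr x ξ₀) < jac e x (fr x ξ₀)
    (clear hε1 he y hy hη0 hη1 δ hδ hδS ψ hψ hψd hψ1 hψ0 hJc hdc hdet e1 e2; nlinarith)
  have e4 : ∀ᶠ ξ in 𝓝 ξ₀, ψ ξ ∈ Metric.ball (0 : Eu E) δ := by
    refine hψ1.continuousAt.eventually_mem ?_
    rw [hψ0]
    exact Metric.ball_mem_nhds _ hδ
  have e5 : ∀ᶠ ξ in 𝓝 ξ₀, ef e y (ψ ξ) = ef e x ξ := by
    have h1 : ∀ᶠ z in 𝓝 y, logMap e y z ∈ segMin e y ∧ e y (logMap e y z) = z :=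
      eventually_logMap he F.hopfRinow (area_smoothAt_diag F y)
    filter_upwards [(area_continuous_ef he x).continuousAt.eventually h1] with ξ hξ
    refine Eq.trans ?_ hξ.2
    have h2 : (fr y (ψ ξ) : E) = logMap e y (ef e x ξ) :=
      (fr (E := E) y).apply_symm_apply (logMap e y (ef e x ξ) : E)
    exact congrArg (e y) h2
  obtain ⟨V, hVs, hVo, hV0⟩ := mem_nhds_iff.1
    (e1.and (e2.and (e3.and (e4.and e5))))
  refine ⟨V, hVo, hV0, fun S hSm hSV hSD => ?_⟩
  have hS : ∀ ξ ∈ S, _ := fun ξ hξ => hVs (hSV hξ)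
  have himg : ef e x '' S = ef e y '' (ψ '' S) := by
    rw [image_image]
    exact image_congr fun ξ hξ => (hS ξ hξ).2.2.2.2.symm
  have hinj : InjOn ψ S := by
    intro a ha b hb hab
    refine area_injOn F hB x (hSD ha) (hSD hb) ?_
    rw [← (hS a ha).2.2.2.2, ← (hS b hb).2.2.2.2, hab]
  have hvol := lintegral_abs_det_fderiv_eq_addHaar_image (μ := (volume : Measure (Eu E)))
    hSm (f' := fderiv ℝ ψ) (fun ξ hξ => (hS ξ hξ).1.hasFDerivAt.hasFDerivWithinAt) hinj
  have hsub : ψ '' S ⊆ Metric.ball 0 δ := by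
    rintro _ ⟨ξ, hξ, rfl⟩
    exact (hS ξ hξ).2.2.2.1
  obtain ⟨hlow, hup⟩ := hδS _ hsub
  rw [← himg, ← hvol] at hlow hup
  have hint1 : ∫⁻ ξ in S, ENNReal.ofReal |(fderiv ℝ ψ ξ).det| ≤
      ENNReal.ofReal (1 + η) * ∫⁻ ξ in S, ENNReal.ofReal (jac e x (fr x ξ)) := by
    rw [← lintegral_const_mul' _ _ ENNReal.ofReal_ne_top]
    refine setLIntegral_mono' hSm fun ξ hξ => ?_
    rw [← ENNReal.ofReal_mul (by linarith only [hη0])]
    exact ENNReal.ofReal_le_ofReal (hS ξ hξ).2.1.le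
  have hint2 : ENNReal.ofReal (1 - η) * ∫⁻ ξ in S, ENNReal.ofReal (jac e x (fr x ξ)) ≤
      ∫⁻ ξ in S, ENNReal.ofReal |(fderiv ℝ ψ ξ).det| := by
    rw [← lintegral_const_mul' _ _ ENNReal.ofReal_ne_top]
    refine setLIntegral_mono' hSm fun ξ hξ => ?_
    rw [← ENNReal.ofReal_mul (by linarith only [hε1, hη])]
    exact ENNReal.ofReal_le_ofReal (hS ξ hξ).2.2.1.le
  constructor
  · calc ENNReal.ofReal (1 - ε) * ∫⁻ ξ in S, ENNReal.ofReal (jac e x (fr x ξ))
        ≤ ENNReal.ofReal (1 - η) * (ENNReal.ofReal (1 - η) *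
            ∫⁻ ξ in S, ENNReal.ofReal (jac e x (fr x ξ))) := by
          rw [← mul_assoc, ← ENNReal.ofReal_mul (by linarith only [hε1, hη])]
          gcongr
          rw [hη]
          nlinarith only [hε]
      _ ≤ ENNReal.ofReal (1 - η) * ∫⁻ ξ in S, ENNReal.ofReal |(fderiv ℝ ψ ξ).det| := by
          (clear F D hB hξ₀ he hy hη0 hη1 hδ hδS hψ hψd hψ1 hψ0 hJ0 hJc hdc hdet e1 e2 e3 e4 e5 hVo hV0 hSD himg hinj hvol hsub hlow hup hint1; gcongr)
      _ ≤ _ := hlow
  · calc riemVol (finrank ℝ E) M (ef e x '' S)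
        ≤ ENNReal.ofReal (1 + η) * ∫⁻ ξ in S, ENNReal.ofReal |(fderiv ℝ ψ ξ).det| := hup
      _ ≤ ENNReal.ofReal (1 + η) * (ENNReal.ofReal (1 + η) *
            ∫⁻ ξ in S, ENNReal.ofReal (jac e x (fr x ξ))) := by
          (clear F D hB hξ₀ hε1 he hy hη hη1 hδ hδS hψ hψd hψ1 hψ0 hJ0 hJc hdc hdet e1 e2 e3 e4 e5 hVo hV0 hSD himg hinj hvol hsub hlow hup hint2; gcongr)
      _ ≤ ENNReal.ofReal (1 + ε) * ∫⁻ ξ in S, ENNReal.ofReal (jac e x (fr x ξ)) := by
          rw [← mul_assoc, ← ENNReal.ofReal_mul (by linarith only [hη0])]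
          gcongr
          rw [hη]
          nlinarith only [hε, hε1]

theorem area [CompactSpace M] [ConnectedSpace M] [IsRiemannianManifold 𝓘(ℝ, E) M]
    [MeasurableSpace M] [BorelSpace M] (F : Facts e) {D : ℝ} (hD : 0 < D) (hB : InjGE e D)
    (x : M) {S : Set (Eu E)} (hS : MeasurableSet S) (hSD : S ⊆ Metric.ball 0 D) :
    riemVol (finrank ℝ E) M (ef e x '' S) =
      ∫⁻ ξ in S, ENNReal.ofReal (jac e x (fr x ξ)) := by
  have h := area_abs
    ((volume : Measure (Eu E)).withDensity fun ξ => ENNReal.ofReal (jac e x (fr x ξ)))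
    (riemVol (finrank ℝ E) M) (area_continuous_ef F.isExp x) (area_injOn F hB x)
    (fun v hv ε hε hε1 => by
      obtain ⟨V, hVo, hV0, hV⟩ := area_local F hB x hv hε hε1
      refine ⟨V, hVo, hV0, fun T hT hTV hTD => ?_⟩
      rw [withDensity_apply _ hT]
      exact hV T hT hTV hTD) hS hSD
  rw [h, withDensity_apply _ hS]

theorem riemVol_finite [CompactSpace M] [ConnectedSpace M] [IsRiemannianManifold 𝓘(ℝ, E) M]
    [MeasurableSpace M] [BorelSpace M] (F : Facts e) {D : ℝ} (hD : 0 < D) (hB : InjGE e D) :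
    IsFiniteMeasure (riemVol (finrank ℝ E) M) := by
  have hball : ∀ x : M, riemVol (finrank ℝ E) M (Metric.ball x (D / 2)) < ⊤ := by
    intro x
    have hsub : Metric.ball x (D / 2) ⊆ ef e x '' Metric.closedBall (0 : Eu E) (D / 2) := by
      intro y hy
      obtain ⟨v, hv, hd⟩ := F.hopfRinow x y
      have h1 : (fr (E := E) x ((fr (E := E) x).symm (v : E)) : E) = v :=
        (fr (E := E) x).apply_symm_apply (v : E)
      refine ⟨(fr (E := E) x).symm (v : E), ?_, ?_⟩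
      · have h2 : nm (E := E) x (v : E) = dist x y := hd.symm
        rw [mem_closedBall_zero_iff, ← nm_fr (E := E) x, h1, h2, dist_comm]
        exact (Metric.mem_ball.1 hy).le
      · refine Eq.trans ?_ hv
        exact congrArg (e x) h1
    have hcb : Metric.closedBall (0 : Eu E) (D / 2) ⊆ Metric.ball 0 D :=
      Metric.closedBall_subset_ball (by linarith only [hD])
    refine (measure_mono hsub).trans_lt ?_
    rw [area F hD hB x Metric.isClosed_closedBall.measurableSet hcb]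
    have hJc : Continuous fun ξ : Eu E => jac e x (fr x ξ) :=
      area_cont_fr (contTB_jac F.isExp) x
    obtain ⟨C, hC⟩ := (isCompact_closedBall (0 : Eu E) (D / 2)).exists_bound_of_continuousOn
      hJc.continuousOn
    calc ∫⁻ ξ in Metric.closedBall (0 : Eu E) (D / 2), ENNReal.ofReal (jac e x (fr x ξ))
        ≤ ∫⁻ ξ in Metric.closedBall (0 : Eu E) (D / 2), ENNReal.ofReal C := by
          refine setLIntegral_mono' Metric.isClosed_closedBall.measurableSet fun ξ hξ => ?_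
          exact ENNReal.ofReal_le_ofReal ((le_abs_self _).trans (hC ξ hξ))
      _ = ENNReal.ofReal C * volume (Metric.closedBall (0 : Eu E) (D / 2)) := by
          rw [setLIntegral_const]
      _ < ⊤ := ENNReal.mul_lt_top ENNReal.ofReal_lt_top
          (isCompact_closedBall _ _).measure_lt_top
  obtain ⟨t, ht⟩ := isCompact_univ.elim_nhds_subcover (fun x : M => Metric.ball x (D / 2))
    (fun x _ => Metric.ball_mem_nhds x (by linarith))
  refine ⟨(measure_mono ht.2).trans_lt ((measure_biUnion_finset_le t _).trans_lt ?_)⟩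
  exact ENNReal.sum_lt_top.2 fun x _ => hball x

theorem riemVol_pos [CompactSpace M] [ConnectedSpace M] [IsRiemannianManifold 𝓘(ℝ, E) M]
    [MeasurableSpace M] [BorelSpace M] (F : Facts e) {D : ℝ} (hD : 0 < D) (hB : InjGE e D)
    {U : Set M} (hU : IsOpen U) (hU' : U.Nonempty) : 0 < riemVol (finrank ℝ E) M U := by
  obtain ⟨x, hx⟩ := hU'
  have hx0 : ef e x 0 = x := by
    have h1 : (fr x (0 : Eu E) : E) = 0 := map_zero _
    have h2 : e x (fr x (0 : Eu E) : E) = e x 0 := congrArg (e x) h1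
    exact h2.trans (F.isExp.map_zero x)
  have h1 : ef e x ⁻¹' U ∈ 𝓝 (0 : Eu E) :=
    (area_continuous_ef F.isExp x).continuousAt.preimage_mem_nhds
      (by rw [hx0]; exact hU.mem_nhds hx)
  obtain ⟨δ, hδ, hδU⟩ := Metric.mem_nhds_iff.1 h1
  have hr : 0 < min δ D := lt_min hδ hD
  have hsub : ef e x '' Metric.ball (0 : Eu E) (min δ D) ⊆ U := by
    rintro _ ⟨ξ, hξ, rfl⟩
    exact hδU (Metric.ball_subset_ball (min_le_left _ _) hξ)
  refine lt_of_lt_of_le ?_ (measure_mono hsub)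
  rw [area F hD hB x Metric.isOpen_ball.measurableSet
    (Metric.ball_subset_ball (min_le_right _ _))]
  have hJc : Continuous fun ξ : Eu E => jac e x (fr x ξ) :=
    area_cont_fr (contTB_jac F.isExp) x
  rw [setLIntegral_pos_iff hJc.measurable.ennreal_ofReal]
  have hsupp : Metric.ball (0 : Eu E) (min δ D) ⊆
      (Function.support fun ξ : Eu E => ENNReal.ofReal (jac e x (fr x ξ))) := by
    intro ξ hξ
    rw [Function.mem_support, ENNReal.ofReal_ne_zero_iff]
    refine jac_pos F hB ?_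
    rw [nm_fr]
    have := Metric.ball_subset_ball (min_le_right δ D) hξ
    simpa only [gt_iff_lt, Metric.mem_ball, dist_zero_right] using this
  rw [inter_eq_right.2 hsupp]
  exact Metric.measure_ball_pos _ _ hr

end

end Vale.Agent.P231
end
end
end

section

section

section

/-! P231 core: the local axioms imply the Jacobi data. -/

open Matrix Real Set Filter Topology MeasureTheory
open scoped ContDiff

namespace Vale.Agent.P231

noncomputable section

section aux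
variable {ι : Type*} [Fintype ι] [DecidableEq ι]

lemma local_mul_inv {M : Matrix ι ι ℝ} (h : IsUnit M) : M * M⁻¹ = 1 :=
  Matrix.mul_nonsing_inv M ((Matrix.isUnit_iff_isUnit_det M).mp h)

lemma local_inv_mul {M : Matrix ι ι ℝ} (h : IsUnit M) : M⁻¹ * M = 1 :=
  Matrix.nonsing_inv_mul M ((Matrix.isUnit_iff_isUnit_det M).mp h)

lemma local_neg_inv {M : Matrix ι ι ℝ} (h : IsUnit M) : (-M)⁻¹ = -M⁻¹ := by
  apply Matrix.inv_eq_right_inv
  rw [neg_mul_neg, local_mul_inv h]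

lemma local_isUnit_neg_transpose {M : Matrix ι ι ℝ} (h : IsUnit M) : IsUnit (-(M.transpose)) := by
  apply IsUnit.neg
  rw [Matrix.isUnit_iff_isUnit_det, Matrix.det_transpose]
  exact (Matrix.isUnit_iff_isUnit_det M).mp h

lemma local_cancel {M N : Matrix ι ι ℝ} (h : IsUnit M) (h0 : M * N = 0) : N = 0 := by
  have : M⁻¹ * (M * N) = 0 := by rw [h0, mul_zero]
  rwa [← mul_assoc, local_inv_mul h, one_mul] at this

end aux

theorem JData.of_local {ι : Type*} [Fintype ι] [DecidableEq ι] {D ρ : ℝ}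
    {A : ℝ → ℝ → Matrix ι ι ℝ} (hD : 0 < D) (hρ : 0 < ρ)
    (diag : ∀ s, A s s = 0)
    (anti : ∀ s t, |t - s| < ρ → A t s = -(A s t).transpose)
    (rel : ∀ a b, a < b → b < a + ρ → ∀ s, ∃ X Z : Matrix ι ι ℝ,
      ∀ t, A s t = A a t * X + A b t * Z)
    (smooth : ∀ a b i j, ContDiff ℝ ∞ (fun t => ((A a t).transpose * A b t) i j))
    (der : ∀ a b i j, HasDerivAt (fun t => ((A a t).transpose * A b t) i j) (A a b j i) b)
    (per : ∀ s t, A s (t + 2 * D) = A s t)
    (per' : ∀ s t, A (s + 2 * D) t = A s t)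
    (unit : ∀ s t, s < t → t < s + D → IsUnit (A s t)) : JData D A := by
  set σ : ℝ := min ρ D with hσ
  have hσ0 : 0 < σ := lt_min hρ hD
  have hσρ : σ ≤ ρ := min_le_left _ _
  have hσD : σ ≤ D := min_le_right _ _
  -- close pairs
  have hu : ∀ a b, a < b → b < a + σ → IsUnit (A a b) := fun a b h1 h2 =>
    unit a b h1 (by linarith only [hσD, h2])
  have hu' : ∀ a b, a < b → b < a + σ → IsUnit (A b a) := fun a b h1 h2 => by
    rw [anti a b (by rw [abs_of_pos (by linarith only [h1])]; linarith only [hσρ, h2])]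
    exact local_isUnit_neg_transpose (hu a b h1 h2)
  have close : ∀ a b, a < b → b < a + σ → ∀ s t,
      A s t = A a t * (A a b)⁻¹ * A s b + A b t * (A b a)⁻¹ * A s a := by
    intro a b h1 h2 s t
    obtain ⟨X, Z, h⟩ := rel a b h1 (by linarith only [hσρ, h2]) s
    have hZ : Z = (A b a)⁻¹ * A s a := by
      rw [h a, diag, zero_mul, zero_add, ← mul_assoc, local_inv_mul (hu' a b h1 h2), one_mul]
    have hX : X = (A a b)⁻¹ * A s b := by
      rw [h b, diag, zero_mul, add_zero, ← mul_assoc, local_inv_mul (hu a b h1 h2), one_mul]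
    rw [h t, mul_assoc, mul_assoc, ← hX, ← hZ]
  -- antisymmetry at all distances
  have hanti : ∀ n : ℕ, ∀ s t, |t - s| < (3 / 2) ^ n * σ → A t s = -(A s t).transpose := by
    intro n
    induction n with
    | zero =>
      intro s t h
      exact anti s t (by rw [pow_zero, one_mul] at h; linarith only [hσρ, h])
    | succ n ih =>
      -- it is enough to treat `s < t`
      have key : ∀ s t, s < t → t - s < (3 / 2) ^ (n + 1) * σ → A t s = -(A s t).transpose := by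
        intro s t hst h
        set R : ℝ := (3 / 2) ^ n * σ with hR
        have hR' : (3 / 2 : ℝ) ^ (n + 1) * σ = 3 / 2 * R := by rw [hR, pow_succ]; ring
        rw [hR'] at h
        have hσR : σ ≤ R := by
          have : (1 : ℝ) ≤ (3 / 2) ^ n := one_le_pow₀ (by norm_num)
          nlinarith only [hσ0, this]
        set a : ℝ := (s + t) / 2 with ha
        set b : ℝ := (s + t) / 2 + min (σ / 8) ((t - s) / 8) with hb
        have hm1 : min (σ / 8) ((t - s) / 8) ≤ σ / 8 := min_le_left _ _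
        have hm2 : min (σ / 8) ((t - s) / 8) ≤ (t - s) / 8 := min_le_right _ _
        have hm0 : 0 < min (σ / 8) ((t - s) / 8) := lt_min (by linarith only [hσ0]) (by linarith only [hst])
        have hab : a < b := by rw [ha, hb]; linarith only [hm0]
        have hab' : b < a + σ := by rw [ha, hb]; linarith only [hm1, hm0]
        have d1 : A t b = -(A b t).transpose := ih b t (by
          rw [abs_of_pos (by rw [hb]; linarith only [hm2, hm0])]; rw [hb]; linarith only [h, hσR, hm1, hm0])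
        have d2 : A t a = -(A a t).transpose := ih a t (by
          rw [abs_of_pos (by rw [ha]; linarith only [hst])]; rw [ha]; linarith only [h, hσR, hm1, hm0])
        have d3 : A a s = -(A s a).transpose := ih s a (by
          rw [abs_of_pos (by rw [ha]; linarith only [hst])]; rw [ha]; linarith only [h, hσR, hm1, hm0])
        have d4 : A b s = -(A s b).transpose := ih s b (by
          rw [abs_of_pos (by rw [hb]; linarith only [hst, hm0])]; rw [hb]; linarith only [h, hσR, hm1, hm0])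
        have d5 : A b a = -(A a b).transpose := ih a b (by
          rw [abs_of_pos (by linarith only [hm0])]; linarith only [hσR, hm1, hm0])
        have u1 := hu a b hab hab'
        have u2 := hu' a b hab hab'
        have e1 : ((A a b)⁻¹).transpose = -(A b a)⁻¹ := by
          rw [Matrix.transpose_nonsing_inv, d5, local_neg_inv, neg_neg]
          rw [Matrix.isUnit_iff_isUnit_det, Matrix.det_transpose]
          exact (Matrix.isUnit_iff_isUnit_det _).mp u1
        have e2 : ((A b a)⁻¹).transpose = -(A a b)⁻¹ := by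
          have := congrArg Matrix.transpose e1
          rw [Matrix.transpose_transpose, Matrix.transpose_neg] at this
          rw [this, neg_neg]
        have f1 := close a b hab hab' s t
        have f2 := close a b hab hab' t s
        rw [f2, f1, d1, d2, d3, d4]
        simp only [Matrix.transpose_add, Matrix.transpose_mul, e1, e2, Matrix.neg_mul,
          Matrix.mul_neg, neg_neg, neg_add, mul_assoc]
        rw [add_comm]
      intro s t h
      rcases lt_trichotomy s t with hst | hst | hst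
      · exact key s t hst (by rwa [abs_of_pos (by linarith only [hst])] at h)
      · subst hst
        rw [diag]; simp
      · have := key t s hst (by rw [abs_sub_comm] at h; rwa [abs_of_pos (by linarith only [hst])] at h)
        rw [this]; simp
  have hanti' : ∀ s t, A t s = -(A s t).transpose := by
    intro s t
    obtain ⟨n, hn⟩ := pow_unbounded_of_one_lt (|t - s| / σ) (by norm_num : (1 : ℝ) < 3 / 2)
    exact hanti n s t (by rwa [div_lt_iff₀ hσ0] at hn)
  refine ⟨hD, diag, fun s t => hanti' s t, ?_, smooth, der, per, unit⟩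
  intro s t a b hab
  have hba : IsUnit (A b a) := by
    rw [hanti' a b]
    exact local_isUnit_neg_transpose hab
  obtain ⟨P1, Q1, h1⟩ := rel a (a + σ / 2) (by linarith only [hσ0]) (by linarith only [hρ, hσρ]) s
  obtain ⟨P2, Q2, h2⟩ := rel a (a + σ / 2) (by linarith) (by linarith only [hρ, hσρ]) b
  set X := (A a b)⁻¹ * A s b with hX
  set Z := (A b a)⁻¹ * A s a with hZ
  set P := P1 - X - P2 * Z with hP
  set Q := Q1 - Q2 * Z with hQ
  have hΔ : ∀ t, A s t - A a t * X - A b t * Z = A a t * P + A (a + σ / 2) t * Q := by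
    intro t
    rw [h1 t, h2 t, hP, hQ]
    noncomm_ring
  have hQ0 : Q = 0 := by
    have h3 := hΔ a
    rw [diag, zero_mul, zero_mul, zero_add, sub_zero, hZ, ← mul_assoc, local_mul_inv hba,
      one_mul, sub_self] at h3
    exact local_cancel (hu' a (a + σ / 2) (by linarith only [hσ0]) (by linarith only [hσ0])) h3.symm
  have hP0 : P = 0 := by
    have h3 := hΔ b
    rw [hQ0, mul_zero, add_zero, diag, zero_mul, sub_zero, hX, ← mul_assoc, local_mul_inv hab,
      one_mul, sub_self] at h3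
    exact local_cancel hab h3.symm
  have h4 := hΔ t
  rw [hP0, hQ0, mul_zero, mul_zero, add_zero] at h4
  rw [mul_assoc, mul_assoc, ← hX, ← hZ]
  have h5 : A s t = (A s t - A a t * X - A b t * Z) + (A a t * X + A b t * Z) := by abel
  rw [h5, h4, zero_add]

end

end Vale.Agent.P231
end
end
end

section

section

section

set_option maxSynthPendingDepth 3

open Bundle Manifold Set Filter
open scoped ContDiff Manifold Topology

namespace Vale.Agent.P231

noncomputable section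

open Vale.Agent.P234

/-- a smooth curve in the tangent bundle of a vector space -/
theorem contMDiff_curve_mk {V : Type*} [NormedAddCommGroup V] [NormedSpace ℝ V] {c d : ℝ → V}
    (hc : ContDiff ℝ ∞ c) (hd : ContDiff ℝ ∞ d) :
    ContMDiff 𝓘(ℝ, ℝ) 𝓘(ℝ, V).tangent ∞ (fun t : ℝ => (⟨c t, d t⟩ : TangentBundle 𝓘(ℝ, V) V)) := by
  intro t
  rw [Bundle.contMDiffAt_totalSpace]
  refine ⟨hc.contMDiff.contMDiffAt, ?_⟩
  refine (hd.contMDiff.contMDiffAt (x := t)).congr_of_eventuallyEq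
    (Filter.Eventually.of_forall fun w => ?_)
  simp

theorem contDiff_line {V : Type*} [NormedAddCommGroup V] [NormedSpace ℝ V] (v : V) (a : ℝ) :
    ContDiff ℝ ∞ (fun t : ℝ => (t - a) • v) :=
  (contDiff_id.sub contDiff_const).smul contDiff_const

theorem contDiff_line0 {V : Type*} [NormedAddCommGroup V] [NormedSpace ℝ V] (v : V) :
    ContDiff ℝ ∞ (fun t : ℝ => t • v) :=
  contDiff_id.smul contDiff_const

theorem contDiff_cst {V : Type*} [NormedAddCommGroup V] [NormedSpace ℝ V] (v : V) :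
    ContDiff ℝ ∞ (fun _ : ℝ => v) :=
  contDiff_const

variable {E : Type*} [NormedAddCommGroup E] [NormedSpace ℝ E] [FiniteDimensional ℝ E]
  {M : Type*} [MetricSpace M] [ChartedSpace E M]
  [RiemannianBundle (fun x : M => TangentSpace 𝓘(ℝ, E) x)]
  [IsManifold 𝓘(ℝ, E) ∞ M]
  [IsContMDiffRiemannianBundle 𝓘(ℝ, E) ∞ E (fun x : M => TangentSpace 𝓘(ℝ, E) x)]
  {e : ∀ x : M, TangentSpace 𝓘(ℝ, E) x → M}

/-- the differential of the exponential map along smooth curves of vectors -/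
theorem contMDiff_dE (he : IsExp e) (y : M) {c d : ℝ → TangentSpace 𝓘(ℝ, E) y}
    (hc : ContDiff ℝ ∞ c) (hd : ContDiff ℝ ∞ d) :
    ContMDiff 𝓘(ℝ, ℝ) 𝓘(ℝ, E).tangent ∞
      (fun t : ℝ => tb (e y (c t)) (dE e y (c t) (d t))) := by
  have h1 := contMDiff_curve_mk hc hd
  have h2 : ContMDiff 𝓘(ℝ, TangentSpace 𝓘(ℝ, E) y).tangent 𝓘(ℝ, E).tangent ∞
      (tangentMap 𝓘(ℝ, TangentSpace 𝓘(ℝ, E) y) 𝓘(ℝ, E) (e y)) :=
    (contMDiff_exp_fiber he y).contMDiff_tangentMap (by simp)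
  exact h2.comp h1

omit [FiniteDimensional ℝ E] [RiemannianBundle fun x : M => TangentSpace 𝓘(ℝ, E) x]
  [IsManifold 𝓘(ℝ, E) ∞ M]
  [IsContMDiffRiemannianBundle 𝓘(ℝ, E) ∞ E fun x : M => TangentSpace 𝓘(ℝ, E) x] in
theorem tb_congr {x x' : M} {v v' : E} (h : x = x') (h' : v = v') : tb x v = tb x' v' := by
  rw [h, h']

/-- Jacobi fields are smooth sections along the geodesic -/
theorem contMDiff_jf (F : Facts e) (x : M) (u : E) (a : ℝ) (w : E) :
    ContMDiff 𝓘(ℝ, ℝ) 𝓘(ℝ, E).tangent ∞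
      (fun t : ℝ => tb (gam e x u t) (jf e x u a t w)) := by
  have hc := contDiff_line (V := TangentSpace 𝓘(ℝ, E) (gam e x u a)) (vel (E := E) e x u a : E) a
  have hd := contDiff_line (V := TangentSpace 𝓘(ℝ, E) (gam e x u a)) w a
  have h := contMDiff_dE F.isExp (gam e x u a) hc hd
  refine h.congr fun t => ?_
  refine tb_congr ?_ ?_
  · have := gam_flow F x u a (t - a)
    rw [add_sub_cancel] at this
    exact this.symm
  · exact (dE_smul e (gam e x u a) _ w (t - a)).symm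

theorem contMDiff_vel (F : Facts e) (x : M) (u : E) :
    ContMDiff 𝓘(ℝ, ℝ) 𝓘(ℝ, E).tangent ∞
      (fun t : ℝ => tb (gam e x u t) (vel e x u t)) := by
  have hc := contDiff_line0 (V := TangentSpace 𝓘(ℝ, E) x) u
  have hd := contDiff_cst (V := TangentSpace 𝓘(ℝ, E) x) u
  exact contMDiff_dE F.isExp x hc hd

omit [FiniteDimensional ℝ E] in
theorem contDiff_ip_tb {c : ℝ → M} {v w : ℝ → E}
    (hv : ContMDiff 𝓘(ℝ, ℝ) 𝓘(ℝ, E).tangent ∞ (fun t : ℝ => tb (c t) (v t)))
    (hw : ContMDiff 𝓘(ℝ, ℝ) 𝓘(ℝ, E).tangent ∞ (fun t : ℝ => tb (c t) (w t))) :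
    ContDiff ℝ ∞ (fun t => ip (c t) (v t) (w t)) := by
  have h := ContMDiff.inner_bundle (E := fun x : M => TangentSpace 𝓘(ℝ, E) x) (b := c)
    (v := v) (w := w) hv hw
  exact h.contDiff

theorem contDiff_ip_jf (F : Facts e) (x : M) (u : E) (a b : ℝ) (w z : E) :
    ContDiff ℝ ∞ (fun t => ip (gam e x u t) (jf e x u a t w) (jf e x u b t z)) :=
  contDiff_ip_tb (contMDiff_jf F x u a w) (contMDiff_jf F x u b z)

theorem contDiff_ip_jf_vel (F : Facts e) (x : M) (u : E) (a : ℝ) (w : E) :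
    ContDiff ℝ ∞ (fun t => ip (gam e x u t) (jf e x u a t w) (vel e x u t)) :=
  contDiff_ip_tb (contMDiff_jf F x u a w) (contMDiff_vel F x u)

omit [FiniteDimensional ℝ E] [IsManifold 𝓘(ℝ, E) ∞ M]
  [IsContMDiffRiemannianBundle 𝓘(ℝ, E) ∞ E fun x : M => TangentSpace 𝓘(ℝ, E) x] in
theorem ip_smul_right (x : M) (c : ℝ) (v w : E) : ip x v (c • w) = c * ip x v w := by
  unfold ip
  exact real_inner_smul_right (F := TangentSpace 𝓘(ℝ, E) x) _ _ _

theorem hasDerivAt_ip_jf (F : Facts e) (x : M) (u : E) (a b : ℝ) (w z : E) :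
    HasDerivAt (fun t => ip (gam e x u t) (jf e x u a t w) (jf e x u b t z))
      (ip (gam e x u b) (jf e x u a b w) z) b := by
  have hY : ContMDiff 𝓘(ℝ, ℝ) 𝓘(ℝ, E).tangent ∞
      (fun t : ℝ => tb (gam e x u t) (dE e (gam e x u b) ((t - b) • vel e x u b) z)) := by
    have hc := contDiff_line (V := TangentSpace 𝓘(ℝ, E) (gam e x u b)) (vel (E := E) e x u b : E) b
    have hd := contDiff_cst (V := TangentSpace 𝓘(ℝ, E) (gam e x u b)) z
    have h := contMDiff_dE F.isExp (gam e x u b) hc hd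
    refine h.congr fun t => ?_
    refine tb_congr ?_ rfl
    have := gam_flow F x u b (t - b)
    rw [add_sub_cancel] at this
    exact this.symm
  have hg := contDiff_ip_tb (contMDiff_jf F x u a w) hY
  have hg' := (hg.differentiable (by simp)).differentiableAt (x := b)
  have h1 : HasDerivAt (fun t : ℝ => t - b) 1 b := (hasDerivAt_id b).sub_const b
  have h2 := h1.mul hg'.hasDerivAt
  have h3 : (fun t => ip (gam e x u t) (jf e x u a t w) (jf e x u b t z)) =
      (fun t : ℝ => t - b) * (fun t => ip (gam e x u t) (jf e x u a t w)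
        (dE e (gam e x u b) ((t - b) • vel e x u b) z)) := by
    funext t
    rw [Pi.mul_apply, ← ip_smul_right]
    rfl
  rw [h3]
  refine h2.congr_deriv ?_
  rw [sub_self, zero_mul, add_zero, one_mul, zero_smul, dE_zero_base F.isExp]

end

end Vale.Agent.P231
end
end
end

section

section

section

/-! P231 geometry: symmetry of the mixed second derivative of the cost near the diagonal. -/

set_option maxSynthPendingDepth 3

open Bundle Manifold Set Filter
open scoped ContDiff Manifold Topology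

namespace Vale.Agent.P231

noncomputable section

open Vale.Agent.P234

variable {E : Type*} [NormedAddCommGroup E] [NormedSpace ℝ E] [FiniteDimensional ℝ E]
  {M : Type*} [MetricSpace M] [ChartedSpace E M]
  [RiemannianBundle (fun x : M => TangentSpace 𝓘(ℝ, E) x)]
  [IsManifold 𝓘(ℝ, E) ∞ M]
  [IsContMDiffRiemannianBundle 𝓘(ℝ, E) ∞ E (fun x : M => TangentSpace 𝓘(ℝ, E) x)]
  {e : ∀ x : M, TangentSpace 𝓘(ℝ, E) x → M}

theorem fderiv_apply_of_has {V : Type*} [NormedAddCommGroup V] [NormedSpace ℝ V] {f : V → ℝ}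
    {L : V →L[ℝ] ℝ} {c : V} (h : HasFDerivAt f L c) (z : V) : fderiv ℝ f c z = L z := by
  rw [h.fderiv]

/-- Raw gradient formula. -/
theorem fderiv_cost_raw (he : IsExp e) {y x : M} {c : TangentSpace 𝓘(ℝ, E) y}
    (hyx : e y c = x) (b : TangentSpace 𝓘(ℝ, E) x) (hb : b ∈ segMin e x)
    (hs : SmoothAt E x (e x b)) (z : TangentSpace 𝓘(ℝ, E) y) :
    fderiv ℝ (fun a' : TangentSpace 𝓘(ℝ, E) y => cost (e y a') (e x b)) c z =
      -inner ℝ b (show TangentSpace 𝓘(ℝ, E) x from dE (E := E) e y c z) := by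
  subst hyx
  exact fderiv_apply_of_has (hasFDerivAt_cost he y c b hb hs) z

/-- One mixed second derivative of the cost. -/
theorem hess_cost_mixed (he : IsExp e) {x y : M} {a : TangentSpace 𝓘(ℝ, E) x}
    {c : TangentSpace 𝓘(ℝ, E) y} (hxy : e x a = y) (hyx : e y c = x)
    (ha : ∀ᶠ a' in 𝓝 a, a' ∈ segMin e x) (hs : SmoothAt E x y)
    (w : TangentSpace 𝓘(ℝ, E) x) (z : TangentSpace 𝓘(ℝ, E) y) :
    hess (fun p : TangentSpace 𝓘(ℝ, E) y × TangentSpace 𝓘(ℝ, E) x =>
      cost (e y p.1) (e x p.2)) (c, a) (0, w) (z, 0) =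
        -inner ℝ w (show TangentSpace 𝓘(ℝ, E) x from dE (E := E) e y c z) := by
  have hF : ContDiffAt ℝ ∞ (fun p : TangentSpace 𝓘(ℝ, E) y × TangentSpace 𝓘(ℝ, E) x =>
      cost (e y p.1) (e x p.2)) (c, a) := by
    apply SmoothAt.coord he
    rw [hyx, hxy]
    exact hs
  refine hess_mixed hF z w ?_
  have hsm : ∀ᶠ b in 𝓝 a, SmoothAt E x (e x b) := by
    have h5 := hs.eventually
    have h6 : Tendsto (fun b : TangentSpace 𝓘(ℝ, E) x => (x, e x b)) (𝓝 a) (𝓝 (x, y)) := by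
      have h7 : Continuous (e x) := (contMDiff_exp_fiber he x).continuous
      have h9 : Continuous (fun b : TangentSpace 𝓘(ℝ, E) x => (x, e x b)) :=
        continuous_const.prodMk h7
      have h8 := h9.tendsto a
      rwa [hxy] at h8
    exact h6.eventually h5
  have hcont : Tendsto (fun s : ℝ => a + s • w) (𝓝 0) (𝓝 a) := by
    have : Continuous (fun s : ℝ => a + s • w) := by fun_prop
    have h4 := this.tendsto 0
    simpa only [zero_smul, add_zero] using h4
  set d : TangentSpace 𝓘(ℝ, E) x := show TangentSpace 𝓘(ℝ, E) x from dE (E := E) e y c z with hd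
  have hev : (fun s : ℝ => fderiv ℝ (fun a' : TangentSpace 𝓘(ℝ, E) y =>
      cost (e y a') (e x (a + s • w))) c z) =ᶠ[𝓝 0]
      fun s : ℝ => -(inner ℝ a d + s * inner ℝ w d) := by
    filter_upwards [hcont.eventually hsm, hcont.eventually ha] with s h8 h9
    rw [fderiv_cost_raw he hyx _ h9 h8, ← hd, inner_add_left, real_inner_smul_left]
  have h10 : HasDerivAt (fun s : ℝ => -(inner ℝ a d + s * inner ℝ w d))
      (-inner ℝ w d) 0 := by
    have h12 := (((hasDerivAt_id' (0:ℝ)).mul_const (inner ℝ w d)).const_add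
      (inner ℝ a d)).neg
    rw [one_mul] at h12
    exact h12
  exact h10.congr_of_eventuallyEq hev

/-- Symmetry of the mixed second derivative of the cost. -/
theorem two_point (he : IsExp e) {x y : M} {a : TangentSpace 𝓘(ℝ, E) x}
    {c : TangentSpace 𝓘(ℝ, E) y} (hxy : e x a = y) (hyx : e y c = x)
    (ha : ∀ᶠ a' in 𝓝 a, a' ∈ segMin e x) (hc : ∀ᶠ c' in 𝓝 c, c' ∈ segMin e y)
    (hs : SmoothAt E x y) (w : TangentSpace 𝓘(ℝ, E) x) (z : TangentSpace 𝓘(ℝ, E) y) :
    inner ℝ w (show TangentSpace 𝓘(ℝ, E) x from dE (E := E) e y c z) =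
      inner ℝ z (show TangentSpace 𝓘(ℝ, E) y from dE (E := E) e x a w) := by
  have h1 := hess_cost_mixed he hxy hyx ha hs w z
  have h2 := hess_cost_mixed he hyx hxy hc hs.symm z w
  have hF : ContDiffAt ℝ ∞ (fun p : TangentSpace 𝓘(ℝ, E) y × TangentSpace 𝓘(ℝ, E) x =>
      cost (e y p.1) (e x p.2)) (c, a) := by
    apply SmoothAt.coord he
    rw [hyx, hxy]
    exact hs
  have hF2 := hF.of_le two_le_infty
  have h3 := hess_comp_affine hF2 ((ContinuousLinearMap.snd ℝ (TangentSpace 𝓘(ℝ, E) x)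
    (TangentSpace 𝓘(ℝ, E) y)).prod (ContinuousLinearMap.fst ℝ (TangentSpace 𝓘(ℝ, E) x)
    (TangentSpace 𝓘(ℝ, E) y))) (a, c) 0 (by simp only [ContinuousLinearMap.prod_apply, ContinuousLinearMap.coe_snd', ContinuousLinearMap.coe_fst', zero_add]) (0, z) (w, 0)
  simp only [zero_add, ContinuousLinearMap.prod_apply, ContinuousLinearMap.coe_fst',
    ContinuousLinearMap.coe_snd'] at h3
  have h4 : (fun p : TangentSpace 𝓘(ℝ, E) x × TangentSpace 𝓘(ℝ, E) y =>
      cost (e y p.2) (e x p.1)) = fun p => cost (e x p.1) (e y p.2) := by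
    funext p
    exact cost_comm _ _
  rw [h4, h2, hess_symm hF2, h1] at h3
  linarith only [h3]

omit [FiniteDimensional ℝ E] [IsManifold 𝓘(ℝ, E) ∞ M]
  [IsContMDiffRiemannianBundle 𝓘(ℝ, E) ∞ E (fun x : M => TangentSpace 𝓘(ℝ, E) x)] in
theorem anti_ip_smul_left (x : M) (r : ℝ) (a b : E) : ip x (r • a) b = r * ip x a b :=
  real_inner_smul_left (F := TangentSpace 𝓘(ℝ, E) x) a b r

omit [FiniteDimensional ℝ E] [IsManifold 𝓘(ℝ, E) ∞ M]
  [IsContMDiffRiemannianBundle 𝓘(ℝ, E) ∞ E (fun x : M => TangentSpace 𝓘(ℝ, E) x)] in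
theorem anti_ip_smul_right (x : M) (r : ℝ) (a b : E) : ip x a (r • b) = r * ip x a b :=
  real_inner_smul_right (F := TangentSpace 𝓘(ℝ, E) x) a b r

/-- `exists_anti` with the two needed facts of Flow.lean as hypotheses. -/
theorem exists_anti_aux (F : Facts e)
    (gam_flow : ∀ (x : M) (u : E) (s t : ℝ),
      gam e (gam e x u s) (vel e x u s) t = gam e x u (s + t))
    (nm_vel : ∀ (x : M) (u : E) (t : ℝ), nm (gam e x u t) (vel e x u t) = nm x u) : ∃ ρ : ℝ, 0 < ρ ∧ ∀ (x : M) (u : E),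
    nm x u = 1 → ∀ s t, |t - s| < ρ → ∀ w z : E,
      ip (gam e x u t) (jf e x u s t w) z = -ip (gam e x u s) w (jf e x u t s z) := by
  obtain ⟨ρ, hρ, hmin⟩ := F.isExp.minimizing
  refine ⟨ρ, hρ, fun x u hu s t hst w z => ?_⟩
  have he := F.isExp
  have hseg : ∀ (y : M) (v : TangentSpace 𝓘(ℝ, E) y), ‖v‖ < ρ → v ∈ segMin e y := by
    intro y v hv
    have h1 := hmin y v 0 1 (by simpa only [sub_zero, abs_one, mul_one] using hv.le)
    rw [zero_smul, one_smul, he.map_zero] at h1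
    change dist _ _ = _
    simpa using h1
  have hinj : ∀ (y : M) (v : TangentSpace 𝓘(ℝ, E) y), ‖v‖ < ρ → v ∈ injDomain e y := by
    intro y v hv
    obtain ⟨r, hr1, hr2⟩ : ∃ r : ℝ, 1 < r ∧ ‖v‖ * r ≤ ρ := by
      rcases (norm_nonneg v).eq_or_lt with h0 | h0
      · exact ⟨2, one_lt_two, by rw [← h0, zero_mul]; exact hρ.le⟩
      · exact ⟨ρ / ‖v‖, by rw [lt_div_iff₀ h0]; simpa using hv, by
          rw [mul_div_cancel₀ _ h0.ne']⟩
    refine ⟨r, hr1, ?_⟩
    have h1 := hmin y v 0 r (by rwa [sub_zero, abs_of_pos (by linarith)])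
    rw [zero_smul, he.map_zero, sub_zero, abs_of_pos (by linarith only [hr1] : (0 : ℝ) < r)] at h1
    rw [h1, mul_comm]
  have hev : ∀ (y : M) (v : TangentSpace 𝓘(ℝ, E) y), ‖v‖ < ρ →
      ∀ᶠ v' in 𝓝 v, v' ∈ segMin e y := by
    intro y v hv
    have h1 : ∀ᶠ v' in 𝓝 v, ‖v'‖ < ρ := continuous_norm.continuousAt.eventually_lt
      continuousAt_const hv
    filter_upwards [h1] with v' hv' using hseg y v' hv'
  have hnorm : ∀ r τ : ℝ, |r| < ρ → ‖(r • (show TangentSpace 𝓘(ℝ, E) (gam e x u τ) from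
      vel (E := E) e x u τ) : TangentSpace 𝓘(ℝ, E) (gam e x u τ))‖ < ρ := by
    intro r τ hr
    have h1 : ‖(show TangentSpace 𝓘(ℝ, E) (gam e x u τ) from vel (E := E) e x u τ)‖ = 1 :=
      (nm_vel x u τ).trans hu
    rw [norm_smul, h1, mul_one, Real.norm_eq_abs]
    exact hr
  have h1 := hnorm (t - s) s hst
  have h2 := hnorm (s - t) t (by rwa [abs_sub_comm])
  have hxy : e (gam e x u s) ((t - s) • (show TangentSpace 𝓘(ℝ, E) (gam e x u s) from
      vel (E := E) e x u s)) = gam e x u t := by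
    have := gam_flow x u s (t - s)
    rw [add_sub_cancel] at this
    exact this
  have hyx : e (gam e x u t) ((s - t) • (show TangentSpace 𝓘(ℝ, E) (gam e x u t) from
      vel (E := E) e x u t)) = gam e x u s := by
    have := gam_flow x u t (s - t)
    rw [add_sub_cancel] at this
    exact this
  have hs := F.smooth_cost _ _ (hinj _ _ h1)
  rw [hxy] at hs
  have key := two_point he hxy hyx (hev _ _ h1) (hev _ _ h2) hs w z
  unfold jf
  rw [anti_ip_smul_left, anti_ip_smul_right]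
  have k1 : ip (gam e x u t) (dE e (gam e x u s) ((t - s) • vel e x u s) w) z =
      ip (gam e x u s) w (dE e (gam e x u t) ((s - t) • vel e x u t) z) := by
    refine Eq.trans ?_ key.symm
    exact real_inner_comm (F := TangentSpace 𝓘(ℝ, E) (gam e x u t)) _ _
  rw [k1]
  ring

end

end Vale.Agent.P231
end
end
end

section

section

section

/-! P231 geometry: symmetry of the mixed second derivative of the cost near the diagonal. -/

set_option maxSynthPendingDepth 3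

open Bundle Manifold Set Filter
open scoped ContDiff Manifold Topology

namespace Vale.Agent.P231

noncomputable section

open Vale.Agent.P234

variable {E : Type*} [NormedAddCommGroup E] [NormedSpace ℝ E] [FiniteDimensional ℝ E]
  {M : Type*} [MetricSpace M] [ChartedSpace E M]
  [RiemannianBundle (fun x : M => TangentSpace 𝓘(ℝ, E) x)]
  [IsManifold 𝓘(ℝ, E) ∞ M]
  [IsContMDiffRiemannianBundle 𝓘(ℝ, E) ∞ E (fun x : M => TangentSpace 𝓘(ℝ, E) x)]
  {e : ∀ x : M, TangentSpace 𝓘(ℝ, E) x → M}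

theorem exists_anti [CompactSpace M] (F : Facts e) : ∃ ρ : ℝ, 0 < ρ ∧ ∀ (x : M) (u : E),
    nm x u = 1 → ∀ s t, |t - s| < ρ → ∀ w z : E,
      ip (gam e x u t) (jf e x u s t w) z = -ip (gam e x u s) w (jf e x u t s z) :=
  exists_anti_aux F (fun x u s t => gam_flow F x u s t) (fun x u t => nm_vel F x u t)

end

end Vale.Agent.P231
end
end
end

section

section

section

/-! P231 geometry G4: two-point formula for close times. -/

set_option maxSynthPendingDepth 3
set_option linter.unusedSectionVars false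

open Bundle Manifold Set Filter
open scoped ContDiff Manifold Topology

namespace Vale.Agent.P231

noncomputable section

open Vale.Agent.P234

variable {E : Type*} [NormedAddCommGroup E] [NormedSpace ℝ E] [FiniteDimensional ℝ E]
  {M : Type*} [MetricSpace M] [ChartedSpace E M]
  [RiemannianBundle (fun x : M => TangentSpace 𝓘(ℝ, E) x)]
  [IsManifold 𝓘(ℝ, E) ∞ M]
  [IsContMDiffRiemannianBundle 𝓘(ℝ, E) ∞ E (fun x : M => TangentSpace 𝓘(ℝ, E) x)]
  {e : ∀ x : M, TangentSpace 𝓘(ℝ, E) x → M}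

/-- scaling of tangent vectors is smooth -/
lemma rel_scale (τ : ℝ) : ContMDiff 𝓘(ℝ, E).tangent 𝓘(ℝ, E).tangent ∞
    (fun p : TangentBundle 𝓘(ℝ, E) M =>
      (⟨p.proj, τ • p.snd⟩ : TangentBundle 𝓘(ℝ, E) M)) := by
  intro p
  rw [Bundle.contMDiffAt_totalSpace]
  refine ⟨Bundle.contMDiffAt_proj _, ?_⟩
  have h1 : ContMDiffAt 𝓘(ℝ, E).tangent 𝓘(ℝ, E) ∞
      (fun q : TangentBundle 𝓘(ℝ, E) M =>
        (trivializationAt E (TangentSpace 𝓘(ℝ, E)) p.proj q).2) p :=
    (Bundle.contMDiffAt_totalSpace.1 (contMDiffAt_id (x := p))).2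
  have h2 : ContMDiffAt 𝓘(ℝ, E).tangent 𝓘(ℝ, E) ∞
      (fun q : TangentBundle 𝓘(ℝ, E) M =>
        τ • (trivializationAt E (TangentSpace 𝓘(ℝ, E)) p.proj q).2) p :=
    ((τ • ContinuousLinearMap.id ℝ E).contMDiff (n := ∞)).contMDiffAt.comp p h1
  refine h2.congr_of_eventuallyEq ?_
  have h3 : ∀ᶠ q : TangentBundle 𝓘(ℝ, E) M in 𝓝 p,
      q.proj ∈ (trivializationAt E (TangentSpace 𝓘(ℝ, E)) p.proj).baseSet := by
    have hc : ContinuousAt (fun q : TangentBundle 𝓘(ℝ, E) M => q.proj) p :=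
      (FiberBundle.continuous_proj E _).continuousAt
    exact hc.eventually (((trivializationAt E (TangentSpace 𝓘(ℝ, E)) p.proj).open_baseSet).mem_nhds
      (FiberBundle.mem_baseSet_trivializationAt' p.proj))
  filter_upwards [h3] with q hq
  have h4 := (trivializationAt E (TangentSpace 𝓘(ℝ, E)) p.proj).linear ℝ hq
  exact h4.map_smul τ q.snd

/-- short vectors are determined by their exponential -/
lemma rel_unique [CompactSpace M] (he : IsExp e) : ∃ ρ : ℝ, 0 < ρ ∧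
    ∀ (x : M) (v w : TangentSpace 𝓘(ℝ, E) x), ‖v‖ < ρ → ‖w‖ < ρ → e x v = e x w → v = w := by
  obtain ⟨ρ, hρ, hm, hs⟩ := sh_scale he
  refine ⟨ρ, hρ, fun x v w hv hw hvw => ?_⟩
  have key : ∀ z : TangentSpace 𝓘(ℝ, E) x, ‖z‖ < ρ → dist x (e x z) = ‖z‖ := by
    intro z hz
    have h := hm x z 0 1 (by simpa only [sub_zero, abs_one, mul_one] using hz.le)
    rw [zero_smul, he.map_zero, one_smul] at h
    simpa using h
  exact sh_unique he (key w hw) (key v hv) (hs x (e x w) (by rw [key w hw]; exact hw)).1 hvw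

/-- uniform local logarithm near the diagonal -/
lemma rel_log [CompactSpace M] (he : IsExp e) {ρ₀ : ℝ} (hρ₀ : 0 < ρ₀) :
    ∃ ρ : ℝ, 0 < ρ ∧ ∀ x y : M, dist x y < ρ →
      ∃ V : M × M → TangentBundle 𝓘(ℝ, E) M, ∀ᶠ p in 𝓝 ((x, y) : M × M),
        ContMDiffAt (𝓘(ℝ, E).prod 𝓘(ℝ, E)) 𝓘(ℝ, E).tangent ∞ V p ∧
        (V p).proj = p.1 ∧ e (V p).proj (V p).snd = p.2 ∧ ‖(V p).snd‖ < ρ₀ := by
  have key : ∀ x₀ : M, ∀ᶠ p in 𝓝 ((x₀, x₀) : M × M),
      ∃ V : M × M → TangentBundle 𝓘(ℝ, E) M, ∀ᶠ q in 𝓝 p,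
        ContMDiffAt (𝓘(ℝ, E).prod 𝓘(ℝ, E)) 𝓘(ℝ, E).tangent ∞ V q ∧
        (V q).proj = q.1 ∧ e (V q).proj (V q).snd = q.2 ∧ ‖(V q).snd‖ < ρ₀ := by
    intro x₀
    obtain ⟨V, hV0, hV⟩ := exists_local_log_open he x₀
    have hc : Tendsto (fun p => ‖(V p).snd‖) (𝓝 (x₀, x₀)) (𝓝 0) := by
      have h1 : ContinuousAt (fun p => ‖(V p).snd‖) (x₀, x₀) :=
        continuous_norm_snd.continuousAt.comp hV.self_of_nhds.1.continuousAt
      have h2 := h1.tendsto
      rw [hV0] at h2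
      simpa only [norm_zero] using h2
    have hnear : ∀ᶠ p in 𝓝 ((x₀, x₀) : M × M),
        ContMDiffAt (𝓘(ℝ, E).prod 𝓘(ℝ, E)) 𝓘(ℝ, E).tangent ∞ V p ∧
        (V p).proj = p.1 ∧ e (V p).proj (V p).snd = p.2 ∧ ‖(V p).snd‖ < ρ₀ := by
      filter_upwards [hV, hc.eventually (gt_mem_nhds hρ₀)] with p hp hp2
      exact ⟨hp.1, hp.2.1, hp.2.2, hp2⟩
    filter_upwards [eventually_eventually_nhds.2 hnear] with p hp
    exact ⟨V, hp⟩
  have hdiag : ∀ᶠ p in 𝓝ˢ (diagonal M),
      ∃ V : M × M → TangentBundle 𝓘(ℝ, E) M, ∀ᶠ q in 𝓝 p,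
        ContMDiffAt (𝓘(ℝ, E).prod 𝓘(ℝ, E)) 𝓘(ℝ, E).tangent ∞ V q ∧
        (V q).proj = q.1 ∧ e (V q).proj (V q).snd = q.2 ∧ ‖(V q).snd‖ < ρ₀ := by
    rw [eventually_nhdsSet_iff_forall]
    rintro ⟨x, y⟩ hxy
    have : x = y := hxy
    subst this
    exact key x
  rw [nhdsSet_diagonal_eq_uniformity] at hdiag
  obtain ⟨ρ, hρ, h⟩ := Metric.mem_uniformity_dist.1 hdiag
  exact ⟨ρ, hρ, fun x y hxy => h hxy⟩

/-- the point at fraction `τ` of the short geodesic given by a local logarithm `V` -/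
def relPsi (e : ∀ x : M, TangentSpace 𝓘(ℝ, E) x → M)
    (V : M × M → TangentBundle 𝓘(ℝ, E) M) (τ : ℝ) (p : M × M) : M :=
  e (V p).proj (τ • (V p).snd)

lemma rel_contMDiffAt_psi (he : IsExp e) {V : M × M → TangentBundle 𝓘(ℝ, E) M} {p : M × M}
    (hV : ContMDiffAt (𝓘(ℝ, E).prod 𝓘(ℝ, E)) 𝓘(ℝ, E).tangent ∞ V p) (τ : ℝ) :
    ContMDiffAt (𝓘(ℝ, E).prod 𝓘(ℝ, E)) 𝓘(ℝ, E) ∞ (relPsi e V τ) p := by
  have h1 : ContMDiff 𝓘(ℝ, E).tangent 𝓘(ℝ, E) ∞
      (fun q : TangentBundle 𝓘(ℝ, E) M => e q.proj (τ • q.snd)) := he.smooth.comp (rel_scale τ)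
  exact (h1 (V p)).comp p hV

/-- the curve of points at time `t` for the variation `v + ε w` -/
def relK (e : ∀ x : M, TangentSpace 𝓘(ℝ, E) x → M) (y : M) (v w : TangentSpace 𝓘(ℝ, E) y)
    (r : ℝ) (ε : ℝ) : M :=
  e y (r • (v + ε • w))

lemma rel_contDiff_line (y : M) (v w : TangentSpace 𝓘(ℝ, E) y) (r : ℝ) :
    ContDiff ℝ ∞ (fun ε : ℝ => r • (v + ε • w)) :=
  contDiff_const.smul (contDiff_const.add (contDiff_id.smul contDiff_const))

lemma rel_contMDiff_K (he : IsExp e) (y : M) (v w : TangentSpace 𝓘(ℝ, E) y) (r : ℝ) :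
    ContMDiff 𝓘(ℝ, ℝ) 𝓘(ℝ, E) ∞ (relK e y v w r) :=
  (contMDiff_exp_fiber he y).comp (rel_contDiff_line y v w r).contMDiff

/-- derivative of a curve composed with a map from a vector space -/
lemma rel_comp_line {F : Type*} [NormedAddCommGroup F] [NormedSpace ℝ F] {N : Type*}
    [TopologicalSpace N] [ChartedSpace E N] {f : F → N} {κ : ℝ → F} {κ' : F} {r : ℝ}
    (hf : MDifferentiableAt 𝓘(ℝ, F) 𝓘(ℝ, E) f (κ r)) (hκ : HasDerivAt κ κ' r) :
    (mfderiv 𝓘(ℝ, ℝ) 𝓘(ℝ, E) (fun t => f (κ t)) r (1 : ℝ) : E) =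
      mfderiv 𝓘(ℝ, F) 𝓘(ℝ, E) f (κ r) κ' := by
  have h3 := mfderiv_comp (I := 𝓘(ℝ, ℝ)) (I' := 𝓘(ℝ, F)) (I'' := 𝓘(ℝ, E)) r hf
    hκ.differentiableAt.mdifferentiableAt
  have h4 : (mfderiv 𝓘(ℝ, ℝ) 𝓘(ℝ, F) κ r (1 : ℝ) : F) = κ' := by
    rw [mfderiv_eq_fderiv, hκ.hasFDerivAt.fderiv]
    exact one_smul ℝ κ'
  have h5 := congrArg (fun L => (L (1 : ℝ) : E)) h3
  refine h5.trans ?_
  change (mfderiv 𝓘(ℝ, F) 𝓘(ℝ, E) f (κ r) (mfderiv 𝓘(ℝ, ℝ) 𝓘(ℝ, F) κ r (1 : ℝ)) : E) = _
  rw [h4]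

lemma rel_deriv_K (he : IsExp e) (y : M) (v w : TangentSpace 𝓘(ℝ, E) y) (r : ℝ) :
    (mfderiv 𝓘(ℝ, ℝ) 𝓘(ℝ, E) (relK e y v w r) 0 (1 : ℝ) : E) = r • dE e y (r • v) w := by
  have h1 : MDifferentiableAt 𝓘(ℝ, TangentSpace 𝓘(ℝ, E) y) 𝓘(ℝ, E) (e y)
      (r • (v + (0 : ℝ) • w)) :=
    (contMDiff_exp_fiber he y).mdifferentiableAt (by simp)
  have h5 : HasDerivAt (fun ε : ℝ => r • (v + ε • w)) (r • w) 0 := by
    have h6 : HasDerivAt (fun ε : ℝ => ε • w) ((1 : ℝ) • w) 0 :=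
      (hasDerivAt_id (0 : ℝ)).smul_const w
    rw [one_smul] at h6
    exact (h6.const_add v).const_smul r
  have h7 := rel_comp_line (f := e y) (κ := fun ε : ℝ => r • (v + ε • w)) h1 h5
  refine h7.trans ?_
  have h8 : r • (v + (0 : ℝ) • w) = r • v := by rw [zero_smul, add_zero]
  change (mfderiv 𝓘(ℝ, TangentSpace 𝓘(ℝ, E) y) 𝓘(ℝ, E) (e y) (r • (v + (0 : ℝ) • w)) (r • w) : E)
    = r • dE e y (r • v) w
  have h9 : ∀ z z' : TangentSpace 𝓘(ℝ, E) y, z = z' →
      (mfderiv 𝓘(ℝ, TangentSpace 𝓘(ℝ, E) y) 𝓘(ℝ, E) (e y) z (r • w) : E) =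
        r • dE e y z' w := by
    rintro z z' rfl
    exact (mfderiv 𝓘(ℝ, TangentSpace 𝓘(ℝ, E) y) 𝓘(ℝ, E) (e y) z).map_smul r w
  exact h9 _ _ h8

/-- flow property with the explicit velocity -/
lemma rel_flow (F : Facts e) (x : M) (u : TangentSpace 𝓘(ℝ, E) x) (s : ℝ) :
    nm (gam e x u s) (vel e x u s) = ‖u‖ ∧
      ∀ t : ℝ, gam e (gam e x u s) (vel e x u s) t = gam e x u (s + t) := by
  obtain ⟨w, hw, hwt⟩ := F.flow x u s
  have h1 := F.isExp.velocity (e x (s • u)) w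
  have h2 : (fun t : ℝ => e (e x (s • u)) (t • w)) = fun t : ℝ => e x ((s + t) • u) :=
    funext hwt
  have h3 : MDifferentiableAt 𝓘(ℝ, TangentSpace 𝓘(ℝ, E) x) 𝓘(ℝ, E) (e x)
      ((s + (0 : ℝ)) • u) :=
    (contMDiff_exp_fiber F.isExp x).mdifferentiableAt (by simp)
  have h4 : HasDerivAt (fun t : ℝ => (s + t) • u) u 0 := by
    have h6 : HasDerivAt (fun t : ℝ => (s + t) • u) ((1 : ℝ) • u) 0 :=
      ((hasDerivAt_id (0 : ℝ)).const_add s).smul_const u
    rwa [one_smul] at h6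
  have h5 := rel_comp_line (f := e x) (κ := fun t : ℝ => (s + t) • u) h3 h4
  have h6 : ∀ f g : ℝ → M, f = g →
      (mfderiv 𝓘(ℝ, ℝ) 𝓘(ℝ, E) f 0 (1 : ℝ) : E) = mfderiv 𝓘(ℝ, ℝ) 𝓘(ℝ, E) g 0 (1 : ℝ) := by
    rintro f g rfl
    rfl
  have h7 : ∀ z z' : TangentSpace 𝓘(ℝ, E) x, z = z' →
      (mfderiv 𝓘(ℝ, TangentSpace 𝓘(ℝ, E) x) 𝓘(ℝ, E) (e x) z u : E) = dE e x z' u := by
    rintro z z' rfl
    rfl
  have h8 : (w : E) = vel e x u s := by
    refine h1.symm.trans ((h6 _ _ h2).trans (h5.trans ?_))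
    exact h7 _ _ (by rw [add_zero]; rfl)
  have h9 : ∀ z z' : E, z = z' → nm (gam e x u s) z = nm (gam e x u s) z' := by
    rintro z z' rfl
    rfl
  refine ⟨(h9 _ _ h8).symm.trans hw, fun t => ?_⟩
  have h11 : ∀ z z' : E, z = z' → gam e (gam e x u s) z t = gam e (gam e x u s) z' t := by
    rintro z z' rfl
    rfl
  exact (h11 _ _ h8).symm.trans (hwt t)

/-- flow property with a free base point -/
lemma rel_flow_at (F : Facts e) {x : M} (v : TangentSpace 𝓘(ℝ, E) x) (s : ℝ) {x' : M}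
    (hx' : e x (s • v) = x') :
    ∃ w : TangentSpace 𝓘(ℝ, E) x', ‖w‖ = ‖v‖ ∧ ∀ t : ℝ, e x' (t • w) = e x ((s + t) • v) := by
  subst hx'
  exact F.flow x v s

/-- the variation through geodesics is recovered from its values at two close times -/
lemma relK_eq (F : Facts e) {ρ : ℝ}
    (hu : ∀ (x : M) (v w : TangentSpace 𝓘(ℝ, E) x), ‖v‖ < ρ → ‖w‖ < ρ → e x v = e x w → v = w)
    (y : M) (v w : TangentSpace 𝓘(ℝ, E) y) {s a b t : ℝ} (hab : a < b) (hv : (b - a) * ‖v‖ < ρ)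
    {V : M × M → TangentBundle 𝓘(ℝ, E) M}
    (hV : ∀ᶠ p in 𝓝 ((e y ((a - s) • v), e y ((b - s) • v)) : M × M),
      (V p).proj = p.1 ∧ e (V p).proj (V p).snd = p.2 ∧ ‖(V p).snd‖ < ρ) :
    ∀ᶠ ε in 𝓝 (0 : ℝ), relK e y v w (t - s) ε =
      relPsi e V ((t - a) / (b - a)) (relK e y v w (a - s) ε, relK e y v w (b - s) ε) := by
  have hba : 0 < b - a := by linarith only [hab]
  have h1 : ∀ᶠ ε in 𝓝 (0 : ℝ), (b - a) * ‖v + ε • w‖ < ρ := by
    have hc : Continuous (fun ε : ℝ => (b - a) * ‖v + ε • w‖) :=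
      continuous_const.mul (continuous_const.add (continuous_id.smul continuous_const)).norm
    have h2 := hc.tendsto 0
    simp only [zero_smul, add_zero] at h2
    exact h2.eventually (gt_mem_nhds hv)
  have h2 : Tendsto (fun ε : ℝ => ((relK e y v w (a - s) ε, relK e y v w (b - s) ε) : M × M))
      (𝓝 0) (𝓝 (e y ((a - s) • v), e y ((b - s) • v))) := by
    have h3 : Continuous (fun ε : ℝ =>
        ((relK e y v w (a - s) ε, relK e y v w (b - s) ε) : M × M)) :=
      (rel_contMDiff_K F.isExp y v w (a - s)).continuous.prodMk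
        (rel_contMDiff_K F.isExp y v w (b - s)).continuous
    have h4 := h3.tendsto 0
    simpa only [relK, zero_smul, add_zero] using h4
  filter_upwards [h1, h2.eventually hV] with ε hε hVε
  obtain ⟨hV1, hV2, hV3⟩ := hVε
  set z := v + ε • w with hz
  have hV1' : (V (relK e y v w (a - s) ε, relK e y v w (b - s) ε)).proj =
    e y ((a - s) • z) := hV1
  have hV2' : e (V (relK e y v w (a - s) ε, relK e y v w (b - s) ε)).proj
    (V (relK e y v w (a - s) ε, relK e y v w (b - s) ε)).snd = e y ((b - s) • z) := hV2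
  change e y ((t - s) • z) = e (V (relK e y v w (a - s) ε, relK e y v w (b - s) ε)).proj
    (((t - a) / (b - a)) • (V (relK e y v w (a - s) ε, relK e y v w (b - s) ε)).snd)
  generalize V (relK e y v w (a - s) ε, relK e y v w (b - s) ε) = p at hV1' hV2' hV3 ⊢
  obtain ⟨w', hw'1, hw'2⟩ := rel_flow_at F z (a - s) (x' := p.proj) hV1'.symm
  have h5 : p.snd = (b - a) • w' := by
    refine hu p.proj _ _ hV3 ?_ ?_
    · rw [norm_smul, Real.norm_eq_abs, abs_of_pos hba, hw'1]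
      exact hε
    · rw [hV2', hw'2]
      congr 2
      ring
  rw [h5, smul_smul, div_mul_cancel₀ _ hba.ne', hw'2]
  congr 2
  ring

/-- raw derivative of `relPsi` -/
def relL (e : ∀ x : M, TangentSpace 𝓘(ℝ, E) x → M)
    (V : M × M → TangentBundle 𝓘(ℝ, E) M) (τ : ℝ) (p : M × M) (z : E × E) : E :=
  mfderiv (𝓘(ℝ, E).prod 𝓘(ℝ, E)) 𝓘(ℝ, E) (relPsi e V τ) p z

lemma relL_add (V : M × M → TangentBundle 𝓘(ℝ, E) M) (τ : ℝ) (p : M × M) (z z' : E × E) :
    relL e V τ p (z + z') = relL e V τ p z + relL e V τ p z' :=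
  (mfderiv (𝓘(ℝ, E).prod 𝓘(ℝ, E)) 𝓘(ℝ, E) (relPsi e V τ) p).map_add z z'

lemma relL_zero (V : M × M → TangentBundle 𝓘(ℝ, E) M) (τ : ℝ) (p : M × M) :
    relL e V τ p (0 : E × E) = 0 :=
  (mfderiv (𝓘(ℝ, E).prod 𝓘(ℝ, E)) 𝓘(ℝ, E) (relPsi e V τ) p).map_zero

/-- chain rule for a function of two points along a curve -/
lemma rel_comp_pair {f : M × M → M} {k l : ℝ → M}
    (hf : MDifferentiableAt (𝓘(ℝ, E).prod 𝓘(ℝ, E)) 𝓘(ℝ, E) f (k 0, l 0))
    (hk : MDifferentiableAt 𝓘(ℝ, ℝ) 𝓘(ℝ, E) k 0) (hl : MDifferentiableAt 𝓘(ℝ, ℝ) 𝓘(ℝ, E) l 0) :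
    (mfderiv 𝓘(ℝ, ℝ) 𝓘(ℝ, E) (fun ε => f (k ε, l ε)) 0 (1 : ℝ) : E) =
      mfderiv (𝓘(ℝ, E).prod 𝓘(ℝ, E)) 𝓘(ℝ, E) f (k 0, l 0)
        (((mfderiv 𝓘(ℝ, ℝ) 𝓘(ℝ, E) k 0 (1 : ℝ) : E),
          (mfderiv 𝓘(ℝ, ℝ) 𝓘(ℝ, E) l 0 (1 : ℝ) : E)) : E × E) := by
  have h1 := mfderiv_comp (I := 𝓘(ℝ, ℝ)) (I' := 𝓘(ℝ, E).prod 𝓘(ℝ, E)) (I'' := 𝓘(ℝ, E))
    (f := fun ε => (k ε, l ε)) (0 : ℝ) hf (hk.prodMk hl)
  have h2 := mfderiv_prodMk hk hl
  rw [h2] at h1
  exact congrArg (fun L => (L (1 : ℝ) : E)) h1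

lemma rel_congr_raw {f g : ℝ → M} {r : ℝ} (h : f =ᶠ[𝓝 r] g) :
    (mfderiv 𝓘(ℝ, ℝ) 𝓘(ℝ, E) f r (1 : ℝ) : E) = mfderiv 𝓘(ℝ, ℝ) 𝓘(ℝ, E) g r (1 : ℝ) :=
  DFunLike.congr_fun (h.mfderiv_eq (I := 𝓘(ℝ, ℝ)) (I' := 𝓘(ℝ, E))) (1 : ℝ)

lemma rel_deriv (F : Facts e) {ρ : ℝ}
    (hu : ∀ (x : M) (v w : TangentSpace 𝓘(ℝ, E) x), ‖v‖ < ρ → ‖w‖ < ρ → e x v = e x w → v = w)
    (y : M) (v w : TangentSpace 𝓘(ℝ, E) y) {s a b t : ℝ} (hab : a < b) (hv : (b - a) * ‖v‖ < ρ)
    {V : M × M → TangentBundle 𝓘(ℝ, E) M}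
    (hV : ∀ᶠ p in 𝓝 ((e y ((a - s) • v), e y ((b - s) • v)) : M × M),
      ContMDiffAt (𝓘(ℝ, E).prod 𝓘(ℝ, E)) 𝓘(ℝ, E).tangent ∞ V p ∧
      (V p).proj = p.1 ∧ e (V p).proj (V p).snd = p.2 ∧ ‖(V p).snd‖ < ρ) :
    (t - s) • dE e y ((t - s) • v) w =
      relL e V ((t - a) / (b - a)) (e y ((a - s) • v), e y ((b - s) • v))
        ((a - s) • dE e y ((a - s) • v) w, (b - s) • dE e y ((b - s) • v) w) := by
  have h1 := relK_eq F hu y v w (t := t) hab hv (hV.mono fun p hp => hp.2)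
  have h2 : ∀ r : ℝ, relK e y v w r 0 = e y (r • v) := by
    intro r
    unfold relK
    rw [zero_smul, add_zero]
  have h3 : MDifferentiableAt (𝓘(ℝ, E).prod 𝓘(ℝ, E)) 𝓘(ℝ, E)
      (relPsi e V ((t - a) / (b - a))) (relK e y v w (a - s) 0, relK e y v w (b - s) 0) := by
    rw [h2, h2]
    exact (rel_contMDiffAt_psi F.isExp hV.self_of_nhds.1 _).mdifferentiableAt (by simp)
  have h4 : ∀ r : ℝ, MDifferentiableAt 𝓘(ℝ, ℝ) 𝓘(ℝ, E) (relK e y v w r) 0 := fun r =>
    (rel_contMDiff_K F.isExp y v w r).mdifferentiableAt (by simp)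
  have h5 := rel_comp_pair h3 (h4 _) (h4 _)
  have h6 := rel_congr_raw (E := E) (f := relK e y v w (t - s)) (g := fun ε =>
    relPsi e V ((t - a) / (b - a)) (relK e y v w (a - s) ε, relK e y v w (b - s) ε)) h1
  have h7 := rel_deriv_K F.isExp y v w (t - s)
  rw [rel_deriv_K F.isExp y v w (a - s), rel_deriv_K F.isExp y v w (b - s)] at h5
  refine h7.symm.trans (h6.trans (h5.trans ?_))
  rw [h2, h2]
  rfl

/-- raw differential of a vector valued function -/
def relD (f : M → E) (p : M) (w : E) : E := mfderiv 𝓘(ℝ, E) 𝓘(ℝ, E) f p w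

lemma relD_zero (f : M → E) (p : M) : relD f p (0 : E) = 0 :=
  (mfderiv 𝓘(ℝ, E) 𝓘(ℝ, E) f p).map_zero

/-- if the differential of the exponential map annihilates `X` along a ray then `X = 0` -/
lemma rel_inj (he : IsExp e) (y : M) (v X : TangentSpace 𝓘(ℝ, E) y)
    (h : ∀ r : ℝ, r ≠ 0 → dE e y (r • v) X = 0) : X = 0 := by
  set G : TangentSpace 𝓘(ℝ, E) y → E := fun z => extChartAt 𝓘(ℝ, E) y (e y z) with hG
  have hsrc : ∀ᶠ z in 𝓝 (0 : TangentSpace 𝓘(ℝ, E) y), e y z ∈ (chartAt E y).source := by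
    have h1 : ContinuousAt (e y) 0 := (contMDiff_exp_fiber he y).continuous.continuousAt
    have h2 : (chartAt E y).source ∈ 𝓝 (e y 0) := by
      rw [he.map_zero]
      exact chart_source_mem_nhds E y
    exact h1.eventually h2
  have hGd : ∀ z : TangentSpace 𝓘(ℝ, E) y, e y z ∈ (chartAt E y).source →
      ContDiffAt ℝ ∞ G z := by
    intro z hz
    rw [← contMDiffAt_iff_contDiffAt]
    exact (contMDiffAt_extChartAt' (I := 𝓘(ℝ, E)) (n := ∞) hz).comp z
      ((contMDiff_exp_fiber he y) z)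
  have hG0 : ContDiffAt ℝ ∞ G 0 := hGd 0 hsrc.self_of_nhds
  have hf : ∀ z : TangentSpace 𝓘(ℝ, E) y, e y z ∈ (chartAt E y).source →
      dE e y z X = 0 → fderiv ℝ G z X = 0 := by
    intro z hz hz0
    have h1 : MDifferentiableAt 𝓘(ℝ, E) 𝓘(ℝ, E) (extChartAt 𝓘(ℝ, E) y) (e y z) :=
      mdifferentiableAt_extChartAt hz
    have h2 : MDifferentiableAt 𝓘(ℝ, TangentSpace 𝓘(ℝ, E) y) 𝓘(ℝ, E) (e y) z :=
      (contMDiff_exp_fiber he y).mdifferentiableAt (by simp)
    have h3 := mfderiv_comp z h1 h2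
    rw [← mfderiv_eq_fderiv]
    have h4 := DFunLike.congr_fun h3 X
    refine h4.trans ?_
    change relD (extChartAt 𝓘(ℝ, E) y) (e y z) (dE (E := E) e y z X) = 0
    rw [hz0, relD_zero]
  have h1 : fderiv ℝ G 0 X = X := by
    have h2 := hasDerivAt_exp_chart he y X
    have h3 : HasFDerivAt G (fderiv ℝ G 0) ((0 : ℝ) • X) := by
      rw [zero_smul]
      exact (hG0.differentiableAt (by simp)).hasFDerivAt
    have h4 : HasDerivAt (fun t : ℝ => t • X) X 0 := by
      have h5 : HasDerivAt (fun t : ℝ => t • X) ((1 : ℝ) • X) 0 :=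
        (hasDerivAt_id (0 : ℝ)).smul_const X
      rwa [one_smul] at h5
    have h3' : HasFDerivAt G (fderiv ℝ G 0) ((fun t : ℝ => t • X) 0) := h3
    have h6 : HasDerivAt (G ∘ fun t : ℝ => t • X) (fderiv ℝ G 0 X) 0 :=
      h3'.comp_hasDerivAt (0 : ℝ) h4
    exact h6.unique h2
  have h2 : ContinuousAt (fun r : ℝ => fderiv ℝ G (r • v) X) 0 := by
    have h3 : ContinuousAt (fderiv ℝ G) ((0 : ℝ) • v) := by
      rw [zero_smul]
      exact (hG0.fderiv_right (m := 0) (by simp only [zero_add, WithTop.one_le_coe, le_top])).continuousAt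
    have h4 : ContinuousAt (fun r : ℝ => r • v) 0 :=
      (continuous_id.smul continuous_const).continuousAt
    exact (ContinuousAt.comp (f := fun r : ℝ => r • v) h3 h4).clm_apply continuousAt_const
  have h3 : Tendsto (fun r : ℝ => fderiv ℝ G (r • v) X) (𝓝[≠] 0) (𝓝 (X : E)) := by
    have h4 := h2.tendsto
    rw [zero_smul, h1] at h4
    exact h4.mono_left nhdsWithin_le_nhds
  have h4 : ∀ᶠ r in 𝓝[≠] (0 : ℝ), fderiv ℝ G (r • v) X = 0 := by
    have h5 : Tendsto (fun r : ℝ => r • v) (𝓝[≠] 0) (𝓝 0) := by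
      have h6 : ContinuousAt (fun r : ℝ => r • v) 0 :=
        (continuous_id.smul continuous_const).continuousAt
      have h7 := h6.tendsto
      rw [zero_smul] at h7
      exact h7.mono_left nhdsWithin_le_nhds
    filter_upwards [h5.eventually hsrc, self_mem_nhdsWithin] with r hr hr0
    exact hf _ hr (h r hr0)
  have h5 : Tendsto (fun r : ℝ => fderiv ℝ G (r • v) X) (𝓝[≠] 0) (𝓝 (0 : E)) :=
    (tendsto_congr' h4).2 tendsto_const_nhds
  exact tendsto_nhds_unique (X := E) h3 h5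

/-- two-point formula, abstract form -/
lemma rel_jf (F : Facts e) {ρ : ℝ}
    (hu : ∀ (x : M) (v w : TangentSpace 𝓘(ℝ, E) x), ‖v‖ < ρ → ‖w‖ < ρ → e x v = e x w → v = w)
    (x : M) (u : TangentSpace 𝓘(ℝ, E) x) {a b : ℝ} (hab : a < b) (hv : (b - a) * ‖u‖ < ρ)
    {V : M × M → TangentBundle 𝓘(ℝ, E) M}
    (hV : ∀ᶠ p in 𝓝 ((gam e x u a, gam e x u b) : M × M),
      ContMDiffAt (𝓘(ℝ, E).prod 𝓘(ℝ, E)) 𝓘(ℝ, E).tangent ∞ V p ∧
      (V p).proj = p.1 ∧ e (V p).proj (V p).snd = p.2 ∧ ‖(V p).snd‖ < ρ) (s t : ℝ) (w : E) :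
    jf e x u s t w = relL e V ((t - a) / (b - a)) (gam e x u a, gam e x u b)
      (jf e x u s a w, jf e x u s b w) := by
  obtain ⟨hn, hfl⟩ := rel_flow F x u s
  have ha : gam e (gam e x u s) (vel e x u s) (a - s) = gam e x u a := by
    rw [hfl, add_sub_cancel]
  have hb : gam e (gam e x u s) (vel e x u s) (b - s) = gam e x u b := by
    rw [hfl, add_sub_cancel]
  rw [← ha, ← hb] at hV
  have hv' : (b - a) * nm (gam e x u s) (vel e x u s) < ρ := by
    rw [hn]
    exact hv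
  have h : jf e x u s t w = relL e V ((t - a) / (b - a))
      (gam e (gam e x u s) (vel e x u s) (a - s), gam e (gam e x u s) (vel e x u s) (b - s))
      (jf e x u s a w, jf e x u s b w) :=
    rel_deriv F hu (gam e x u s) (vel (E := E) e x u s) w (s := s) (t := t) hab hv' hV
  rw [ha, hb] at h
  exact h

lemma rel_dE_add' (x : M) (v w z : TangentSpace 𝓘(ℝ, E) x) :
    dE (E := E) e x v (w + z) = dE e x v w + dE e x v z :=
  (mfderiv 𝓘(ℝ, TangentSpace 𝓘(ℝ, E) x) 𝓘(ℝ, E) (e x) v).map_add w z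

lemma rel_dE_smul' (x : M) (v w : TangentSpace 𝓘(ℝ, E) x) (c : ℝ) :
    dE (E := E) e x v (c • w) = c • dE e x v w :=
  (mfderiv 𝓘(ℝ, TangentSpace 𝓘(ℝ, E) x) 𝓘(ℝ, E) (e x) v).map_smul c w

lemma rel_dE_add (x : M) (v w z : E) :
    dE e x v (w + z) = dE e x v w + dE e x v z := rel_dE_add' x v w z

lemma rel_dE_smul (x : M) (v w : E) (c : ℝ) :
    dE e x v (c • w) = c • dE e x v w := rel_dE_smul' x v w c

/-- `jf` as a linear map -/
def relJ (e : ∀ x : M, TangentSpace 𝓘(ℝ, E) x → M) (x : M) (u : E) (s t : ℝ) : E →ₗ[ℝ] E where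
  toFun := jf e x u s t
  map_add' w z := by rw [jf, jf, jf, rel_dE_add, smul_add]
  map_smul' c w := by rw [jf, jf, rel_dE_smul, RingHom.id_apply, smul_comm]

theorem exists_rel [CompactSpace M] (F : Facts e) : ∃ ρ : ℝ, 0 < ρ ∧ ∀ (x : M) (u : E),
    nm x u = 1 → ∀ a b, a < b → b < a + ρ → ∀ (s : ℝ) (w : E), ∃ X Z : E,
      ∀ t, jf e x u s t w = jf e x u a t X + jf e x u b t Z := by
  obtain ⟨ρ₁, hρ₁, hu⟩ := rel_unique F.isExp
  obtain ⟨ρ₂, hρ₂, hlog⟩ := rel_log F.isExp hρ₁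
  obtain ⟨ρ₃, hρ₃, hmin⟩ := F.isExp.minimizing
  refine ⟨min ρ₁ (min ρ₂ ρ₃), lt_min hρ₁ (lt_min hρ₂ hρ₃), ?_⟩
  intro x u hn a b hab hb s w
  have hb1 : b - a < ρ₁ := by
    have := min_le_left ρ₁ (min ρ₂ ρ₃)
    linarith only [hb, this]
  have hb2 : b - a < ρ₂ := by
    have h1 := min_le_right ρ₁ (min ρ₂ ρ₃)
    have h2 := min_le_left ρ₂ ρ₃
    linarith only [hb, h1, h2]
  have hb3 : b - a < ρ₃ := by
    have h1 := min_le_right ρ₁ (min ρ₂ ρ₃)
    have h2 := min_le_right ρ₂ ρ₃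
    linarith only [hb, h1, h2]
  have hba : 0 < b - a := by linarith
  have hd : dist (gam e x u a) (gam e x u b) < ρ₂ := by
    have h1 : dist (gam e x u a) (gam e x u b) = nm x u * |b - a| :=
      hmin x u a b (by
        change nm x u * |b - a| ≤ ρ₃
        rw [hn, one_mul, abs_of_pos hba]
        exact hb3.le)
    rw [h1, hn, one_mul, abs_of_pos hba]
    exact hb2
  obtain ⟨V, hV⟩ := hlog _ _ hd
  have hv : (b - a) * nm x u < ρ₁ := by
    rw [hn, mul_one]
    exact hb1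
  have key : ∀ (s t : ℝ) (w : E), jf e x u s t w = relL e V ((t - a) / (b - a))
      (gam e x u a, gam e x u b) (jf e x u s a w, jf e x u s b w) := fun s t w =>
    rel_jf F hu x u hab hv hV s t w
  have ja : ∀ X : E, jf e x u a a X = 0 := fun X => by rw [jf, sub_self, zero_smul]
  have jb : ∀ Z : E, jf e x u b b Z = 0 := fun Z => by rw [jf, sub_self, zero_smul]
  have inj : ∀ (c : ℝ) (X : E), (∀ t, jf e x u c t X = 0) → X = 0 := by
    intro c X h
    refine rel_inj F.isExp (gam e x u c) (vel (E := E) e x u c) X fun r hr => ?_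
    have h1 := h (c + r)
    rw [jf, add_sub_cancel_left] at h1
    exact (smul_eq_zero.1 h1).resolve_left hr
  have sa : Function.Surjective (relJ e x u a b) := by
    rw [← LinearMap.injective_iff_surjective]
    refine (injective_iff_map_eq_zero _).2 fun X hX => inj a X fun t => ?_
    have hX' : jf e x u a b X = 0 := hX
    rw [key a t X, ja, hX']
    exact relL_zero V _ _
  have sb : Function.Surjective (relJ e x u b a) := by
    rw [← LinearMap.injective_iff_surjective]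
    refine (injective_iff_map_eq_zero _).2 fun Z hZ => inj b Z fun t => ?_
    have hZ' : jf e x u b a Z = 0 := hZ
    rw [key b t Z, jb, hZ']
    exact relL_zero V _ _
  obtain ⟨X, hX⟩ := sa (jf e x u s b w)
  obtain ⟨Z, hZ⟩ := sb (jf e x u s a w)
  have hX' : jf e x u a b X = jf e x u s b w := hX
  have hZ' : jf e x u b a Z = jf e x u s a w := hZ
  refine ⟨X, Z, fun t => ?_⟩
  rw [key a t X, key b t Z, key s t w, ja, jb, hX', hZ', ← relL_add]
  congr 1
  ext <;> simp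

end

end Vale.Agent.P231
end
end
end

section

section

section

/-! Gauss lemma: the tangential component of a Jacobi field is affine in time. -/

set_option maxSynthPendingDepth 3
set_option linter.unusedSectionVars false

open Bundle Manifold Set Filter
open scoped ContDiff Manifold Topology

namespace Vale.Agent.P231

noncomputable section

open Vale.Agent.P234

variable {E : Type*} [NormedAddCommGroup E] [NormedSpace ℝ E] [FiniteDimensional ℝ E]
  {M : Type*} [MetricSpace M] [ChartedSpace E M]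
  [RiemannianBundle (fun x : M => TangentSpace 𝓘(ℝ, E) x)]
  [IsManifold 𝓘(ℝ, E) ∞ M]
  [IsContMDiffRiemannianBundle 𝓘(ℝ, E) ∞ E (fun x : M => TangentSpace 𝓘(ℝ, E) x)]
  {e : ∀ x : M, TangentSpace 𝓘(ℝ, E) x → M}

theorem ip_add_left (x : M) (a b c : E) : ip x (a + b) c = ip x a c + ip x b c := by
  have key : ∀ a b c : TangentSpace 𝓘(ℝ, E) x, inner ℝ (a + b) c = inner ℝ a c + inner ℝ b c :=
    fun a b c => inner_add_left a b c
  exact key a b c

/-- `jf t a` applied to the velocity at `t` -/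
theorem jf_vel (F : Facts e) (x : M) (u : E) (a t : ℝ) :
    jf e x u t a (vel e x u t) = (a - t) • vel e x u a := by
  have h := vel_flow F x u t (a - t)
  rw [show t + (a - t) = a by ring] at h
  rw [← h]
  rfl

theorem affine_of_deriv2 {f : ℝ → ℝ} (hf : ContDiff ℝ 2 f)
    (h2 : ∀ t, deriv (deriv f) t = 0) {s c : ℝ}
    (hs : ∀ᶠ t in 𝓝 s, f t = (t - s) * c) (t : ℝ) : f t = (t - s) * c := by
  have hd1 : ContDiff ℝ 1 (deriv f) := by
    have := hf
    rw [show (2 : WithTop ℕ∞) = 1 + 1 by norm_num, contDiff_succ_iff_deriv] at this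
    exact this.2.2
  have hconst : ∀ x y, deriv f x = deriv f y :=
    is_const_of_deriv_eq_zero (hd1.differentiable (by simp)) h2
  have hds : deriv f s = c := by
    have h3 : f =ᶠ[𝓝 s] fun t => (t - s) * c := hs
    rw [h3.deriv_eq]
    have h4 : HasDerivAt (fun t : ℝ => (t - s) * c) (1 * c) s :=
      ((hasDerivAt_id s).sub_const s).mul_const c
    rw [h4.deriv, one_mul]
  have hg : ∀ x y, f x - (x - s) * c = f y - (y - s) * c := by
    apply is_const_of_deriv_eq_zero (f := fun x => f x - (x - s) * c)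
    · exact (hf.differentiable (by simp)).sub
        ((differentiable_id.sub_const s).mul_const c)
    · intro x
      have h4 : HasDerivAt (fun t : ℝ => (t - s) * c) (1 * c) x :=
        ((hasDerivAt_id x).sub_const s).mul_const c
      have h5 : HasDerivAt f (deriv f x) x := (hf.differentiable (by simp) x).hasDerivAt
      have h6 : HasDerivAt (fun x => f x - (x - s) * c) (deriv f x - 1 * c) x := h5.sub h4
      rw [h6.deriv, hconst x s, hds]
      ring
  have h7 := hg t s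
  have h8 : f s = 0 := by
    have := hs.self_of_nhds
    rw [this]; ring
  rw [h8] at h7
  linarith only [h7]

theorem gauss [CompactSpace M] (F : Facts e) (x : M) (u : E) (hu : nm x u = 1) (s t : ℝ)
    (w : E) :
    ip (gam e x u t) (jf e x u s t w) (vel e x u t) =
      (t - s) * ip (gam e x u s) w (vel e x u s) := by
  obtain ⟨ρ₁, hρ₁, hA⟩ := exists_anti F
  obtain ⟨ρ₂, hρ₂, hR⟩ := exists_rel F
  -- close times
  have hclose : ∀ a τ : ℝ, |τ - a| < ρ₁ → ∀ X : E,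
      ip (gam e x u τ) (jf e x u a τ X) (vel e x u τ) =
        (τ - a) * ip (gam e x u a) X (vel e x u a) := by
    intro a τ h X
    rw [hA x u hu a τ h X, jf_vel F, ip_smul_right]
    ring
  set f : ℝ → ℝ := fun τ => ip (gam e x u τ) (jf e x u s τ w) (vel e x u τ) with hf
  have hfs : ContDiff ℝ ∞ f := contDiff_ip_jf_vel F x u s w
  have hf2 : ContDiff ℝ 2 f := contDiff_infty.1 hfs 2
  have h2 : ∀ τ, deriv (deriv f) τ = 0 := by
    intro τ
    set ρ := min ρ₁ ρ₂ with hρ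
    have hρ0 : 0 < ρ := lt_min hρ₁ hρ₂
    have hρ1 : ρ ≤ ρ₁ := min_le_left _ _
    have hρ2 : ρ ≤ ρ₂ := min_le_right _ _
    obtain ⟨X, Z, hXZ⟩ := hR x u hu (τ - ρ / 4) (τ + ρ / 4) (by linarith only [hρ0]) (by linarith only [hρ₂, hρ2]) s w
    have hev : f =ᶠ[𝓝 τ] fun r =>
        (r - (τ - ρ / 4)) * ip (gam e x u (τ - ρ / 4)) X (vel e x u (τ - ρ / 4)) +
        (r - (τ + ρ / 4)) * ip (gam e x u (τ + ρ / 4)) Z (vel e x u (τ + ρ / 4)) := by
      have hball : ∀ᶠ r in 𝓝 τ, |r - τ| < ρ / 4 := by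
        have := Metric.ball_mem_nhds τ (by linarith : 0 < ρ / 4)
        filter_upwards [this] with r hr
        rwa [Metric.mem_ball, Real.dist_eq] at hr
      filter_upwards [hball] with r hr
      rw [abs_lt] at hr
      simp only [hf]
      rw [hXZ r, ip_add_left, hclose _ _ _ X, hclose _ _ _ Z]
      · rw [abs_lt]; constructor <;> linarith only [hρ1, hr, hρ₁]
      · rw [abs_lt]; constructor <;> linarith
    have h3 := hev.deriv
    rw [h3.deriv_eq]
    have h4 : deriv (fun r =>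
        (r - (τ - ρ / 4)) * ip (gam e x u (τ - ρ / 4)) X (vel e x u (τ - ρ / 4)) +
        (r - (τ + ρ / 4)) * ip (gam e x u (τ + ρ / 4)) Z (vel e x u (τ + ρ / 4))) =
        fun _ => ip (gam e x u (τ - ρ / 4)) X (vel e x u (τ - ρ / 4)) +
          ip (gam e x u (τ + ρ / 4)) Z (vel e x u (τ + ρ / 4)) := by
      funext r
      have h5 := ((((hasDerivAt_id r).sub_const (τ - ρ / 4)).mul_const
        (ip (gam e x u (τ - ρ / 4)) X (vel e x u (τ - ρ / 4)))).add
        (((hasDerivAt_id r).sub_const (τ + ρ / 4)).mul_const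
        (ip (gam e x u (τ + ρ / 4)) Z (vel e x u (τ + ρ / 4)))))
      simp only [one_mul] at h5
      exact h5.deriv
    rw [h4]
    exact deriv_const _ _
  have hs : ∀ᶠ τ in 𝓝 s, f τ = (τ - s) * ip (gam e x u s) w (vel e x u s) := by
    have := Metric.ball_mem_nhds s hρ₁
    filter_upwards [this] with τ hτ
    rw [Metric.mem_ball, Real.dist_eq] at hτ
    exact hclose s τ hτ w
  exact affine_of_deriv2 hf2 h2 hs t

end

end Vale.Agent.P231
end
end
end

section

section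

section

/-! P231 geometry: the Jacobi data of a closed geodesic in orthonormal frames. -/

set_option maxSynthPendingDepth 3

open Bundle Manifold Set Filter
open scoped ContDiff Manifold Topology

namespace Vale.Agent.P231

noncomputable section

open Vale.Agent.P234

variable {E : Type*} [NormedAddCommGroup E] [NormedSpace ℝ E] [FiniteDimensional ℝ E]
  {M : Type*} [MetricSpace M] [ChartedSpace E M]
  [RiemannianBundle (fun x : M => TangentSpace 𝓘(ℝ, E) x)]
  [IsManifold 𝓘(ℝ, E) ∞ M]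
  [IsContMDiffRiemannianBundle 𝓘(ℝ, E) ∞ E (fun x : M => TangentSpace 𝓘(ℝ, E) x)]
  {e : ∀ x : M, TangentSpace 𝓘(ℝ, E) x → M}

section Ip

omit [FiniteDimensional ℝ E] [IsManifold 𝓘(ℝ, E) ∞ M]
  [IsContMDiffRiemannianBundle 𝓘(ℝ, E) ∞ E (fun x : M => TangentSpace 𝓘(ℝ, E) x)]

lemma asm_ip_comm (x : M) (a b : E) : ip x a b = ip x b a :=
  real_inner_comm (F := TangentSpace 𝓘(ℝ, E) x) _ _

lemma asm_ip_add_left (x : M) (a b c : E) : ip x (a + b) c = ip x a c + ip x b c :=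
  inner_add_left (E := TangentSpace 𝓘(ℝ, E) x) (𝕜 := ℝ) a b c

lemma asm_ip_add_right (x : M) (a b c : E) : ip x a (b + c) = ip x a b + ip x a c :=
  inner_add_right (E := TangentSpace 𝓘(ℝ, E) x) (𝕜 := ℝ) a b c

lemma asm_ip_smul_left (x : M) (r : ℝ) (a b : E) : ip x (r • a) b = r * ip x a b :=
  real_inner_smul_left (F := TangentSpace 𝓘(ℝ, E) x) a b r

lemma asm_ip_smul_right (x : M) (r : ℝ) (a b : E) : ip x a (r • b) = r * ip x a b :=
  real_inner_smul_right (F := TangentSpace 𝓘(ℝ, E) x) a b r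

lemma asm_ip_zero_right (x : M) (a : E) : ip x a 0 = 0 :=
  inner_zero_right (E := TangentSpace 𝓘(ℝ, E) x) (𝕜 := ℝ) a

lemma asm_ip_self (x : M) (a : E) : ip x a a = nm x a ^ 2 :=
  real_inner_self_eq_norm_sq (F := TangentSpace 𝓘(ℝ, E) x) a

lemma asm_nm_smul (x : M) (r : ℝ) (a : E) : nm x (r • a) = |r| * nm x a :=
  norm_smul (α := ℝ) (β := TangentSpace 𝓘(ℝ, E) x) r a

lemma asm_ip_sum_right (x : M) {ι : Type*} (s : Finset ι) (a : E) (f : ι → E) :
    ip x a (∑ i ∈ s, f i) = ∑ i ∈ s, ip x a (f i) :=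
  inner_sum (𝕜 := ℝ) (E := TangentSpace 𝓘(ℝ, E) x) s f a

lemma asm_ip_sum_left (x : M) {ι : Type*} (s : Finset ι) (a : E) (f : ι → E) :
    ip x (∑ i ∈ s, f i) a = ∑ i ∈ s, ip x (f i) a :=
  sum_inner (𝕜 := ℝ) (E := TangentSpace 𝓘(ℝ, E) x) s f a

end Ip

omit [IsManifold 𝓘(ℝ, E) ∞ M]
  [IsContMDiffRiemannianBundle 𝓘(ℝ, E) ∞ E (fun x : M => TangentSpace 𝓘(ℝ, E) x)] in
lemma asm_exists_frame {N : ℕ} (hN : Module.finrank ℝ E = N + 1) (y : M) (ν : E) (hν : nm y ν = 1) :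
    ∃ β : Fin N → E, (∀ i j, ip y (β i) (β j) = if i = j then 1 else 0) ∧
      (∀ i, ip y (β i) ν = 0) ∧ ∀ w, ip y w ν = 0 → w = ∑ i, ip y (β i) w • β i := by
  have hfd : FiniteDimensional ℝ (TangentSpace 𝓘(ℝ, E) y) := finDimTangent y
  have hT : Module.finrank ℝ (TangentSpace 𝓘(ℝ, E) y) = N + 1 := hN
  have hν0 : (ν : TangentSpace 𝓘(ℝ, E) y) ≠ 0 := by
    intro h
    have h1 : nm y ν = ‖(0 : TangentSpace 𝓘(ℝ, E) y)‖ := congrArg _ h
    rw [norm_zero, hν] at h1
    exact one_ne_zero h1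
  let W : Submodule ℝ (TangentSpace 𝓘(ℝ, E) y) := (ℝ ∙ (ν : TangentSpace 𝓘(ℝ, E) y))ᗮ
  have hW : Module.finrank ℝ W = N := by
    have : Fact (Module.finrank ℝ (TangentSpace 𝓘(ℝ, E) y) = N + 1) := ⟨hT⟩
    exact Submodule.finrank_orthogonal_span_singleton hν0
  let B : OrthonormalBasis (Fin N) ℝ W := (stdOrthonormalBasis ℝ W).reindex (finCongr hW)
  refine ⟨fun i => ((B i : W) : TangentSpace 𝓘(ℝ, E) y), ?_, ?_, ?_⟩
  · intro i j
    have := orthonormal_iff_ite.mp B.orthonormal i j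
    exact this
  · intro i
    exact Submodule.mem_orthogonal_singleton_iff_inner_left.mp (B i).2
  · intro w hw
    have hwW : (w : TangentSpace 𝓘(ℝ, E) y) ∈ W :=
      (Submodule.mem_orthogonal_singleton_iff_inner_left (E := TangentSpace 𝓘(ℝ, E) y)
        (𝕜 := ℝ)).mpr hw
    have h1 := B.sum_repr' ⟨w, hwW⟩
    have h2 := congrArg (Submodule.subtype W) h1
    rw [map_sum] at h2
    exact h2.symm

/-- a choice of an orthonormal frame of the orthogonal complement of a unit vector. -/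
def asmFrame (E : Type*) [NormedAddCommGroup E] [NormedSpace ℝ E] [FiniteDimensional ℝ E]
    {M : Type*} [MetricSpace M] [ChartedSpace E M]
    [RiemannianBundle (fun x : M => TangentSpace 𝓘(ℝ, E) x)]
    {N : ℕ} (hN : Module.finrank ℝ E = N + 1) (y : M) (ν : E) : Fin N → E :=
  open Classical in if h : nm y ν = 1 then (asm_exists_frame hN y ν h).choose else 0

section Frame

variable {N : ℕ} (hN : Module.finrank ℝ E = N + 1)

omit [IsManifold 𝓘(ℝ, E) ∞ M]
  [IsContMDiffRiemannianBundle 𝓘(ℝ, E) ∞ E (fun x : M => TangentSpace 𝓘(ℝ, E) x)] in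
lemma asm_frame_spec {y : M} {ν : E} (h : nm y ν = 1) :
    (∀ i j, ip y (asmFrame E hN y ν i) (asmFrame E hN y ν j) = if i = j then 1 else 0) ∧
      (∀ i, ip y (asmFrame E hN y ν i) ν = 0) ∧
      ∀ w, ip y w ν = 0 → w = ∑ i, ip y (asmFrame E hN y ν i) w • asmFrame E hN y ν i := by
  rw [asmFrame, dif_pos h]
  exact (asm_exists_frame hN y ν h).choose_spec

end Frame

lemma asm_jf_add (x : M) (u : E) (s t : ℝ) (w z : E) :
    jf e x u s t (w + z) = jf e x u s t w + jf e x u s t z := by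
  rw [jf, jf, jf, dE_add, smul_add]

lemma asm_jf_smul (x : M) (u : E) (s t : ℝ) (c : ℝ) (w : E) :
    jf e x u s t (c • w) = c • jf e x u s t w := by
  rw [jf, jf, dE_smul, smul_comm]

lemma asm_jf_zero_vec (x : M) (u : E) (s t : ℝ) : jf e x u s t 0 = 0 := by
  have := asm_jf_smul (e := e) x u s t 0 0
  simpa using this

lemma asm_jf_sum (x : M) (u : E) (s t : ℝ) {ι : Type*} (S : Finset ι) (f : ι → E) :
    jf e x u s t (∑ i ∈ S, f i) = ∑ i ∈ S, jf e x u s t (f i) := by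
  classical
  induction S using Finset.induction_on with
  | empty => simp [asm_jf_zero_vec]
  | insert a S ha ih => rw [Finset.sum_insert ha, Finset.sum_insert ha, asm_jf_add, ih]

omit [IsManifold 𝓘(ℝ, E) ∞ M]
  [IsContMDiffRiemannianBundle 𝓘(ℝ, E) ∞ E (fun x : M => TangentSpace 𝓘(ℝ, E) x)] in
/-- Parseval in the orthogonal complement. -/
lemma asm_ip_eq_sum {N : ℕ} (hN : Module.finrank ℝ E = N + 1) {y : M} {ν : E} (h : nm y ν = 1)
    (w z : E) (hz : ip y z ν = 0) :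
    ip y w z = ∑ i, ip y (asmFrame E hN y ν i) w * ip y (asmFrame E hN y ν i) z := by
  conv_lhs => rw [(asm_frame_spec hN h).2.2 z hz]
  rw [asm_ip_sum_right]
  refine Finset.sum_congr rfl fun i _ => ?_
  rw [asm_ip_smul_right, asm_ip_comm y w, mul_comm]

section Main

variable [CompactSpace M] [ConnectedSpace M] [IsRiemannianManifold 𝓘(ℝ, E) M]

theorem exists_jdata
    (F : Facts e) {D : ℝ} (hD : 0 < D) (hB : InjGE e D)
    (hcl : ∀ (x : M) (v : E), nm x v = 2 * D → e x v = x)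
    {N : ℕ} (hN : Module.finrank ℝ E = N + 1) (x : M) (u : E) (hu : nm x u = 1) :
    ∃ (b : ℝ → Fin N → E) (A : ℝ → ℝ → Matrix (Fin N) (Fin N) ℝ), JData D A ∧
      (∀ t i j, ip (gam e x u t) (b t i) (b t j) = if i = j then 1 else 0) ∧
      (∀ t i, ip (gam e x u t) (b t i) (vel e x u t) = 0) ∧
      (∀ s t j, jf e x u s t (b s j) = ∑ i, A s t i j • b t i) := by
  have hv : ∀ t, nm (gam e x u t) (vel e x u t) = 1 := fun t => (nm_vel F x u t).trans hu
  set b : ℝ → Fin N → E := fun t => asmFrame E hN (gam e x u t) (vel e x u t) with hb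
  have hon : ∀ t i j, ip (gam e x u t) (b t i) (b t j) = if i = j then 1 else 0 :=
    fun t => (asm_frame_spec hN (hv t)).1
  have hperp : ∀ t i, ip (gam e x u t) (b t i) (vel e x u t) = 0 :=
    fun t => (asm_frame_spec hN (hv t)).2.1
  have hcomp : ∀ t w, ip (gam e x u t) w (vel e x u t) = 0 →
      w = ∑ i, ip (gam e x u t) (b t i) w • b t i := fun t => (asm_frame_spec hN (hv t)).2.2
  have hpars : ∀ t w z, ip (gam e x u t) z (vel e x u t) = 0 → ip (gam e x u t) w z =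
      ∑ i, ip (gam e x u t) (b t i) w * ip (gam e x u t) (b t i) z :=
    fun t w z hz => asm_ip_eq_sum hN (hv t) w z hz
  -- Jacobi fields with orthogonal derivative stay orthogonal
  have hjp : ∀ s t w, ip (gam e x u s) w (vel e x u s) = 0 →
      ip (gam e x u t) (jf e x u s t w) (vel e x u t) = 0 := fun s t w hw => by
    rw [gauss F x u hu s t w, hw, mul_zero]
  set A : ℝ → ℝ → Matrix (Fin N) (Fin N) ℝ := fun s t i j =>
    ip (gam e x u t) (b t i) (jf e x u s t (b s j)) with hA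
  have hAdef : ∀ s t i j, A s t i j = ip (gam e x u t) (b t i) (jf e x u s t (b s j)) :=
    fun _ _ _ _ => rfl
  have hcol : ∀ s t j, jf e x u s t (b s j) = ∑ i, A s t i j • b t i := fun s t j =>
    hcomp t _ (hjp s t _ (hperp s j))
  have hbper : ∀ t, b (t + 2 * D) = b t := fun t => by
    simp only [hb]
    rw [gam_per F hD.le hcl x u hu t, vel_per F hD.le hcl x u hu t]
  obtain ⟨ρ₁, hρ₁, hanti⟩ := exists_anti F
  obtain ⟨ρ₂, hρ₂, hrel⟩ := exists_rel F
  refine ⟨b, A, JData.of_local (ρ := min ρ₁ ρ₂) hD (lt_min hρ₁ hρ₂) ?_ ?_ ?_ ?_ ?_ ?_ ?_ ?_,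
    hon, hperp, hcol⟩
  · -- diag
    intro s
    ext i j
    rw [hAdef, jf, sub_self, zero_smul, asm_ip_zero_right, Matrix.zero_apply]
  · -- anti
    intro s t hst
    ext i j
    rw [Matrix.neg_apply, Matrix.transpose_apply, hAdef, hAdef]
    have := hanti x u hu s t (hst.trans_le (min_le_left _ _)) (b s i) (b t j)
    rw [asm_ip_comm (gam e x u t) (b t j), this, neg_neg]
  · -- rel
    intro a c hac hca s
    have hX : ∀ j : Fin N, ∃ X Z : E, ip (gam e x u a) X (vel e x u a) = 0 ∧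
        ip (gam e x u c) Z (vel e x u c) = 0 ∧
        ∀ t, jf e x u s t (b s j) = jf e x u a t X + jf e x u c t Z := by
      intro j
      obtain ⟨X, Z, h⟩ := hrel x u hu a c hac
        (hca.trans_le (add_le_add le_rfl (min_le_right _ _))) s (b s j)
      have h1 : ∀ t, 0 = (t - a) * ip (gam e x u a) X (vel e x u a) +
          (t - c) * ip (gam e x u c) Z (vel e x u c) := by
        intro t
        rw [← gauss F x u hu a t X, ← gauss F x u hu c t Z, ← asm_ip_add_left, ← h t]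
        exact (hjp s t _ (hperp s j)).symm
      have h2 := h1 a
      have h3 := h1 c
      rw [sub_self, zero_mul, zero_add] at h2
      rw [sub_self, zero_mul, add_zero] at h3
      refine ⟨X, Z, ?_, ?_, h⟩
      · rcases mul_eq_zero.mp h3.symm with h4 | h4
        · exact absurd h4 (sub_ne_zero.mpr hac.ne')
        · exact h4
      · rcases mul_eq_zero.mp h2.symm with h4 | h4
        · exact absurd h4 (sub_ne_zero.mpr hac.ne)
        · exact h4
    choose X Z hXp hZp hXZ using hX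
    refine ⟨Matrix.of fun k j => ip (gam e x u a) (b a k) (X j),
      Matrix.of fun k j => ip (gam e x u c) (b c k) (Z j), fun t => ?_⟩
    ext i j
    rw [Matrix.add_apply, Matrix.mul_apply, Matrix.mul_apply, hAdef, hXZ j t, asm_ip_add_right]
    simp only [Matrix.of_apply]
    congr 1
    · conv_lhs => rw [hcomp a (X j) (hXp j)]
      rw [asm_jf_sum, asm_ip_sum_right]
      refine Finset.sum_congr rfl fun k _ => ?_
      rw [asm_jf_smul, asm_ip_smul_right, hAdef, mul_comm]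
    · conv_lhs => rw [hcomp c (Z j) (hZp j)]
      rw [asm_jf_sum, asm_ip_sum_right]
      refine Finset.sum_congr rfl fun k _ => ?_
      rw [asm_jf_smul, asm_ip_smul_right, hAdef, mul_comm]
  · -- smooth
    intro a c i j
    have h1 : (fun t => ((A a t).transpose * A c t) i j) =
        fun t => ip (gam e x u t) (jf e x u a t (b a i)) (jf e x u c t (b c j)) := by
      funext t
      rw [hpars t _ _ (hjp c t _ (hperp c j)), Matrix.mul_apply]
      rfl
    rw [h1]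
    exact contDiff_ip_jf F x u a c _ _
  · -- der
    intro a c i j
    have h1 : (fun t => ((A a t).transpose * A c t) i j) =
        fun t => ip (gam e x u t) (jf e x u a t (b a i)) (jf e x u c t (b c j)) := by
      funext t
      rw [hpars t _ _ (hjp c t _ (hperp c j)), Matrix.mul_apply]
      rfl
    rw [h1, hAdef, asm_ip_comm]
    exact hasDerivAt_ip_jf F x u a c _ _
  · -- per
    intro s t
    ext i j
    rw [hAdef, hAdef, hbper, gam_per F hD.le hcl x u hu t, jf_per F hD hcl x u hu s t _ (hperp s j)]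
  · -- per'
    intro s t
    ext i j
    have h1 : jf e x u (s + 2 * D) t (b (s + 2 * D) j) = jf e x u s (t - 2 * D) (b s j) := by
      rw [jf, jf, hbper, gam_per F hD.le hcl x u hu s, vel_per F hD.le hcl x u hu s,
        show t - (s + 2 * D) = t - 2 * D - s by ring]
    have h2 := jf_per F hD hcl x u hu s (t - 2 * D) _ (hperp s j)
    rw [sub_add_cancel] at h2
    rw [hAdef, hAdef, h1, h2]
  · -- unit
    intro s t hst hts
    rw [← Matrix.mulVec_injective_iff_isUnit]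
    intro c c' hcc
    have hc0 : (A s t).mulVec (c - c') = 0 := by
      rw [Matrix.mulVec_sub]
      exact sub_eq_zero.mpr hcc
    set d := c - c' with hd
    have h1 : jf e x u s t (∑ j, d j • b s j) = 0 := by
      rw [asm_jf_sum]
      have : ∀ j, jf e x u s t (d j • b s j) = ∑ i, (A s t i j * d j) • b t i := by
        intro j
        rw [asm_jf_smul, hcol, Finset.smul_sum]
        refine Finset.sum_congr rfl fun i _ => ?_
        rw [smul_smul, mul_comm]
      rw [Finset.sum_congr rfl fun j _ => this j, Finset.sum_comm]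
      refine Finset.sum_eq_zero fun i _ => ?_
      rw [← Finset.sum_smul]
      have := congrFun hc0 i
      rw [Matrix.mulVec, dotProduct, Pi.zero_apply] at this
      rw [this, zero_smul]
    have h2 : dE e (gam e x u s) ((t - s) • vel e x u s) (∑ j, d j • b s j) = 0 := by
      rw [jf] at h1
      exact (smul_eq_zero.mp h1).resolve_left (sub_ne_zero.mpr hst.ne')
    have h3 : ∑ j, d j • b s j = 0 := by
      refine dE_injective F hB ?_ h2
      rw [asm_nm_smul, hv, mul_one, abs_of_pos (sub_pos.mpr hst)]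
      linarith only [hts]
    have h4 : ∀ i, d i = 0 := by
      intro i
      have h5 : ip (gam e x u s) (b s i) (∑ j, d j • b s j) = 0 := by
        rw [h3, asm_ip_zero_right]
      rw [asm_ip_sum_right] at h5
      simp_rw [asm_ip_smul_right, hon] at h5
      simpa only [mul_ite, mul_one, mul_zero, Finset.sum_ite_eq, Finset.mem_univ, ↓reduceIte] using h5
    rw [← sub_eq_zero]
    exact funext h4

end Main

end

end Vale.Agent.P231
end
end
end

section

section

section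

/-! P231 measure part ME: the inverse of the exponential map. -/

set_option maxSynthPendingDepth 3
set_option linter.unusedSectionVars false

open Bundle Manifold Set Filter MeasureTheory Module
open scoped ContDiff Manifold Topology ENNReal

namespace Vale.Agent.P231

noncomputable section

open Vale.Agent.P234

variable {E : Type*} [NormedAddCommGroup E] [NormedSpace ℝ E] [FiniteDimensional ℝ E]
  {M : Type*} [MetricSpace M] [ChartedSpace E M]
  [RiemannianBundle (fun x : M => TangentSpace 𝓘(ℝ, E) x)]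
  [IsManifold 𝓘(ℝ, E) ∞ M]
  [IsContMDiffRiemannianBundle 𝓘(ℝ, E) ∞ E (fun x : M => TangentSpace 𝓘(ℝ, E) x)]
  {e : ∀ x : M, TangentSpace 𝓘(ℝ, E) x → M}

/-! ### auxiliary lemmas -/

theorem log_gam_one (x : M) (v : E) : gam e x v 1 = e x v := by
  have h : ((1 : ℝ) • v : E) = v := one_smul ℝ v
  exact congrArg (e x) h

/-- Uniqueness of the minimizing vector when the cost is smooth (no compactness). -/
theorem log_segMin_unique (he : IsExp e) {x : M} {v w : TangentSpace 𝓘(ℝ, E) x}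
    (hv : v ∈ segMin e x) (hw : w ∈ segMin e x) (hs : SmoothAt E x (e x v))
    (hvw : e x w = e x v) : w = v := by
  have h1 := hasFDerivAt_cost_zero he x v hv hs
  have h2 := hasFDerivAt_cost_zero he x w hw (by rw [hvw]; exact hs)
  rw [hvw] at h2
  have h3 := h1.unique h2
  have h4 : ∀ ξ : TangentSpace 𝓘(ℝ, E) x, inner ℝ v ξ = inner ℝ w ξ := by
    intro ξ
    have := congrArg (fun L => L ξ) h3
    simpa only [neg_apply, coe_innerSL_apply, neg_inj] using this
  exact (ext_inner_right ℝ h4).symm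

theorem log_nm_neg (x : M) (v : E) : nm x (-v) = nm x v :=
  norm_neg (E := TangentSpace 𝓘(ℝ, E) x) v

/-! ### ME (file Meas/Log.lean) -/

theorem lg_spec (F : Facts e) (x y : M) :
    nm x (lg e x y) = dist x y ∧ e x (lg e x y : E) = y := by
  obtain ⟨v, hv, hd⟩ := F.hopfRinow x y
  have h : ∃ v : E, nm x v = dist x y ∧ gam e x v 1 = y :=
    ⟨v, hd.symm, (log_gam_one (E := E) x v).trans hv⟩
  have h2 := Classical.epsilon_spec h
  exact ⟨h2.1, (log_gam_one x _).symm.trans h2.2⟩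

theorem lg_eq (F : Facts e) {D : ℝ} (hB : InjGE e D) {x : M} {v : E} (hv : nm x v < D) :
    lg e x (e x v) = v := by
  obtain ⟨h1, h2⟩ := lg_spec F x (e x v)
  have h3 : (v : TangentSpace 𝓘(ℝ, E) x) ∈ injDomain e x := hB.mem_injDomain hv
  generalize lg e x (e x v) = w at h1 h2 ⊢
  have h4 : (w : TangentSpace 𝓘(ℝ, E) x) ∈ segMin e x := by
    have h5 : dist x (e x w) = nm x w := by rw [h2, h1]
    exact h5
  exact log_segMin_unique F.isExp (injDomain_subset_segMin F.isExp x h3) h4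
    (F.smooth_cost x v h3) h2

theorem lg_swap (F : Facts e) {D : ℝ} (hB : InjGE e D) {x y : M} (h : dist x y < D) :
    lg e y x = -vel e x (lg e x y) 1 := by
  obtain ⟨h1, h2⟩ := lg_spec F x y
  have h3 : gam e x (lg e x y) 1 = y := (log_gam_one x _).trans h2
  have h4 := gam_flow F x (lg e x y) 1 (-1)
  have h5 := nm_vel F x (lg e x y) 1
  rw [h3] at h4 h5
  rw [add_neg_cancel, gam_zero F.isExp] at h4
  have h6 : e y (-vel e x (lg e x y) 1 : E) = x := by
    have h7 : ((-1 : ℝ) • vel e x (lg e x y) 1 : E) = -vel e x (lg e x y) 1 := neg_one_smul ℝ _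
    exact (congrArg (e y) h7).symm.trans h4
  have h8 : nm y (-vel e x (lg e x y) 1) < D := by
    rw [log_nm_neg, h5, h1]
    exact h
  have h9 := lg_eq F hB h8
  rw [h6] at h9
  exact h9

/-- continuity of `(x, y) ↦ G x (lg x y)` extended by zero -/
theorem continuous_lg [CompactSpace M] (F : Facts e) {D : ℝ} (hB : InjGE e D) {G : M → E → ℝ}
    (hG : ContTB G) {b : ℝ} (hb : b < D) (hs : ∀ x v, b < nm x v → G x v = 0) :
    Continuous fun p : M × M => G p.1 (lg e p.1 p.2) := by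
  rw [continuous_iff_seqContinuous]
  intro u p hu
  change Tendsto (fun k => G (u k).1 (lg e (u k).1 (u k).2)) atTop (𝓝 (G p.1 (lg e p.1 p.2)))
  have hu1 : Tendsto (fun k => (u k).1) atTop (𝓝 p.1) := (continuous_fst.tendsto p).comp hu
  have hu2 : Tendsto (fun k => (u k).2) atTop (𝓝 p.2) := (continuous_snd.tendsto p).comp hu
  have hdist : Tendsto (fun k => dist (u k).1 (u k).2) atTop (𝓝 (dist p.1 p.2)) := hu1.dist hu2
  rcases lt_or_ge b (dist p.1 p.2) with hlt | hge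
  · -- far: everything is zero
    have h0 : G p.1 (lg e p.1 p.2) = 0 := hs _ _ (by rw [(lg_spec F p.1 p.2).1]; exact hlt)
    rw [h0]
    refine tendsto_const_nhds.congr' ?_
    filter_upwards [hdist.eventually (lt_mem_nhds hlt)] with k hk
    exact (hs _ _ (by rw [(lg_spec F (u k).1 (u k).2).1]; exact hk)).symm
  · -- near
    refine tendsto_of_subseq_tendsto fun ns hns => ?_
    obtain ⟨L, hL⟩ : ∃ L : ℕ → E, ∀ k, L k = lg e (u (ns k)).1 (u (ns k)).2 := ⟨_, fun _ => rfl⟩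
    have hL1 : ∀ k, nm (u (ns k)).1 (L k) = dist (u (ns k)).1 (u (ns k)).2 := by
      intro k
      rw [hL k]
      exact (lg_spec F _ _).1
    have hL2 : ∀ k, e (u (ns k)).1 (L k) = (u (ns k)).2 := by
      intro k
      rw [hL k]
      exact (lg_spec F _ _).2
    have hbd : ∀ k, nm (u (ns k)).1 (L k) ≤ Metric.diam (univ : Set M) := by
      intro k
      rw [hL1 k]
      exact Metric.dist_le_diam_of_mem isCompact_univ.isBounded (mem_univ _) (mem_univ _)
    obtain ⟨z₀, v₀, φ, hφ, hT⟩ := exists_tendstoTB (E := E) (fun k => (u (ns k)).1)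
      (fun k => L k) _ hbd
    refine ⟨φ, ?_⟩
    have hns' : Tendsto (fun k => ns (φ k)) atTop atTop := hns.comp hφ.tendsto_atTop
    have hz : z₀ = p.1 := tendsto_nhds_unique hT.base (hu1.comp hns')
    subst hz
    have hexp := hT.exp F.isExp
    have hy : e p.1 v₀ = p.2 := by
      refine tendsto_nhds_unique hexp ?_
      refine (hu2.comp hns').congr fun k => ?_
      exact (hL2 (φ k)).symm
    have hn : nm (E := E) p.1 v₀ = dist p.1 p.2 := by
      refine tendsto_nhds_unique hT.norm ?_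
      refine (hdist.comp hns').congr fun k => ?_
      exact (hL1 (φ k)).symm
    have hlt : nm (E := E) p.1 v₀ < D := by rw [hn]; linarith
    have hv := lg_eq (E := E) F hB hlt
    rw [hy] at hv
    rw [hv]
    refine ((hG.tendsto (⟨p.1, v₀⟩ : TangentBundle 𝓘(ℝ, E) M)).comp hT).congr fun k => ?_
    change G (u (ns (φ k))).1 (L (φ k)) = _
    rw [hL]

theorem log_continuous_tb (x : M) :
    Continuous fun ξ : Eu E => (⟨x, (fr x ξ : E)⟩ : TangentBundle 𝓘(ℝ, E) M) := by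
  have h : Continuous (fun v : TangentSpace 𝓘(ℝ, E) x => (⟨x, v⟩ : TangentBundle 𝓘(ℝ, E) M)) :=
    FiberBundle.continuous_totalSpaceMk E (TangentSpace 𝓘(ℝ, E)) x
  have h2 : Continuous (fr x : Eu E → E) := ContinuousLinearEquiv.continuous (fr x)
  exact h.comp h2

theorem log_continuous_ef (he : IsExp e) (x : M) : Continuous (ef e x) := by
  have h := log_continuous_tb (E := E) (M := M) x
  have h2 := he.smooth.continuous.comp h
  exact h2

theorem log_image_ball (F : Facts e) {D : ℝ} (hB : InjGE e D) (x : M) :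
    ef e x '' Metric.ball 0 D = {y | dist x y < D} := by
  ext y
  constructor
  · rintro ⟨ξ, hξ, rfl⟩
    rw [mem_ball_zero_iff] at hξ
    have h1 : nm x (fr x ξ) = ‖ξ‖ := nm_fr x ξ
    have h2 : dist x (e x (fr x ξ : E)) = nm x (fr x ξ) :=
      hB x (fr x ξ : E) (by
        change nm x (fr x ξ) ≤ D
        rw [h1]; exact hξ.le)
    change dist x (e x (fr x ξ : E)) < D
    rw [h2, h1]
    exact hξ
  · intro hy
    obtain ⟨h1, h2⟩ := lg_spec F x y
    have h3 : (fr x ((fr x).symm (lg e x y)) : E) = lg e x y := (fr x).apply_symm_apply _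
    refine ⟨(fr x).symm (lg e x y), ?_, ?_⟩
    · rw [mem_ball_zero_iff, ← nm_fr x, h3, h1]
      exact hy
    · exact (congrArg (e x) h3).trans h2

end

end Vale.Agent.P231
end
end
end

section

section

section

/-! P231 measure part ME: change of variables for the inverse of the exponential map. -/

set_option maxSynthPendingDepth 3
set_option linter.unusedSectionVars false

open Bundle Manifold Set Filter MeasureTheory Module
open scoped ContDiff Manifold Topology ENNReal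

namespace Vale.Agent.P231

noncomputable section

open Vale.Agent.P234

variable {E : Type*} [NormedAddCommGroup E] [NormedSpace ℝ E] [FiniteDimensional ℝ E]
  {M : Type*} [MetricSpace M] [ChartedSpace E M]
  [RiemannianBundle (fun x : M => TangentSpace 𝓘(ℝ, E) x)]
  [IsManifold 𝓘(ℝ, E) ∞ M]
  [IsContMDiffRiemannianBundle 𝓘(ℝ, E) ∞ E (fun x : M => TangentSpace 𝓘(ℝ, E) x)]
  {e : ∀ x : M, TangentSpace 𝓘(ℝ, E) x → M}

theorem log_measurable_jac [CompactSpace M] (he : IsExp e) (x : M) :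
    Measurable fun ξ : Eu E => ENNReal.ofReal (jac e x (fr x ξ)) := by
  have h1 := log_continuous_tb (E := E) (M := M) x
  have h2 := (contTB_jac he).comp h1
  have h3 : Continuous fun ξ : Eu E => jac e x (fr x ξ) := h2
  exact h3.measurable.ennreal_ofReal

theorem log_map_eq [CompactSpace M] [ConnectedSpace M] [IsRiemannianManifold 𝓘(ℝ, E) M]
    [MeasurableSpace M] [BorelSpace M] (F : Facts e) {D : ℝ} (hD : 0 < D) (hB : InjGE e D)
    (x : M) :
    ((volume.restrict (Metric.ball (0 : Eu E) D)).withDensity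
      (fun ξ : Eu E => ENNReal.ofReal (jac e x (fr x ξ)))).map (ef e x) =
      (riemVol (finrank ℝ E) M).restrict (ef e x '' Metric.ball 0 D) := by
  have hφ : Measurable (ef e x) := (log_continuous_ef F.isExp x).measurable
  refine Measure.ext fun T hT => ?_
  have h1 : MeasurableSet (ef e x ⁻¹' T) := hφ hT
  rw [Measure.map_apply hφ hT, withDensity_apply _ h1, Measure.restrict_restrict h1,
    Measure.restrict_apply hT]
  have h2 := area F hD hB x (h1.inter (measurableSet_ball (x := (0 : Eu E)) (ε := D)))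
    inter_subset_right
  rw [← h2]
  congr 1
  ext y
  constructor
  · rintro ⟨ξ, ⟨h1, h2⟩, rfl⟩
    exact ⟨h1, mem_image_of_mem _ h2⟩
  · rintro ⟨h1, ⟨ξ, h2, rfl⟩⟩
    exact ⟨ξ, ⟨h1, h2⟩, rfl⟩

theorem log_integral_image [CompactSpace M] [ConnectedSpace M] [IsRiemannianManifold 𝓘(ℝ, E) M]
    [MeasurableSpace M] [BorelSpace M] (F : Facts e) {D : ℝ} (hD : 0 < D) (hB : InjGE e D)
    (x : M) {f : M → ℝ} (hf : Continuous f) :
    ∫ y in ef e x '' Metric.ball 0 D, f y ∂(riemVol (finrank ℝ E) M) =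
      ∫ ξ in Metric.ball (0 : Eu E) D, jac e x (fr x ξ) * f (ef e x ξ) := by
  have hφ : Measurable (ef e x) := (log_continuous_ef F.isExp x).measurable
  rw [← log_map_eq F hD hB x, integral_map hφ.aemeasurable hf.aestronglyMeasurable]
  rw [integral_withDensity_eq_integral_toReal_smul (log_measurable_jac F.isExp x)
    (ae_of_all _ fun _ => ENNReal.ofReal_lt_top)]
  refine integral_congr_ae (ae_of_all _ fun ξ => ?_)
  have h4 : (0 : ℝ) ≤ jac e x (fr x ξ) := abs_nonneg _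
  simp only [ENNReal.toReal_ofReal h4, smul_eq_mul]

/-- change of variables -/
theorem integral_lg [CompactSpace M] [ConnectedSpace M] [IsRiemannianManifold 𝓘(ℝ, E) M]
    [MeasurableSpace M] [BorelSpace M] (F : Facts e) {D : ℝ} (hD : 0 < D) (hB : InjGE e D)
    {G : M → E → ℝ} (hG : ContTB G) {b : ℝ} (hb : b < D) (hs : ∀ x v, b < nm x v → G x v = 0)
    (x : M) :
    ∫ y, G x (lg e x y) ∂(riemVol (finrank ℝ E) M) =
      fint (fun x v => G x v * jac e x v) x := by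
  have hf : Continuous fun y => G x (lg e x y) :=
    (continuous_lg F hB hG hb hs).comp (continuous_const.prodMk continuous_id)
  have h1 : ∫ y, G x (lg e x y) ∂(riemVol (finrank ℝ E) M) =
      ∫ y in ef e x '' Metric.ball 0 D, G x (lg e x y) ∂(riemVol (finrank ℝ E) M) := by
    symm
    refine setIntegral_eq_integral_of_forall_compl_eq_zero fun y hy => hs _ _ ?_
    rw [log_image_ball F hB x, mem_ofPred_eq, not_lt] at hy
    rw [(lg_spec F x y).1]
    linarith
  rw [h1, log_integral_image F hD hB x hf]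
  have h2 : fint (fun x v => G x v * jac e x v) x =
      ∫ ξ in Metric.ball (0 : Eu E) D, G x (fr x ξ) * jac e x (fr x ξ) := by
    symm
    refine setIntegral_eq_integral_of_forall_compl_eq_zero fun ξ hξ => ?_
    rw [mem_ball_zero_iff, not_lt] at hξ
    rw [hs x (fr x ξ) (by rw [nm_fr]; linarith only [hb, hξ]), zero_mul]
  rw [h2]
  refine setIntegral_congr_fun measurableSet_ball fun ξ hξ => ?_
  rw [mem_ball_zero_iff] at hξ
  have h3 : lg e x (ef e x ξ) = fr x ξ := lg_eq F hB (by rw [nm_fr]; exact hξ)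
  simp only [h3]
  ring

end

end Vale.Agent.P231
end
end
end

section

section

section

/-! P231 measure part MJ: the geodesic symmetries are isometries. -/

set_option maxSynthPendingDepth 3
set_option linter.unusedSectionVars false

open Bundle Manifold Set Filter MeasureTheory Module
open scoped ContDiff Manifold Topology ENNReal

namespace Vale.Agent.P231

noncomputable section

open Vale.Agent.P234

variable {E : Type*} [NormedAddCommGroup E] [NormedSpace ℝ E] [FiniteDimensional ℝ E]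
  {M : Type*} [MetricSpace M] [ChartedSpace E M]
  [RiemannianBundle (fun x : M => TangentSpace 𝓘(ℝ, E) x)]
  [IsManifold 𝓘(ℝ, E) ∞ M]
  [IsContMDiffRiemannianBundle 𝓘(ℝ, E) ∞ E (fun x : M => TangentSpace 𝓘(ℝ, E) x)]
  {e : ∀ x : M, TangentSpace 𝓘(ℝ, E) x → M}

/-- length estimate -/
theorem symm_dist_le_of_speed [IsRiemannianManifold 𝓘(ℝ, E) M] {c : ℝ → M} {a b ℓ : ℝ}
    (hab : a ≤ b) (hℓ : 0 ≤ ℓ) (hc : ∀ t ∈ Icc a b, ContMDiffAt 𝓘(ℝ, ℝ) 𝓘(ℝ, E) 1 c t)
    (hs : ∀ t ∈ Icc a b, nm (E := E) (c t) (mfderiv 𝓘(ℝ, ℝ) 𝓘(ℝ, E) c t (1 : ℝ)) ≤ ℓ) :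
    dist (c a) (c b) ≤ ℓ * (b - a) := by
  have h1 : edist (c a) (c b) ≤ ENNReal.ofReal (ℓ * (b - a)) := by
    rw [IsRiemannianManifold.out (I := 𝓘(ℝ, E)) (c a) (c b)]
    have h2 : riemannianEDist 𝓘(ℝ, E) (c a) (c b) ≤ pathELength 𝓘(ℝ, E) c a b := by
      apply riemannianEDist_le_pathELength
      · exact fun t ht => (hc t ht).contMDiffWithinAt
      · rfl
      · rfl
      · exact hab
    refine h2.trans ?_
    rw [pathELength_eq_lintegral_mfderiv_Icc]
    calc ∫⁻ t in Icc a b, ‖mfderiv 𝓘(ℝ, ℝ) 𝓘(ℝ, E) c t 1‖ₑ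
        ≤ ∫⁻ _t in Icc a b, ENNReal.ofReal ℓ := by
          apply setLIntegral_mono measurable_const
          intro t ht
          rw [← ofReal_norm]
          exact ENNReal.ofReal_le_ofReal (hs t ht)
      _ = ENNReal.ofReal (ℓ * (b - a)) := by
          rw [setLIntegral_const, Real.volume_Icc, ENNReal.ofReal_mul hℓ]
  rw [edist_dist] at h1
  exact (ENNReal.ofReal_le_ofReal_iff (mul_nonneg hℓ (by linarith))).1 h1

theorem symm_nm_neg (x : M) (v : E) : nm x (-v) = nm x v := by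
  have key : ∀ v : TangentSpace 𝓘(ℝ, E) x, ‖-v‖ = ‖v‖ := fun v => norm_neg v
  exact key v

theorem symm_dE_neg (x : M) (v w : E) : dE e x v (-w) = - dE e x v w := by
  have h := dE_smul e x v w (-1)
  simpa only [neg_smul, one_smul] using h

/-- antipodal vectors of length `D` have the same endpoint -/
theorem symm_antipode (F : Facts e) {D : ℝ} (hD : 0 < D)
    (hcl : ∀ (x : M) (v : E), nm x v = 2 * D → e x v = x) (p : M) (w : E) (hw : nm p w = D) :
    e p (-w) = e p w := by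
  have h1 : nm p (D⁻¹ • w) = 1 := by
    rw [nm_smul, hw, abs_of_pos (inv_pos.2 hD), inv_mul_cancel₀ hD.ne']
  have h2 := gam_per F hD.le hcl p (D⁻¹ • w) h1 (-D)
  have h3 : -D + 2 * D = D := by ring
  rw [h3, ] at h2
  have h4 : ∀ t : ℝ, gam e p (D⁻¹ • w) t = e p ((t * D⁻¹) • w : E) := by
    intro t
    show e p (t • D⁻¹ • w : E) = _
    rw [smul_smul]
  rw [h4, h4, mul_inv_cancel₀ hD.ne', neg_mul, mul_inv_cancel₀ hD.ne', neg_smul, one_smul] at h2
  exact h2.symm

section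

variable [CompactSpace M] [ConnectedSpace M] [IsRiemannianManifold 𝓘(ℝ, E) M]

/-- some minimizing vector -/
def symmL (F : Facts e) (p y : M) : TangentSpace 𝓘(ℝ, E) p := (F.hopfRinow p y).choose

theorem symmL_exp (F : Facts e) (p y : M) : e p (symmL F p y) = y :=
  (F.hopfRinow p y).choose_spec.1

theorem symmL_norm (F : Facts e) (p y : M) : ‖symmL F p y‖ = dist p y :=
  (F.hopfRinow p y).choose_spec.2.symm

/-- `L` as a continuous linear map of tangent spaces -/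
def symmLL {p p' : M} {L : E →ₗ[ℝ] E} (hL : ∀ v, nm p' (L v) = nm p v) :
    TangentSpace 𝓘(ℝ, E) p →L[ℝ] TangentSpace 𝓘(ℝ, E) p' :=
  LinearMap.mkContinuous
    ({ toFun := fun v => (L v : E), map_add' := fun a b => L.map_add a b,
       map_smul' := fun c a => L.map_smul c a } :
      TangentSpace 𝓘(ℝ, E) p →ₗ[ℝ] TangentSpace 𝓘(ℝ, E) p') 1
    fun v => ((hL v).le.trans_eq (one_mul _).symm)

theorem symmLL_norm {p p' : M} {L : E →ₗ[ℝ] E} (hL : ∀ v, nm p' (L v) = nm p v)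
    (v : TangentSpace 𝓘(ℝ, E) p) : ‖symmLL hL v‖ = ‖v‖ := hL v

section map

variable {p p' : M} {L : E →ₗ[ℝ] E}

/-- the map -/
def symmT (F : Facts e) (hL : ∀ v, nm p' (L v) = nm p v) (y : M) : M :=
  e p' (symmLL hL (symmL F p y))

theorem symmT_exp_of_le (F : Facts e) {D : ℝ} (hB : InjGE e D)
    (hL : ∀ v, nm p' (L v) = nm p v)
    (hC : ∀ v v' : TangentSpace 𝓘(ℝ, E) p, ‖v‖ = D → ‖v'‖ = D →
      dist (e p' (symmLL hL v)) (e p' (symmLL hL v')) ≤ dist (e p v) (e p v'))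
    (v : TangentSpace 𝓘(ℝ, E) p) (hv : ‖v‖ ≤ D) :
    symmT F hL (e p v) = e p' (symmLL hL v) := by
  unfold symmT
  rcases hv.lt_or_eq with h | h
  · have h1 : symmL F p (e p v) = v := by
      have h2 : v ∈ injDomain e p := hB.mem_injDomain h
      have h3 : symmL F p (e p v) ∈ segMin e p := by
        show dist p (e p (symmL F p (e p v))) = ‖symmL F p (e p v)‖
        rw [symmL_exp F, symmL_norm F]
      exact F.injDomain_unique h2 h3 (symmL_exp F p _)
    rw [h1]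
  · have h1 : dist p (e p v) = D := by
      rw [hB p v hv]
      exact h
    have h2 := hC (symmL F p (e p v)) v ((symmL_norm F p _).trans h1) h
    rw [symmL_exp F, dist_self] at h2
    exact dist_le_zero.1 h2

theorem symm_reduce (F : Facts e) {D : ℝ} (hD : 0 < D)
    (hcl : ∀ (x : M) (v : E), nm x v = 2 * D → e x v = x) {x : M}
    {u : TangentSpace 𝓘(ℝ, E) x} (hu1 : ‖u‖ = 1) (k : ℤ) (t : ℝ) :
    e x ((t + k * (2 * D)) • u) = e x (t • u) := by
  have hper : Function.Periodic (fun t : ℝ => e x (t • u)) (2 * D) := fun t =>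
    gam_per F hD.le hcl x u hu1 t
  exact hper.int_mul k t

theorem symmT_exp (F : Facts e) {D : ℝ} (hD : 0 < D) (hB : InjGE e D)
    (hcl : ∀ (x : M) (v : E), nm x v = 2 * D → e x v = x)
    (hL : ∀ v, nm p' (L v) = nm p v)
    (hC : ∀ v v' : TangentSpace 𝓘(ℝ, E) p, ‖v‖ = D → ‖v'‖ = D →
      dist (e p' (symmLL hL v)) (e p' (symmLL hL v')) ≤ dist (e p v) (e p v'))
    (v : TangentSpace 𝓘(ℝ, E) p) : symmT F hL (e p v) = e p' (symmLL hL v) := by
  by_cases hv : ‖v‖ ≤ D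
  · exact symmT_exp_of_le F hB hL hC v hv
  · push Not at hv
    set r := ‖v‖ with hr
    have hr0 : 0 < r := hD.trans hv
    set u : TangentSpace 𝓘(ℝ, E) p := r⁻¹ • v with hu
    have hu1 : ‖u‖ = 1 := by
      rw [hu, norm_smul, ← hr, Real.norm_of_nonneg (inv_pos.2 hr0).le, inv_mul_cancel₀ hr0.ne']
    have hvu : v = r • u := by
      rw [hu, smul_smul, mul_inv_cancel₀ hr0.ne', one_smul]
    have hu1' : ‖symmLL hL u‖ = 1 := (symmLL_norm hL u).trans hu1
    set k : ℤ := round (r / (2 * D)) with hk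
    set t0 : ℝ := r - k * (2 * D) with ht0
    have h3 : |t0| ≤ D := by
      have h4 : t0 = (r / (2 * D) - round (r / (2 * D))) * (2 * D) := by
        rw [ht0, hk, sub_mul, div_mul_cancel₀ _ (by positivity)]
      rw [h4, abs_mul, abs_of_pos (by positivity : (0:ℝ) < 2 * D)]
      have := abs_sub_round (r / (2 * D))
      nlinarith only [hD, this]
    have hrt : r = t0 + k * (2 * D) := by rw [ht0]; ring
    have h6 := symmT_exp_of_le F hB hL hC (t0 • u) (by
      rw [norm_smul, hu1, mul_one]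
      exact h3)
    have h7 : e p v = e p (t0 • u) := by
      rw [hvu, hrt]
      exact symm_reduce F hD hcl hu1 k t0
    have h8 : e p' (symmLL hL v) = e p' (symmLL hL (t0 • u)) := by
      have h9 : symmLL hL v = (t0 + k * (2 * D)) • symmLL hL u := by
        rw [← hrt, ← map_smul, ← hvu]
      have h10 : symmLL hL (t0 • u) = t0 • symmLL hL u := map_smul _ _ _
      rw [h9, h10]
      exact symm_reduce F hD hcl hu1' k t0
    rw [h7, h6, h8]

theorem continuous_symmT (F : Facts e) {D : ℝ} (hB : InjGE e D)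
    (hd : ∀ x y : M, dist x y ≤ D)
    (hL : ∀ v, nm p' (L v) = nm p v)
    (hC : ∀ v v' : TangentSpace 𝓘(ℝ, E) p, ‖v‖ = D → ‖v'‖ = D →
      dist (e p' (symmLL hL v)) (e p' (symmLL hL v')) ≤ dist (e p v) (e p v')) :
    Continuous (symmT F hL) := by
  have : ProperSpace (TangentSpace 𝓘(ℝ, E) p) := FiniteDimensional.proper ℝ _
  have hc : Continuous (e p) := (contMDiff_exp_fiber F.isExp p).continuous
  have hc' : Continuous (e p') := (contMDiff_exp_fiber F.isExp p').continuous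
  let g : Metric.closedBall (0 : TangentSpace 𝓘(ℝ, E) p) D → M := fun v => e p v
  have hgc : Continuous g := hc.comp continuous_subtype_val
  have hsurj : Function.Surjective g := fun y => by
    refine ⟨⟨symmL F p y, ?_⟩, symmL_exp F p y⟩
    rw [mem_closedBall_zero_iff]
    exact (symmL_norm F p y).trans_le (hd p y)
  have hcomp : CompactSpace (Metric.closedBall (0 : TangentSpace 𝓘(ℝ, E) p) D) :=
    isCompact_iff_compactSpace.1 (isCompact_closedBall _ _)
  have hq : Topology.IsQuotientMap g := hgc.isClosedMap.isQuotientMap hgc hsurj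
  rw [hq.continuous_iff]
  have h1 : symmT F hL ∘ g = fun v => e p' (symmLL hL v.1) :=
    funext fun v => symmT_exp_of_le F hB hL hC _ (mem_closedBall_zero_iff.1 v.2)
  rw [h1]
  exact hc'.comp ((symmLL hL).continuous.comp continuous_subtype_val)

theorem symm_speed (F : Facts e) {D : ℝ} (hD : 0 < D) (hB : InjGE e D)
    (hcl : ∀ (x : M) (v : E), nm x v = 2 * D → e x v = x)
    (hL : ∀ v, nm p' (L v) = nm p v)
    (hg : ∀ v : E, nm p v < D → ∀ w : E,
      nm (e p' (L v)) (dE e p' (L v) (L w)) = nm (e p v) (dE e p v w))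
    (hC : ∀ v v' : TangentSpace 𝓘(ℝ, E) p, ‖v‖ = D → ‖v'‖ = D →
      dist (e p' (symmLL hL v)) (e p' (symmLL hL v')) ≤ dist (e p v) (e p v'))
    {c : ℝ → M} {t : ℝ} (hc : ContMDiffAt 𝓘(ℝ, ℝ) 𝓘(ℝ, E) ∞ c t) (ht : dist p (c t) < D) :
    ContMDiffAt 𝓘(ℝ, ℝ) 𝓘(ℝ, E) ∞ (fun s => symmT F hL (c s)) t ∧
      nm (E := E) (symmT F hL (c t))
        (mfderiv 𝓘(ℝ, ℝ) 𝓘(ℝ, E) (fun s => symmT F hL (c s)) t (1 : ℝ)) =
      nm (E := E) (c t) (mfderiv 𝓘(ℝ, ℝ) 𝓘(ℝ, E) c t (1 : ℝ)) := by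
  set v : TangentSpace 𝓘(ℝ, E) p := symmL F p (c t) with hv
  have hvD : ‖v‖ < D := (symmL_norm F p (c t)).trans_lt ht
  have hev : e p v = c t := symmL_exp F p (c t)
  obtain ⟨Λ, hΛ, hΛv, hΛ1, -⟩ := F.smoothLog (hB.mem_injDomain hvD)
  rw [hev] at hΛ hΛv hΛ1
  set η : ℝ → TangentSpace 𝓘(ℝ, E) p := fun s => Λ (c s) with hη
  have hηs : ContMDiffAt 𝓘(ℝ, ℝ) 𝓘(ℝ, TangentSpace 𝓘(ℝ, E) p) ∞ η t := hΛ.comp t hc
  have hηd : HasDerivAt η (deriv η t) t :=
    (hηs.contDiffAt.differentiableAt (by simp)).hasDerivAt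
  have hηt : η t = v := hΛv
  have h1 : c =ᶠ[𝓝 t] fun s => e p (η s) := by
    filter_upwards [hc.continuousAt hΛ1] with s hs
    exact hs.2.symm
  have h2 : (fun s => symmT F hL (c s)) =ᶠ[𝓝 t] fun s => e p' (symmLL hL (η s)) := by
    filter_upwards [h1] with s hs
    rw [hs]
    exact symmT_exp F hD hB hcl hL hC _
  have hηd' : HasDerivAt (fun s => symmLL hL (η s)) (symmLL hL (deriv η t)) t :=
    (symmLL hL).hasFDerivAt.comp_hasDerivAt t hηd
  have h3 : (mfderiv 𝓘(ℝ, ℝ) 𝓘(ℝ, E) c t (1 : ℝ) : E) = dE e p (η t : E) (deriv η t) :=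
    (congrArg (fun L : ℝ →L[ℝ] E => L 1) h1.mfderiv_eq).trans (mfderiv_exp_curve F.isExp p hηd)
  have h4 : (mfderiv 𝓘(ℝ, ℝ) 𝓘(ℝ, E) (fun s => symmT F hL (c s)) t (1 : ℝ) : E) =
      dE e p' (symmLL hL (η t) : E) (symmLL hL (deriv η t) : E) :=
    (congrArg (fun L : ℝ →L[ℝ] E => L 1) h2.mfderiv_eq).trans
      (mfderiv_exp_curve F.isExp p' hηd')
  refine ⟨?_, ?_⟩
  · refine ContMDiffAt.congr_of_eventuallyEq ?_ h2
    have h5 : ContMDiffAt 𝓘(ℝ, ℝ) 𝓘(ℝ, TangentSpace 𝓘(ℝ, E) p') ∞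
        (fun s => symmLL hL (η s)) t :=
      ((symmLL hL).contDiff.contDiffAt.comp t hηs.contDiffAt).contMDiffAt
    exact (contMDiff_exp_fiber F.isExp p').contMDiffAt.comp t h5
  · have h5 : symmT F hL (c t) = e p' (symmLL hL v) := rfl
    have h6 : nm (E := E) (e p' (symmLL hL v))
        (dE (E := E) e p' (symmLL hL v) (symmLL hL (deriv η t))) =
        nm (E := E) (e p v) (dE (E := E) e p v (deriv η t)) := hg v hvD _
    have h8 : nm (E := E) (symmT F hL (c t))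
        (mfderiv 𝓘(ℝ, ℝ) 𝓘(ℝ, E) (fun s => symmT F hL (c s)) t (1 : ℝ)) =
        nm (E := E) (e p' (symmLL hL v))
          (dE (E := E) e p' (symmLL hL v) (symmLL hL (deriv η t))) := by
      rw [h5]
      refine congrArg (nm (E := E) (e p' (symmLL hL v))) (h4.trans ?_)
      rw [hηt]
    have h9 : nm (E := E) (c t) (mfderiv 𝓘(ℝ, ℝ) 𝓘(ℝ, E) c t (1 : ℝ)) =
        nm (E := E) (e p v) (dE (E := E) e p v (deriv η t)) := by
      rw [hev]
      refine congrArg (nm (E := E) (c t)) (h3.trans ?_)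
      rw [hηt]
    exact h8.trans (h6.trans h9.symm)

theorem symmT_dist_le (F : Facts e) {D : ℝ} (hD : 0 < D) (hB : InjGE e D)
    (hd : ∀ x y : M, dist x y ≤ D)
    (hcl : ∀ (x : M) (v : E), nm x v = 2 * D → e x v = x)
    (hL : ∀ v, nm p' (L v) = nm p v)
    (hg : ∀ v : E, nm p v < D → ∀ w : E,
      nm (e p' (L v)) (dE e p' (L v) (L w)) = nm (e p v) (dE e p v w))
    (hC : ∀ v v' : TangentSpace 𝓘(ℝ, E) p, ‖v‖ = D → ‖v'‖ = D →
      dist (e p' (symmLL hL v)) (e p' (symmLL hL v')) ≤ dist (e p v) (e p v')) (x y : M) :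
    dist (symmT F hL x) (symmT F hL y) ≤ dist x y := by
  obtain ⟨w, hw, hdw⟩ := F.hopfRinow x y
  set c : ℝ → M := gam e x (w : E) with hc
  have hc0 : c 0 = x := gam_zero F.isExp x w
  have hc1 : c 1 = y := by
    have : c 1 = e x ((1 : ℝ) • w) := rfl
    rw [this, one_smul, hw]
  have hcs : ContMDiff 𝓘(ℝ, ℝ) 𝓘(ℝ, E) ∞ c := contMDiff_gam F.isExp x w
  have hcc : Continuous c := hcs.continuous
  set ℓ := dist x y with hℓ
  have hℓ0 : 0 ≤ ℓ := dist_nonneg
  have hspeed : ∀ t, nm (E := E) (c t) (mfderiv 𝓘(ℝ, ℝ) 𝓘(ℝ, E) c t (1 : ℝ)) = ℓ := by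
    intro t
    have h1 : nm (E := E) (c t) (mfderiv 𝓘(ℝ, ℝ) 𝓘(ℝ, E) c t (1 : ℝ)) =
        nm (E := E) (c t) (vel e x (w : E) t) :=
      congrArg (nm (E := E) (c t)) (mfderiv_gam F.isExp x w t)
    rw [h1]
    exact (nm_vel F x w t).trans hdw.symm
  have hS := continuous_symmT F hB hd hL hC
  have hself : ∀ a b, a ≤ b → dist (c a) (c b) ≤ ℓ * (b - a) := fun a b hab =>
    symm_dist_le_of_speed hab hℓ0 (fun t _ => (hcs.contMDiffAt).of_le (by simp only [WithTop.one_le_coe, le_top]))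
      fun t _ => (hspeed t).le
  have hA : ∀ a b, a ≤ b → (∀ t ∈ Icc a b, dist p (c t) < D) →
      dist (symmT F hL (c a)) (symmT F hL (c b)) ≤ ℓ * (b - a) := by
    intro a b hab h
    have h1 := fun t ht => symm_speed F hD hB hcl hL hg hC (hcs.contMDiffAt (x := t)) (h t ht)
    exact symm_dist_le_of_speed (c := fun s => symmT F hL (c s)) hab hℓ0
      (fun t ht => (h1 t ht).1.of_le (by simp only [WithTop.one_le_coe, le_top])) fun t ht => by
        rw [(h1 t ht).2, hspeed]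
  have hA1 : ∀ a b, a ≤ b → (∀ t ∈ Ico a b, dist p (c t) < D) →
      dist (symmT F hL (c a)) (symmT F hL (c b)) ≤ ℓ * (b - a) := by
    intro a b hab h
    rcases hab.eq_or_lt with rfl | hab'
    · simp
    · have hcl' : IsClosed {t : ℝ | dist (symmT F hL (c a)) (symmT F hL (c t)) ≤ ℓ * (t - a)} :=
        isClosed_le (continuous_const.dist (hS.comp hcc))
          (continuous_const.mul (continuous_id.sub continuous_const))
      have hsub : Ico a b ⊆ {t : ℝ | dist (symmT F hL (c a)) (symmT F hL (c t)) ≤ ℓ * (t - a)} :=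
        fun t ht => hA a t ht.1 fun s hs => h s ⟨hs.1, hs.2.trans_lt ht.2⟩
      have h2 := closure_minimal hsub hcl'
      rw [closure_Ico hab'.ne] at h2
      exact h2 ⟨hab, le_rfl⟩
  have hA2 : ∀ a b, a ≤ b → (∀ t ∈ Ioc a b, dist p (c t) < D) →
      dist (symmT F hL (c a)) (symmT F hL (c b)) ≤ ℓ * (b - a) := by
    intro a b hab h
    rcases hab.eq_or_lt with rfl | hab'
    · simp
    · have hcl' : IsClosed {t : ℝ | dist (symmT F hL (c t)) (symmT F hL (c b)) ≤ ℓ * (b - t)} :=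
        isClosed_le ((hS.comp hcc).dist continuous_const)
          (continuous_const.mul (continuous_const.sub continuous_id))
      have hsub : Ioc a b ⊆ {t : ℝ | dist (symmT F hL (c t)) (symmT F hL (c b)) ≤ ℓ * (b - t)} :=
        fun t ht => hA t b ht.2 fun s hs => h s ⟨ht.1.trans_le hs.1, hs.2⟩
      have h2 := closure_minimal hsub hcl'
      rw [closure_Ioc hab'.ne] at h2
      exact h2 ⟨le_rfl, hab⟩
  have hfix : ∀ q q', dist p q = D → dist p q' = D →
      dist (symmT F hL q) (symmT F hL q') ≤ dist q q' := by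
    intro q q' hq hq'
    have h1 := hC (symmL F p q) (symmL F p q') ((symmL_norm F p q).trans hq)
      ((symmL_norm F p q').trans hq')
    rw [symmL_exp F, symmL_exp F] at h1
    exact h1
  by_cases h : ∃ t ∈ Icc (0 : ℝ) 1, dist p (c t) = D
  · have hKc : IsCompact {t : ℝ | t ∈ Icc (0 : ℝ) 1 ∧ dist p (c t) = D} := by
      refine isCompact_Icc.of_isClosed_subset ?_ fun t ht => ht.1
      exact isClosed_Icc.inter (isClosed_eq (continuous_const.dist hcc) continuous_const)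
    have hKn : {t : ℝ | t ∈ Icc (0 : ℝ) 1 ∧ dist p (c t) = D}.Nonempty := by
      obtain ⟨t, h1, h2⟩ := h
      exact ⟨t, h1, h2⟩
    obtain ⟨a, haK, ha⟩ := hKc.exists_isLeast hKn
    obtain ⟨b, hbK, hb⟩ := hKc.exists_isGreatest hKn
    have hab : a ≤ b := ha hbK
    have h1 : dist (symmT F hL (c 0)) (symmT F hL (c a)) ≤ ℓ * (a - 0) := by
      refine hA1 0 a haK.1.1 fun t ht => lt_of_le_of_ne (hd _ _) fun h2 => ?_
      have h3 : t ∈ {t : ℝ | t ∈ Icc (0 : ℝ) 1 ∧ dist p (c t) = D} :=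
        ⟨⟨ht.1, ht.2.le.trans haK.1.2⟩, h2⟩
      exact absurd (ha h3) (not_le.2 ht.2)
    have h2 : dist (symmT F hL (c b)) (symmT F hL (c 1)) ≤ ℓ * (1 - b) := by
      refine hA2 b 1 hbK.1.2 fun t ht => lt_of_le_of_ne (hd _ _) fun h2 => ?_
      have h3 : t ∈ {t : ℝ | t ∈ Icc (0 : ℝ) 1 ∧ dist p (c t) = D} :=
        ⟨⟨hbK.1.1.trans ht.1.le, ht.2⟩, h2⟩
      exact absurd (hb h3) (not_le.2 ht.1)
    have h3 : dist (symmT F hL (c a)) (symmT F hL (c b)) ≤ ℓ * (b - a) :=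
      (hfix _ _ haK.2 hbK.2).trans (hself a b hab)
    rw [hc0] at h1
    rw [hc1] at h2
    calc dist (symmT F hL x) (symmT F hL y)
        ≤ dist (symmT F hL x) (symmT F hL (c a)) + dist (symmT F hL (c a)) (symmT F hL (c b)) +
          dist (symmT F hL (c b)) (symmT F hL y) := dist_triangle4 _ _ _ _
      _ ≤ ℓ * (a - 0) + ℓ * (b - a) + ℓ * (1 - b) := add_le_add (add_le_add h1 h3) h2
      _ = ℓ := by ring
  · push Not at h
    have h1 := hA 0 1 zero_le_one fun t ht => lt_of_le_of_ne (hd _ _) (h t ht)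
    rw [hc0, hc1] at h1
    (clear D hD hB hd hcl hg hC w hw c hc hc0 hc1 hcs hcc hdw hℓ hℓ0 hspeed hS hself hA hA1 hA2 hfix h; linarith)

end map

theorem exists_lipschitz_map (F : Facts e) {D : ℝ} (hD : 0 < D) (hB : InjGE e D)
    (hd : ∀ x y : M, dist x y ≤ D)
    (hcl : ∀ (x : M) (v : E), nm x v = 2 * D → e x v = x) (p p' : M) (L : E →ₗ[ℝ] E)
    (hL : ∀ v, nm p' (L v) = nm p v)
    (hg : ∀ v : E, nm p v < D → ∀ w : E,
      nm (e p' (L v)) (dE e p' (L v) (L w)) = nm (e p v) (dE e p v w))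
    (hC : ∀ v v' : E, nm p v = D → nm p v' = D →
      dist (e p' (L v)) (e p' (L v')) ≤ dist (e p v) (e p v')) :
    ∃ σ : M → M, (∀ x y, dist (σ x) (σ y) ≤ dist x y) ∧ ∀ v : E, σ (e p v) = e p' (L v) :=
  ⟨symmT F hL, symmT_dist_le F hD hB hd hcl hL hg (fun v v' h h' => hC v v' h h'),
    fun v => symmT_exp F hD hB hcl hL (fun v v' h h' => hC v v' h h') v⟩

theorem exists_symmetry (F : Facts e) {D : ℝ} (hD : 0 < D) (hB : InjGE e D)
    (hd : ∀ x y : M, dist x y ≤ D)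
    (hcl : ∀ (x : M) (v : E), nm x v = 2 * D → e x v = x)
    (hg : ∀ (x : M) (v : E), nm x v < D → ∀ w : E,
      nm (e x (-v)) (dE e x (-v) w) = nm (e x v) (dE e x v w)) (p : M) :
    ∃ σ : M ≃ᵢ M, ∀ v : E, σ (e p v) = e p (-v) := by
  obtain ⟨σ, h1, h2⟩ := exists_lipschitz_map F hD hB hd hcl p p (-LinearMap.id)
    (fun v => symm_nm_neg p v)
    (fun v hv w => by
      have h3 : nm (e p (-v)) (dE e p (-v) (-w)) = nm (e p (-v)) (dE e p (-v) w) := by
        rw [symm_dE_neg, symm_nm_neg]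
      exact h3.trans (hg p v hv w))
    (fun v v' hv hv' => by
      have h3 : e p (-v) = e p v := symm_antipode F hD hcl p v hv
      have h4 : e p (-v') = e p v' := symm_antipode F hD hcl p v' hv'
      show dist (e p (-v)) (e p (-v')) ≤ _
      rw [h3, h4])
  have h2' : ∀ v : TangentSpace 𝓘(ℝ, E) p, σ (e p v) = e p (-v) := fun v => h2 v
  have hinv : ∀ y, σ (σ y) = y := by
    intro y
    have h3 := h2' (symmL F p y)
    rw [symmL_exp F] at h3
    rw [h3, h2', neg_neg, symmL_exp F]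
  refine ⟨IsometryEquiv.mk' σ σ hinv ?_, fun v => h2 v⟩
  refine Isometry.of_dist_eq fun x y => le_antisymm (h1 x y) ?_
  have h3 := h1 (σ x) (σ y)
  rwa [hinv, hinv] at h3

end

end

end Vale.Agent.P231
end
end
end

section

section

section

/-! P231: first order facts about links. -/

set_option maxSynthPendingDepth 3
set_option linter.unusedSectionVars false

open Bundle Manifold Set Filter
open scoped ContDiff Manifold Topology

namespace Vale.Agent.P231

noncomputable section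

open Vale.Agent.P234

variable {E : Type*} [NormedAddCommGroup E] [NormedSpace ℝ E] [FiniteDimensional ℝ E]
  {M : Type*} [MetricSpace M] [ChartedSpace E M]
  [RiemannianBundle (fun x : M => TangentSpace 𝓘(ℝ, E) x)]
  [IsManifold 𝓘(ℝ, E) ∞ M]
  [IsContMDiffRiemannianBundle 𝓘(ℝ, E) ∞ E (fun x : M => TangentSpace 𝓘(ℝ, E) x)]
  {e : ∀ x : M, TangentSpace 𝓘(ℝ, E) x → M}

theorem link_reverse (F : Facts e) {D : ℝ} {x y : M} {u : TangentSpace 𝓘(ℝ, E) y}
    (hu : u ∈ Lk e D x y) : ∃ v : TangentSpace 𝓘(ℝ, E) x, ‖v‖ = 1 ∧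
      ∀ s : ℝ, e x (s • v) = e y ((D - s) • u) := by
  obtain ⟨hu1, hx⟩ := hu
  subst hx
  obtain ⟨w, hw, hfl⟩ := F.flow y u D
  refine ⟨-w, by rw [norm_neg, hw, hu1], fun s => ?_⟩
  have h1 : s • (-w) = (-s) • w := by rw [smul_neg, neg_smul]
  rw [h1, hfl, sub_eq_add_neg]

theorem link_of_dir (F : Facts e) {D : ℝ} {x y : M} {v : TangentSpace 𝓘(ℝ, E) x}
    (hv : ‖v‖ = 1) (hy : e x (D • v) = y) : ∃ u ∈ Lk e D x y,
      ∀ s : ℝ, e x (s • v) = e y ((D - s) • u) := by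
  subst hy
  obtain ⟨w, hw, hfl⟩ := F.flow x v D
  have h1 : ∀ r : ℝ, e (e x (D • v)) (r • (-w)) = e x ((D - r) • v) := by
    intro r
    have h2 : r • (-w) = (-r) • w := by rw [smul_neg, neg_smul]
    rw [h2, hfl, sub_eq_add_neg]
  refine ⟨-w, ⟨by rw [norm_neg, hw, hv], ?_⟩, fun s => ?_⟩
  · rw [h1, sub_self, zero_smul, F.isExp.map_zero]
  · rw [h1, sub_sub_cancel]

/-- first variation: link vectors have nonpositive product with tangent directions -/
theorem link_tn_nonpos (F : Facts e) {D : ℝ} (hD : 0 < D) (hB : InjGE e D) {x y : M}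
    {u τ : TangentSpace 𝓘(ℝ, E) y} (hu : u ∈ Lk e D x y) (hτ : τ ∈ Tn e D x y) :
    inner ℝ u τ ≤ 0 := by
  obtain ⟨hu1, hx⟩ := hu
  obtain ⟨t, c, ht, ht0, hc, hcτ⟩ := hτ
  set w : TangentSpace 𝓘(ℝ, E) y := (D / 2) • u with hw
  have hwn : ‖w‖ = D / 2 := by
    rw [hw, norm_smul, hu1, mul_one, Real.norm_of_nonneg (by positivity)]
  have hmem : w ∈ injDomain e y := hB.mem_injDomain (by rw [hwn]; linarith only [hD])
  have hs := F.smooth_cost y w hmem
  have hm := injDomain_subset_segMin F.isExp y hmem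
  have hder := hasFDerivAt_cost_zero F.isExp y w hm hs
  have hDu : D • u ∈ segMin e y := by
    change dist y (e y (D • u)) = ‖D • u‖
    refine hB y _ ?_
    rw [norm_smul, hu1, mul_one, Real.norm_of_nonneg hD.le]
  have hdist : dist (e y w) x = D / 2 := by
    have h1 := segMin_dist F.isExp hDu (s := 1 / 2) (t := 1) (by norm_num) (by norm_num) le_rfl
    rw [one_smul, hx, smul_smul, norm_smul, hu1, mul_one, Real.norm_of_nonneg hD.le] at h1
    have h2 : (1 / 2 : ℝ) * D = D / 2 := by ring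
    rw [h2] at h1
    rw [h1]
    ring
  have hf0 : cost (e y 0) (e y w) = (D / 2) ^ 2 / 2 := by
    rw [F.isExp.map_zero]
    unfold cost
    have : dist y (e y w) = ‖w‖ := hm
    rw [this, hwn]
  have hfc : ∀ j, (D / 2) ^ 2 / 2 ≤ cost (e y (c j)) (e y w) := by
    intro j
    have h1 := dist_triangle x (e y w) (e y (c j))
    rw [hc j, dist_comm x (e y w), hdist] at h1
    have h2 : D / 2 ≤ dist (e y (c j)) (e y w) := by
      rw [dist_comm]; linarith only [h1]
    unfold cost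
    have h3 := pow_le_pow_left₀ (by positivity : (0 : ℝ) ≤ D / 2) h2 2
    linarith only [h3]
  have hc0 : Tendsto c atTop (𝓝 0) := by
    have h1 := ht0.smul hcτ
    rw [zero_smul] at h1
    refine h1.congr fun j => ?_
    rw [smul_smul, mul_inv_cancel₀ (ht j).ne', one_smul]
  have hlim := (hder.hasFDerivWithinAt (s := Set.univ)).lim (l := atTop) (c := fun j => (t j)⁻¹)
    (d := c) (v := τ) hc0 (Eventually.of_forall fun _ => Set.mem_univ _) hcτ
  have hge : 0 ≤ (-(innerSL ℝ w) : TangentSpace 𝓘(ℝ, E) y →L[ℝ] ℝ) τ := by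
    refine ge_of_tendsto' hlim fun j => ?_
    rw [zero_add, hf0, smul_eq_mul]
    exact mul_nonneg (inv_nonneg.2 (ht j).le) (by linarith only [hfc j])
  rw [_root_.neg_apply, innerSL_apply_apply, hw, inner_smul_left] at hge
  simp only [conj_trivial] at hge
  nlinarith only [hge, hD]

end

end Vale.Agent.P231
end
end
end

section

section

section

/-! P231: decomposition of tangent vectors at a point at maximal distance. -/

set_option maxSynthPendingDepth 3

open Bundle Manifold Set Filter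
open scoped ContDiff Manifold Topology

namespace Vale.Agent.P231

noncomputable section

open Vale.Agent.P234

/-- sequential form of strict differentiability -/
lemma per_de_strict {X Y : Type*} [NormedAddCommGroup X] [NormedSpace ℝ X]
    [NormedAddCommGroup Y] [NormedSpace ℝ Y] {f : X → Y} {f' : X →L[ℝ] Y} {x0 : X}
    (hf : HasStrictFDerivAt f f' x0) {a b : ℕ → X} {t : ℕ → ℝ} {h : X}
    (ha : Tendsto a atTop (𝓝 x0)) (hb : Tendsto b atTop (𝓝 x0)) (ht : ∀ j, 0 < t j)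
    (hlim : Tendsto (fun j => (t j)⁻¹ • (a j - b j)) atTop (𝓝 h)) :
    Tendsto (fun j => (t j)⁻¹ • (f (a j) - f (b j))) atTop (𝓝 (f' h)) := by
  have h1 := hf.isLittleO.comp_tendsto (ha.prodMk_nhds hb)
  have hO : (fun j => a j - b j) =O[atTop] t := by
    have h2 : (fun j => (t j)⁻¹ • (a j - b j)) =O[atTop] (fun _ => (1 : ℝ)) := hlim.isBigO_one ℝ
    have h3 := (Asymptotics.isBigO_refl t atTop).smul h2
    refine (h3.congr_left fun j => ?_).trans (Asymptotics.IsBigO.of_bound 1 ?_)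
    · rw [smul_smul, mul_inv_cancel₀ (ht j).ne', one_smul]
    · refine Eventually.of_forall fun j => ?_
      simp
  have h4 : (fun j => f (a j) - f (b j) - f' (a j - b j)) =o[atTop] t := h1.trans_isBigO hO
  have h5 := h4.tendsto_inv_smul_nhds_zero
  have h6 : Tendsto (fun j => f' ((t j)⁻¹ • (a j - b j))) atTop (𝓝 (f' h)) :=
    (f'.continuous.tendsto h).comp hlim
  have h7 := h5.add h6
  rw [zero_add] at h7
  refine h7.congr fun j => ?_
  rw [map_smul, ← smul_add, sub_add_cancel]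

variable {E : Type*} [NormedAddCommGroup E] [NormedSpace ℝ E] [FiniteDimensional ℝ E]
  {M : Type*} [MetricSpace M] [ChartedSpace E M]
  [RiemannianBundle (fun x : M => TangentSpace 𝓘(ℝ, E) x)]
  [IsManifold 𝓘(ℝ, E) ∞ M]
  [IsContMDiffRiemannianBundle 𝓘(ℝ, E) ∞ E (fun x : M => TangentSpace 𝓘(ℝ, E) x)]
  {e : ∀ x : M, TangentSpace 𝓘(ℝ, E) x → M}

lemma per_de_link [CompactSpace M] (F : Facts e) {D : ℝ} {x y : M} {v : TangentSpace 𝓘(ℝ, E) x}
    (hv : ‖v‖ = 1) (hy : e x (D • v) = y) : ∃ u ∈ Lk e D x y,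
      ∀ s : ℝ, e x (s • v) = e y ((D - s) • u) := by
  obtain ⟨w, hw, hfl⟩ := F.flow' v D hy
  have h1 : ∀ s : ℝ, e x (s • v) = e y ((D - s) • (-w)) := by
    intro s
    rw [smul_neg, ← neg_smul, hfl]
    congr 2
    ring
  refine ⟨-w, ⟨by rw [norm_neg, hw, hv], ?_⟩, h1⟩
  have h2 := h1 0
  rw [zero_smul, F.isExp.map_zero, sub_zero] at h2
  exact h2.symm

lemma per_de_smooth_zero [CompactSpace M] (F : Facts e) (y : M) : SmoothAt E y y := by
  have := F.smooth_cost y 0 (zero_mem_injDomain F.isExp y)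
  rwa [F.isExp.map_zero] at this

/-- the core: the sequences -/
lemma per_de_core [CompactSpace M] (F : Facts e) {D : ℝ} (hD : 0 < D) (hB : InjGE e D)
    {x y : M} (hxy : dist x y = D) (w : TangentSpace 𝓘(ℝ, E) y)
    {t r : ℕ → ℝ} (ht : ∀ j, 0 < t j) (ht0 : Tendsto t atTop (𝓝 0))
    (hr0 : ∀ j, 0 ≤ r j) (hr1 : ∀ j, r j ≤ D / 2) (hrt : ∀ j, r j ≤ t j * ‖w‖)
    {v : ℕ → TangentSpace 𝓘(ℝ, E) x} {v0 : TangentSpace 𝓘(ℝ, E) x}
    (hv : ∀ j, ‖v j‖ = 1) (hvlim : Tendsto v atTop (𝓝 v0))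
    (hp : ∀ j, e x ((D - r j) • v j) = e y (t j • w))
    (hdist : ∀ j, dist x (e y (t j • w)) = D - r j) :
    ∃ ρ : ℝ, 0 ≤ ρ ∧ ∃ u ∈ Lk e D x y, ∃ τ ∈ Tn e D x y,
      w = ρ • u + τ ∧ ρ = inner ℝ u w := by
  have he := F.isExp
  have hcx : Continuous (e x) := (contMDiff_exp_fiber he x).continuous
  have hcy : Continuous (e y) := (contMDiff_exp_fiber he y).continuous
  have hr : Tendsto r atTop (𝓝 0) := by
    refine squeeze_zero hr0 hrt ?_
    have := ht0.mul_const ‖w‖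
    rwa [zero_mul] at this
  have hv0 : ‖v0‖ = 1 := by
    have h1 : Tendsto (fun j => ‖v j‖) atTop (𝓝 ‖v0‖) := hvlim.norm
    have h2 : Tendsto (fun j => ‖v j‖) atTop (𝓝 1) := by
      simp only [hv]; exact tendsto_const_nhds
    exact tendsto_nhds_unique h1 h2
  have hy : e x (D • v0) = y := by
    have h1 : Tendsto (fun j => e x ((D - r j) • v j)) atTop (𝓝 (e x (D • v0))) := by
      have h2 : Tendsto (fun j => (D - r j) • v j) atTop (𝓝 ((D - 0) • v0)) :=
        (tendsto_const_nhds.sub hr).smul hvlim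
      rw [sub_zero] at h2
      exact (hcx.tendsto _).comp h2
    have h2 : Tendsto (fun j => e y (t j • w)) atTop (𝓝 (e y 0)) := by
      have h3 : Tendsto (fun j => t j • w) atTop (𝓝 ((0 : ℝ) • w)) := ht0.smul_const w
      rw [zero_smul] at h3
      exact (hcy.tendsto _).comp h3
    rw [he.map_zero] at h2
    exact tendsto_nhds_unique h1 (h2.congr fun j => (hp j).symm)
  obtain ⟨u, hu, hus⟩ := per_de_link F hv0 hy
  have hu1 : ‖u‖ = 1 := hu.1
  have hux : e y (D • u) = x := hu.2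
  set δ : ℝ := D / 2 with hδ
  have hδ0 : 0 < δ := by rw [hδ]; linarith only [hD]
  have hδD : D - δ = δ := by rw [hδ]; ring
  have hnδ : ‖δ • u‖ = δ := by
    rw [norm_smul, hu1, mul_one, Real.norm_eq_abs, abs_of_pos hδ0]
  have hmem : δ • u ∈ injDomain e y := hB.mem_injDomain (by rw [hnδ, hδ]; linarith only [hD])
  have hseg : δ • u ∈ segMin e y := injDomain_subset_segMin he y hmem
  have hsm := F.smooth_cost y _ hmem
  have hbase : e x (δ • v0) = e y (δ • u) := by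
    have := hus δ
    rwa [hδD] at this
  -- the cost in coordinates
  have hsm' : SmoothAt E (e x (δ • v0)) (e y 0) := by
    rw [he.map_zero, hbase]
    exact hsm.symm
  have hΦ := SmoothAt.coord he hsm'
  set Φ : TangentSpace 𝓘(ℝ, E) x × TangentSpace 𝓘(ℝ, E) y → ℝ :=
    fun p => cost (e x p.1) (e y p.2) with hΦdef
  have hΦs : HasStrictFDerivAt Φ (fderiv ℝ Φ (δ • v0, 0)) (δ • v0, 0) :=
    hΦ.hasStrictFDerivAt (by simp)
  have hval : fderiv ℝ Φ (δ • v0, 0) (0, w) = -(δ * inner ℝ u w) := by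
    have h1 : HasFDerivAt (fun c : TangentSpace 𝓘(ℝ, E) y => Φ (δ • v0, c))
        ((fderiv ℝ Φ (δ • v0, 0)).comp (ContinuousLinearMap.inr ℝ _ _)) 0 :=
      hΦs.hasFDerivAt.comp (0 : TangentSpace 𝓘(ℝ, E) y) (hasFDerivAt_prodMk_right _ _)
    have h2 := hasFDerivAt_cost_zero he y (δ • u) hseg hsm
    have h3 : (fun c : TangentSpace 𝓘(ℝ, E) y => Φ (δ • v0, c)) =
        fun a => cost (e y a) (e y (δ • u)) := by
      funext c
      simp only [hΦdef]
      rw [hbase, cost_comm]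
    rw [h3] at h1
    have h4 := congrArg (fun L => L w) (h1.unique h2)
    simpa only [ContinuousLinearMap.comp_apply, ContinuousLinearMap.inr_apply, map_smul, neg_apply, smul_apply,     coe_innerSL_apply, smul_eq_mul] using h4
  have hlimw : Tendsto (fun j => (t j)⁻¹ •
      (((δ • v j, t j • w) : TangentSpace 𝓘(ℝ, E) x × TangentSpace 𝓘(ℝ, E) y) - (δ • v j, 0)))
      atTop (𝓝 (0, w)) := by
    refine tendsto_const_nhds.congr fun j => ?_
    rw [Prod.mk_sub_mk, sub_self, sub_zero, Prod.smul_mk, smul_zero, smul_smul,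
      inv_mul_cancel₀ (ht j).ne', one_smul]
  have hvδ : Tendsto (fun j => δ • v j) atTop (𝓝 (δ • v0)) := hvlim.const_smul δ
  have htw : Tendsto (fun j => t j • w) atTop (𝓝 0) := by
    have := ht0.smul_const w
    rwa [zero_smul] at this
  have hb := per_de_strict hΦs (a := fun j => (δ • v j, t j • w)) (b := fun j => (δ • v j, 0))
    (hvδ.prodMk_nhds htw) (hvδ.prodMk_nhds tendsto_const_nhds) ht hlimw
  have hlimw2 : Tendsto (fun j => (t j)⁻¹ •
      (((δ • v0, t j • w) : TangentSpace 𝓘(ℝ, E) x × TangentSpace 𝓘(ℝ, E) y) - (δ • v0, 0)))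
      atTop (𝓝 (0, w)) := by
    refine tendsto_const_nhds.congr fun j => ?_
    rw [Prod.mk_sub_mk, sub_self, sub_zero, Prod.smul_mk, smul_zero, smul_smul,
      inv_mul_cancel₀ (ht j).ne', one_smul]
  have ha := per_de_strict hΦs (a := fun j => (δ • v0, t j • w)) (b := fun j => (δ • v0, 0))
    (tendsto_const_nhds.prodMk_nhds htw) tendsto_const_nhds ht hlimw2
  rw [hval] at ha hb
  -- the limit of r / t
  have hrdiv : Tendsto (fun j => (t j)⁻¹ * r j) atTop (𝓝 (inner ℝ u w)) := by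
    have hcancel : -(δ⁻¹ * -(δ * inner ℝ u w)) = (inner ℝ u w : ℝ) := by
      rw [mul_neg, neg_neg, ← mul_assoc, inv_mul_cancel₀ hδ0.ne', one_mul]
    have hlow : Tendsto (fun j => -(δ⁻¹ * ((t j)⁻¹ • (Φ (δ • v0, t j • w) - Φ (δ • v0, 0)))))
        atTop (𝓝 (inner ℝ u w)) := by
      have := (ha.const_mul δ⁻¹).neg
      rwa [hcancel] at this
    have hupp : Tendsto (fun j => -(δ⁻¹ * ((t j)⁻¹ • (Φ (δ • v j, t j • w) - Φ (δ • v j, 0)))) +
        δ⁻¹ * (r j * ‖w‖ / 2)) atTop (𝓝 (inner ℝ u w)) := by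
      have h1 := (hb.const_mul δ⁻¹).neg
      have h2 : Tendsto (fun j => δ⁻¹ * (r j * ‖w‖ / 2)) atTop (𝓝 (δ⁻¹ * (0 * ‖w‖ / 2))) :=
        ((hr.mul_const _).div_const 2).const_mul _
      have h3 := h1.add h2
      rw [hcancel] at h3
      simpa only [smul_eq_mul, zero_mul, zero_div, mul_zero, add_zero] using h3
    refine tendsto_of_tendsto_of_tendsto_of_le_of_le hlow hupp ?_ ?_
    · intro j
      have htj := ht j
      have h1 : δ - r j ≤ dist (e x (δ • v0)) (e y (t j • w)) := by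
        have h2 : dist x (e x (δ • v0)) ≤ δ := by
          have := dist_exp_le' he x (δ • v0)
          rwa [norm_smul, hv0, mul_one, Real.norm_eq_abs, abs_of_pos hδ0] at this
        have h3 := dist_triangle x (e x (δ • v0)) (e y (t j • w))
        rw [hdist j] at h3
        linarith only [hδ, h2, h3]
      have h4 : (δ - r j) ^ 2 / 2 ≤ Φ (δ • v0, t j • w) := by
        simp only [hΦdef, cost]
        have := pow_le_pow_left₀ (by linarith only [hr1 j]) h1 2
        linarith only [this]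
      have h5 : Φ (δ • v0, 0) = δ ^ 2 / 2 := by
        simp only [hΦdef, cost]
        rw [hbase, he.map_zero, dist_comm]
        have h6 : dist y (e y (δ • u)) = ‖δ • u‖ := hseg
        rw [h6, hnδ]
      have h7 : -(δ * r j) ≤ Φ (δ • v0, t j • w) - Φ (δ • v0, 0) := by
        rw [h5]
        nlinarith only [h4, sq_nonneg (r j)]
      have h8 : (t j)⁻¹ * -(δ * r j) ≤ (t j)⁻¹ * (Φ (δ • v0, t j • w) - Φ (δ • v0, 0)) :=
        mul_le_mul_of_nonneg_left h7 (by (clear * - htj; positivity))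
      have h9 : δ⁻¹ * ((t j)⁻¹ * -(δ * r j)) ≤
          δ⁻¹ * ((t j)⁻¹ * (Φ (δ • v0, t j • w) - Φ (δ • v0, 0))) :=
        mul_le_mul_of_nonneg_left h8 (by positivity)
      have h10 : δ⁻¹ * ((t j)⁻¹ * -(δ * r j)) = -((t j)⁻¹ * r j) := by
        (clear * - hδ0 htj; field_simp)
      rw [h10] at h9
      simp only [smul_eq_mul]
      linarith only [h9]
    · intro j
      have htj := ht j
      have h1 : dist (e x (δ • v j)) (e y (t j • w)) ≤ δ - r j := by
        rw [← hp j]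
        have := dist_exp_le he x (v j) δ (D - r j)
        rw [hv j, mul_one, abs_of_nonneg (by linarith only [hδ, hr1 j])] at this
        linarith only [hδ, this]
      have h2 : Φ (δ • v j, t j • w) ≤ (δ - r j) ^ 2 / 2 := by
        simp only [hΦdef, cost]
        have := pow_le_pow_left₀ dist_nonneg h1 2
        linarith only [this]
      have h3 : δ ≤ dist (e x (δ • v j)) y := by
        have h4 : dist x (e x (δ • v j)) ≤ δ := by
          have := dist_exp_le' he x (δ • v j)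
          rwa [norm_smul, hv j, mul_one, Real.norm_eq_abs, abs_of_pos hδ0] at this
        have h5 := dist_triangle x (e x (δ • v j)) y
        rw [hxy] at h5
        linarith only [hδ, h4, h5]
      have h4 : δ ^ 2 / 2 ≤ Φ (δ • v j, 0) := by
        simp only [hΦdef, cost]
        rw [he.map_zero]
        have := pow_le_pow_left₀ hδ0.le h3 2
        linarith only [this]
      have h5 : Φ (δ • v j, t j • w) - Φ (δ • v j, 0) ≤ -(δ * r j) + r j ^ 2 / 2 := by
        linarith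
      have h6 : (t j)⁻¹ * (Φ (δ • v j, t j • w) - Φ (δ • v j, 0)) ≤
          (t j)⁻¹ * (-(δ * r j) + r j ^ 2 / 2) :=
        mul_le_mul_of_nonneg_left h5 (by (clear * - htj; positivity))
      have h7 : (t j)⁻¹ * (-(δ * r j) + r j ^ 2 / 2) ≤ -(δ * ((t j)⁻¹ * r j)) + r j * ‖w‖ / 2 := by
        have h8 : (t j)⁻¹ * r j ≤ ‖w‖ := by
          rw [inv_mul_le_iff₀ htj]
          exact hrt j
        have h9 : ((t j)⁻¹ * r j) * r j ≤ ‖w‖ * r j := mul_le_mul_of_nonneg_right h8 (hr0 j)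
        have h10 : (t j)⁻¹ * (-(δ * r j) + r j ^ 2 / 2) =
            -(δ * ((t j)⁻¹ * r j)) + ((t j)⁻¹ * r j) * r j / 2 := by ring
        rw [h10]
        linarith only [h9]
      have h11 := mul_le_mul_of_nonneg_left (h6.trans h7) (inv_nonneg.2 hδ0.le)
      have h12 : δ⁻¹ * (-(δ * ((t j)⁻¹ * r j)) + r j * ‖w‖ / 2) =
          -((t j)⁻¹ * r j) + δ⁻¹ * (r j * ‖w‖ / 2) := by
        (clear * - htj hδ0; field_simp)
      rw [h12] at h11
      simp only [smul_eq_mul]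
      linarith only [h11]
  have hρ0 : 0 ≤ (inner ℝ u w : ℝ) := by
    refine ge_of_tendsto' hrdiv fun j => ?_
    have := ht j
    have := hr0 j
    positivity
  -- the map in exponential coordinates at `y`
  have hsy := per_de_smooth_zero F y
  have hrr := F.hopfRinow
  have hlog : ContMDiffAt 𝓘(ℝ, E) 𝓘(ℝ, TangentSpace 𝓘(ℝ, E) y) ∞ (logMap e y) y :=
    contMDiffAt_logMap he hsy
  have hlog1 : ∀ᶠ q in 𝓝 y, e y (logMap e y q) = q :=
    (eventually_logMap he hrr hsy).mono fun q hq => hq.2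
  have hlog2 : ∀ᶠ b in 𝓝 (0 : TangentSpace 𝓘(ℝ, E) y), logMap e y (e y b) = b := by
    have h0 : (0 : TangentSpace 𝓘(ℝ, E) y) ∈ segMin e y :=
      injDomain_subset_segMin he y (zero_mem_injDomain he y)
    exact eventually_logMap_exp he hrr h0 (by rw [he.map_zero]; exact hsy)
  set Ψ : ℝ × TangentSpace 𝓘(ℝ, E) x → TangentSpace 𝓘(ℝ, E) y :=
    fun p => logMap e y (e x (p.1 • p.2)) with hΨdef
  have hΨ : ContDiffAt ℝ ∞ Ψ (D, v0) := by
    rw [← contMDiffAt_iff_contDiffAt]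
    have h1 : ContMDiffAt 𝓘(ℝ, ℝ × TangentSpace 𝓘(ℝ, E) x) 𝓘(ℝ, TangentSpace 𝓘(ℝ, E) x) ∞
        (fun p : ℝ × TangentSpace 𝓘(ℝ, E) x => p.1 • p.2) (D, v0) :=
      (contDiff_fst.smul contDiff_snd).contMDiff.contMDiffAt
    have h2 : ContMDiffAt 𝓘(ℝ, ℝ × TangentSpace 𝓘(ℝ, E) x) 𝓘(ℝ, E) ∞
        (fun p : ℝ × TangentSpace 𝓘(ℝ, E) x => e x (p.1 • p.2)) (D, v0) :=
      ContMDiffAt.comp (D, v0) (contMDiff_exp_fiber he x).contMDiffAt h1
    refine ContMDiffAt.comp (D, v0) (g := logMap e y) ?_ h2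
    have h3 : e x ((D, v0).1 • (D, v0).2) = y := hy
    rw [h3]
    exact hlog
  have hΨs : HasStrictFDerivAt Ψ (fderiv ℝ Ψ (D, v0)) (D, v0) :=
    hΨ.hasStrictFDerivAt (by simp)
  have hΨv : fderiv ℝ Ψ (D, v0) (1, 0) = -u := by
    have h1 : HasFDerivAt (fun s : ℝ => Ψ (s, v0))
        ((fderiv ℝ Ψ (D, v0)).comp (ContinuousLinearMap.inl ℝ ℝ (TangentSpace 𝓘(ℝ, E) x))) D := by
      have h0 : HasFDerivAt (fun s : ℝ => (s, v0))
          (ContinuousLinearMap.inl ℝ ℝ (TangentSpace 𝓘(ℝ, E) x)) D :=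
        hasFDerivAt_prodMk_left D v0
      have h00 : HasFDerivAt Ψ (fderiv ℝ Ψ (D, v0)) ((fun s : ℝ => (s, v0)) D) :=
        hΨs.hasFDerivAt
      exact h00.comp D h0
    have h2 : (fun s : ℝ => Ψ (s, v0)) =ᶠ[𝓝 D] fun s => (D - s) • u := by
      have h3 : Tendsto (fun s : ℝ => (D - s) • u) (𝓝 D) (𝓝 ((D - D) • u)) :=
        (tendsto_const_nhds.sub tendsto_id).smul_const u
      rw [sub_self, zero_smul] at h3
      filter_upwards [h3.eventually hlog2] with s hs
      simp only [hΨdef]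
      rw [hus s]
      exact hs
    have h4 : HasDerivAt (fun s : ℝ => (D - s) • u) (-u) D := by
      have := ((hasDerivAt_id D).const_sub D).smul_const u
      simpa using this
    have h5 := h1.hasDerivAt.unique (h4.congr_of_eventuallyEq h2)
    simpa only [ContinuousLinearMap.comp_apply, ContinuousLinearMap.inl_apply] using h5
  have hrv : Tendsto (fun j => (D - r j, v j)) atTop (𝓝 (D, v0)) := by
    have h1 : Tendsto (fun j => D - r j) atTop (𝓝 (D - 0)) := tendsto_const_nhds.sub hr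
    rw [sub_zero] at h1
    exact h1.prodMk_nhds hvlim
  have hlim3 : Tendsto (fun j => (t j)⁻¹ •
      (((D, v j) : ℝ × TangentSpace 𝓘(ℝ, E) x) - (D - r j, v j))) atTop
      (𝓝 ((inner ℝ u w : ℝ), (0 : TangentSpace 𝓘(ℝ, E) x))) := by
    have h1 : Tendsto (fun j => ((t j)⁻¹ * r j, (0 : TangentSpace 𝓘(ℝ, E) x))) atTop
      (𝓝 ((inner ℝ u w : ℝ), (0 : TangentSpace 𝓘(ℝ, E) x))) := hrdiv.prodMk_nhds tendsto_const_nhds
    refine h1.congr fun j => ?_
    rw [Prod.mk_sub_mk, sub_self, Prod.smul_mk, smul_zero, sub_sub_cancel, smul_eq_mul]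
  have hc := per_de_strict hΨs (a := fun j => (D, v j)) (b := fun j => (D - r j, v j))
    (tendsto_const_nhds.prodMk_nhds hvlim) hrv ht hlim3
  have hval2 : fderiv ℝ Ψ (D, v0) ((inner ℝ u w : ℝ), 0) = -((inner ℝ u w : ℝ) • u) := by
    have h1 : ((inner ℝ u w : ℝ), (0 : TangentSpace 𝓘(ℝ, E) x)) =
        (inner ℝ u w : ℝ) • ((1 : ℝ), (0 : TangentSpace 𝓘(ℝ, E) x)) := by
      rw [Prod.smul_mk, smul_zero, smul_eq_mul, mul_one]
    rw [h1, map_smul, hΨv, smul_neg]
  rw [hval2] at hc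
  have hev2 : ∀ᶠ j in atTop, Ψ (D - r j, v j) = t j • w := by
    filter_upwards [htw.eventually hlog2] with j hj
    simp only [hΨdef]
    rw [hp j]
    exact hj
  have hev1 : ∀ᶠ j in atTop, e y (Ψ (D, v j)) = e x (D • v j) := by
    have h1 : Tendsto (fun j => e x (D • v j)) atTop (𝓝 y) := by
      have h2 : Tendsto (fun j => D • v j) atTop (𝓝 (D • v0)) := hvlim.const_smul D
      have h3 := (hcx.tendsto _).comp h2
      rwa [hy] at h3
    filter_upwards [h1.eventually hlog1] with j hj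
    exact hj
  obtain ⟨N, hN⟩ := eventually_atTop.1 hev1
  refine ⟨inner ℝ u w, hρ0, u, hu, w - (inner ℝ u w : ℝ) • u, ?_, by abel, rfl⟩
  refine ⟨fun j => t (j + N), fun j => Ψ (D, v (j + N)), fun j => ht _,
    ht0.comp (tendsto_add_atTop_nat N), ?_, ?_⟩
  · intro j
    rw [hN (j + N) (by omega)]
    have h1 := hB x (D • v (j + N)) (by
      rw [norm_smul, hv, mul_one, Real.norm_eq_abs, abs_of_pos hD])
    rw [h1, norm_smul, hv, mul_one, Real.norm_eq_abs, abs_of_pos hD]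
  · have h1 : Tendsto (fun j => (t j)⁻¹ • Ψ (D, v j)) atTop
        (𝓝 (w - (inner ℝ u w : ℝ) • u)) := by
      have h2 : Tendsto (fun j => (t j)⁻¹ • (Ψ (D, v j) - Ψ (D - r j, v j)) + w) atTop
          (𝓝 (-((inner ℝ u w : ℝ) • u) + w)) := hc.add tendsto_const_nhds
      rw [neg_add_eq_sub] at h2
      refine h2.congr' ?_
      filter_upwards [hev2] with j hj
      rw [hj, smul_sub, smul_smul, inv_mul_cancel₀ (ht j).ne', one_smul, sub_add_cancel]
    exact h1.comp (tendsto_add_atTop_nat N)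

theorem decomp [CompactSpace M] (F : Facts e) {D : ℝ} (hD : 0 < D) (hB : InjGE e D)
    (hdiam : ∀ p q : M, dist p q ≤ D) {x y : M} (hxy : dist x y = D)
    (w : TangentSpace 𝓘(ℝ, E) y) : ∃ ρ : ℝ, 0 ≤ ρ ∧ ∃ u ∈ Lk e D x y, ∃ τ ∈ Tn e D x y,
      w = ρ • u + τ ∧ ρ = inner ℝ u w := by
  have he := F.isExp
  -- the parameters
  set t : ℕ → ℝ := fun j => D / (2 * (‖w‖ + 1)) * (1 / ((j : ℝ) + 1)) with htdef
  have hwn : 0 ≤ ‖w‖ := norm_nonneg w
  have ht : ∀ j, 0 < t j := fun j => by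
    simp only [htdef]; (clear * - hD; positivity)
  have ht0 : Tendsto t atTop (𝓝 0) := by
    have := tendsto_one_div_add_atTop_nhds_zero_nat (𝕜 := ℝ)
    have := this.const_mul (D / (2 * (‖w‖ + 1)))
    rwa [mul_zero] at this
  have htw : ∀ j, t j * ‖w‖ ≤ D / 2 := by
    intro j
    simp only [htdef]
    have h1 : 1 / ((j : ℝ) + 1) ≤ 1 := by
      rw [div_le_one (by positivity)]
      have : (0 : ℝ) ≤ j := by (clear * -; positivity)
      linarith only []
    have h2 : D / (2 * (‖w‖ + 1)) * (1 / ((j : ℝ) + 1)) ≤ D / (2 * (‖w‖ + 1)) * 1 :=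
      mul_le_mul_of_nonneg_left h1 (by positivity)
    have h3 : D / (2 * (‖w‖ + 1)) * 1 * ‖w‖ ≤ D / 2 := by
      rw [mul_one, div_mul_eq_mul_div, div_le_div_iff₀ (by positivity) two_pos]
      nlinarith only [hD]
    exact (mul_le_mul_of_nonneg_right h2 hwn).trans h3
  have hex : ∀ j, ∃ v : TangentSpace 𝓘(ℝ, E) x, ‖v‖ = 1 ∧
      e x (dist x (e y (t j • w)) • v) = e y (t j • w) := by
    intro j
    obtain ⟨v', h1, h2⟩ := F.hopfRinow x (e y (t j • w))
    have h3 : D / 2 ≤ ‖v'‖ := by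
      rw [← h2]
      have h4 := dist_triangle x (e y (t j • w)) y
      have h5 := dist_exp_le' he y (t j • w)
      rw [norm_smul, Real.norm_eq_abs, abs_of_pos (ht j)] at h5
      rw [hxy, dist_comm _ y] at h4
      linarith only [h4, h5, htw j]
    have h4 : 0 < ‖v'‖ := by linarith only [hD, h3]
    refine ⟨‖v'‖⁻¹ • v', ?_, ?_⟩
    · rw [norm_smul, norm_inv, norm_norm, inv_mul_cancel₀ h4.ne']
    · rw [h2, smul_smul, mul_inv_cancel₀ h4.ne', one_smul, h1]
  choose v hv hp using hex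
  have hfin : ProperSpace (TangentSpace 𝓘(ℝ, E) x) := FiniteDimensional.proper ℝ _
  obtain ⟨v0, -, φ, hφ, hlim⟩ := (isCompact_sphere (0 : TangentSpace 𝓘(ℝ, E) x) 1).tendsto_subseq
    (x := v) (fun j => by simp [hv j])
  refine per_de_core F hD hB hxy w (t := fun j => t (φ j))
    (r := fun j => D - dist x (e y (t (φ j) • w))) (fun j => ht _)
    (ht0.comp hφ.tendsto_atTop) (fun j => by linarith only [hdiam x (e y (t (φ j) • w))]) ?_ ?_
    (fun j => hv (φ j)) hlim ?_ ?_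
  · intro j
    have h4 := dist_triangle x (e y (t (φ j) • w)) y
    have h5 := dist_exp_le' he y (t (φ j) • w)
    rw [norm_smul, Real.norm_eq_abs, abs_of_pos (ht _)] at h5
    rw [hxy, dist_comm _ y] at h4
    linarith only [h4, h5, htw (φ j)]
  · intro j
    have h4 := dist_triangle x (e y (t (φ j) • w)) y
    have h5 := dist_exp_le' he y (t (φ j) • w)
    rw [norm_smul, Real.norm_eq_abs, abs_of_pos (ht _)] at h5
    rw [hxy, dist_comm _ y] at h4
    linarith only [h4, h5]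
  · intro j
    rw [sub_sub_cancel]
    exact hp (φ j)
  · intro j
    ring

end

end Vale.Agent.P231
end
end
end

section

section

section

open Set Filter
open scoped ContDiff Topology

namespace Vale.Agent.P231

/-- second order Taylor estimate -/
theorem per_qt_taylor {E F : Type*} [NormedAddCommGroup E] [NormedSpace ℝ E]
    [NormedAddCommGroup F] [NormedSpace ℝ F] {f : E → F} {x0 : E} (hf : ContDiffAt ℝ 2 f x0) :
    ∃ C : ℝ, 0 ≤ C ∧ ∀ᶠ x in 𝓝 x0, ‖f x - f x0 - fderiv ℝ f x0 (x - x0)‖ ≤ C * ‖x - x0‖ ^ 2 := by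
  have h1 : ContDiffAt ℝ 1 (fderiv ℝ f) x0 := hf.fderiv_right (by norm_num)
  obtain ⟨K, t, ht, hK⟩ := h1.exists_lipschitzOnWith
  have h2 : ∀ᶠ x in 𝓝 x0, DifferentiableAt ℝ f x := by
    have := hf.eventually (by simp)
    exact this.mono fun x hx => hx.differentiableAt (by norm_num)
  obtain ⟨r, hr, hball⟩ := Metric.eventually_nhds_iff_ball.1 (h2.and ht)
  refine ⟨K, K.2, ?_⟩
  filter_upwards [Metric.ball_mem_nhds x0 hr] with x hx
  have hx' : ‖x - x0‖ < r := by rwa [← dist_eq_norm]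
  have hsub : ∀ z ∈ Metric.closedBall x0 ‖x - x0‖, z ∈ Metric.ball x0 r := by
    intro z hz
    rw [Metric.mem_closedBall] at hz
    rw [Metric.mem_ball]
    exact hz.trans_lt hx'
  have h3 := (convex_closedBall x0 ‖x - x0‖).norm_image_sub_le_of_norm_hasFDerivWithin_le'
    (f := f) (f' := fderiv ℝ f) (φ := fderiv ℝ f x0) (C := K * ‖x - x0‖)
    (x := x0) (y := x)
    (fun z hz => ((hball z (hsub z hz)).1.hasFDerivAt).hasFDerivWithinAt)
    (fun z hz => by
      have h4 := hK.dist_le_mul z (hball z (hsub z hz)).2 x0 (hball x0 (Metric.mem_ball_self hr)).2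
      rw [dist_eq_norm, dist_eq_norm] at h4
      rw [Metric.mem_closedBall, dist_eq_norm] at hz
      exact h4.trans (mul_le_mul_of_nonneg_left hz K.2))
    (Metric.mem_closedBall_self (norm_nonneg _))
    (by rw [Metric.mem_closedBall, dist_eq_norm])
  calc _ ≤ K * ‖x - x0‖ * ‖x - x0‖ := h3
    _ = K * ‖x - x0‖ ^ 2 := by ring

/-- expansion of `h` -/
theorem per_qt_expand {Y : Type*} [NormedAddCommGroup Y] [InnerProductSpace ℝ Y]
    {h : ℝ × Y → ℝ} (hh : ContDiffAt ℝ 3 h (0, 0))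
    {l : ℝ → Y} {l' : Y} (hl : HasDerivAt l l' 0)
    (hdh : ∀ᶠ s in 𝓝 (0 : ℝ), HasFDerivAt (fun q => h (s, q)) (-(innerSL ℝ (l s))) 0) :
    ∃ C : ℝ, 0 ≤ C ∧ ∃ r : ℝ, 0 < r ∧ ∀ (s : ℝ) (c : Y), |s| < r → ‖c‖ < r →
      |h (s, c) - h (s, 0) + inner ℝ (l 0) c + s * inner ℝ l' c| ≤ C * (‖c‖ * (‖c‖ + s ^ 2)) := by
  set Φ : ℝ × Y → (Y →L[ℝ] ℝ) := fun p =>
    (fderiv ℝ h p).comp (ContinuousLinearMap.inr ℝ ℝ Y) with hΦ
  have hΦc : ContDiffAt ℝ 2 Φ (0, 0) := by
    have h1 : ContDiffAt ℝ 2 (fderiv ℝ h) (0, 0) := hh.fderiv_right (by norm_num)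
    exact h1.clm_comp contDiffAt_const
  have hd : ∀ᶠ p in 𝓝 ((0, 0) : ℝ × Y), DifferentiableAt ℝ h p := by
    have := hh.eventually (by simp)
    exact this.mono fun x hx => hx.differentiableAt (by norm_num)
  have hpart : ∀ p : ℝ × Y, DifferentiableAt ℝ h p →
      HasFDerivAt (fun q => h (p.1, q)) (Φ p) p.2 := by
    intro p hp
    have h1 : HasFDerivAt (fun q : Y => (p.1, q)) (ContinuousLinearMap.inr ℝ ℝ Y) p.2 :=
      hasFDerivAt_prodMk_right p.1 p.2
    exact HasFDerivAt.comp p.2 (show HasFDerivAt h (fderiv ℝ h p) (p.1, p.2) from hp.hasFDerivAt) h1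
  obtain ⟨K, t, ht, hK⟩ := (hΦc.of_le (by norm_num : (1 : WithTop ℕ∞) ≤ 2)).exists_lipschitzOnWith
  -- the curve `s ↦ Φ (s, 0)`
  have hcurve : ContDiffAt ℝ 2 (fun s : ℝ => Φ (s, 0)) 0 := by
    have h1 : ContDiffAt ℝ 2 (fun s : ℝ => ((s, 0) : ℝ × Y)) 0 :=
      contDiffAt_id.prodMk contDiffAt_const
    exact ContDiffAt.comp (0 : ℝ) hΦc h1
  have hs0 : Tendsto (fun s : ℝ => ((s, 0) : ℝ × Y)) (𝓝 0) (𝓝 (0, 0)) := by
    have : Continuous (fun s : ℝ => ((s, 0) : ℝ × Y)) := by (clear * -; fun_prop)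
    exact this.tendsto 0
  have hcurve' : (fun s : ℝ => Φ (s, 0)) =ᶠ[𝓝 0] fun s => -(innerSL ℝ (l s)) := by
    filter_upwards [hdh, hs0.eventually hd] with s h1 h2
    exact (hpart (s, 0) h2).unique h1
  have hder : fderiv ℝ (fun s : ℝ => Φ (s, 0)) 0 =
      ContinuousLinearMap.toSpanSingleton ℝ (-(innerSL ℝ l')) := by
    rw [hcurve'.fderiv_eq]
    have h1 : HasDerivAt (fun s => -(innerSL ℝ (l s))) (-(innerSL ℝ l')) 0 := by
      have h2 : HasDerivAt (fun s => innerSL ℝ (l s)) (innerSL ℝ l') 0 :=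
        (innerSL ℝ (E := Y)).hasFDerivAt.comp_hasDerivAt (0 : ℝ) hl
      exact h2.neg
    exact h1.hasFDerivAt.fderiv
  obtain ⟨C, hC, hT⟩ := per_qt_taylor hcurve
  have hΦ0 : Φ (0, 0) = -(innerSL ℝ (l 0)) := hcurve'.self_of_nhds
  obtain ⟨r1, hr1, hb1⟩ := Metric.eventually_nhds_iff_ball.1 (hd.and ht)
  obtain ⟨r2, hr2, hb2⟩ := Metric.eventually_nhds_iff_ball.1 hT
  refine ⟨K + C, add_nonneg K.2 hC, min r1 r2, lt_min hr1 hr2, ?_⟩
  intro s c hs hc
  have hs1 : |s| < r1 := hs.trans_le (min_le_left _ _)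
  have hs2 : |s| < r2 := hs.trans_le (min_le_right _ _)
  have hc1 : ‖c‖ < r1 := hc.trans_le (min_le_left _ _)
  have hmem : ∀ q : Y, ‖q‖ ≤ ‖c‖ → ((s, q) : ℝ × Y) ∈ Metric.ball ((0, 0) : ℝ × Y) r1 := by
    intro q hq
    rw [Metric.mem_ball, Prod.dist_eq, max_lt_iff]
    refine ⟨by simpa [Real.dist_eq] using hs1, by simpa using hq.trans_lt hc1⟩
  set φ : Y →L[ℝ] ℝ := -(innerSL ℝ (l 0)) - s • innerSL ℝ l' with hφ
  have hT' : ‖Φ (s, 0) - φ‖ ≤ C * s ^ 2 := by
    have h1 := hb2 s (by simpa only [Metric.mem_ball, dist_zero_right, Real.norm_eq_abs] using hs2)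
    rw [hder, hΦ0] at h1
    simp only [sub_zero, ContinuousLinearMap.toSpanSingleton_apply, Real.norm_eq_abs, sq_abs]
      at h1
    have h2 : Φ (s, 0) - φ = Φ (s, 0) - -(innerSL ℝ (l 0)) - s • -(innerSL ℝ l') := by
      rw [hφ, smul_neg]
      abel
    rw [h2]
    exact h1
  have h3 := (convex_closedBall (0 : Y) ‖c‖).norm_image_sub_le_of_norm_hasFDerivWithin_le'
    (f := fun q => h (s, q)) (f' := fun q => Φ (s, q)) (φ := φ)
    (C := K * ‖c‖ + C * s ^ 2) (x := 0) (y := c)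
    (fun q hq => by
      rw [mem_closedBall_zero_iff] at hq
      exact (hpart (s, q) (hb1 _ (hmem q hq)).1).hasFDerivWithinAt)
    (fun q hq => by
      rw [mem_closedBall_zero_iff] at hq
      have h4 := hK.dist_le_mul (s, q) (hb1 _ (hmem q hq)).2 (s, 0)
        (hb1 _ (hmem 0 (by simp only [norm_zero, norm_nonneg]))).2
      rw [dist_eq_norm] at h4
      have h5 : dist ((s, q) : ℝ × Y) (s, 0) = ‖q‖ := by
        rw [Prod.dist_eq]
        simp only [dist_self, dist_zero_right, norm_nonneg, sup_of_le_right]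
      rw [h5] at h4
      calc ‖Φ (s, q) - φ‖ = ‖(Φ (s, q) - Φ (s, 0)) + (Φ (s, 0) - φ)‖ := by
            congr 1
            abel
        _ ≤ K * ‖q‖ + C * s ^ 2 := (norm_add_le _ _).trans (add_le_add h4 hT')
        _ ≤ K * ‖c‖ + C * s ^ 2 := by
            (clear * - hq; gcongr))
    (by simp only [Metric.mem_closedBall, dist_self, norm_nonneg]) (by simp only [Metric.mem_closedBall, dist_zero_right, Std.le_refl])
  have h6 : h (s, c) - h (s, 0) + inner ℝ (l 0) c + s * inner ℝ l' c =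
      h (s, c) - h (s, 0) - φ (c - 0) := by
    rw [hφ]
    simp only [sub_zero, sub_apply, neg_apply,
      smul_apply, innerSL_apply_apply, smul_eq_mul]
    ring
  rw [h6, ← Real.norm_eq_abs]
  refine h3.trans ?_
  rw [sub_zero]
  have hK0 : (0 : ℝ) ≤ K := K.2
  nlinarith only [mul_nonneg (mul_nonneg hC (norm_nonneg c)) (norm_nonneg c), mul_nonneg (mul_nonneg hK0 (norm_nonneg c)) (sq_nonneg s)]

theorem quad_trick {Y : Type*} [NormedAddCommGroup Y] [InnerProductSpace ℝ Y]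
    [FiniteDimensional ℝ Y] {h : ℝ × Y → ℝ} (hh : ContDiffAt ℝ 3 h (0, 0)) {G : Y → ℝ}
    (hG : ContDiffAt ℝ 2 G 0) {κ : ℝ → Y} (hκ : ContDiffAt ℝ 2 κ 0) (hκ0 : κ 0 = 0)
    (hκ1 : deriv κ 0 = 0) {K : Set Y}
    (h1 : ∀ᶠ s in 𝓝 (0 : ℝ), κ s ∈ K) (h2 : ∀ᶠ s in 𝓝 (0 : ℝ), h (s, κ s) = 0)
    (h3 : ∀ᶠ p in 𝓝 ((0, 0) : ℝ × Y), p.2 ∈ K → 0 ≤ h p)
    (h4 : ∀ᶠ q in 𝓝 (0 : Y), q ∈ K → 0 ≤ G q) (h0 : h (0, 0) = 0) (hG0 : G 0 = 0)
    {l : ℝ → Y} {l' : Y} (hl : HasDerivAt l l' 0)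
    (hdh : ∀ᶠ s in 𝓝 (0 : ℝ), HasFDerivAt (fun q => h (s, q)) (-(innerSL ℝ (l s))) 0)
    (hdG : HasFDerivAt G (innerSL ℝ (l 0)) 0)
    {t : ℕ → ℝ} {c : ℕ → Y} {τ : Y} (ht : ∀ j, 0 < t j) (ht0 : Tendsto t atTop (𝓝 0))
    (hc : ∀ j, c j ∈ K) (hcτ : Tendsto (fun j => (t j)⁻¹ • c j) atTop (𝓝 τ)) :
    inner ℝ l' τ = 0 := by
  obtain ⟨A, hA, r, hr, hexp⟩ := per_qt_expand hh hl hdh
  obtain ⟨B, hB, hTG⟩ := per_qt_taylor hG
  obtain ⟨D, hD, hTκ⟩ := per_qt_taylor hκ
  have hκd : fderiv ℝ κ 0 = 0 := by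
    ext
    rw [fderiv_eq_smul_deriv, hκ1]
    simp only [smul_zero, zero_apply]
  simp only [hdG.fderiv, hG0, sub_zero, innerSL_apply_apply] at hTG
  simp only [hκd, hκ0, sub_zero, zero_apply, Real.norm_eq_abs, sq_abs] at hTκ
  -- cubic bound for `h (s, 0)`
  have hκt : Tendsto κ (𝓝 0) (𝓝 0) := by
    have := hκ.continuousAt.tendsto
    rwa [hκ0] at this
  have hcub : ∀ᶠ s in 𝓝 (0 : ℝ), h (s, 0) ≤
      (2 * A * D ^ 2 + ‖l'‖ * D + A * D) * |s| ^ 3 := by
    have e1 : ∀ᶠ s in 𝓝 (0 : ℝ), |s| < min r 1 := by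
      have := Metric.ball_mem_nhds (0 : ℝ) (lt_min hr one_pos)
      filter_upwards [this] with s hs
      simpa only [lt_inf_iff, Metric.mem_ball, dist_zero_right, Real.norm_eq_abs] using hs
    have e2 : ∀ᶠ s in 𝓝 (0 : ℝ), ‖κ s‖ < r := by
      have := hκt.eventually (Metric.ball_mem_nhds (0 : Y) hr)
      filter_upwards [this] with s hs
      simpa using hs
    have e3 : ∀ᶠ s in 𝓝 (0 : ℝ), κ s ∈ K → 0 ≤ h (0, κ s) := by
      have ht' : Tendsto (fun s => ((0, κ s) : ℝ × Y)) (𝓝 0) (𝓝 (0, 0)) :=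
        tendsto_const_nhds.prodMk_nhds hκt
      exact ht'.eventually h3
    filter_upwards [e1, e2, e3, h1, h2, hTκ] with s f1 f2 f3 f4 f5 f6
    have g1 := hexp s (κ s) (f1.trans_le (min_le_left _ _)) f2
    have g2 := hexp 0 (κ s) (by simpa only [abs_zero] using hr) f2
    have g3 := f3 f4
    rw [f5] at g1
    rw [h0] at g2
    have k1 := (abs_le.1 g1).1
    have k2 := (abs_le.1 g2).2
    have k3 : s * inner ℝ l' (κ s) ≤ |s| * (‖l'‖ * ‖κ s‖) := by
      calc s * inner ℝ l' (κ s) ≤ |s * inner ℝ l' (κ s)| := le_abs_self _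
        _ = |s| * |inner ℝ l' (κ s)| := abs_mul _ _
        _ ≤ |s| * (‖l'‖ * ‖κ s‖) := by
          gcongr
          exact abs_real_inner_le_norm _ _
    have hs1 : |s| ≤ 1 := (f1.trans_le (min_le_right _ _)).le
    have hs0 : 0 ≤ |s| := abs_nonneg s
    have hn0 : 0 ≤ ‖κ s‖ := norm_nonneg _
    have hsq : s ^ 2 = |s| ^ 2 := (sq_abs s).symm
    rw [hsq] at f6 k1
    -- h (s,0) ≤ <l0,κ> + s <l', κ> + A |κ| (|κ| + s²)
    have m1 : h (s, 0) ≤ A * (‖κ s‖ * (‖κ s‖ + 0 ^ 2)) + |s| * (‖l'‖ * ‖κ s‖) +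
        A * (‖κ s‖ * (‖κ s‖ + |s| ^ 2)) := by linarith only [g3, k1, k2, k3]
    have m2 : ‖κ s‖ ^ 2 ≤ D ^ 2 * |s| ^ 3 := by
      calc ‖κ s‖ ^ 2 ≤ (D * |s| ^ 2) ^ 2 := by (clear * - f6; gcongr)
        _ = D ^ 2 * |s| ^ 3 * |s| := by ring
        _ ≤ D ^ 2 * |s| ^ 3 * 1 := by (clear * - hs1; gcongr)
        _ = _ := mul_one _
    have m3 : |s| * ‖κ s‖ ≤ D * |s| ^ 3 := by
      calc |s| * ‖κ s‖ ≤ |s| * (D * |s| ^ 2) := by (clear * - f6; gcongr)
        _ = _ := by ring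
    have m4 : ‖κ s‖ * |s| ^ 2 ≤ D * |s| ^ 3 := by
      calc ‖κ s‖ * |s| ^ 2 ≤ (D * |s| ^ 2) * |s| ^ 2 := by (clear * - f6; gcongr)
        _ = D * |s| ^ 3 * |s| := by ring
        _ ≤ D * |s| ^ 3 * 1 := by (clear * - hs1 hD; gcongr)
        _ = _ := mul_one _
    calc h (s, 0) ≤ 2 * A * ‖κ s‖ ^ 2 + ‖l'‖ * (|s| * ‖κ s‖) + A * (‖κ s‖ * |s| ^ 2) := by
          linarith
      _ ≤ 2 * A * (D ^ 2 * |s| ^ 3) + ‖l'‖ * (D * |s| ^ 3) + A * (D * |s| ^ 3) := by (clear * - m2 hA m3 m4; gcongr)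
      _ = _ := by ring
  set C' : ℝ := 2 * A * D ^ 2 + ‖l'‖ * D + A * D with hC'
  have hC'0 : 0 ≤ C' := by (clear * - hA hD; positivity)
  -- the key inequality
  have hkey : ∀ᶠ p in 𝓝 ((0, 0) : ℝ × Y), p.2 ∈ K →
      p.1 * inner ℝ l' p.2 ≤ C' * |p.1| ^ 3 + (A + B) * ‖p.2‖ ^ 2 + A * (p.1 ^ 2 * ‖p.2‖) := by
    have e1 : ∀ᶠ p in 𝓝 ((0, 0) : ℝ × Y), |p.1| < r ∧ ‖p.2‖ < r := by
      filter_upwards [Metric.ball_mem_nhds ((0, 0) : ℝ × Y) hr] with p hp
      rw [Metric.mem_ball, Prod.dist_eq, max_lt_iff] at hp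
      simpa only [dist_zero_right, Real.norm_eq_abs] using hp
    have e2 : ∀ᶠ p in 𝓝 ((0, 0) : ℝ × Y), h (p.1, 0) ≤ C' * |p.1| ^ 3 :=
      (continuous_fst.tendsto ((0, 0) : ℝ × Y)).eventually hcub
    have e3 := (continuous_snd.tendsto ((0, 0) : ℝ × Y)).eventually hTG
    have e4 := (continuous_snd.tendsto ((0, 0) : ℝ × Y)).eventually h4
    filter_upwards [e1, e2, e3, e4, h3] with p f1 f2 f3 f4 f5 hp
    have g1 := (abs_le.1 (hexp p.1 p.2 f1.1 f1.2)).2
    have g2 := f5 hp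
    have g3 := f4 hp
    rw [Real.norm_eq_abs] at f3
    have g4 := (abs_le.1 f3).2
    have g5 : h (p.1, p.2) = h p := rfl
    rw [g5] at g1
    linarith
  -- conclusion
  have hct : Tendsto c atTop (𝓝 0) := by
    have h5 : Tendsto (fun j => t j • ((t j)⁻¹ • c j)) atTop (𝓝 ((0 : ℝ) • τ)) := ht0.smul hcτ
    rw [zero_smul] at h5
    refine h5.congr fun j => ?_
    rw [smul_smul, mul_inv_cancel₀ (ht j).ne', one_smul]
  have hlam : ∀ lam : ℝ, lam * inner ℝ l' τ ≤ (A + B) * ‖τ‖ ^ 2 := by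
    intro lam
    have h6 : Tendsto (fun j => ((lam * t j, c j) : ℝ × Y)) atTop (𝓝 (0, 0)) := by
      have : Tendsto (fun j => lam * t j) atTop (𝓝 (lam * 0)) := ht0.const_mul lam
      rw [mul_zero] at this
      exact this.prodMk_nhds hct
    have h7 := h6.eventually hkey
    have h8 : ∀ᶠ j in atTop, lam * inner ℝ l' ((t j)⁻¹ • c j) ≤
        C' * |lam| ^ 3 * t j + (A + B) * ‖(t j)⁻¹ • c j‖ ^ 2 +
          A * lam ^ 2 * t j * ‖(t j)⁻¹ • c j‖ := by
      filter_upwards [h7] with j hj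
      have h9 := hj (hc j)
      have htj := ht j
      set w := (t j)⁻¹ • c j with hw
      have hcw : c j = t j • w := by
        rw [hw, smul_smul, mul_inv_cancel₀ htj.ne', one_smul]
      rw [hcw, inner_smul_right, norm_smul, Real.norm_eq_abs, abs_mul, abs_of_pos htj] at h9
      have h10 : (t j) ^ 2 * (lam * inner ℝ l' w) ≤
          (t j) ^ 2 * (C' * |lam| ^ 3 * t j + (A + B) * ‖w‖ ^ 2 + A * lam ^ 2 * t j * ‖w‖) := by
        linarith
      exact le_of_mul_le_mul_left h10 (by (clear * - htj; positivity))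
    have h11 : Tendsto (fun j => lam * inner ℝ l' ((t j)⁻¹ • c j)) atTop
        (𝓝 (lam * inner ℝ l' τ)) := (tendsto_const_nhds.inner hcτ).const_mul lam
    have h12 : Tendsto (fun j => C' * |lam| ^ 3 * t j + (A + B) * ‖(t j)⁻¹ • c j‖ ^ 2 +
          A * lam ^ 2 * t j * ‖(t j)⁻¹ • c j‖) atTop
        (𝓝 (C' * |lam| ^ 3 * 0 + (A + B) * ‖τ‖ ^ 2 + A * lam ^ 2 * 0 * ‖τ‖)) := by
      refine ((ht0.const_mul _).add ((hcτ.norm.pow 2).const_mul _)).add ?_
      exact (ht0.const_mul _).mul hcτ.norm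
    have h13 := le_of_tendsto_of_tendsto h11 h12 h8
    simpa only [ge_iff_le, mul_zero, zero_add, zero_mul, add_zero] using h13
  by_contra hne
  have h14 := hlam (((A + B) * ‖τ‖ ^ 2 + 1) / inner ℝ l' τ)
  rw [div_mul_cancel₀ _ hne] at h14
  linarith only [h14]

end Vale.Agent.P231
end
end
end

section

section

section

/-! P231: the second order comparison at an antipodal pair. -/

set_option maxSynthPendingDepth 3
set_option linter.unusedSectionVars false

open Bundle Manifold Set Filter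
open scoped ContDiff Manifold Topology

namespace Vale.Agent.P231

noncomputable section

open Vale.Agent.P234

variable {E : Type*} [NormedAddCommGroup E] [NormedSpace ℝ E] [FiniteDimensional ℝ E]
  {M : Type*} [MetricSpace M] [ChartedSpace E M]
  [RiemannianBundle (fun x : M => TangentSpace 𝓘(ℝ, E) x)]
  [IsManifold 𝓘(ℝ, E) ∞ M]
  [IsContMDiffRiemannianBundle 𝓘(ℝ, E) ∞ E (fun x : M => TangentSpace 𝓘(ℝ, E) x)]
  {e : ∀ x : M, TangentSpace 𝓘(ℝ, E) x → M}

lemma per_se_segMin {D : ℝ} (hB : InjGE e D) {x : M} {w : TangentSpace 𝓘(ℝ, E) x}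
    (hw : ‖w‖ ≤ D) : w ∈ segMin e x := hB x w hw

lemma per_se_smooth (F : Facts e) {D : ℝ} (hB : InjGE e D) {y : M}
    {w : TangentSpace 𝓘(ℝ, E) y} (hw : ‖w‖ < D) : SmoothAt E y (e y w) :=
  F.smooth_cost y w (hB.mem_injDomain hw)

/-- distance between points of a radial geodesic inside the injectivity radius -/
lemma per_se_dist (F : Facts e) {D : ℝ} (hB : InjGE e D) (hD : 0 < D) {x : M}
    {v : TangentSpace 𝓘(ℝ, E) x} (hv : ‖v‖ = 1) {s : ℝ} (hs : 0 ≤ s) (hsD : s ≤ D) :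
    dist (e x (s • v)) (e x (D • v)) = D - s := by
  have hw : D • v ∈ segMin e x := per_se_segMin hB (by
    rw [norm_smul, hv, Real.norm_eq_abs, abs_of_pos hD, mul_one])
  have h := segMin_dist F.isExp hw (s := s / D) (t := 1) (by positivity)
    ((div_le_one hD).2 hsD) le_rfl
  rw [smul_smul, div_mul_cancel₀ _ hD.ne', one_smul, norm_smul, hv, Real.norm_eq_abs,
    abs_of_pos hD, mul_one] at h
  rw [h]
  (clear * - hD; field_simp)

lemma per_se_kap_contDiffAt (F : Facts e) {D T : ℝ} (hT : 0 < T) (hTD : T ≤ D) (hB : InjGE e D)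
    {x y : M} {b : TangentSpace 𝓘(ℝ, E) y} {v : TangentSpace 𝓘(ℝ, E) x}
    (hb : ‖b‖ = 1) (hvb : ∀ s : ℝ, e x (s • v) = e y ((D - s) • b)) :
    ContDiffAt ℝ ∞ (kap e T x y) v := by
  have hn : ‖(D - T) • b‖ < D := by
    rw [norm_smul, hb, mul_one, Real.norm_eq_abs, abs_of_nonneg (by linarith only [hTD])]
    linarith only [hT]
  have h1 := contMDiffAt_logMap F.isExp (per_se_smooth F hB hn)
  rw [← hvb] at h1
  have h2 : ContMDiffAt 𝓘(ℝ, TangentSpace 𝓘(ℝ, E) x) 𝓘(ℝ, TangentSpace 𝓘(ℝ, E) x) ∞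
      (fun w : TangentSpace 𝓘(ℝ, E) x => T • w) v :=
    (contDiff_const.smul contDiff_id).contMDiff.contMDiffAt
  have h3 := (contMDiff_exp_fiber F.isExp x).contMDiffAt (x := T • v)
  have h4 : ContMDiffAt 𝓘(ℝ, TangentSpace 𝓘(ℝ, E) x) 𝓘(ℝ, E) ∞
      (fun w : TangentSpace 𝓘(ℝ, E) x => e x (T • w)) v := ContMDiffAt.comp v h3 h2
  have h5 := ContMDiffAt.comp v h1 h4
  exact h5.contDiffAt

theorem tn_orth_ker (F : Facts e) {D δ : ℝ} (hδ : 0 < δ) (hδD : δ < D) (hB : InjGE e D)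
    {x y : M} {b : TangentSpace 𝓘(ℝ, E) y} (hb : b ∈ Lk e D x y) (hb' : -b ∈ Lk e D x y)
    {v : TangentSpace 𝓘(ℝ, E) x} (hv : ‖v‖ = 1)
    (hvb : ∀ s : ℝ, e x (s • v) = e y ((D - s) • b))
    {τ : TangentSpace 𝓘(ℝ, E) y} (hτ : τ ∈ Tn e D x y)
    {ζ : TangentSpace 𝓘(ℝ, E) x} (hζ : inner ℝ v ζ = 0)
    (hk : fderiv ℝ (kap e D x y) v ζ = 0) :
    inner ℝ (fderiv ℝ (kap e (D - δ) x y) v ζ) τ = 0 := by
  have he := F.isExp
  have hD : 0 < D := hδ.trans hδD
  rcases eq_or_ne ζ 0 with rfl | hζ0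
  · rw [map_zero, inner_zero_left]
  have hζn : 0 < ‖ζ‖ := norm_pos_iff.2 hζ0
  have hbn : ‖b‖ = 1 := hb.1
  set z : TangentSpace 𝓘(ℝ, E) x := ‖ζ‖⁻¹ • ζ with hz
  have hzn : ‖z‖ = 1 := by
    rw [hz, norm_smul, norm_inv, norm_norm, inv_mul_cancel₀ hζn.ne']
  have hvz : inner ℝ v z = 0 := by rw [hz, inner_smul_right, hζ, mul_zero]
  set w : ℝ → TangentSpace 𝓘(ℝ, E) x := fun s => Real.cos s • v + Real.sin s • z with hw
  have hw0 : w 0 = v := by simp [hw]
  have hwn : ∀ s, ‖w s‖ = 1 := by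
    intro s
    have h1 : ‖w s‖ ^ 2 = 1 := by
      rw [hw]
      simp only
      rw [norm_add_sq_real, norm_smul, norm_smul, hv, hzn, inner_smul_left, inner_smul_right,
        hvz]
      simp
    nlinarith only [h1, norm_nonneg (w s)]
  have hwd : HasDerivAt w z 0 := by
    have h1 := (Real.hasDerivAt_cos 0).smul_const v
    have h2 := (Real.hasDerivAt_sin 0).smul_const z
    have h3 : HasDerivAt w ((-Real.sin 0) • v + Real.cos 0 • z) 0 := h1.add h2
    have h4 : (-Real.sin 0) • v + Real.cos 0 • z = z := by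
      rw [Real.sin_zero, Real.cos_zero, neg_zero, zero_smul, one_smul, zero_add]
    rw [h4] at h3
    exact h3
  have hwc : ContDiff ℝ ∞ w :=
    (Real.contDiff_cos.smul contDiff_const).add (Real.contDiff_sin.smul contDiff_const)
  -- the map kappa
  have hkD := per_se_kap_contDiffAt F hD le_rfl hB hbn hvb
  have hkδ := per_se_kap_contDiffAt F (T := D - δ) (by linarith only [hδD]) (by linarith only [hδ]) hB hbn hvb
  have hyD : e x (D • v) = e y 0 := by rw [hvb D, sub_self, zero_smul]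
  have hδv : e x ((D - δ) • v) = e y (δ • b) := by
    rw [hvb (D - δ)]
    congr 2
    ring
  have hs0 : SmoothAt E y (e y (0 : TangentSpace 𝓘(ℝ, E) y)) :=
    per_se_smooth F hB (by rw [norm_zero]; exact hD)
  have hδn : ‖δ • b‖ < D := by
    rw [norm_smul, hbn, mul_one, Real.norm_eq_abs, abs_of_pos hδ]; exact hδD
  have hsδ : SmoothAt E y (e y (δ • b)) := per_se_smooth F hB hδn
  have hδn' : ‖-(δ • b)‖ < D := by rw [norm_neg]; exact hδn
  have hsδ' : SmoothAt E y (e y (-(δ • b))) := per_se_smooth F hB hδn'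
  have hTs : ∀ T : ℝ, Continuous fun s : ℝ => e x (T • w s) := fun T =>
    (contMDiff_exp_fiber he x).continuous.comp (continuous_const.smul hwc.continuous)
  have hevD : ∀ᶠ s in 𝓝 (0 : ℝ), logMap e y (e x (D • w s)) ∈ segMin e y ∧
      e y (logMap e y (e x (D • w s))) = e x (D • w s) := by
    have h1 := eventually_logMap he F.hopfRinow hs0
    have h2 : Tendsto (fun s : ℝ => e x (D • w s)) (𝓝 0) (𝓝 (e y 0)) := by
      have h3 := (hTs D).tendsto 0
      rwa [hw0, hyD] at h3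
    exact h2.eventually h1
  have hevδ : ∀ᶠ s in 𝓝 (0 : ℝ), logMap e y (e x ((D - δ) • w s)) ∈ segMin e y ∧
      e y (logMap e y (e x ((D - δ) • w s))) = e x ((D - δ) • w s) := by
    have h1 := eventually_logMap he F.hopfRinow hsδ
    have h2 : Tendsto (fun s : ℝ => e x ((D - δ) • w s)) (𝓝 0) (𝓝 (e y (δ • b))) := by
      have h3 := (hTs (D - δ)).tendsto 0
      rwa [hw0, hδv] at h3
    exact h2.eventually h1
  have hevs : ∀ᶠ s in 𝓝 (0 : ℝ), SmoothAt E y (e x ((D - δ) • w s)) := by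
    have h1 : ∀ᶠ q in 𝓝 (e y (δ • b)), SmoothAt E y q := by
      have := hsδ.eventually
      rw [nhds_prod_eq] at this
      exact this.curry.self_of_nhds
    have h2 : Tendsto (fun s : ℝ => e x ((D - δ) • w s)) (𝓝 0) (𝓝 (e y (δ • b))) := by
      have h3 := (hTs (D - δ)).tendsto 0
      rwa [hw0, hδv] at h3
    exact h2.eventually h1
  have hdistxD : ∀ s, dist x (e x (D • w s)) = D := by
    intro s
    rw [hB x (D • w s) (by rw [norm_smul, hwn, Real.norm_eq_abs, abs_of_pos hD, mul_one]),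
      norm_smul, hwn, Real.norm_eq_abs, abs_of_pos hD, mul_one]
  have hdistxδ : ∀ s, dist x (e x ((D - δ) • w s)) = D - δ := by
    intro s
    have h1 : ‖(D - δ) • w s‖ = D - δ := by
      rw [norm_smul, hwn, Real.norm_eq_abs, abs_of_pos (by linarith only [hδD]), mul_one]
    rw [hB x ((D - δ) • w s) (by rw [h1]; linarith only [hδ]), h1]
  -- application of the quadratic trick
  obtain ⟨t, c, ht, ht0, hc, hcτ⟩ := hτ
  set K : Set (TangentSpace 𝓘(ℝ, E) y) := {q | dist x (e y q) = D} with hK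
  have hcoord : ContDiffAt ℝ ∞ (fun p : TangentSpace 𝓘(ℝ, E) x × TangentSpace 𝓘(ℝ, E) y =>
      cost (e x p.1) (e y p.2)) ((D - δ) • v, 0) := by
    refine SmoothAt.coord he (SmoothAt.symm ?_)
    rw [he.map_zero, hδv]
    exact hsδ
  have hcoordG : ContDiffAt ℝ ∞ (fun p : TangentSpace 𝓘(ℝ, E) y × TangentSpace 𝓘(ℝ, E) y =>
      cost (e y p.1) (e y p.2)) (-(δ • b), 0) := by
    refine SmoothAt.coord he (SmoothAt.symm ?_)
    rw [he.map_zero]
    exact hsδ'
  have hl0 : logMap e y (e x ((D - δ) • w 0)) = δ • b := by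
    rw [hw0, hδv]
    exact logMap_eq he (per_se_segMin hB hδn.le) hsδ
  have key := quad_trick (Y := TangentSpace 𝓘(ℝ, E) y)
    (h := fun p : ℝ × TangentSpace 𝓘(ℝ, E) y =>
      cost (e x ((D - δ) • w p.1)) (e y p.2) - δ ^ 2 / 2)
    (G := fun q : TangentSpace 𝓘(ℝ, E) y => cost (e y (-(δ • b))) (e y q) - δ ^ 2 / 2)
    (κ := fun s => kap e D x y (w s)) (K := K)
    (l := fun s => kap e (D - δ) x y (w s)) (l' := fderiv ℝ (kap e (D - δ) x y) v z)
    (t := t) (c := c) (τ := τ)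
    ?qh ?qG ?qκ ?qκ0 ?qκ1 ?q1 ?q2 ?q3 ?q4 ?q0 ?qG0 ?ql ?qdh ?qdG ht ht0 hc hcτ
  · have h1 : fderiv ℝ (kap e (D - δ) x y) v z =
        ‖ζ‖⁻¹ • fderiv ℝ (kap e (D - δ) x y) v ζ := by
      rw [hz]
      exact map_smul (fderiv ℝ (kap e (D - δ) x y) v) ‖ζ‖⁻¹ ζ
    rw [h1, real_inner_smul_left] at key
    rcases mul_eq_zero.1 key with h2 | h2
    · exact absurd h2 (inv_ne_zero hζn.ne')
    · exact h2
  case qh =>
    have h1 : ContDiffAt ℝ ∞ (fun p : ℝ × TangentSpace 𝓘(ℝ, E) y => ((D - δ) • w p.1, p.2))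
        (0, 0) := by
      have h2 : ContDiffAt ℝ ∞ (fun p : ℝ × TangentSpace 𝓘(ℝ, E) y => w p.1) (0, 0) :=
        hwc.contDiffAt.comp ((0, 0) : ℝ × TangentSpace 𝓘(ℝ, E) y) contDiffAt_fst
      exact (contDiffAt_const.smul h2).prodMk contDiffAt_snd
    have h3 : ContDiffAt ℝ ∞ (fun p : TangentSpace 𝓘(ℝ, E) x × TangentSpace 𝓘(ℝ, E) y =>
        cost (e x p.1) (e y p.2))
        ((fun p : ℝ × TangentSpace 𝓘(ℝ, E) y => ((D - δ) • w p.1, p.2)) (0, 0)) := by
      change ContDiffAt ℝ ∞ (fun p : TangentSpace 𝓘(ℝ, E) x × TangentSpace 𝓘(ℝ, E) y =>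
        cost (e x p.1) (e y p.2)) ((D - δ) • w 0, 0)
      rw [hw0]
      exact hcoord
    have h4 := h3.comp ((0, 0) : ℝ × TangentSpace 𝓘(ℝ, E) y) h1
    exact (h4.sub contDiffAt_const).of_le ENat.LEInfty.out
  case qG =>
    have h1 : ContDiffAt ℝ ∞ (fun q : TangentSpace 𝓘(ℝ, E) y =>
        ((-(δ • b) : TangentSpace 𝓘(ℝ, E) y), q)) 0 := contDiffAt_const.prodMk contDiffAt_id
    have h4 := ContDiffAt.comp (0 : TangentSpace 𝓘(ℝ, E) y) hcoordG h1
    exact (h4.sub contDiffAt_const).of_le ENat.LEInfty.out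
  case qκ =>
    have h1 : ContDiffAt ℝ ∞ (kap e D x y) (w 0) := by rw [hw0]; exact hkD
    exact (h1.comp (0 : ℝ) hwc.contDiffAt).of_le ENat.LEInfty.out
  case qκ0 =>
    change logMap e y (e x (D • w 0)) = 0
    rw [hw0, hyD]
    exact logMap_eq he (per_se_segMin hB (by rw [norm_zero]; exact hD.le)) hs0
  case qκ1 =>
    have h1 : HasFDerivAt (kap e D x y) (fderiv ℝ (kap e D x y) v) (w 0) := by
      rw [hw0]
      exact (hkD.differentiableAt (by simp)).hasFDerivAt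
    have h2 := h1.comp_hasDerivAt (0 : ℝ) hwd
    have h3 : fderiv ℝ (kap e D x y) v z = 0 := by
      rw [hz]
      have h4 := map_smul (fderiv ℝ (kap e D x y) v) ‖ζ‖⁻¹ ζ
      rw [hk, smul_zero] at h4
      exact h4
    rw [h3] at h2
    exact h2.deriv
  case q1 =>
    filter_upwards [hevD] with s hs
    change dist x (e y (logMap e y (e x (D • w s)))) = D
    rw [hs.2]
    exact hdistxD s
  case q2 =>
    filter_upwards [hevD] with s hs
    change cost (e x ((D - δ) • w s)) (e y (logMap e y (e x (D • w s)))) - δ ^ 2 / 2 = 0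
    rw [hs.2, cost, per_se_dist F hB hD (hwn s) (by linarith only [hδD]) (by linarith only [hδ])]
    ring
  case q3 =>
    refine Filter.Eventually.of_forall fun p hp => ?_
    have hp' : dist x (e y p.2) = D := hp
    have h1 := dist_triangle x (e x ((D - δ) • w p.1)) (e y p.2)
    rw [hp', hdistxδ] at h1
    have h2 : δ ≤ dist (e x ((D - δ) • w p.1)) (e y p.2) := by linarith only [h1]
    simp only [cost]
    nlinarith only [hδ, h1]
  case q4 =>
    refine Filter.Eventually.of_forall fun q hq => ?_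
    have hq' : dist x (e y q) = D := hq
    have h1 := dist_triangle x (e y (-(δ • b))) (e y q)
    have h2 : dist x (e y (-(δ • b))) = D - δ := by
      have h3 := per_se_dist F hB hD hb'.1 hδ.le hδD.le
      rw [hb'.2, smul_neg, dist_comm] at h3
      exact h3
    rw [hq', h2] at h1
    have h2 : δ ≤ dist (e y (-(δ • b))) (e y q) := by linarith only [h1]
    simp only [cost]
    nlinarith only [hδ, h1]
  case q0 =>
    change cost (e x ((D - δ) • w 0)) (e y 0) - δ ^ 2 / 2 = 0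
    rw [hw0, hδv, he.map_zero, cost, dist_comm, hB y (δ • b) hδn.le, norm_smul, hbn,
      Real.norm_eq_abs, abs_of_pos hδ]
    ring
  case qG0 =>
    change cost (e y (-(δ • b))) (e y 0) - δ ^ 2 / 2 = 0
    rw [he.map_zero, cost, dist_comm, hB y (-(δ • b)) hδn'.le, norm_neg, norm_smul, hbn,
      Real.norm_eq_abs, abs_of_pos hδ]
    ring
  case ql =>
    have h1 : HasFDerivAt (kap e (D - δ) x y) (fderiv ℝ (kap e (D - δ) x y) v) (w 0) := by
      rw [hw0]
      exact (hkδ.differentiableAt (by simp)).hasFDerivAt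
    exact h1.comp_hasDerivAt (0 : ℝ) hwd
  case qdh =>
    filter_upwards [hevδ, hevs] with s hs hs'
    have h1 := hasFDerivAt_cost_zero he y (logMap e y (e x ((D - δ) • w s))) hs.1
      (by rw [hs.2]; exact hs')
    rw [hs.2] at h1
    have h2 : (fun a : TangentSpace 𝓘(ℝ, E) y => cost (e y a) (e x ((D - δ) • w s))) =
        fun a => cost (e x ((D - δ) • w s)) (e y a) := by
      funext a
      exact cost_comm _ _
    rw [h2] at h1
    exact h1.sub_const _
  case qdG =>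
    have h1 := hasFDerivAt_cost_zero he y (-(δ • b)) (per_se_segMin hB hδn'.le) hsδ'
    have h2 : (fun a : TangentSpace 𝓘(ℝ, E) y => cost (e y a) (e y (-(δ • b)))) =
        fun a => cost (e y (-(δ • b))) (e y a) := by
      funext a
      exact cost_comm _ _
    rw [h2] at h1
    have h3 : -(innerSL ℝ (-(δ • b))) = innerSL ℝ (kap e (D - δ) x y (w 0)) := by
      have h4 : kap e (D - δ) x y (w 0) = δ • b := hl0
      rw [h4]
      ext u
      simp
    rw [h3] at h1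
    exact h1.sub_const _

end

end Vale.Agent.P231
end
end
end

section

section

section

/-! P231, T7: differential of the map `v' ↦ log_y (exp_x (T v'))` at a minimizing direction. -/

set_option maxSynthPendingDepth 3
set_option linter.unusedSectionVars false

open Bundle Manifold Set Filter
open scoped ContDiff Manifold Topology

namespace Vale.Agent.P231

noncomputable section

open Vale.Agent.P234

/-- a curve in the unit sphere with given velocity -/
theorem per_ka_curve {V : Type*} [NormedAddCommGroup V] [InnerProductSpace ℝ V] {v ζ : V}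
    (hv : ‖v‖ = 1) (hζ : inner ℝ v ζ = 0) :
    ∃ c : ℝ → V, (∀ s, ‖c s‖ = 1) ∧ c 0 = v ∧ HasDerivAt c ζ 0 := by
  have hpos : ∀ s : ℝ, 0 < 1 + s ^ 2 * ‖ζ‖ ^ 2 := fun s => by (clear * -; positivity)
  refine ⟨fun s => (Real.sqrt (1 + s ^ 2 * ‖ζ‖ ^ 2))⁻¹ • (v + s • ζ), ?_, ?_, ?_⟩
  · intro s
    have h1 : ‖v + s • ζ‖ ^ 2 = 1 + s ^ 2 * ‖ζ‖ ^ 2 := by
      rw [norm_add_sq_real, real_inner_smul_right, hζ, hv, norm_smul, mul_pow,
        Real.norm_eq_abs, sq_abs]
      ring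
    have h2 : ‖v + s • ζ‖ = Real.sqrt (1 + s ^ 2 * ‖ζ‖ ^ 2) := by
      rw [← h1, Real.sqrt_sq (norm_nonneg _)]
    have h3 : 0 < Real.sqrt (1 + s ^ 2 * ‖ζ‖ ^ 2) := Real.sqrt_pos.2 (hpos s)
    change ‖(Real.sqrt (1 + s ^ 2 * ‖ζ‖ ^ 2))⁻¹ • (v + s • ζ)‖ = 1
    rw [norm_smul, norm_inv, Real.norm_of_nonneg h3.le, h2, inv_mul_cancel₀ h3.ne']
  · simp
  · have h1 : HasDerivAt (fun s : ℝ => 1 + s ^ 2 * ‖ζ‖ ^ 2) 0 0 := by
      have h := ((hasDerivAt_pow 2 (0 : ℝ)).mul_const (‖ζ‖ ^ 2)).const_add 1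
      refine h.congr_deriv ?_
      simp only [Nat.cast_ofNat, Nat.add_one_sub_one, pow_one, mul_zero, zero_mul]
    have h2 : HasDerivAt (fun s : ℝ => (Real.sqrt (1 + s ^ 2 * ‖ζ‖ ^ 2))⁻¹) 0 0 := by
      have h := (h1.sqrt (by norm_num)).inv (by norm_num)
      refine h.congr_deriv ?_
      simp
    have h3 : HasDerivAt (fun s : ℝ => v + s • ζ) ζ 0 := by
      have h := ((hasDerivAt_id (0 : ℝ)).smul_const ζ).const_add v
      refine h.congr_deriv ?_
      simp
    refine (h2.smul h3).congr_deriv ?_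
    simp

variable {E : Type*} [NormedAddCommGroup E] [NormedSpace ℝ E] [FiniteDimensional ℝ E]
  {M : Type*} [MetricSpace M] [ChartedSpace E M]
  [RiemannianBundle (fun x : M => TangentSpace 𝓘(ℝ, E) x)]
  [IsManifold 𝓘(ℝ, E) ∞ M]
  [IsContMDiffRiemannianBundle 𝓘(ℝ, E) ∞ E (fun x : M => TangentSpace 𝓘(ℝ, E) x)]
  {e : ∀ x : M, TangentSpace 𝓘(ℝ, E) x → M}

theorem per_ka_mem {D T : ℝ} (hT : 0 < T) (hTD : T ≤ D) (hB : InjGE e D)
    {y : M} {b : TangentSpace 𝓘(ℝ, E) y} (hb : ‖b‖ = 1) : (D - T) • b ∈ injDomain e y := by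
  refine hB.mem_injDomain ?_
  rw [norm_smul, hb, Real.norm_of_nonneg (by linarith)]
  linarith only [hT]

theorem per_ka_smooth (F : Facts e) {D T : ℝ} (hT : 0 < T) (hTD : T ≤ D) (hB : InjGE e D)
    {x y : M} {b : TangentSpace 𝓘(ℝ, E) y} {v : TangentSpace 𝓘(ℝ, E) x}
    (hb : ‖b‖ = 1) (hvb : ∀ s : ℝ, e x (s • v) = e y ((D - s) • b)) :
    SmoothAt E y (e x (T • v)) := by
  rw [hvb]
  exact F.smooth_cost y _ (per_ka_mem hT hTD hB hb)

theorem per_ka_val (F : Facts e) {D T : ℝ} (hT : 0 < T) (hTD : T ≤ D) (hB : InjGE e D)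
    {x y : M} {b : TangentSpace 𝓘(ℝ, E) y} {v : TangentSpace 𝓘(ℝ, E) x}
    (hb : ‖b‖ = 1) (hvb : ∀ s : ℝ, e x (s • v) = e y ((D - s) • b)) :
    kap e T x y v = (D - T) • b := by
  have hmem := per_ka_mem hT hTD hB hb
  unfold kap
  rw [hvb]
  exact logMap_eq F.isExp (injDomain_subset_segMin F.isExp y hmem) (F.smooth_cost y _ hmem)

theorem per_ka_event (F : Facts e) {D T : ℝ} (hT : 0 < T) (hTD : T ≤ D) (hB : InjGE e D)
    {x y : M} {b : TangentSpace 𝓘(ℝ, E) y} {v : TangentSpace 𝓘(ℝ, E) x}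
    (hb : ‖b‖ = 1) (hvb : ∀ s : ℝ, e x (s • v) = e y ((D - s) • b)) :
    ∀ᶠ v' in 𝓝 v, kap e T x y v' ∈ segMin e y ∧ e y (kap e T x y v') = e x (T • v') := by
  have h1 := eventually_logMap F.isExp F.hopfRinow (per_ka_smooth F hT hTD hB hb hvb)
  have h2 : Continuous (fun v' : TangentSpace 𝓘(ℝ, E) x => e x (T • v')) :=
    (contMDiff_exp_fiber F.isExp x).continuous.comp (continuous_const_smul T)
  exact h2.continuousAt.eventually h1

theorem kap_contDiffAt (F : Facts e) {D T : ℝ} (hT : 0 < T) (hTD : T ≤ D) (hB : InjGE e D)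
    {x y : M} {b : TangentSpace 𝓘(ℝ, E) y} {v : TangentSpace 𝓘(ℝ, E) x} (hv : ‖v‖ = 1)
    (hb : ‖b‖ = 1) (hvb : ∀ s : ℝ, e x (s • v) = e y ((D - s) • b)) :
    ContDiffAt ℝ ∞ (kap e T x y) v := by
  have h1 := contMDiffAt_logMap F.isExp (per_ka_smooth F hT hTD hB hb hvb)
  have h2 : ContMDiffAt 𝓘(ℝ, TangentSpace 𝓘(ℝ, E) x) 𝓘(ℝ, TangentSpace 𝓘(ℝ, E) x) ∞
      (fun v' : TangentSpace 𝓘(ℝ, E) x => T • v') v :=
    (contDiff_const_smul T).contMDiff.contMDiffAt
  have h3 : ContMDiffAt 𝓘(ℝ, TangentSpace 𝓘(ℝ, E) x) 𝓘(ℝ, E) ∞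
      (fun v' : TangentSpace 𝓘(ℝ, E) x => e x (T • v')) v :=
    ContMDiffAt.comp v ((contMDiff_exp_fiber F.isExp x).contMDiffAt) h2
  exact (ContMDiffAt.comp v h1 h3).contDiffAt

theorem per_ka_dist (F : Facts e) {D : ℝ} (hD : 0 < D) (hB : InjGE e D)
    {x y : M} {b : TangentSpace 𝓘(ℝ, E) y} {v : TangentSpace 𝓘(ℝ, E) x} (hv : ‖v‖ = 1)
    (hvb : ∀ s : ℝ, e x (s • v) = e y ((D - s) • b)) : dist x y = D := by
  have h1 : e x (D • v) = y := by
    rw [hvb, sub_self, zero_smul, F.isExp.map_zero]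
  have h2 := hB x (D • v) (by rw [norm_smul, hv, Real.norm_of_nonneg hD.le, mul_one])
  rw [h1, norm_smul, hv, Real.norm_of_nonneg hD.le, mul_one] at h2
  exact h2

theorem kap_orth (F : Facts e) {D δ : ℝ} (hδ : 0 < δ) (hδD : δ < D) (hB : InjGE e D)
    {x y : M} {b : TangentSpace 𝓘(ℝ, E) y} {v : TangentSpace 𝓘(ℝ, E) x} (hv : ‖v‖ = 1)
    (hb : ‖b‖ = 1) (hvb : ∀ s : ℝ, e x (s • v) = e y ((D - s) • b))
    {ζ : TangentSpace 𝓘(ℝ, E) x} (hζ : inner ℝ v ζ = 0) :
    inner ℝ b (fderiv ℝ (kap e (D - δ) x y) v ζ) = 0 := by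
  have hT : 0 < D - δ := by linarith only [hδD]
  have hTD : D - δ ≤ D := by linarith only [hδ]
  obtain ⟨c, hc1, hc0, hcd⟩ := per_ka_curve hv hζ
  have hval := per_ka_val F hT hTD hB hb hvb
  have hsub : D - (D - δ) = δ := by ring
  rw [hsub] at hval
  have hdist := per_ka_dist F (by linarith only [hδ, hδD]) hB hv hvb
  have hK : HasFDerivAt (kap e (D - δ) x y) (fderiv ℝ (kap e (D - δ) x y) v) (c 0) := by
    rw [hc0]
    exact ((kap_contDiffAt F hT hTD hB hv hb hvb).differentiableAt (by simp)).hasFDerivAt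
  have hcomp : HasDerivAt (fun s => kap e (D - δ) x y (c s))
      (fderiv ℝ (kap e (D - δ) x y) v ζ) 0 := hK.comp_hasDerivAt 0 hcd
  have hsq := hcomp.norm_sq
  have hmin : IsLocalMin (fun s => ‖kap e (D - δ) x y (c s)‖ ^ 2) 0 := by
    have h1 : ∀ᶠ s in 𝓝 (0 : ℝ), kap e (D - δ) x y (c s) ∈ segMin e y ∧
        e y (kap e (D - δ) x y (c s)) = e x ((D - δ) • c s) := by
      have h2 : Tendsto c (𝓝 0) (𝓝 v) := by
        have := hcd.continuousAt.tendsto
        rwa [hc0] at this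
      exact h2.eventually (per_ka_event F hT hTD hB hb hvb)
    filter_upwards [h1] with s hs
    have h3 : dist y (e x ((D - δ) • c s)) = ‖kap e (D - δ) x y (c s)‖ := by
      rw [← hs.2]
      exact hs.1
    have h4 : dist x (e x ((D - δ) • c s)) = D - δ := by
      have h5 : ‖(D - δ) • c s‖ = D - δ := by
        rw [norm_smul, hc1, Real.norm_of_nonneg hT.le, mul_one]
      rw [hB x _ (by rw [h5]; exact hTD), h5]
    have h6 : δ ≤ ‖kap e (D - δ) x y (c s)‖ := by
      have h7 := dist_triangle x (e x ((D - δ) • c s)) y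
      rw [h4, hdist, dist_comm _ y, h3] at h7
      (clear F hδ hδD hB b v hv hb hvb ζ hζ hT hTD hc1 hc0 hcd hval hsub hdist hK hcomp hsq h1 hs h3 h4; linarith)
    have h8 : ‖kap e (D - δ) x y (c 0)‖ = δ := by
      rw [hc0, hval, norm_smul, hb, Real.norm_of_nonneg hδ.le, mul_one]
    simp only [h8]
    exact pow_le_pow_left₀ hδ.le h6 2
  have h9 := hmin.hasDerivAt_eq_zero hsq
  rw [hc0, hval, real_inner_smul_left] at h9
  have h10 : (2 : ℝ) * δ ≠ 0 := by positivity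
  have h11 : (2 * δ) * inner ℝ b (fderiv ℝ (kap e (D - δ) x y) v ζ) = 0 := by
    rw [← h9]; ring
  exact (mul_eq_zero.1 h11).resolve_left h10

theorem kap_orth_link (F : Facts e) {D : ℝ} (hD : 0 < D) (hB : InjGE e D)
    {x y : M} {b : TangentSpace 𝓘(ℝ, E) y} {v : TangentSpace 𝓘(ℝ, E) x} (hv : ‖v‖ = 1)
    (hb : ‖b‖ = 1) (hvb : ∀ s : ℝ, e x (s • v) = e y ((D - s) • b))
    {u : TangentSpace 𝓘(ℝ, E) y} (hu : u ∈ Lk e D x y)
    {ζ : TangentSpace 𝓘(ℝ, E) x} (hζ : inner ℝ v ζ = 0) :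
    inner ℝ u (fderiv ℝ (kap e D x y) v ζ) = 0 := by
  obtain ⟨hu1, hux⟩ := hu
  obtain ⟨c, hc1, hc0, hcd⟩ := per_ka_curve hv hζ
  have hval := per_ka_val F hD le_rfl hB hb hvb
  rw [sub_self, zero_smul] at hval
  -- the point `p` at distance `D / 2` from `y` and from `x`
  set w : TangentSpace 𝓘(ℝ, E) y := (D / 2) • u with hw
  have hwn : ‖w‖ = D / 2 := by
    rw [hw, norm_smul, hu1, Real.norm_of_nonneg (by linarith only [hD]), mul_one]
  have hwmem : w ∈ injDomain e y := hB.mem_injDomain (by rw [hwn]; linarith only [hD])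
  have hwseg : w ∈ segMin e y := injDomain_subset_segMin F.isExp y hwmem
  have hws : SmoothAt E y (e y w) := F.smooth_cost y w hwmem
  have hyp : dist y (e y w) = D / 2 := by
    rw [← hwn]
    exact hwseg
  have hxp : dist x (e y w) = D / 2 := by
    have h1 : D • u ∈ segMin e y := by
      change dist y (e y (D • u)) = ‖D • u‖
      exact hB y _ (by rw [norm_smul, hu1, Real.norm_of_nonneg hD.le, mul_one])
    have h2 := segMin_dist F.isExp h1 (s := 1 / 2) (t := 1) (by norm_num) (by norm_num) le_rfl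
    rw [one_smul, hux, smul_smul, norm_smul, hu1, Real.norm_of_nonneg hD.le] at h2
    rw [dist_comm, hw, show D / 2 = 1 / 2 * D by ring, h2]
    ring
  have hg := hasFDerivAt_cost_zero F.isExp y w hwseg hws
  have hK : HasFDerivAt (kap e D x y) (fderiv ℝ (kap e D x y) v) (c 0) := by
    rw [hc0]
    exact ((kap_contDiffAt F hD le_rfl hB hv hb hvb).differentiableAt (by simp)).hasFDerivAt
  have hcomp : HasDerivAt (fun s => kap e D x y (c s))
      (fderiv ℝ (kap e D x y) v ζ) 0 := hK.comp_hasDerivAt 0 hcd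
  have hg' : HasFDerivAt (fun a : TangentSpace 𝓘(ℝ, E) y => cost (e y a) (e y w))
      (-(innerSL ℝ w)) (kap e D x y (c 0)) := by
    rw [hc0, hval]
    exact hg
  have hcomp2 : HasDerivAt (fun s => cost (e y (kap e D x y (c s))) (e y w))
      ((-(innerSL ℝ w)) (fderiv ℝ (kap e D x y) v ζ)) 0 :=
    HasFDerivAt.comp_hasDerivAt (l := fun a : TangentSpace 𝓘(ℝ, E) y => cost (e y a) (e y w))
      (f := fun s => kap e D x y (c s)) 0 hg' hcomp
  have hmin : IsLocalMin (fun s => cost (e y (kap e D x y (c s))) (e y w)) 0 := by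
    have h1 : ∀ᶠ s in 𝓝 (0 : ℝ), kap e D x y (c s) ∈ segMin e y ∧
        e y (kap e D x y (c s)) = e x (D • c s) := by
      have h2 : Tendsto c (𝓝 0) (𝓝 v) := by
        have := hcd.continuousAt.tendsto
        rwa [hc0] at this
      exact h2.eventually (per_ka_event F hD le_rfl hB hb hvb)
    filter_upwards [h1] with s hs
    have h4 : dist x (e x (D • c s)) = D := by
      have h5 : ‖D • c s‖ = D := by
        rw [norm_smul, hc1, Real.norm_of_nonneg hD.le, mul_one]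
      rw [hB x _ (by rw [h5]), h5]
    have h6 : D / 2 ≤ dist (e x (D • c s)) (e y w) := by
      have h7 := dist_triangle x (e y w) (e x (D • c s))
      rw [h4, hxp, dist_comm (e y w)] at h7
      linarith only [h7]
    have h8 : cost (e y (kap e D x y (c 0))) (e y w) = (D / 2) ^ 2 / 2 := by
      rw [hc0, hval, F.isExp.map_zero, cost, hyp]
    simp only [h8]
    rw [hs.2, cost]
    have h9 : (D / 2) ^ 2 ≤ dist (e x (D • c s)) (e y w) ^ 2 :=
      pow_le_pow_left₀ (by linarith only [hD]) h6 2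
    linarith only [h9]
  have h9 := hmin.hasDerivAt_eq_zero hcomp2
  rw [neg_apply, innerSL_apply_apply, hw, real_inner_smul_left] at h9
  have h10 : (D / 2 : ℝ) ≠ 0 := by positivity
  have h11 : (D / 2) * inner ℝ u (fderiv ℝ (kap e D x y) v ζ) = 0 := by (clear F hD hB b hv hb hvb hζ hu1 hux c hc1 hc0 hcd hval w hw hwn hwmem hwseg hws hyp hxp hg hK hcomp hg' hcomp2 hmin h10; linarith)
  exact (mul_eq_zero.1 h11).resolve_left h10

theorem kap_inj [CompactSpace M] [ConnectedSpace M] [IsRiemannianManifold 𝓘(ℝ, E) M]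
    (F : Facts e) {D δ : ℝ} (hδ : 0 < δ) (hδD : δ < D) (hB : InjGE e D)
    {x y : M} {b : TangentSpace 𝓘(ℝ, E) y} {v : TangentSpace 𝓘(ℝ, E) x} (hv : ‖v‖ = 1)
    (hb : ‖b‖ = 1) (hvb : ∀ s : ℝ, e x (s • v) = e y ((D - s) • b))
    {ζ : TangentSpace 𝓘(ℝ, E) x} (h0 : fderiv ℝ (kap e (D - δ) x y) v ζ = 0) : ζ = 0 := by
  have hT : 0 < D - δ := by linarith only [hδD]
  have hTD : D - δ ≤ D := by linarith only [hδ]
  have hval := per_ka_val F hT hTD hB hb hvb
  have hTn : ‖(D - δ) • v‖ = D - δ := by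
    rw [norm_smul, hv, Real.norm_of_nonneg hT.le, mul_one]
  have hmem : (D - δ) • v ∈ injDomain e x := hB.mem_injDomain (by rw [hTn]; linarith only [hδ])
  have hseg := injDomain_subset_segMin F.isExp x hmem
  have hs := F.smooth_cost x _ hmem
  -- the logarithm at `x`
  have hL : ∀ᶠ a in 𝓝 ((D - δ) • v), logMap e x (e x a) = a :=
    eventually_logMap_exp F.isExp F.hopfRinow hseg hs
  have hL1 : ∀ᶠ v' in 𝓝 v, logMap e x (e x ((D - δ) • v')) = (D - δ) • v' :=
    (continuous_const_smul (D - δ)).continuousAt.eventually hL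
  have hL2 := per_ka_event F hT hTD hB hb hvb
  have hL3 : (fun v' => logMap e x (e y (kap e (D - δ) x y v'))) =ᶠ[𝓝 v]
      fun v' => (D - δ) • v' := by
    filter_upwards [hL1, hL2] with v' h1 h2
    rw [h2.2, h1]
  -- differentiability
  have hG : DifferentiableAt ℝ (fun a : TangentSpace 𝓘(ℝ, E) y => logMap e x (e y a))
      (kap e (D - δ) x y v) := by
    have h1 : ContMDiffAt 𝓘(ℝ, E) 𝓘(ℝ, TangentSpace 𝓘(ℝ, E) x) ∞ (logMap e x)
        (e y (kap e (D - δ) x y v)) := by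
      rw [hval, ← hvb]
      exact contMDiffAt_logMap F.isExp hs
    have h2 := ContMDiffAt.comp (kap e (D - δ) x y v) h1
      ((contMDiff_exp_fiber F.isExp y).contMDiffAt)
    exact h2.contDiffAt.differentiableAt (by simp)
  have hK : DifferentiableAt ℝ (kap e (D - δ) x y) v :=
    (kap_contDiffAt F hT hTD hB hv hb hvb).differentiableAt (by simp)
  have hcomp := hG.hasFDerivAt.comp v hK.hasFDerivAt
  have hlin : HasFDerivAt (fun v' : TangentSpace 𝓘(ℝ, E) x => (D - δ) • v')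
      ((D - δ) • ContinuousLinearMap.id ℝ (TangentSpace 𝓘(ℝ, E) x)) v :=
    (hasFDerivAt_id v).const_smul (D - δ)
  have heq := (hlin.congr_of_eventuallyEq hL3).unique hcomp
  have h1 := congrArg (fun A : TangentSpace 𝓘(ℝ, E) x →L[ℝ] TangentSpace 𝓘(ℝ, E) x => A ζ) heq
  simp only [ContinuousLinearMap.comp_apply, h0, map_zero, _root_.smul_apply,
    ContinuousLinearMap.id_apply] at h1
  exact (smul_eq_zero.1 h1).resolve_left hT.ne'

end

end Vale.Agent.P231
end
end
end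

section

section

section

/-! P231 closedness of geodesics: a symmetry of the differential of `kap`. -/

set_option maxSynthPendingDepth 3
set_option linter.unusedSectionVars false

open Bundle Manifold Set Filter
open scoped ContDiff Manifold Topology

namespace Vale.Agent.P231

noncomputable section

open Vale.Agent.P234

/-! ### pure calculus -/

/-- mixed second derivatives at a degenerate minimum along the diagonal are symmetric -/
theorem per_sy_abs {X : Type*} [NormedAddCommGroup X] [NormedSpace ℝ X] {H : X × X → ℝ} {c : ℝ}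
    (hH : ContDiffAt ℝ 2 H (0, 0)) (h1 : ∀ᶠ p in 𝓝 ((0, 0) : X × X), c ≤ H p)
    (h2 : ∀ᶠ p in 𝓝 (0 : X), H (p, p) = c) (w z : X) :
    hess H (0, 0) (0, w) (z, 0) = hess H (0, 0) (0, z) (w, 0) := by
  have hd : Tendsto (fun p : X => (p, p)) (𝓝 0) (𝓝 ((0, 0) : X × X)) := by
    have : Continuous (fun p : X => (p, p)) := by fun_prop
    exact this.tendsto 0
  have h3 : (fun p : X => fderiv ℝ H (p, p)) =ᶠ[𝓝 0] fun _ => 0 := by
    have h4 := hd.eventually (eventually_eventually_nhds.2 h1)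
    filter_upwards [h4, h2] with p hp hp2
    have h5 : IsLocalMin H (p, p) := by
      filter_upwards [hp] with q hq
      rw [hp2]
      exact hq
    exact h5.fderiv_eq_zero
  have key : ∀ u : X, hess H (0, 0) (u, u) = 0 := by
    intro u
    have h4 : HasFDerivAt (fun p : X => (p, p))
        ((ContinuousLinearMap.id ℝ X).prod (ContinuousLinearMap.id ℝ X)) (0 : X) :=
      (hasFDerivAt_id (0 : X)).prodMk (hasFDerivAt_id (0 : X))
    have h5 : HasFDerivAt (fderiv ℝ H) (hess H (0, 0)) ((fun p : X => (p, p)) 0) :=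
      hasFDerivAt_fderiv hH
    have h6 := HasFDerivAt.comp (g := fderiv ℝ H) (f := fun p : X => (p, p)) (0 : X) h5 h4
    have h7 : HasFDerivAt (fun p : X => fderiv ℝ H (p, p)) (0 : X →L[ℝ] X × X →L[ℝ] ℝ) 0 :=
      (hasFDerivAt_const (0 : X × X →L[ℝ] ℝ) (0 : X)).congr_of_eventuallyEq h3
    have h8 := h6.unique h7
    have h9 := congrArg (fun L => L u) h8
    simpa only [ContinuousLinearMap.comp_apply, ContinuousLinearMap.prod_apply, ContinuousLinearMap.id_apply,     zero_apply] using h9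
  have e1 : ∀ u u' : X, hess H (0, 0) (0, u) (u', 0) = - hess H (0, 0) (0, u) (0, u') := by
    intro u u'
    have h4 : hess H (0, 0) (0, u) (u', u') = 0 := by
      rw [hess_symm hH, key]
      rfl
    have h5 : ((u', u') : X × X) = (u', 0) + (0, u') := by simp
    rw [h5, map_add] at h4
    linarith only [h4]
  rw [e1, e1, hess_symm hH]

/-- derivative of the normalisation map at a unit vector -/
theorem per_sy_norm {X : Type*} [NormedAddCommGroup X] [InnerProductSpace ℝ X] {v : X}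
    (hv : ‖v‖ = 1) : HasFDerivAt (fun p : X => ‖v + p‖⁻¹ • (v + p))
      (ContinuousLinearMap.id ℝ X - (innerSL ℝ v).smulRight v) 0 := by
  have hv0 : v ≠ 0 := by
    intro h
    rw [h, norm_zero] at hv
    exact zero_ne_one hv
  have h1 : HasFDerivAt (fun p : X => v + p) (ContinuousLinearMap.id ℝ X) 0 :=
    (hasFDerivAt_id (0 : X)).const_add v
  have h2 : HasFDerivAt (fun x : X => ‖x‖) (‖v‖⁻¹ • innerSL ℝ v) (v + 0) := by
    rw [add_zero]
    exact hasFDerivAt_norm' hv0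
  have h3 : HasFDerivAt (fun p : X => ‖v + p‖) (innerSL ℝ v) 0 := by
    have h4 := h2.comp (0 : X) h1
    rw [hv, inv_one, one_smul] at h4
    exact h4
  have h5 : HasDerivAt (fun r : ℝ => r⁻¹) (-1) ‖v + 0‖ := by
    have h6 := hasDerivAt_inv (x := ‖v + 0‖) (by rw [add_zero, hv]; exact one_ne_zero)
    rw [add_zero, hv] at h6 ⊢
    simpa using h6
  have h7 := h5.comp_hasFDerivAt (0 : X) h3
  have h8 := h7.smul h1
  refine h8.congr_fderiv ?_
  ext w
  simp only [Function.comp, add_zero, hv, inv_one, one_smul, neg_smul, add_apply, ContinuousLinearMap.id_apply, ContinuousLinearMap.smulRight_apply, neg_apply, coe_innerSL_apply, sub_eq_add_neg]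

theorem per_sy_smooth {X : Type*} [NormedAddCommGroup X] [InnerProductSpace ℝ X] {v : X}
    (hv : ‖v‖ = 1) : ContDiffAt ℝ ∞ (fun p : X => ‖v + p‖⁻¹ • (v + p)) 0 := by
  have hv0 : v + 0 ≠ 0 := by
    intro h
    rw [add_zero] at h
    rw [h, norm_zero] at hv
    exact zero_ne_one hv
  have h1 : ContDiffAt ℝ ∞ (fun p : X => v + p) 0 := contDiffAt_const.add contDiffAt_id
  have h2 : ContDiffAt ℝ ∞ (fun p : X => ‖v + p‖) 0 := h1.norm ℝ hv0
  exact (h2.inv (norm_ne_zero_iff.2 hv0)).smul h1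

variable {E : Type*} [NormedAddCommGroup E] [NormedSpace ℝ E] [FiniteDimensional ℝ E]
  {M : Type*} [MetricSpace M] [ChartedSpace E M]
  [RiemannianBundle (fun x : M => TangentSpace 𝓘(ℝ, E) x)]
  [IsManifold 𝓘(ℝ, E) ∞ M]
  [IsContMDiffRiemannianBundle 𝓘(ℝ, E) ∞ E (fun x : M => TangentSpace 𝓘(ℝ, E) x)]
  {e : ∀ x : M, TangentSpace 𝓘(ℝ, E) x → M}

/-- smoothness of the cost from `y` at distance less than `D` -/
theorem per_sy_smoothAt (F : Facts e) {D : ℝ} (hB : InjGE e D) {y : M}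
    {b : TangentSpace 𝓘(ℝ, E) y} (hb : ‖b‖ < D) : SmoothAt E y (e y b) :=
  F.smooth_cost y b (hB.mem_injDomain hb)

/-- smoothness of `kap` when the cost is smooth -/
theorem per_sy_kap (he : IsExp e) {T : ℝ} {x y : M} {v : TangentSpace 𝓘(ℝ, E) x}
    (hs : SmoothAt E y (e x (T • v))) : ContDiffAt ℝ ∞ (kap e T x y) v := by
  have h1 := contMDiffAt_logMap he hs
  have h2 : ContMDiffAt 𝓘(ℝ, TangentSpace 𝓘(ℝ, E) x) 𝓘(ℝ, TangentSpace 𝓘(ℝ, E) x) ∞
      (fun v' : TangentSpace 𝓘(ℝ, E) x => T • v') v :=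
    (contDiff_const.smul contDiff_id).contMDiff.contMDiffAt
  have h3 : ContMDiffAt 𝓘(ℝ, TangentSpace 𝓘(ℝ, E) x) 𝓘(ℝ, E) ∞
      (fun v' : TangentSpace 𝓘(ℝ, E) x => e x (T • v')) v :=
    ContMDiffAt.comp v ((contMDiff_exp_fiber he x).contMDiffAt) h2
  exact (ContMDiffAt.comp v h1 h3).contDiffAt

/-- the defining property of `logMap` -/
theorem per_sy_grad (y q : M) (ξ : TangentSpace 𝓘(ℝ, E) y) :
    fderiv ℝ (fun a : TangentSpace 𝓘(ℝ, E) y => cost (e y a) q) 0 ξ =
      -inner ℝ (logMap e y q) ξ := by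
  have : CompleteSpace (TangentSpace 𝓘(ℝ, E) y) := FiniteDimensional.complete ℝ _
  unfold logMap
  rw [InnerProductSpace.toDual_symm_apply]
  simp

/-- the distance between two points of a minimizing ray -/
theorem per_sy_dist (F : Facts e) {D δ : ℝ} (hδ : 0 < δ) (hδD : δ < D) (hB : InjGE e D)
    {x : M} {u : TangentSpace 𝓘(ℝ, E) x} (hu : ‖u‖ = 1) :
    dist (e x (D • u)) (e x ((D - δ) • u)) = δ := by
  have hD : 0 < D := hδ.trans hδD
  have hn : ‖D • u‖ = D := by rw [norm_smul, hu, mul_one, Real.norm_of_nonneg hD.le]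
  have hm : D • u ∈ segMin e x := hB x (D • u) hn.le
  have h1 := segMin_dist F.isExp hm (s := (D - δ) / D) (t := 1) (by
    apply div_nonneg <;> linarith only [hδ, hδD]) (by rw [div_le_one hD]; linarith only [hδ]) le_rfl
  rw [one_smul, smul_smul, div_mul_cancel₀ _ hD.ne', hn, dist_comm] at h1
  rw [h1]
  field_simp
  ring

theorem kap_sym (F : Facts e) {D δ : ℝ} (hδ : 0 < δ) (hδD : δ < D) (hB : InjGE e D)
    {x y : M} {b : TangentSpace 𝓘(ℝ, E) y} {v : TangentSpace 𝓘(ℝ, E) x} (hv : ‖v‖ = 1)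
    (hb : ‖b‖ = 1) (hvb : ∀ s : ℝ, e x (s • v) = e y ((D - s) • b))
    {ζ η : TangentSpace 𝓘(ℝ, E) x} (hζ : inner ℝ v ζ = 0) (hη : inner ℝ v η = 0) :
    inner ℝ (fderiv ℝ (kap e (D - δ) x y) v ζ) (fderiv ℝ (kap e D x y) v η) =
      inner ℝ (fderiv ℝ (kap e (D - δ) x y) v η) (fderiv ℝ (kap e D x y) v ζ) := by
  have he := F.isExp
  have hD : 0 < D := hδ.trans hδD
  have hy : e x (D • v) = y := by
    rw [hvb, sub_self, zero_smul, he.map_zero]
  have hyδ : e x ((D - δ) • v) = e y (δ • b) := by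
    rw [hvb, sub_sub_cancel]
  have hs0 : SmoothAt E y y := by
    have h1 := per_sy_smoothAt F hB (y := y) (b := 0) (by rwa [norm_zero])
    rwa [he.map_zero] at h1
  have hsδ : SmoothAt E y (e x ((D - δ) • v)) := by
    rw [hyδ]
    refine per_sy_smoothAt F hB ?_
    rw [norm_smul, hb, mul_one, Real.norm_of_nonneg hδ.le]
    exact hδD
  have hA : ContDiffAt ℝ ∞ (kap e D x y) v := per_sy_kap he (by rw [hy]; exact hs0)
  have hBd : ContDiffAt ℝ ∞ (kap e (D - δ) x y) v := per_sy_kap he hsδ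
  have hA' := (hA.differentiableAt (by simp)).hasFDerivAt
  have hB' := (hBd.differentiableAt (by simp)).hasFDerivAt
  set V : TangentSpace 𝓘(ℝ, E) x → TangentSpace 𝓘(ℝ, E) x := fun p => ‖v + p‖⁻¹ • (v + p)
    with hVdef
  have hV0 : V 0 = v := by simp [hVdef, hv]
  have hVd : HasFDerivAt V (ContinuousLinearMap.id ℝ _ - (innerSL ℝ v).smulRight v) 0 :=
    per_sy_norm hv
  have hVs : ContDiffAt ℝ ∞ V 0 := per_sy_smooth hv
  have hVc : Tendsto V (𝓝 0) (𝓝 v) := by
    have := hVs.continuousAt.tendsto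
    rwa [hV0] at this
  have hVn : ∀ᶠ p in 𝓝 (0 : TangentSpace 𝓘(ℝ, E) x), ‖V p‖ = 1 := by
    have h1 : ContinuousAt (fun p : TangentSpace 𝓘(ℝ, E) x => v + p) 0 := by fun_prop
    have h2 : v + 0 ≠ 0 := by
      intro h
      rw [add_zero] at h
      rw [h, norm_zero] at hv
      exact zero_ne_one hv
    filter_upwards [h1.eventually_ne h2] with p hp
    rw [hVdef]
    simp only
    rw [norm_smul, norm_inv, norm_norm, inv_mul_cancel₀ (norm_ne_zero_iff.2 hp)]
  set H : TangentSpace 𝓘(ℝ, E) x × TangentSpace 𝓘(ℝ, E) x → ℝ := fun p =>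
    cost (e x (D • V p.1)) (e x ((D - δ) • V p.2)) with hHdef
  have hHs : ContDiffAt ℝ ∞ H (0, 0) := by
    have h1 : ContDiffAt ℝ ∞ (fun p : TangentSpace 𝓘(ℝ, E) x × TangentSpace 𝓘(ℝ, E) x =>
        cost (e x p.1) (e x p.2)) (D • V 0, (D - δ) • V 0) := by
      apply SmoothAt.coord he
      rw [hV0, hy]
      exact hsδ
    have h2 : ContDiffAt ℝ ∞ (fun p : TangentSpace 𝓘(ℝ, E) x × TangentSpace 𝓘(ℝ, E) x =>
        (D • V p.1, (D - δ) • V p.2)) (0, 0) := by
      have h3 : ContDiffAt ℝ ∞ (fun p : TangentSpace 𝓘(ℝ, E) x × TangentSpace 𝓘(ℝ, E) x =>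
          V p.1) (0, 0) := ContDiffAt.comp (g := V) (0, 0) hVs contDiffAt_fst
      have h4 : ContDiffAt ℝ ∞ (fun p : TangentSpace 𝓘(ℝ, E) x × TangentSpace 𝓘(ℝ, E) x =>
          V p.2) (0, 0) := ContDiffAt.comp (g := V) (0, 0) hVs contDiffAt_snd
      exact (contDiffAt_const.smul h3).prodMk (contDiffAt_const.smul h4)
    exact ContDiffAt.comp (0, 0) h1 h2
  have hlow : ∀ᶠ p in 𝓝 ((0, 0) : TangentSpace 𝓘(ℝ, E) x × TangentSpace 𝓘(ℝ, E) x),
      δ ^ 2 / 2 ≤ H p := by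
    have h1 : ∀ᶠ p in 𝓝 ((0, 0) : TangentSpace 𝓘(ℝ, E) x × TangentSpace 𝓘(ℝ, E) x),
        ‖V p.1‖ = 1 := (continuous_fst.tendsto ((0, 0) : TangentSpace 𝓘(ℝ, E) x ×
          TangentSpace 𝓘(ℝ, E) x)).eventually hVn
    have h2 : ∀ᶠ p in 𝓝 ((0, 0) : TangentSpace 𝓘(ℝ, E) x × TangentSpace 𝓘(ℝ, E) x),
        ‖V p.2‖ = 1 := (continuous_snd.tendsto ((0, 0) : TangentSpace 𝓘(ℝ, E) x ×
          TangentSpace 𝓘(ℝ, E) x)).eventually hVn
    filter_upwards [h1, h2] with p hp1 hp2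
    have h3 : dist x (e x (D • V p.1)) = D := by
      have hn : ‖D • V p.1‖ = D := by rw [norm_smul, hp1, mul_one, Real.norm_of_nonneg hD.le]
      rw [hB x _ hn.le, hn]
    have h4 : dist x (e x ((D - δ) • V p.2)) = D - δ := by
      have hn : ‖(D - δ) • V p.2‖ = D - δ := by
        rw [norm_smul, hp2, mul_one, Real.norm_of_nonneg (by linarith only [hδD])]
      rw [hB x _ (by rw [hn]; linarith only [hδ]), hn]
    have h5 : δ ≤ dist (e x (D • V p.1)) (e x ((D - δ) • V p.2)) := by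
      have h6 := dist_triangle x (e x ((D - δ) • V p.2)) (e x (D • V p.1))
      rw [h3, h4, dist_comm (e x ((D - δ) • V p.2))] at h6
      linarith only [h6]
    have h6 : δ ^ 2 ≤ dist (e x (D • V p.1)) (e x ((D - δ) • V p.2)) ^ 2 :=
      pow_le_pow_left₀ hδ.le h5 2
    have h7 : H p = dist (e x (D • V p.1)) (e x ((D - δ) • V p.2)) ^ 2 / 2 := rfl
    rw [h7]
    linarith only [h6]
  have hdiag : ∀ᶠ p in 𝓝 (0 : TangentSpace 𝓘(ℝ, E) x), H (p, p) = δ ^ 2 / 2 := by
    filter_upwards [hVn] with p hp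
    have h7 : H (p, p) = dist (e x (D • V p)) (e x ((D - δ) • V p)) ^ 2 / 2 := rfl
    rw [h7, per_sy_dist F hδ hδD hB hp]
  -- the mixed second derivative
  have hκ0 : kap e D x y (V 0) = 0 := by
    have h1 := logMap_eq he (z := y) (w := 0)
      (injDomain_subset_segMin he y (hB.mem_injDomain (by rwa [norm_zero])))
      (by rw [he.map_zero]; exact hs0)
    rw [he.map_zero] at h1
    rw [kap, hV0, hy, h1]
  have hmix : ∀ w z : TangentSpace 𝓘(ℝ, E) x, inner ℝ v w = 0 → inner ℝ v z = 0 →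
      hess H (0, 0) (0, w) (z, 0) =
        -inner ℝ (fderiv ℝ (kap e (D - δ) x y) v w) (fderiv ℝ (kap e D x y) v z) := by
    intro w z hw hz
    refine hess_mixed hHs z w ?_
    have hline : HasDerivAt (fun s : ℝ => (0 : TangentSpace 𝓘(ℝ, E) x) + s • w) w 0 := by
      simpa only [zero_add, id_eq, one_smul] using     ((hasDerivAt_id (0 : ℝ)).smul_const w).const_add (0 : TangentSpace 𝓘(ℝ, E) x)
    have hline0 : (0 : TangentSpace 𝓘(ℝ, E) x) + (0 : ℝ) • w = 0 := by simp only [zero_smul, add_zero]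
    have hcont : Tendsto (fun s : ℝ => (0 : TangentSpace 𝓘(ℝ, E) x) + s • w) (𝓝 0) (𝓝 0) := by
      have := hline.continuousAt.tendsto
      rwa [hline0] at this
    have hev : (fun s : ℝ => fderiv ℝ (fun a' : TangentSpace 𝓘(ℝ, E) x =>
        H (a', 0 + s • w)) 0 z) =ᶠ[𝓝 0]
        fun s : ℝ => -inner ℝ (kap e (D - δ) x y (V (0 + s • w)))
          (fderiv ℝ (kap e D x y) v z) := by
      have hsm : ∀ᶠ p in 𝓝 (0 : TangentSpace 𝓘(ℝ, E) x), SmoothAt E y (e x ((D - δ) • V p)) := by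
        have h5 := hsδ.eventually
        have h6 : Tendsto (fun p : TangentSpace 𝓘(ℝ, E) x => (y, e x ((D - δ) • V p))) (𝓝 0)
            (𝓝 (y, e x ((D - δ) • v))) := by
          have h7 : Continuous (fun u : TangentSpace 𝓘(ℝ, E) x => (y, e x ((D - δ) • u))) :=
            continuous_const.prodMk ((contMDiff_exp_fiber he x).continuous.comp
              (continuous_const_smul (D - δ)))
          exact (h7.tendsto v).comp hVc
        exact h6.eventually h5
      filter_upwards [hcont.eventually hsm] with s hs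
      set p : TangentSpace 𝓘(ℝ, E) x := 0 + s • w with hp
      set q : M := e x ((D - δ) • V p) with hq
      have hg : DifferentiableAt ℝ (fun a : TangentSpace 𝓘(ℝ, E) y => cost (e y a) q) 0 := by
        have h1 : ContDiffAt ℝ ∞ (fun p' : TangentSpace 𝓘(ℝ, E) y × TangentSpace 𝓘(ℝ, E) x =>
            cost (e y p'.1) (e x p'.2)) (0, (D - δ) • V p) := by
          apply SmoothAt.coord he
          rw [he.map_zero]
          exact hs
        have h2 := ContDiffAt.comp (0 : TangentSpace 𝓘(ℝ, E) y)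
          (f := fun a : TangentSpace 𝓘(ℝ, E) y => (a, (D - δ) • V p)) h1
          (contDiffAt_id.prodMk contDiffAt_const)
        exact h2.differentiableAt (by simp)
      have hκ : HasFDerivAt (fun p' => kap e D x y (V p'))
          ((fderiv ℝ (kap e D x y) v).comp
            (ContinuousLinearMap.id ℝ _ - (innerSL ℝ v).smulRight v)) 0 := by
        have h1 : HasFDerivAt (kap e D x y) (fderiv ℝ (kap e D x y) v) (V 0) := by
          rw [hV0]
          exact hA'
        exact h1.comp 0 hVd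
      have hcomp : HasFDerivAt (fun p' => cost (e y (kap e D x y (V p'))) q)
          ((fderiv ℝ (fun a : TangentSpace 𝓘(ℝ, E) y => cost (e y a) q) 0).comp
          ((fderiv ℝ (kap e D x y) v).comp
            (ContinuousLinearMap.id ℝ _ - (innerSL ℝ v).smulRight v))) 0 := by
        have h1 : HasFDerivAt (fun a : TangentSpace 𝓘(ℝ, E) y => cost (e y a) q)
            (fderiv ℝ (fun a : TangentSpace 𝓘(ℝ, E) y => cost (e y a) q) 0)
            (kap e D x y (V 0)) := by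
          rw [hκ0]
          exact hg.hasFDerivAt
        exact h1.comp 0 hκ
      have hloc : (fun a' : TangentSpace 𝓘(ℝ, E) x => H (a', p)) =ᶠ[𝓝 0]
          fun p' => cost (e y (kap e D x y (V p'))) q := by
        have h1 := eventually_logMap he F.hopfRinow hs0
        have h2 : Tendsto (fun p' : TangentSpace 𝓘(ℝ, E) x => e x (D • V p')) (𝓝 0) (𝓝 y) := by
          have h7 : Continuous (fun u : TangentSpace 𝓘(ℝ, E) x => e x (D • u)) :=
            (contMDiff_exp_fiber he x).continuous.comp (continuous_const_smul D)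
          have h8 := (h7.tendsto v).comp hVc
          rw [hy] at h8
          exact h8
        filter_upwards [h2.eventually h1] with p' hp'
        change cost (e x (D • V p')) q = cost (e y (logMap e y (e x (D • V p')))) q
        rw [hp'.2]
      rw [hloc.fderiv_eq, hcomp.fderiv]
      have hz' : (ContinuousLinearMap.id ℝ (TangentSpace 𝓘(ℝ, E) x) -
          (innerSL ℝ v).smulRight v) z = z := by
        simp [hz]
      rw [ContinuousLinearMap.comp_apply, ContinuousLinearMap.comp_apply, hz', per_sy_grad]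
      rfl
    have hder : HasDerivAt (fun s : ℝ => kap e (D - δ) x y (V (0 + s • w)))
        (fderiv ℝ (kap e (D - δ) x y) v w) 0 := by
      have h1 : HasFDerivAt (kap e (D - δ) x y) (fderiv ℝ (kap e (D - δ) x y) v)
          (V (0 + (0 : ℝ) • w)) := by
        rw [hline0, hV0]
        exact hB'
      have h2 : HasFDerivAt V (ContinuousLinearMap.id ℝ _ - (innerSL ℝ v).smulRight v)
          (0 + (0 : ℝ) • w) := by
        rw [hline0]
        exact hVd
      have h3 := h2.comp_hasDerivAt (0 : ℝ) hline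
      have h4 := h1.comp_hasDerivAt (0 : ℝ) h3
      have hw' : (ContinuousLinearMap.id ℝ (TangentSpace 𝓘(ℝ, E) x) -
          (innerSL ℝ v).smulRight v) w = w := by
        simp only [sub_apply, ContinuousLinearMap.id_apply, ContinuousLinearMap.smulRight_apply, coe_innerSL_apply, hw, zero_smul, sub_zero]
      rw [hw'] at h4
      exact h4
    have h10 : HasDerivAt (fun s : ℝ => -inner ℝ (kap e (D - δ) x y (V (0 + s • w)))
          (fderiv ℝ (kap e D x y) v z))
        (-inner ℝ (fderiv ℝ (kap e (D - δ) x y) v w) (fderiv ℝ (kap e D x y) v z)) 0 := by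
      have h11 := (hder.inner ℝ (hasDerivAt_const (0 : ℝ) (fderiv ℝ (kap e D x y) v z))).fun_neg
      simpa only [zero_add, zero_smul, add_zero, inner_zero_right] using h11
    exact h10.congr_of_eventuallyEq hev
  have h1 := per_sy_abs (hHs.of_le two_le_infty) hlow hdiag ζ η
  rw [hmix ζ η hζ hη, hmix η ζ hη hζ] at h1
  exact neg_injective h1

end

end Vale.Agent.P231
end
end
end
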