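import Vale.Agent.P231.MathlibUsed
import Vale.Agent.P231.Bd3.B1
import Vale.Agent.P234.MathlibUsed
import Vale.Agent.P231.Bd3.B2
attribute [-instance] IsTopologicalTorsor.toContinuousSMul IdemSemiring.toCanonicallyOrderedAdd IdemSemiring.toMulLeftMono IdemSemiring.toMulRightMono FiniteDimensional.rclike_to_real IsScalarTower.complexToReal FiniteDimensional.complexToReal

set_option linter.all false

namespace AFastc7898ex7a
theorem a0 : ContinuousSMul ℝ ℝ := inferInstance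
@[reducible] def a1.{u1} {x1 : Type u1} [x2 : NormedAddCommGroup x1] [x3 : InnerProductSpace ℝ x1] : Module ℝ (x1 →L[ℝ] ℝ) := inferInstance
@[reducible] def a2.{u1} {x1 : Type u1} [x2 : NormedAddCommGroup x1] [x3 : NormedSpace ℝ x1] : AddCommMonoid (x1 →L[ℝ] x1) := inferInstance
@[reducible] noncomputable def a3.{u1} {x1 : Type u1} [x2 : NormedAddCommGroup x1] [x3 : InnerProductSpace ℝ x1] : TopologicalSpace (x1 →L[ℝ] ℝ) := inferInstance
@[reducible] noncomputable def a4.{u1} {x1 : Type u1} [x2 : NormedAddCommGroup x1] [x3 : InnerProductSpace ℝ x1] : TopologicalSpace (x1 →L[ℝ] x1 →L[ℝ] ℝ) := inferInstance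
@[reducible] noncomputable def a5 : NormedSpace ℝ ℝ := inferInstance
@[reducible] def a6 : SMulZeroClass ℝ ℝ := inferInstance
theorem a7.{u1} {x1 : Type u1} [x2 : NormedAddCommGroup x1] [x3 : InnerProductSpace ℝ x1] : IsTopologicalAddGroup (x1 →L[ℝ] ℝ) := inferInstance
@[reducible] noncomputable def a8.{u1} {x1 : Type u1} [x2 : NormedAddCommGroup x1] [x3 : NormedSpace ℝ x1] : TopologicalSpace (x1 →L[ℝ] x1) := inferInstance
@[reducible] noncomputable def a9.{u1} {x1 : Type u1} [x2 : NormedAddCommGroup x1] [x3 : InnerProductSpace ℝ x1] : NormedSpace ℝ (x1 →L[ℝ] ℝ) := inferInstance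
theorem a10 : CharZero ℝ := inferInstance
@[reducible] def a11 : DistribMulAction ℝ ℝ := inferInstance
theorem a12 : CovariantClass ℝ ℝ (Function.swap fun x1 x2 => x1 + x2) fun x1 x2 => x1 ≤ x2 := inferInstance
@[reducible] def a13.{u1} {x1 : Type u1} [x2 : NormedAddCommGroup x1] [x3 : InnerProductSpace ℝ x1] : AddCommMonoid (x1 →L[ℝ] ℝ) := inferInstance
@[reducible] noncomputable def a14.{u1} {x1 : Type u1} [x2 : NormedAddCommGroup x1] [x3 : NormedSpace ℝ x1] : Module ℝ (x1 →L[ℝ] x1 →L[ℝ] ℝ) := inferInstance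
@[reducible] noncomputable def a15.{u1} {x1 : Type u1} [x2 : NormedAddCommGroup x1] [x3 : InnerProductSpace ℝ x1] : SeminormedAddCommGroup (x1 →L[ℝ] ℝ) := inferInstance
theorem a16 : AddRightStrictMono ℝ := inferInstance
theorem a17 : ContinuousConstSMul ℝ ℝ := inferInstance
theorem a18.{u1} {x1 : Type u1} [x2 : NormedAddCommGroup x1] [x3 : InnerProductSpace ℝ x1] : SMulCommClass ℝ ℝ (x1 →L[ℝ] ℝ) := inferInstance
@[reducible] def a19.{u1} {x1 : Type u1} [x2 : NormedAddCommGroup x1] [x3 : InnerProductSpace ℝ x1] : AddCommGroup (x1 →L[ℝ] ℝ) := inferInstance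
@[reducible] noncomputable def a20.{u1} {x1 : Type u1} [x2 : NormedAddCommGroup x1] [x3 : NormedSpace ℝ x1] : AddCommGroup (x1 →L[ℝ] x1 →L[ℝ] ℝ) := inferInstance
theorem a21 : ClosedIicTopology ℝ := inferInstance
@[reducible] noncomputable def a22.{u1} {x1 : Type u1} [x2 : NormedAddCommGroup x1] [x3 : InnerProductSpace ℝ x1] : NormedAddCommGroup (x1 →L[ℝ] ℝ) := inferInstance
theorem a23 : ContinuousAdd ℝ := inferInstance
theorem a24 : AddLeftMono ℝ := inferInstance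
theorem a25 : AddRightReflectLE ℝ := inferInstance
theorem a26 : ContravariantClass ℝ ℝ (fun x1 x2 => x1 + x2) fun x1 x2 => x1 < x2 := inferInstance
theorem a27 : IsModuleTopology ℝ ℝ := inferInstance
theorem a28 : SeparatelyContinuousMul ℝ := inferInstance
@[reducible] def a29.{u1} {x1 : Type u1} [x2 : Fintype x1] [x3 : DecidableEq x1] : Monoid (Matrix x1 x1 ℝ) := inferInstance
theorem a30 : IsRightCancelAdd ℝ := inferInstance
theorem a31 : AddLeftReflectLE ℝ := inferInstance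
theorem a32.{u1} {x1 : Type u1} [x2 : NormedAddCommGroup x1] [x3 : NormedSpace ℝ x1] : ContinuousConstSMul ℝ (x1 →L[ℝ] ℝ) := inferInstance
theorem a33 : OrderClosedTopology ℝ := inferInstance
theorem a34 : ContinuousSub ℝ := inferInstance
@[reducible] def a35.{u1} {x1 : Type u1} : SMulZeroClass ℝ (Matrix x1 x1 ℝ) := inferInstance
theorem a36 : IsLeftCancelAdd ℝ := inferInstance
@[reducible] noncomputable def a37.{u1, u2} {x1 : Type u1} [x2 : NormedAddCommGroup x1] [x3 : NormedSpace ℝ x1] {x4 : Type u2} [x5 : MetricSpace x4] [x6 : ChartedSpace x1 x4] {x7 : x4} : SMulZeroClass ℝ (TangentSpace (modelWithCornersSelf ℝ x1) x7) := inferInstance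
@[reducible] noncomputable def a38.{u1, u2} {x1 : Type u1} [x2 : NormedAddCommGroup x1] [x3 : NormedSpace ℝ x1] {x4 : Type u2} [x5 : MetricSpace x4] [x6 : ChartedSpace x1 x4] {x7 : x4} : SMul ℝ (TangentSpace (modelWithCornersSelf ℝ x1) x7) := inferInstance
theorem a39.{u1} {x1 : Type u1} [x2 : NormedAddCommGroup x1] [x3 : NormedSpace ℝ x1] : FiniteDimensional ℝ (Fin (Module.finrank ℝ x1) → ℝ) := inferInstance
@[reducible] def a40.{u1} {x1 : Type u1} [x2 : NormedAddCommGroup x1] [x3 : NormedSpace ℝ x1] : AddCommGroup (x1 →L[ℝ] x1) := inferInstance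
@[reducible] noncomputable def a41.{u1} {x1 : Type u1} [x2 : NormedAddCommGroup x1] [x3 : NormedSpace ℝ x1] : MeasureTheory.MeasureSpace (Vale.Agent.P231.Eu x1) := inferInstance
theorem a42 : PosMulReflectLT ℝ := inferInstance
theorem a43 : PosMulReflectLE ℝ := inferInstance
theorem a44 : IsBoundedSMul ℝ ℝ := inferInstance
theorem a45 : PosMulStrictMono ℝ := inferInstance
@[reducible] noncomputable def a46.{u1} {x1 : Type u1} [x2 : NormedAddCommGroup x1] [x3 : InnerProductSpace ℝ x1] : SMul ℝ (x1 →L[ℝ] x1 →L[ℝ] ℝ) := inferInstance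
theorem a47 : T2Space ℝ := inferInstance
@[reducible] noncomputable def a48.{u1} {x1 : Type u1} [x2 : NormedAddCommGroup x1] [x3 : InnerProductSpace ℝ x1] : UniformSpace (x1 →L[ℝ] x1 →L[ℝ] ℝ) := inferInstance
@[reducible] noncomputable def a49.{u1} {x1 : Type u1} [x2 : NormedAddCommGroup x1] [x3 : NormedSpace ℝ x1] : PseudoMetricSpace (x1 →L[ℝ] ℝ) := inferInstance
@[reducible] noncomputable def a50.{u1, u2} {x1 : Type u1} [x2 : NormedAddCommGroup x1] [x3 : NormedSpace ℝ x1] {x4 : Type u2} [x5 : MetricSpace x4] [x6 : ChartedSpace x1 x4] {x7 : x4} : DistribSMul ℝ (TangentSpace (modelWithCornersSelf ℝ x1) x7) := inferInstance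
@[reducible] def a51.{u1} {x1 : Type u1} [x2 : NormedAddCommGroup x1] [x3 : InnerProductSpace ℝ x1] : SMul ℝ (x1 →L[ℝ] ℝ) := inferInstance
@[reducible] def a52.{u1} {x1 : Type u1} [x2 : NormedAddCommGroup x1] [x3 : InnerProductSpace ℝ x1] : DistribSMul ℝ (x1 →L[ℝ] ℝ) := inferInstance
@[reducible] noncomputable def a53.{u1, u2} {x1 : Type u1} {x2 : Type u2} [x3 : DecidableEq x2] [x4 : Fintype x2] [x5 : Fintype x1] [x6 : DecidableEq x1] : Inv (Matrix (x1 ⊕ x2) (x1 ⊕ x2) ℝ) := inferInstance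
theorem a54 : IsLeftCancelMulZero ℝ := inferInstance
@[reducible] noncomputable def a55.{u1} {x1 : Type u1} [x2 : NormedAddCommGroup x1] [x3 : NormedSpace ℝ x1] : NormedSpace ℝ (x1 →L[ℝ] x1) := inferInstance
@[reducible] noncomputable def a56.{u1, u2} {x1 : Type u1} [x2 : NormedAddCommGroup x1] [x3 : NormedSpace ℝ x1] {x4 : Type u2} [x5 : MetricSpace x4] [x6 : ChartedSpace x1 x4] {x7 : x4} : DistribMulAction ℝ (TangentSpace (modelWithCornersSelf ℝ x1) x7) := inferInstance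
@[reducible] def a57.{u1} {x1 : Type u1} : DistribSMul ℝ (Matrix x1 x1 ℝ) := inferInstance
@[reducible] def a58.{u1, u2} {x1 : Type u1} {x2 : Type u2} [x3 : DecidableEq x2] [x4 : Fintype x2] [x5 : Fintype x1] [x6 : DecidableEq x1] : Monoid (Matrix (x1 ⊕ x2) (x1 ⊕ x2) ℝ) := inferInstance
@[reducible] noncomputable def a59.{u1} {x1 : Type u1} [x2 : NormedAddCommGroup x1] [x3 : NormedSpace ℝ x1] : UniformSpace (x1 →L[ℝ] ℝ) := inferInstance
theorem a60 : AddLeftStrictMono ℝ := inferInstance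
theorem a61 : IsCancelMulZero ℝ := inferInstance
@[reducible] def a62.{u1} {x1 : Type u1} [x2 : NormedAddCommGroup x1] [x3 : InnerProductSpace ℝ x1] : DistribMulAction ℝ (x1 →L[ℝ] ℝ) := inferInstance
@[reducible] def a63.{u1} {x1 : Type u1} [x2 : NormedAddCommGroup x1] [x3 : NormedSpace ℝ x1] : AddCommMonoid (Vale.Agent.P231.Eu x1) := inferInstance
@[reducible] noncomputable def a64.{u1, u2} {x1 : Type u1} [x2 : NormedAddCommGroup x1] [x3 : NormedSpace ℝ x1] {x4 : Type u2} [x5 : MetricSpace x4] [x6 : ChartedSpace x1 x4] {x7 : x4} : AddCommMonoid (TangentSpace (modelWithCornersSelf ℝ x1) x7) := inferInstance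
@[reducible] def a65.{u1} {x1 : Type u1} [x2 : NormedAddCommGroup x1] [x3 : InnerProductSpace ℝ x1] : AddMonoid (x1 →L[ℝ] ℝ) := inferInstance
end AFastc7898ex7a
attribute [local instance] AFastc7898ex7a.a0 AFastc7898ex7a.a1 AFastc7898ex7a.a2 AFastc7898ex7a.a3
  AFastc7898ex7a.a4 AFastc7898ex7a.a5 AFastc7898ex7a.a6 AFastc7898ex7a.a7 AFastc7898ex7a.a8
  AFastc7898ex7a.a9 AFastc7898ex7a.a10 AFastc7898ex7a.a11 AFastc7898ex7a.a12 AFastc7898ex7a.a13
  AFastc7898ex7a.a14 AFastc7898ex7a.a15 AFastc7898ex7a.a16 AFastc7898ex7a.a17 AFastc7898ex7a.a18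
  AFastc7898ex7a.a19 AFastc7898ex7a.a20 AFastc7898ex7a.a21 AFastc7898ex7a.a22 AFastc7898ex7a.a23
  AFastc7898ex7a.a24 AFastc7898ex7a.a25 AFastc7898ex7a.a26 AFastc7898ex7a.a27 AFastc7898ex7a.a28
  AFastc7898ex7a.a29 AFastc7898ex7a.a30 AFastc7898ex7a.a31 AFastc7898ex7a.a32 AFastc7898ex7a.a33
  AFastc7898ex7a.a34 AFastc7898ex7a.a35 AFastc7898ex7a.a36 AFastc7898ex7a.a37 AFastc7898ex7a.a38
  AFastc7898ex7a.a39 AFastc7898ex7a.a40 AFastc7898ex7a.a41 AFastc7898ex7a.a42 AFastc7898ex7a.a43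
  AFastc7898ex7a.a44 AFastc7898ex7a.a45 AFastc7898ex7a.a46 AFastc7898ex7a.a47 AFastc7898ex7a.a48
  AFastc7898ex7a.a49 AFastc7898ex7a.a50 AFastc7898ex7a.a51 AFastc7898ex7a.a52 AFastc7898ex7a.a53
  AFastc7898ex7a.a54 AFastc7898ex7a.a55 AFastc7898ex7a.a56 AFastc7898ex7a.a57 AFastc7898ex7a.a58
  AFastc7898ex7a.a59 AFastc7898ex7a.a60 AFastc7898ex7a.a61 AFastc7898ex7a.a62 AFastc7898ex7a.a63
  AFastc7898ex7a.a64 AFastc7898ex7a.a65
namespace AFastc7898ex7b
@[reducible] noncomputable def a0.{u1} {x1 : Type u1} [x2 : NormedAddCommGroup x1] [x3 : InnerProductSpace ℝ x1] : NormedSpace ℝ (x1 →L[ℝ] x1 →L[ℝ] ℝ) := inferInstance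
@[reducible] noncomputable def a1.{u1} {x1 : Type u1} [x2 : NormedAddCommGroup x1] [x3 : InnerProductSpace ℝ x1] : NormedAddCommGroup (x1 →L[ℝ] x1 →L[ℝ] ℝ) := inferInstance
@[reducible] noncomputable def a2.{u1, u2} {x1 : Type u1} [x2 : NormedAddCommGroup x1] [x3 : NormedSpace ℝ x1] {x4 : Type u2} [x5 : MetricSpace x4] [x6 : ChartedSpace x1 x4] [x7 : IsManifold (modelWithCornersSelf ℝ x1) (↑⊤) x4] : TopologicalSpace (TangentBundle (modelWithCornersSelf ℝ x1) x4) := inferInstance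
theorem a3.{u1, u2} {x1 : Type u1} [x2 : NormedAddCommGroup x1] [x3 : NormedSpace ℝ x1] {x4 : Type u2} [x5 : MetricSpace x4] [x6 : ChartedSpace x1 x4] [x7 : IsManifold (modelWithCornersSelf ℝ x1) (↑⊤) x4] : IsManifold (modelWithCornersSelf ℝ x1) 1 x4 := inferInstance
@[reducible] def a4.{u1} {x1 : Type u1} [x2 : NormedAddCommGroup x1] [x3 : NormedSpace ℝ x1] : Module ℝ (x1 →L[ℝ] x1) := inferInstance
theorem a5.{u1} {x1 : Type u1} [x2 : NormedAddCommGroup x1] [x3 : InnerProductSpace ℝ x1] : SemilinearMapClass (x1 →L[ℝ] x1 →L[ℝ] ℝ) (RingHom.id ℝ) x1 (x1 →L[ℝ] ℝ) := inferInstance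
theorem a6.{u1, u2} {x1 : Type u1} [x2 : NormedAddCommGroup x1] [x3 : NormedSpace ℝ x1] {x4 : Type u2} [x5 : MetricSpace x4] [x6 : ChartedSpace x1 x4] [x7 : IsManifold (modelWithCornersSelf ℝ x1) (↑⊤) x4] : IsManifold (modelWithCornersSelf ℝ x1) 2 x4 := inferInstance
theorem a7.{u1, u2} {x1 : Type u1} [x2 : NormedAddCommGroup x1] [x3 : NormedSpace ℝ x1] {x4 : Type u2} [x5 : MetricSpace x4] [x6 : ChartedSpace x1 x4] [x7 : IsManifold (modelWithCornersSelf ℝ x1) (↑⊤) x4] : IsManifold (modelWithCornersSelf ℝ x1) 3 x4 := inferInstance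
theorem a8.{u1} {x1 : Type u1} [x2 : NormedAddCommGroup x1] [x3 : NormedSpace ℝ x1] : ZeroHomClass (x1 →L[ℝ] x1 →L[ℝ] ℝ) x1 (x1 →L[ℝ] ℝ) := inferInstance
theorem a9.{u1} {x1 : Type u1} [x2 : NormedAddCommGroup x1] [x3 : InnerProductSpace ℝ x1] : DistribMulActionSemiHomClass (x1 →L[ℝ] x1 →L[ℝ] ℝ) (⇑(RingHom.id ℝ)) x1 (x1 →L[ℝ] ℝ) := inferInstance
theorem a10.{u1} {x1 : Type u1} [x2 : NormedAddCommGroup x1] [x3 : NormedSpace ℝ x1] : AddMonoidHomClass (x1 →L[ℝ] x1 →L[ℝ] ℝ) x1 (x1 →L[ℝ] ℝ) := inferInstance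
theorem a11.{u1} {x1 : Type u1} [x2 : NormedAddCommGroup x1] [x3 : NormedSpace ℝ x1] : MulActionSemiHomClass (x1 →L[ℝ] x1 →L[ℝ] ℝ) (⇑(RingHom.id ℝ)) x1 (x1 →L[ℝ] ℝ) := inferInstance
@[reducible] noncomputable def a12.{u1} {x1 : Type u1} [x2 : NormedAddCommGroup x1] [x3 : NormedSpace ℝ x1] : PseudoMetricSpace (x1 →L[ℝ] x1 →L[ℝ] ℝ) := inferInstance
@[reducible] noncomputable def a13.{u1} {x1 : Type u1} [x2 : NormedAddCommGroup x1] [x3 : InnerProductSpace ℝ x1] : SeminormedAddCommGroup (x1 →L[ℝ] x1 →L[ℝ] ℝ) := inferInstance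
theorem a14.{u1} {x1 : Type u1} [x2 : NormedAddCommGroup x1] [x3 : NormedSpace ℝ x1] : ContinuousAdd (x1 →L[ℝ] ℝ) := inferInstance
@[reducible] noncomputable def a15.{u1} {x1 : Type u1} [x2 : NormedAddCommGroup x1] [x3 : NormedSpace ℝ x1] : AddCommMonoid (x1 →L[ℝ] x1 →L[ℝ] ℝ) := inferInstance
theorem a16.{u1} {x1 : Type u1} : ContinuousSub (Matrix x1 x1 ℝ) := inferInstance
@[reducible] noncomputable def a17.{u1} {x1 : Type u1} [x2 : NormedAddCommGroup x1] [x3 : NormedSpace ℝ x1] : Norm (x1 →L[ℝ] x1 →L[ℝ] ℝ) := inferInstance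
theorem a18.{u1} {x1 : Type u1} [x2 : NormedAddCommGroup x1] [x3 : NormedSpace ℝ x1] : MulActionSemiHomClass (x1 →L[ℝ] ℝ) (⇑(RingHom.id ℝ)) x1 ℝ := inferInstance
theorem a19.{u1} {x1 : Type u1} [x2 : NormedAddCommGroup x1] [x3 : NormedSpace ℝ x1] : SemilinearMapClass (x1 →L[ℝ] ℝ) (RingHom.id ℝ) x1 ℝ := inferInstance
@[reducible] noncomputable def a20.{u1, u2, u3} {x1 : Type u1} {x2 : Type u2} [x3 : NormedAddCommGroup x2] [x4 : NormedSpace ℝ x2] {x5 : Type u3} [x6 : MetricSpace x5] [x7 : ChartedSpace x2 x5] [x8 : TopologicalSpace x1] [x9 : IsManifold (modelWithCornersSelf ℝ x2) (↑⊤) x5] : TopologicalSpace (x1 × TangentBundle (modelWithCornersSelf ℝ x2) x5) := inferInstance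
@[reducible] def a21.{u1} {x1 : Type u1} [x2 : NormedAddCommGroup x1] [x3 : NormedSpace ℝ x1] : SMulZeroClass ℝ (x1 →L[ℝ] x1) := inferInstance
@[reducible] noncomputable def a22.{u1, u2, u3} {x1 : Type u1} {x2 : Type u2} {x3 : Type u3} [x4 : NormedAddCommGroup x3] [x5 : @NormedSpace Real x3 Real.normedField (@NormedAddCommGroup.toSeminormedAddCommGroup x3 x4)] [x6 : MetricSpace x2] [x7 : @ChartedSpace x3 (@UniformSpace.toTopologicalSpace x3 (@PseudoMetricSpace.toUniformSpace x3 (@SeminormedAddCommGroup.toPseudoMetricSpace x3 (@NormedAddCommGroup.toSeminormedAddCommGroup x3 x4)))) x2 (@UniformSpace.toTopologicalSpace x2 (@PseudoMetricSpace.toUniformSpace x2 (@MetricSpace.toPseudoMetricSpace x2 x6)))] [x8 : @IsManifold Real (@DenselyNormedField.toNontriviallyNormedField Real Real.denselyNormedField) x3 x4 x5 x3 (@UniformSpace.toTopologicalSpace x3 (@PseudoMetricSpace.toUniformSpace x3 (@SeminormedAddCommGroup.toPseudoMetricSpace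 x3 (@NormedAddCommGroup.toSeminormedAddCommGroup x3 x4)))) (@modelWithCornersSelf Real (@DenselyNormedField.toNontriviallyNormedField Real Real.denselyNormedField) x3 x4 x5) (@WithTop.some ENat (@Top.top ENat instTopENat)) x2 (@UniformSpace.toTopologicalSpace x2 (@PseudoMetricSpace.toUniformSpace x2 (@MetricSpace.toPseudoMetricSpace x2 x6))) x7] [x9 : TopologicalSpace x1] : TopologicalSpace (Prod x1 (@Bundle.TotalSpace x2 x3 (@TangentSpace Real (@DenselyNormedField.toNontriviallyNormedField Real Real.denselyNormedField) x3 x4 x5 x3 (@UniformSpace.toTopologicalSpace x3 (@PseudoMetricSpace.toUniformSpace x3 (@SeminormedAddCommGroup.toPseudoMetricSpace x3 (@NormedAddCommGroup.toSeminormedAddCommGroup x3 x4)))) (@modelWithCornersSelf Real (@DenselyNormedField.toNontriviallyNormedField Real Real.denselyNormedField) x3 x4 x5) x2 (@UniformSpace.toTopologicalSpace x2 (@PseudoMetricSpace.toUniformSpace x2 (@MetricSpace.toPseudoMetricSpace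 x2 x6))) x7))) := inferInstance
theorem a23.{u1} {x1 : Type u1} [x2 : NormedAddCommGroup x1] [x3 : NormedSpace ℝ x1] : MulActionSemiHomClass (x1 →L[ℝ] x1 →L[ℝ] x1) (⇑(RingHom.id ℝ)) x1 (x1 →L[ℝ] x1) := inferInstance
theorem a24.{u1} {x1 : Type u1} [x2 : NormedAddCommGroup x1] [x3 : NormedSpace ℝ x1] : SemilinearMapClass (x1 →L[ℝ] x1 →L[ℝ] x1) (RingHom.id ℝ) x1 (x1 →L[ℝ] x1) := inferInstance
@[reducible] def a25.{u1} {x1 : Type u1} [x2 : NormedAddCommGroup x1] [x3 : NormedSpace ℝ x1] : DistribSMul ℝ (x1 →L[ℝ] x1) := inferInstance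
theorem a26.{u1} {x1 : Type u1} [x2 : NormedAddCommGroup x1] [x3 : NormedSpace ℝ x1] : ZeroHomClass (x1 →L[ℝ] ℝ) x1 ℝ := inferInstance
theorem a27.{u1} {x1 : Type u1} [x2 : NormedAddCommGroup x1] [x3 : NormedSpace ℝ x1] : AddMonoidHomClass (x1 →L[ℝ] ℝ) x1 ℝ := inferInstance
theorem a28.{u1} {x1 : Type u1} [x2 : NormedAddCommGroup x1] [x3 : NormedSpace ℝ x1] : DistribMulActionSemiHomClass (x1 →L[ℝ] ℝ) (⇑(RingHom.id ℝ)) x1 ℝ := inferInstance
@[reducible] def a29.{u1} {x1 : Type u1} [x2 : NormedAddCommGroup x1] [x3 : NormedSpace ℝ x1] : SMul ℝ (x1 →L[ℝ] x1) := inferInstance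
@[reducible] def a30.{u1} {x1 : Type u1} [x2 : NormedAddCommGroup x1] [x3 : NormedSpace ℝ x1] : DistribMulAction ℝ (x1 →L[ℝ] x1) := inferInstance
theorem a31.{u1} {x1 : Type u1} [x2 : NormedAddCommGroup x1] [x3 : NormedSpace ℝ x1] : AddHomClass (x1 →L[ℝ] ℝ) x1 ℝ := inferInstance
theorem a32.{u1} {x1 : Type u1} [x2 : NormedAddCommGroup x1] [x3 : NormedSpace ℝ x1] : IsBoundedSMul ℝ (x1 →L[ℝ] x1) := inferInstance
theorem a33.{u1} {x1 : Type u1} [x2 : NormedAddCommGroup x1] [x3 : NormedSpace ℝ x1] : ContinuousSMul ℝ (x1 →L[ℝ] x1) := inferInstance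
end AFastc7898ex7b
attribute [local instance] AFastc7898ex7b.a0 AFastc7898ex7b.a1 AFastc7898ex7b.a2 AFastc7898ex7b.a3
  AFastc7898ex7b.a4 AFastc7898ex7b.a5 AFastc7898ex7b.a6 AFastc7898ex7b.a7 AFastc7898ex7b.a8
  AFastc7898ex7b.a9 AFastc7898ex7b.a10 AFastc7898ex7b.a11 AFastc7898ex7b.a12 AFastc7898ex7b.a13
  AFastc7898ex7b.a14 AFastc7898ex7b.a15 AFastc7898ex7b.a16 AFastc7898ex7b.a17 AFastc7898ex7b.a18
  AFastc7898ex7b.a19 AFastc7898ex7b.a20 AFastc7898ex7b.a21 AFastc7898ex7b.a22 AFastc7898ex7b.a23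
  AFastc7898ex7b.a24 AFastc7898ex7b.a25 AFastc7898ex7b.a26 AFastc7898ex7b.a27 AFastc7898ex7b.a28
  AFastc7898ex7b.a29 AFastc7898ex7b.a30 AFastc7898ex7b.a31 AFastc7898ex7b.a32 AFastc7898ex7b.a33
section

section

section

/-! Step B in an abstract inner product space. -/

set_option maxSynthPendingDepth 3

open Set Filter
open scoped ContDiff Topology

namespace Vale.Agent.P234

/-- Data of the Hessians of the cost in a fixed tangent space. -/
structure HessData (V : Type*) [NormedAddCommGroup V] [InnerProductSpace ℝ V] where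
  I : Set V
  S : Set V
  H : V → V →L[ℝ] V →L[ℝ] ℝ
  K : V → V → V →L[ℝ] V →L[ℝ] ℝ
  smul_mem : ∀ w ∈ S, ∀ t : ℝ, 0 ≤ t → t < 1 → t • w ∈ I
  contH : ∀ w ∈ I, ContinuousAt H w
  symm : ∀ w ∈ I, ∀ a b, H w a b = H w b a
  radial : ∀ w ∈ I, ∀ a, H w w a = inner ℝ w a
  smoothK : ∀ (w : V) (s s' : ℝ), 0 < s → s < s' → s' • w ∈ S →
    ContDiffAt ℝ ∞ (fun r : V × V => K r.1 r.2) (s • w, s' • w)
  key : ∀ (w : V) (s s' : ℝ), 0 < s → s < s' → s' • w ∈ I → ∀ ξ μ : V,
    H (s' • w) ξ ξ / s' ≤ H (s • w) ξ ξ / s - 2 * inner ℝ ξ μ / s + ‖μ‖ ^ 2 / s +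
      K (s • w) (s' • w) μ μ / (s' - s)
  strict : ∀ (w : V) (s s' : ℝ), 0 < s → s < s' → s' • w ∈ I → ∀ ξ : V, ξ ≠ 0 →
    H (s' • w) ξ ξ / s' < H (s • w) ξ ξ / s
  concave : ∀ (D : Set V), Convex ℝ D → D ⊆ I → ∀ w₀ ξ : V,
    ConcaveOn ℝ (D ∩ {u | inner ℝ (u - w₀) ξ = 0}) (fun u => H u ξ ξ)
  mid_nonneg : ∀ (w : V) (s s' : ℝ), 0 < s → s < s' → s' • w ∈ S → ∀ μ : V,
    0 ≤ ‖μ‖ ^ 2 / s + K (s • w) (s' • w) μ μ / (s' - s)
  mid_pos : ∀ (w : V) (s s' : ℝ), 0 < s → s < s' → s' • w ∈ I → ∀ μ : V, μ ≠ 0 →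
    0 < ‖μ‖ ^ 2 / s + K (s • w) (s' • w) μ μ / (s' - s)
  lower : ∀ (w : V) (s s' κ : ℝ), 0 < s → s < s' → s' • w ∈ I → 0 < κ →
    (∀ μ : V, κ * ‖μ‖ ^ 2 ≤ ‖μ‖ ^ 2 / s + K (s • w) (s' • w) μ μ / (s' - s)) →
    ∀ ξ : V, H (s • w) ξ ξ / s - ‖ξ‖ ^ 2 / (s ^ 2 * κ) ≤ H (s' • w) ξ ξ / s'

namespace HessData

variable {V : Type*} [NormedAddCommGroup V] [InnerProductSpace ℝ V] (X : HessData V)

lemma smul_mem' {w : V} {τ τ₁ : ℝ} (hw : τ₁ • w ∈ X.S) (hτ : 0 ≤ τ) (hττ : τ < τ₁) :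
    τ • w ∈ X.I := by
  have h1 : 0 < τ₁ := lt_of_le_of_lt hτ hττ
  have h2 := X.smul_mem _ hw (τ / τ₁) (by positivity) ((div_lt_one h1).2 hττ)
  rwa [smul_smul, div_mul_cancel₀ _ h1.ne'] at h2

/-- Quadratic form of the two-piece functional in the middle variable. -/
noncomputable def Q (θ τ : ℝ) (w μ : V) : ℝ :=
  ‖μ‖ ^ 2 / θ + X.K (θ • w) (τ • w) μ μ / (τ - θ)

/-- Limit form of the key inequality. -/
lemma key_limit {w : V} {θ τ₁ : ℝ} (hθ : 0 < θ) (hθτ : θ < τ₁) (hw : τ₁ • w ∈ X.S) (ξ μ : V)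
    {c : ℝ → ℝ} {c₀ : ℝ} (hc : Tendsto c (𝓝[<] τ₁) (𝓝 c₀))
    (h : ∀ᶠ τ in 𝓝[<] τ₁, c τ ≤ X.H (τ • w) ξ ξ / τ) :
    c₀ ≤ X.H (θ • w) ξ ξ / θ - 2 * inner ℝ ξ μ / θ + X.Q θ τ₁ w μ := by
  have hcont := (X.smoothK w θ τ₁ hθ hθτ hw).continuousAt
  have h1 : Tendsto (fun τ : ℝ => X.K (θ • w) (τ • w)) (𝓝[<] τ₁) (𝓝 (X.K (θ • w) (τ₁ • w))) := by
    have h2 : Tendsto (fun τ : ℝ => (θ • w, τ • w)) (𝓝[<] τ₁) (𝓝 (θ • w, τ₁ • w)) := by
      have : Continuous (fun τ : ℝ => (θ • w, τ • w)) := by fun_prop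
      exact (this.tendsto τ₁).mono_left nhdsWithin_le_nhds
    exact hcont.tendsto.comp h2
  have h3 : Tendsto (fun τ : ℝ => X.K (θ • w) (τ • w) μ μ) (𝓝[<] τ₁)
      (𝓝 (X.K (θ • w) (τ₁ • w) μ μ)) := by
    have h4 : Continuous (fun B : V →L[ℝ] V →L[ℝ] ℝ => B μ μ) := by continuity
    exact (h4.tendsto _).comp h1
  have h5 : Tendsto (fun τ : ℝ => X.H (θ • w) ξ ξ / θ - 2 * inner ℝ ξ μ / θ + ‖μ‖ ^ 2 / θ
      + X.K (θ • w) (τ • w) μ μ / (τ - θ)) (𝓝[<] τ₁)
      (𝓝 (X.H (θ • w) ξ ξ / θ - 2 * inner ℝ ξ μ / θ + ‖μ‖ ^ 2 / θ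
      + X.K (θ • w) (τ₁ • w) μ μ / (τ₁ - θ))) := by
    refine Tendsto.add tendsto_const_nhds (h3.div ?_ (sub_pos.2 hθτ).ne')
    have : Continuous (fun τ : ℝ => τ - θ) := by fun_prop
    exact (this.tendsto τ₁).mono_left nhdsWithin_le_nhds
  rw [Q, ← add_assoc]
  refine le_of_tendsto_of_tendsto hc h5 ?_
  have h6 : ∀ᶠ τ in 𝓝[<] τ₁, θ < τ := by
    have : ∀ᶠ τ in 𝓝 τ₁, θ < τ := lt_mem_nhds hθτ
    exact this.filter_mono nhdsWithin_le_nhds
  filter_upwards [h, h6, self_mem_nhdsWithin] with τ hτ1 hτ2 hτ3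
  exact hτ1.trans (X.key w θ τ hθ hτ2 (X.smul_mem' hw (by linarith) hτ3) ξ μ)

lemma Q_smul (θ τ : ℝ) (w μ : V) (t : ℝ) : X.Q θ τ w (t • μ) = t ^ 2 * X.Q θ τ w μ := by
  simp only [Q, norm_smul, map_smul, smul_apply, smul_eq_mul, mul_pow,
    Real.norm_eq_abs, sq_abs]
  ring

lemma orth_of_bounded {w : V} {θ τ₁ : ℝ} (hθ : 0 < θ) (hθτ : θ < τ₁) (hw : τ₁ • w ∈ X.S)
    {ξ μ : V} (hμ : X.Q θ τ₁ w μ = 0) (c : ℝ)
    (h : ∀ᶠ τ in 𝓝[<] τ₁, c ≤ X.H (τ • w) ξ ξ / τ) : inner ℝ ξ μ = 0 := by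
  by_contra hp
  have h1 := X.key_limit hθ hθτ hw ξ
    ((θ * (X.H (θ • w) ξ ξ / θ - c + 1) / (2 * inner ℝ ξ μ)) • μ)
    (c := fun _ => c) tendsto_const_nhds h
  rw [Q_smul, hμ, mul_zero, add_zero, inner_smul_right] at h1
  have h2 : 2 * (θ * (X.H (θ • w) ξ ξ / θ - c + 1) / (2 * inner ℝ ξ μ) * inner ℝ ξ μ) / θ =
      X.H (θ • w) ξ ξ / θ - c + 1 := by
    field_simp
  rw [h2] at h1
  linarith only [h1]

end HessData

/-- A positive definite form on a finite dimensional space is uniformly coercive nearby. -/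
lemma coercive_nhds {V : Type*} [NormedAddCommGroup V] [NormedSpace ℝ V]
    [FiniteDimensional ℝ V] (a : ℝ) (B₀ : V →L[ℝ] V →L[ℝ] ℝ)
    (h : ∀ μ, μ ≠ 0 → 0 < a * ‖μ‖ ^ 2 + B₀ μ μ) :
    ∃ κ > 0, ∀ᶠ B in 𝓝 B₀, ∀ μ, κ * ‖μ‖ ^ 2 ≤ a * ‖μ‖ ^ 2 + B μ μ := by
  have hP : ProperSpace V := FiniteDimensional.proper ℝ V
  by_cases hne : (Metric.sphere (0 : V) 1).Nonempty
  · obtain ⟨μ₁, hμ₁, hmin⟩ := (isCompact_sphere (0 : V) 1).exists_isMinOn hne
      (f := fun μ => a * ‖μ‖ ^ 2 + B₀ μ μ) (by fun_prop)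
    have hμ1 : ‖μ₁‖ = 1 := by simpa using hμ₁
    have hpos : 0 < a * ‖μ₁‖ ^ 2 + B₀ μ₁ μ₁ :=
      h _ (by rw [← norm_ne_zero_iff, hμ1]; exact one_ne_zero)
    set m : ℝ := a * ‖μ₁‖ ^ 2 + B₀ μ₁ μ₁ with hm
    have hB0 : ∀ μ, m * ‖μ‖ ^ 2 ≤ a * ‖μ‖ ^ 2 + B₀ μ μ := by
      intro μ
      by_cases hμ : μ = 0
      · simp [hμ]
      · have hn : ‖μ‖ ≠ 0 := norm_ne_zero_iff.2 hμ
        have h1 : m ≤ a * ‖‖μ‖⁻¹ • μ‖ ^ 2 + B₀ (‖μ‖⁻¹ • μ) (‖μ‖⁻¹ • μ) := by
          apply hmin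
          simp [norm_smul, hn]
        rw [map_smul, map_smul, smul_apply, smul_eq_mul, smul_eq_mul, norm_smul, norm_inv,
          norm_norm, inv_mul_cancel₀ hn] at h1
        have h2 : 0 < ‖μ‖ ^ 2 := by positivity
        calc m * ‖μ‖ ^ 2 ≤ (a * 1 ^ 2 + ‖μ‖⁻¹ * (‖μ‖⁻¹ * B₀ μ μ)) * ‖μ‖ ^ 2 := by gcongr
          _ = a * ‖μ‖ ^ 2 + B₀ μ μ := by field_simp
    refine ⟨m / 2, by positivity, ?_⟩
    filter_upwards [Metric.ball_mem_nhds B₀ (half_pos hpos)] with B hB μ
    rw [Metric.mem_ball, dist_eq_norm] at hB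
    have h3 : |(B - B₀) μ μ| ≤ ‖B - B₀‖ * ‖μ‖ * ‖μ‖ := by
      have := (B - B₀).le_opNorm₂ μ μ
      simpa using this
    have h4 : B μ μ = B₀ μ μ + (B - B₀) μ μ := by simp
    have h5 := abs_le.1 h3
    have h6 : ‖B - B₀‖ * ‖μ‖ * ‖μ‖ ≤ m / 2 * ‖μ‖ ^ 2 := by
      rw [mul_assoc, ← sq]
      gcongr
    rw [h4]
    have := hB0 μ
    linarith only [h5.1, this, h6]
  · refine ⟨1, one_pos, Eventually.of_forall fun B μ => ?_⟩
    by_cases hμ : μ = 0
    · simp [hμ]
    · exfalso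
      apply hne
      refine ⟨‖μ‖⁻¹ • μ, ?_⟩
      have hn : ‖μ‖ ≠ 0 := norm_ne_zero_iff.2 hμ
      simp [norm_smul, hn]

section Convexity

variable {V : Type*} [NormedAddCommGroup V] [InnerProductSpace ℝ V]

lemma exists_coeff [FiniteDimensional ℝ V] (t : Finset V) {y₀ : V} (hy₀ : y₀ ∈ t) {μ : V}
    (h : ∀ ξ : V, (∀ y ∈ t, inner ℝ (y - y₀) ξ = 0) → inner ℝ ξ μ = 0) :
    ∃ c : V → ℝ, ∑ y ∈ t, c y = 0 ∧ ∑ y ∈ t, c y • y = μ := by
  classical
  have hmem : μ ∈ Submodule.span ℝ ((fun y => y - y₀) '' (t : Set V)) := by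
    rw [← Submodule.orthogonal_orthogonal (Submodule.span ℝ ((fun y => y - y₀) '' (t : Set V))),
      Submodule.mem_orthogonal]
    intro ξ hξ
    apply h
    intro y hy
    rw [Submodule.mem_orthogonal] at hξ
    exact hξ _ (Submodule.subset_span ⟨y, hy, rfl⟩)
  clear h
  induction hmem using Submodule.span_induction with
  | mem x hx =>
    obtain ⟨y, hy, rfl⟩ := hx
    refine ⟨fun v => (if v = y then 1 else 0) - (if v = y₀ then 1 else 0), ?_, ?_⟩
    · rw [Finset.sum_sub_distrib, Finset.sum_ite_eq' t y, Finset.sum_ite_eq' t y₀]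
      simp only [Finset.mem_coe] at hy
      simp [hy, hy₀]
    · simp only [sub_smul, ite_smul, one_smul, zero_smul]
      rw [Finset.sum_sub_distrib, Finset.sum_ite_eq' t y, Finset.sum_ite_eq' t y₀]
      simp only [Finset.mem_coe] at hy
      simp [hy, hy₀]
  | zero => exact ⟨fun _ => 0, by simp, by simp⟩
  | add a b _ _ ha hb =>
    obtain ⟨c1, h1, h2⟩ := ha
    obtain ⟨c2, h3, h4⟩ := hb
    refine ⟨fun v => c1 v + c2 v, ?_, ?_⟩
    · rw [Finset.sum_add_distrib, h1, h3, add_zero]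
    · simp only [add_smul]
      rw [Finset.sum_add_distrib, h2, h4]
  | smul r a _ ha =>
    obtain ⟨c1, h1, h2⟩ := ha
    refine ⟨fun v => r * c1 v, ?_, ?_⟩
    · rw [← Finset.mul_sum, h1, mul_zero]
    · simp only [mul_smul]
      rw [← Finset.smul_sum, h2]

lemma exists_exit [DecidableEq V] (t : Finset V) {lam c : V → ℝ} (hlam : ∀ y ∈ t, 0 < lam y)
    (hsum : ∑ y ∈ t, lam y = 1) {u μ : V} (hu : ∑ y ∈ t, lam y • y = u)
    (hc : ∑ y ∈ t, c y = 0) (hμ : ∑ y ∈ t, c y • y = μ) (hμ0 : μ ≠ 0) :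
    (∃ s : ℝ, 0 < s ∧ ∃ y ∈ t, u + s • μ ∈ convexHull ℝ ((t.erase y : Finset V) : Set V)) ∧
      ∀ᶠ s in 𝓝 (0 : ℝ), u + s • μ ∈ convexHull ℝ (t : Set V) := by
  have hus : ∀ s : ℝ, u + s • μ = ∑ y ∈ t, (lam y + s * c y) • y := by
    intro s
    simp only [add_smul, mul_smul]
    rw [Finset.sum_add_distrib, ← Finset.smul_sum, hu, hμ]
  have hsums : ∀ s : ℝ, ∑ y ∈ t, (lam y + s * c y) = 1 := by
    intro s
    rw [Finset.sum_add_distrib, ← Finset.mul_sum, hsum, hc, mul_zero, add_zero]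
  constructor
  · have hneg : (t.filter (fun y => c y < 0)).Nonempty := by
      by_contra hne
      rw [Finset.not_nonempty_iff_eq_empty, Finset.filter_eq_empty_iff] at hne
      have h0 : ∀ y ∈ t, c y = 0 := by
        rw [← Finset.sum_eq_zero_iff_of_nonneg (fun y hy => not_lt.1 (hne hy))]
        exact hc
      apply hμ0
      rw [← hμ]
      exact Finset.sum_eq_zero fun y hy => by rw [h0 y hy, zero_smul]
    obtain ⟨y₁, hy₁, hmin⟩ := Finset.exists_min_image _ (fun y => lam y / (-c y)) hneg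
    rw [Finset.mem_filter] at hy₁
    have hs : 0 < lam y₁ / (-c y₁) := div_pos (hlam _ hy₁.1) (neg_pos.2 hy₁.2)
    refine ⟨lam y₁ / (-c y₁), hs, y₁, hy₁.1, ?_⟩
    have hz : lam y₁ + lam y₁ / (-c y₁) * c y₁ = 0 := by
      have : c y₁ ≠ 0 := hy₁.2.ne
      field_simp
      ring
    rw [Finset.mem_convexHull']
    refine ⟨fun y => lam y + lam y₁ / (-c y₁) * c y, ?_, ?_, ?_⟩
    · intro y hy
      have hyt := Finset.mem_of_mem_erase hy
      by_cases hcy : c y < 0
      · have h1 := hmin y (Finset.mem_filter.2 ⟨hyt, hcy⟩)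
        rw [le_div_iff₀ (neg_pos.2 hcy)] at h1
        linarith only [h1]
      · have := hlam y hyt
        have h2 : 0 ≤ lam y₁ / (-c y₁) * c y := mul_nonneg hs.le (not_lt.1 hcy)
        linarith only [h2, this]
    · rw [← hsums (lam y₁ / (-c y₁)), ← Finset.add_sum_erase t _ hy₁.1, hz, zero_add]
    · rw [hus, ← Finset.add_sum_erase t _ hy₁.1, hz, zero_smul, zero_add]
  · have h1 : ∀ᶠ s in 𝓝 (0 : ℝ), ∀ y ∈ t, 0 < lam y + s * c y := by
      rw [eventually_all_finset]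
      intro y hy
      have h2 : Tendsto (fun s : ℝ => lam y + s * c y) (𝓝 0) (𝓝 (lam y + 0 * c y)) := by
        have : Continuous (fun s : ℝ => lam y + s * c y) := by fun_prop
        exact this.tendsto 0
      rw [zero_mul, add_zero] at h2
      exact h2.eventually (lt_mem_nhds (hlam y hy))
    filter_upwards [h1] with s hs
    rw [Finset.mem_convexHull']
    exact ⟨_, fun y hy => (hs y hy).le, hsums s, (hus s).symm⟩

end Convexity

namespace HessData

variable {V : Type*} [NormedAddCommGroup V] [InnerProductSpace ℝ V] (X : HessData V)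

lemma H_self {u : V} {τ : ℝ} (hτ : 0 < τ) (hu : τ • u ∈ X.I) : X.H (τ • u) u u = ‖u‖ ^ 2 := by
  have h1 := X.radial _ hu u
  rw [map_smul, smul_apply, smul_eq_mul, real_inner_smul_left, real_inner_self_eq_norm_sq] at h1
  exact mul_left_cancel₀ hτ.ne' h1

lemma H_split {w u : V} (hw : w ∈ X.I) {α : ℝ} {β : V} (h : u = α • w + β)
    (horth : inner ℝ w β = 0) : X.H w u u = α ^ 2 * ‖w‖ ^ 2 + X.H w β β := by
  have h1 := X.radial w hw w
  have h2 := X.radial w hw β
  have h3 := X.symm w hw β w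
  rw [real_inner_self_eq_norm_sq] at h1
  have h4 : X.H w (α • w + β) = α • X.H w w + X.H w β := by rw [map_add, map_smul]
  rw [h, h4]
  simp only [add_apply, smul_apply, map_add, map_smul, smul_eq_mul, h1, h2, h3, horth]
  ring

lemma final_contradiction {D : Set V} (hD : Convex ℝ D) {θ τ₁ : ℝ} (hθ : 0 < θ) (hθτ : θ < τ₁)
    (hDS : ∀ v ∈ D, τ₁ • v ∈ X.S) {u μ : V} {s₁ : ℝ} (hs₁ : 0 < s₁) (hu : u ∈ D)
    (hu₁ : u + s₁ • μ ∈ D) (hnear : ∀ᶠ s in 𝓝 (0 : ℝ), u + s • μ ∈ D)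
    (horth : inner ℝ u μ = 0) (hu0 : u ≠ 0) (hμ0 : μ ≠ 0) (hQ : X.Q θ τ₁ u μ = 0)
    {c₁ : ℝ} (hc₁ : ∀ᶠ τ in 𝓝[<] τ₁, c₁ ≤ X.H (τ • (u + s₁ • μ)) u u / τ) : False := by
  have hτ₁ : 0 < τ₁ := hθ.trans hθτ
  -- quadratic bound for kappa
  have hκ : ∃ C : ℝ, 0 ≤ C ∧ ∀ᶠ s in 𝓝 (0 : ℝ), X.Q θ τ₁ (u + s • μ) μ ≤ C * s ^ 2 := by
    apply nonneg_quadratic
    · have h1 := X.smoothK u θ τ₁ hθ hθτ (hDS u hu)
      have h2 : ContDiffAt ℝ 2 (fun s : ℝ => X.K (θ • (u + s • μ)) (τ₁ • (u + s • μ))) 0 := by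
        have h3 : ContDiffAt ℝ 2 (fun s : ℝ => ((θ • (u + s • μ), τ₁ • (u + s • μ)) : V × V)) 0 := by
          fun_prop
        have h4 : ContDiffAt ℝ 2 (fun r : V × V => X.K r.1 r.2)
            ((fun s : ℝ => ((θ • (u + s • μ), τ₁ • (u + s • μ)) : V × V)) 0) := by
          simp only [zero_smul, add_zero]
          exact h1.of_le ENat.LEInfty.out
        exact h4.comp (0 : ℝ) h3
      have h5 : ContDiffAt ℝ 2 (fun s : ℝ => X.K (θ • (u + s • μ)) (τ₁ • (u + s • μ)) μ μ) 0 := by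
        have h6 : ContDiffAt ℝ 2 (fun _ : ℝ => μ) 0 := contDiffAt_const
        exact (h2.clm_apply h6).clm_apply h6
      unfold Q
      exact contDiffAt_const.add (h5.div_const _)
    · simpa using hQ
    · filter_upwards [hnear] with s hs
      exact X.mid_nonneg _ _ _ hθ hθτ (hDS _ hs) μ
  obtain ⟨C, hC0, hC⟩ := hκ
  have hnu : 0 < ‖u‖ := norm_pos_iff.2 hu0
  have hnμ : 0 < ‖μ‖ := norm_pos_iff.2 hμ0
  have hus : ∀ s : ℝ, ‖u + s • μ‖ ^ 2 = ‖u‖ ^ 2 + s ^ 2 * ‖μ‖ ^ 2 := by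
    intro s
    rw [norm_add_sq_real, inner_smul_right, horth, norm_smul, mul_pow, Real.norm_eq_abs, sq_abs]
    ring
  have huspos : ∀ s : ℝ, 0 < ‖u‖ ^ 2 + s ^ 2 * ‖μ‖ ^ 2 := fun s => by (clear * - hu0 hμ0; positivity)
  let α : ℝ → ℝ := fun s => ‖u‖ ^ 2 / (‖u‖ ^ 2 + s ^ 2 * ‖μ‖ ^ 2)
  let β : ℝ → V := fun s => u - α s • (u + s • μ)
  have hβorth : ∀ s, inner ℝ (u + s • μ) (β s) = 0 := by
    intro s
    have h1 : inner ℝ (u + s • μ) u = ‖u‖ ^ 2 := by
      rw [inner_add_left, real_inner_self_eq_norm_sq, real_inner_smul_left, real_inner_comm, horth]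
      ring
    simp only [β, α]
    rw [inner_sub_right, inner_smul_right, real_inner_self_eq_norm_sq, h1, hus]
    have := (huspos s).ne'
    field_simp
    ring
  have hβμ : ∀ s, inner ℝ (β s) μ = -(α s * s * ‖μ‖ ^ 2) := by
    intro s
    simp only [β]
    rw [inner_sub_left, real_inner_smul_left, inner_add_left, real_inner_smul_left,
      real_inner_self_eq_norm_sq, horth]
    ring
  -- main inequality for small positive s
  have main : ∀ ε : ℝ, 0 < ε → ∀ᶠ s in 𝓝[>] (0 : ℝ),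
      (1 - s / s₁) * ‖u‖ ^ 2 / τ₁ + s / s₁ * c₁ - α s ^ 2 * (‖u‖ ^ 2 + s ^ 2 * ‖μ‖ ^ 2) / τ₁ ≤
        X.H (θ • (u + s • μ)) (β s) (β s) / θ - 2 * ε * α s * ‖μ‖ ^ 2 / θ + ε ^ 2 * C := by
    intro ε hε
    have e1 : ∀ᶠ s in 𝓝[>] (0 : ℝ), s < s₁ :=
      (lt_mem_nhds (α := ℝᵒᵈ) hs₁ : ∀ᶠ s in 𝓝 (0 : ℝ), s < s₁).filter_mono nhdsWithin_le_nhds
    filter_upwards [self_mem_nhdsWithin, e1, hC.filter_mono nhdsWithin_le_nhds] with s hs hss hCs
    have hs0 : 0 < s := hs
    have hmem : u + s • μ ∈ D := by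
      have h1 := hD hu hu₁ (a := 1 - s / s₁) (b := s / s₁)
        (by have : s / s₁ ≤ 1 := (div_le_one hs₁).2 hss.le
            linarith) (by positivity) (by ring)
      have h2 : (1 - s / s₁) • u + (s / s₁) • (u + s₁ • μ) = u + s • μ := by
        rw [smul_add, smul_smul, div_mul_cancel₀ _ hs₁.ne', sub_smul, one_smul]
        abel
      rwa [h2] at h1
    have key := X.key_limit hθ hθτ (hDS _ hmem) (β s) ((-(ε / s)) • μ)
      (c := fun τ => (1 - s / s₁) * ‖u‖ ^ 2 / τ + s / s₁ * c₁ -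
        α s ^ 2 * (‖u‖ ^ 2 + s ^ 2 * ‖μ‖ ^ 2) / τ)
      (c₀ := (1 - s / s₁) * ‖u‖ ^ 2 / τ₁ + s / s₁ * c₁ -
        α s ^ 2 * (‖u‖ ^ 2 + s ^ 2 * ‖μ‖ ^ 2) / τ₁) ?_ ?_
    · refine key.trans ?_
      rw [Q_smul, inner_smul_right, hβμ]
      have h3 : 2 * (-(ε / s) * -(α s * s * ‖μ‖ ^ 2)) / θ = 2 * ε * α s * ‖μ‖ ^ 2 / θ := by
        field_simp
      have h4 : (-(ε / s)) ^ 2 * X.Q θ τ₁ (u + s • μ) μ ≤ ε ^ 2 * C := by
        calc (-(ε / s)) ^ 2 * X.Q θ τ₁ (u + s • μ) μ ≤ (-(ε / s)) ^ 2 * (C * s ^ 2) := by gcongr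
          _ = ε ^ 2 * C := by field_simp
      rw [h3]
      linarith only [h4]
    · have hid : Tendsto (fun τ : ℝ => τ) (𝓝[<] τ₁) (𝓝 τ₁) := nhdsWithin_le_nhds
      exact ((tendsto_const_nhds.div hid hτ₁.ne').add tendsto_const_nhds).sub
        (tendsto_const_nhds.div hid hτ₁.ne')
    · have e2 : ∀ᶠ τ in 𝓝[<] τ₁, θ < τ :=
        (lt_mem_nhds hθτ : ∀ᶠ τ in 𝓝 τ₁, θ < τ).filter_mono nhdsWithin_le_nhds
      filter_upwards [hc₁, e2, self_mem_nhdsWithin] with τ hτa hτb hτc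
      have hτ0 : 0 < τ := hθ.trans hτb
      have hin : ∀ v ∈ D, τ • v ∈ X.I := fun v hv => X.smul_mem' (hDS v hv) hτ0.le hτc
      have hconc := X.concave ((fun v => τ • v) '' D) (hD.smul τ)
        (by rintro _ ⟨v, hv, rfl⟩; exact hin v hv) (τ • u) u
      have hm0 : τ • u ∈ ((fun v => τ • v) '' D) ∩ {v | inner ℝ (v - τ • u) u = 0} :=
        ⟨⟨u, hu, rfl⟩, by simp⟩
      have hm1 : τ • (u + s₁ • μ) ∈ ((fun v => τ • v) '' D) ∩ {v | inner ℝ (v - τ • u) u = 0} := by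
        refine ⟨⟨_, hu₁, rfl⟩, ?_⟩
        simp only [Set.mem_ofPred_eq]
        rw [smul_add, add_sub_cancel_left, real_inner_smul_left, real_inner_smul_left,
          real_inner_comm, horth]
        ring
      have hr1 : 0 ≤ 1 - s / s₁ := by
        have : s / s₁ ≤ 1 := (div_le_one hs₁).2 hss.le
        linarith
      have hr2 : 0 ≤ s / s₁ := by positivity
      have h5 := hconc.2 hm0 hm1 hr1 hr2 (by ring)
      have h6 : (1 - s / s₁) • (τ • u) + (s / s₁) • (τ • (u + s₁ • μ)) = τ • (u + s • μ) := by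
        rw [smul_comm (1 - s / s₁) τ, smul_comm (s / s₁) τ, ← smul_add]
        congr 1
        rw [smul_add, smul_smul, div_mul_cancel₀ _ hs₁.ne', sub_smul, one_smul]
        abel
      simp only [h6, smul_eq_mul] at h5
      rw [X.H_self hτ0 (hin u hu)] at h5
      have h7 := X.H_split (hin _ hmem) (u := u) (α := α s / τ) (β := β s)
        (by simp only [β]; rw [smul_smul, div_mul_cancel₀ _ hτ0.ne']; abel)
        (by rw [real_inner_smul_left, hβorth, mul_zero])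
      rw [norm_smul, mul_pow, Real.norm_eq_abs, sq_abs, hus] at h7
      rw [le_div_iff₀ hτ0] at hτa ⊢
      have h8 : (α s / τ) ^ 2 * (τ ^ 2 * (‖u‖ ^ 2 + s ^ 2 * ‖μ‖ ^ 2)) =
          α s ^ 2 * (‖u‖ ^ 2 + s ^ 2 * ‖μ‖ ^ 2) := by field_simp
      have h9 : ((1 - s / s₁) * ‖u‖ ^ 2 / τ + s / s₁ * c₁ -
        α s ^ 2 * (‖u‖ ^ 2 + s ^ 2 * ‖μ‖ ^ 2) / τ) * τ = (1 - s / s₁) * ‖u‖ ^ 2 + s / s₁ * (c₁ * τ)
          - α s ^ 2 * (‖u‖ ^ 2 + s ^ 2 * ‖μ‖ ^ 2) := by field_simp
      rw [h8] at h7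
      rw [h9]
      have h10 : s / s₁ * (c₁ * τ) ≤ s / s₁ * X.H (τ • (u + s₁ • μ)) u u := by gcongr
      linarith only [h10, h7, h5]
  -- let s tend to zero
  have hαlim : Tendsto α (𝓝[>] 0) (𝓝 1) := by
    have h1 : Tendsto α (𝓝 0) (𝓝 (α 0)) := by
      have : Continuous α := by
        simp only [α]
        refine Continuous.div (by fun_prop) (by fun_prop) (fun s => (huspos s).ne')
      exact this.tendsto 0
    have h2 : α 0 = 1 := by
      simp only [α]
      field_simp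
      ring
    rw [h2] at h1
    exact h1.mono_left nhdsWithin_le_nhds
  have hid : Tendsto (fun s : ℝ => s) (𝓝[>] 0) (𝓝 0) := nhdsWithin_le_nhds
  have hβlim : Tendsto β (𝓝[>] 0) (𝓝 0) := by
    have h1 : Tendsto β (𝓝[>] 0) (𝓝 (u - (1 : ℝ) • (u + (0 : ℝ) • μ))) :=
      tendsto_const_nhds.sub (hαlim.smul (tendsto_const_nhds.add (hid.smul tendsto_const_nhds)))
    simpa using h1
  have hHlim : Tendsto (fun s => X.H (θ • (u + s • μ)) (β s) (β s)) (𝓝[>] 0) (𝓝 0) := by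
    have h1 : Tendsto (fun s : ℝ => X.H (θ • (u + s • μ))) (𝓝[>] 0) (𝓝 (X.H (θ • u))) := by
      have h2 : Tendsto (fun s : ℝ => θ • (u + s • μ)) (𝓝[>] 0) (𝓝 (θ • u)) := by
        have : Tendsto (fun s : ℝ => θ • (u + s • μ)) (𝓝[>] 0) (𝓝 (θ • (u + (0 : ℝ) • μ))) :=
          tendsto_const_nhds.smul (tendsto_const_nhds.add (hid.smul tendsto_const_nhds))
        simpa using this
      exact (X.contH _ (X.smul_mem' (hDS u hu) hθ.le hθτ)).tendsto.comp h2
    have h3 : Tendsto (fun s => X.H (θ • (u + s • μ)) (β s)) (𝓝[>] 0) (𝓝 (X.H (θ • u) 0)) :=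
      (isBoundedBilinearMap_apply.continuous.tendsto (X.H (θ • u), (0 : V))).comp
        (h1.prodMk_nhds hβlim)
    have h4 : Tendsto (fun s => X.H (θ • (u + s • μ)) (β s) (β s)) (𝓝[>] 0)
        (𝓝 (X.H (θ • u) 0 0)) :=
      (isBoundedBilinearMap_apply.continuous.tendsto (X.H (θ • u) 0, (0 : V))).comp
        (h3.prodMk_nhds hβlim)
    simpa using h4
  have a0 : 0 < ‖μ‖ ^ 2 / θ := by positivity
  set ε : ℝ := ‖μ‖ ^ 2 / θ / (C + 1) with hε
  have hε0 : 0 < ε := by positivity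
  have hL : Tendsto (fun s : ℝ => (1 - s / s₁) * ‖u‖ ^ 2 / τ₁ + s / s₁ * c₁ -
      α s ^ 2 * (‖u‖ ^ 2 + s ^ 2 * ‖μ‖ ^ 2) / τ₁) (𝓝[>] 0)
      (𝓝 ((1 - 0 / s₁) * ‖u‖ ^ 2 / τ₁ + 0 / s₁ * c₁ -
      1 ^ 2 * (‖u‖ ^ 2 + 0 ^ 2 * ‖μ‖ ^ 2) / τ₁)) := by
    have hs1 : Tendsto (fun s : ℝ => s / s₁) (𝓝[>] 0) (𝓝 (0 / s₁)) := hid.div_const _
    refine ((((tendsto_const_nhds.sub hs1).mul tendsto_const_nhds).div_const _).add
      (hs1.mul tendsto_const_nhds)).sub (((hαlim.pow 2).mul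
        (tendsto_const_nhds.add ((hid.pow 2).mul tendsto_const_nhds))).div_const _)
  have hR : Tendsto (fun s : ℝ => X.H (θ • (u + s • μ)) (β s) (β s) / θ -
      2 * ε * α s * ‖μ‖ ^ 2 / θ + ε ^ 2 * C) (𝓝[>] 0)
      (𝓝 (0 / θ - 2 * ε * 1 * ‖μ‖ ^ 2 / θ + ε ^ 2 * C)) := by
    refine ((hHlim.div_const _).sub ?_).add tendsto_const_nhds
    exact ((tendsto_const_nhds.mul hαlim).mul tendsto_const_nhds).div_const _
  have hfin := le_of_tendsto_of_tendsto hL hR (main ε hε0)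
  have h1 : (1 - 0 / s₁) * ‖u‖ ^ 2 / τ₁ + 0 / s₁ * c₁ -
      1 ^ 2 * (‖u‖ ^ 2 + 0 ^ 2 * ‖μ‖ ^ 2) / τ₁ = 0 := by
    ring
  have h2 : 0 / θ - 2 * ε * 1 * ‖μ‖ ^ 2 / θ + ε ^ 2 * C < 0 := by
    have h3 : 0 / θ - 2 * ε * 1 * ‖μ‖ ^ 2 / θ + ε ^ 2 * C = ε * (ε * C - 2 * (‖μ‖ ^ 2 / θ)) := by
      ring
    rw [h3]
    apply mul_neg_of_pos_of_neg hε0
    have h4 : ε * C ≤ ‖μ‖ ^ 2 / θ := by
      rw [hε, div_mul_eq_mul_div, div_le_iff₀ (by positivity)]
      linarith only [a0]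
    linarith only [h4, a0]
  rw [h1] at hfin
  linarith

/-- The bilinear form of the two-piece functional. -/
noncomputable def B (θ τ : ℝ) (w : V) : V →L[ℝ] V →L[ℝ] ℝ :=
  (1 / (τ - θ)) • X.K (θ • w) (τ • w)

lemma B_apply (θ τ : ℝ) (w μ : V) : 1 / θ * ‖μ‖ ^ 2 + X.B θ τ w μ μ = X.Q θ τ w μ := by
  simp only [B, Q, smul_apply, smul_eq_mul]
  ring

lemma tendsto_B {w : V} {θ τ₁ : ℝ} (hθ : 0 < θ) (hθτ : θ < τ₁) (hw : τ₁ • w ∈ X.S) :
    Tendsto (fun τ => X.B θ τ w) (𝓝[<] τ₁) (𝓝 (X.B θ τ₁ w)) := by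
  have hcont := (X.smoothK w θ τ₁ hθ hθτ hw).continuousAt
  have h1 : Tendsto (fun τ : ℝ => X.K (θ • w) (τ • w)) (𝓝[<] τ₁) (𝓝 (X.K (θ • w) (τ₁ • w))) := by
    have h2 : Tendsto (fun τ : ℝ => (θ • w, τ • w)) (𝓝[<] τ₁) (𝓝 (θ • w, τ₁ • w)) := by
      have : Continuous (fun τ : ℝ => (θ • w, τ • w)) := by fun_prop
      exact (this.tendsto τ₁).mono_left nhdsWithin_le_nhds
    exact hcont.tendsto.comp h2
  have hid : Tendsto (fun τ : ℝ => 1 / (τ - θ)) (𝓝[<] τ₁) (𝓝 (1 / (τ₁ - θ))) := by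
    have : Tendsto (fun τ : ℝ => τ - θ) (𝓝[<] τ₁) (𝓝 (τ₁ - θ)) :=
      (tendsto_id.sub tendsto_const_nhds).mono_left nhdsWithin_le_nhds
    exact tendsto_const_nhds.div this (sub_pos.2 hθτ).ne'
  exact hid.smul h1

/-- Lower bound of the Hessian when the two-piece form is positive definite. -/
lemma lower_of_pos [FiniteDimensional ℝ V] {w : V} {θ τ₁ : ℝ} (hθ : 0 < θ) (hθτ : θ < τ₁)
    (hw : τ₁ • w ∈ X.S) (hpos : ∀ μ, μ ≠ 0 → 0 < X.Q θ τ₁ w μ) (ξ : V) :
    ∃ c : ℝ, ∀ᶠ τ in 𝓝[<] τ₁, c ≤ X.H (τ • w) ξ ξ / τ := by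
  obtain ⟨κ, hκ, h⟩ := coercive_nhds (1 / θ) (X.B θ τ₁ w) (fun μ hμ => by
    rw [B_apply]; exact hpos μ hμ)
  have h1 := (X.tendsto_B hθ hθτ hw).eventually h
  have e2 : ∀ᶠ τ in 𝓝[<] τ₁, θ < τ :=
    (lt_mem_nhds hθτ : ∀ᶠ τ in 𝓝 τ₁, θ < τ).filter_mono nhdsWithin_le_nhds
  refine ⟨X.H (θ • w) ξ ξ / θ - ‖ξ‖ ^ 2 / (θ ^ 2 * κ), ?_⟩
  filter_upwards [h1, e2, self_mem_nhdsWithin] with τ ha hb hc
  refine X.lower w θ τ κ hθ hb (X.smul_mem' hw (hθ.trans hb).le hc) hκ ?_ ξ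
  intro μ
  have := ha μ
  rwa [B_apply] at this

/-- Step B. -/
theorem Q_pos [FiniteDimensional ℝ V] {W : Set V} {θ τ₁ : ℝ} (hθ : 0 < θ) (hθτ : θ < τ₁)
    (hτ₁ : τ₁ < 1) (hWS : W ⊆ X.S) (hWI : ∀ v ∈ convexHull ℝ W, τ₁ • v ∈ X.S)
    (t : Finset V) (ht : (t : Set V) ⊆ W) :
    ∀ u ∈ convexHull ℝ (t : Set V), ∀ μ, μ ≠ 0 → 0 < X.Q θ τ₁ u μ := by
  classical
  induction t using Finset.strongInduction with
  | H t ih =>
  have hτ0 : 0 < τ₁ := hθ.trans hθτ
  intro u hu μ₀ hμ₀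
  have hD : Convex ℝ (convexHull ℝ (t : Set V)) := convex_convexHull ℝ _
  have hDS : ∀ v ∈ convexHull ℝ (t : Set V), τ₁ • v ∈ X.S := fun v hv =>
    hWI v (convexHull_mono ht hv)
  obtain ⟨lam, hlam0, hlam1, hlamu⟩ := Finset.mem_convexHull'.1 hu
  by_cases hall : ∀ y ∈ t, 0 < lam y
  swap
  · push Not at hall
    obtain ⟨y, hy, hly⟩ := hall
    have hly0 : lam y = 0 := le_antisymm hly (hlam0 y hy)
    refine ih (t.erase y) (Finset.erase_ssubset hy)
      (fun a ha => ht (Finset.mem_of_mem_erase ha)) u ?_ μ₀ hμ₀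
    rw [Finset.mem_convexHull']
    refine ⟨lam, fun a ha => hlam0 a (Finset.mem_of_mem_erase ha), ?_, ?_⟩
    · rw [← hlam1, ← Finset.add_sum_erase t _ hy, hly0, zero_add]
    · rw [← hlamu, ← Finset.add_sum_erase t _ hy, hly0, zero_smul, zero_add]
  by_cases huI : τ₁ • u ∈ X.I
  · exact X.mid_pos u θ τ₁ hθ hθτ huI μ₀ hμ₀
  have hne : t.Nonempty := by
    rw [Finset.nonempty_iff_ne_empty]
    rintro rfl
    simp at hlam1
  obtain ⟨y₀, hy₀⟩ := hne
  have hu0 : u ≠ 0 := by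
    rintro rfl
    apply huI
    rw [smul_zero]
    have := X.smul_mem y₀ (hWS (ht hy₀)) 0 le_rfl one_pos
    rwa [zero_smul] at this
  by_contra hcon
  have hQ : X.Q θ τ₁ u μ₀ = 0 := le_antisymm (not_lt.1 hcon)
    (X.mid_nonneg u θ τ₁ hθ hθτ (hDS u hu) μ₀)
  have e2 : ∀ᶠ τ in 𝓝[<] τ₁, θ < τ :=
    (lt_mem_nhds hθτ : ∀ᶠ τ in 𝓝 τ₁, θ < τ).filter_mono nhdsWithin_le_nhds
  -- directions orthogonal to the differences of vertices
  have hB2 : ∀ ξ : V, (∀ y ∈ t, inner ℝ (y - y₀) ξ = 0) → inner ℝ ξ μ₀ = 0 := by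
    intro ξ hξ
    refine X.orth_of_bounded hθ hθτ (hDS u hu) hQ
      (∑ y ∈ t, lam y * (X.H (τ₁ • y) ξ ξ / τ₁)) ?_
    filter_upwards [e2, self_mem_nhdsWithin] with τ ha hb
    have hb' : τ < τ₁ := hb
    have hτ' : 0 < τ := hθ.trans ha
    have hin : ∀ v ∈ convexHull ℝ (t : Set V), τ • v ∈ X.I :=
      fun v hv => X.smul_mem' (hDS v hv) hτ'.le hb
    have hconc := X.concave ((fun v => τ • v) '' convexHull ℝ (t : Set V)) (hD.smul τ)
      (by rintro _ ⟨v, hv, rfl⟩; exact hin v hv) (τ • y₀) ξ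
    have h1 := hconc.le_map_sum (t := t) (w := lam) (p := fun y => τ • y) hlam0 hlam1
      (fun y hy => ⟨⟨y, subset_convexHull ℝ _ hy, rfl⟩, by
        simp only [Set.mem_ofPred_eq]
        rw [← smul_sub, real_inner_smul_left, hξ y hy, mul_zero]⟩)
    have h2 : ∑ y ∈ t, lam y • (τ • y) = τ • u := by
      rw [← hlamu, Finset.smul_sum]
      exact Finset.sum_congr rfl fun y _ => smul_comm _ _ _
    simp only [h2, smul_eq_mul] at h1
    rw [le_div_iff₀ hτ', Finset.sum_mul]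
    refine le_trans (Finset.sum_le_sum fun y hy => ?_) h1
    rw [mul_assoc]
    refine mul_le_mul_of_nonneg_left ?_ (hlam0 y hy)
    rw [← le_div_iff₀ hτ']
    by_cases hξ0 : ξ = 0
    · simp [hξ0]
    · exact (X.strict y τ τ₁ hτ' hb' (X.smul_mem y (hWS (ht hy)) τ₁ hτ0.le hτ₁) ξ hξ0).le
  obtain ⟨c, hc0, hcμ⟩ := exists_coeff t hy₀ hB2
  obtain ⟨⟨s₁, hs₁, y₁, hy₁, hu₁⟩, hnear⟩ := exists_exit t hall hlam1 hlamu hc0 hcμ hμ₀
  have hu₁' : u + s₁ • μ₀ ∈ convexHull ℝ (t : Set V) :=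
    convexHull_mono (by exact_mod_cast Finset.erase_subset y₁ t) hu₁
  have hpos₁ : ∀ μ, μ ≠ 0 → 0 < X.Q θ τ₁ (u + s₁ • μ₀) μ :=
    ih (t.erase y₁) (Finset.erase_ssubset hy₁) (fun a ha => ht (Finset.mem_of_mem_erase ha))
      _ hu₁
  obtain ⟨c₁, hc₁⟩ := X.lower_of_pos hθ hθτ (hDS _ hu₁') hpos₁ u
  have horth : inner ℝ u μ₀ = 0 := by
    refine X.orth_of_bounded hθ hθτ (hDS u hu) hQ (‖u‖ ^ 2 / τ₁) ?_
    filter_upwards [e2, self_mem_nhdsWithin] with τ ha hb
    have hb' : τ < τ₁ := hb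
    have hτ' : 0 < τ := hθ.trans ha
    rw [X.H_self hτ' (X.smul_mem' (hDS u hu) hτ'.le hb)]
    gcongr
  exact X.final_contradiction hD hθ hθτ hDS hs₁ hu hu₁' hnear horth hu0 hμ₀ hQ hc₁

end HessData

end Vale.Agent.P234
end
end
end

section

section

section

/-! Conservation of the speed and the Gauss lemma in a chart. -/

open Set Filter Topology Metric
open scoped ContDiff

namespace Vale.Agent.P234

noncomputable section

variable {E : Type*} [NormedAddCommGroup E] [NormedSpace ℝ E]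

/-- `Y` is the exponential map at `x` of the metric `G` with spray `S`, on the ball of
radius `δ`. -/
structure GeoBall (G : E → E →L[ℝ] E →L[ℝ] ℝ) (S : E → E →L[ℝ] E →L[ℝ] E) (x : E) (Y : E → E)
    (δ : ℝ) : Prop where
  pos : 0 < δ
  smoothY : ∀ v ∈ ball (0 : E) δ, ContDiffAt ℝ ∞ Y v
  zero : Y 0 = x
  dzero : HasFDerivAt Y (ContinuousLinearMap.id ℝ E) 0
  smoothG : ∀ v ∈ ball (0 : E) δ, ContDiffAt ℝ ∞ G (Y v)
  symm : ∀ v ∈ ball (0 : E) δ, ∀ a b : E, G (Y v) a b = G (Y v) b a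
  posdef : ∀ v ∈ ball (0 : E) δ, ∀ a : E, a ≠ 0 → 0 < G (Y v) a a
  spray : ∀ v ∈ ball (0 : E) δ, ∀ a b : E, G (Y v) (S (Y v) a a) b =
    (1 / 2) * fderiv ℝ G (Y v) b a a - fderiv ℝ G (Y v) a a b
  ode : ∀ v ∈ ball (0 : E) δ, ∀ t ∈ Ioo (0 : ℝ) 1,
    deriv (deriv (fun s : ℝ => Y (s • v))) t =
      S (Y (t • v)) (deriv (fun s : ℝ => Y (s • v)) t) (deriv (fun s : ℝ => Y (s • v)) t)

variable {G : E → E →L[ℝ] E →L[ℝ] ℝ} {S : E → E →L[ℝ] E →L[ℝ] E} {x : E} {Y : E → E} {δ : ℝ}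

theorem exGauss_mem {v : E} (hv : v ∈ ball (0 : E) δ) {t : ℝ} (ht : t ∈ Icc (0 : ℝ) 1) :
    t • v ∈ ball (0 : E) δ := by
  rw [mem_ball_zero_iff] at hv ⊢
  rw [norm_smul, Real.norm_of_nonneg ht.1]
  calc t * ‖v‖ ≤ 1 * ‖v‖ := by gcongr; exact ht.2
    _ < δ := by simpa using hv

theorem exGauss_eventually {v : E} {t : ℝ} (ht : t • v ∈ ball (0 : E) δ) :
    ∀ᶠ s in 𝓝 t, s • v ∈ ball (0 : E) δ :=
  (isOpen_ball.preimage (continuous_id.smul continuous_const)).mem_nhds ht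

theorem exGauss_affine {f : ℝ → ℝ} {C : ℝ} (hf : ContinuousOn f (Icc (0 : ℝ) 1))
    (hd : ∀ s ∈ Ioo (0 : ℝ) 1, HasDerivAt f C s) {t : ℝ} (ht : t ∈ Icc (0 : ℝ) 1) :
    f t = f 0 + C * t := by
  rcases ht.1.eq_or_lt with h0 | h0
  · rw [← h0]; simp
  · obtain ⟨c, hc, hc'⟩ := exists_hasDerivAt_eq_slope f (fun _ => C) h0
      (hf.mono (Icc_subset_Icc le_rfl ht.2))
      (fun s hs => hd s ⟨hs.1, hs.2.trans_le ht.2⟩)
    have h1 : C * (t - 0) = f t - f 0 := by
      rw [hc']; field_simp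
    linarith only [h1]

theorem exGauss_line (v : E) (t : ℝ) : HasDerivAt (fun s : ℝ => s • v) v t := by
  simpa only [id_eq, one_smul] using (hasDerivAt_id t).smul_const v

theorem GeoBall.exGauss_hasFDerivAt (h : GeoBall G S x Y δ) {w : E}
    (hw : w ∈ ball (0 : E) δ) : HasFDerivAt Y (fderiv ℝ Y w) w :=
  ((h.smoothY _ hw).differentiableAt (by simp)).hasFDerivAt

theorem GeoBall.exGauss_hasFDerivAt2 (h : GeoBall G S x Y δ) {w : E}
    (hw : w ∈ ball (0 : E) δ) : HasFDerivAt (fderiv ℝ Y) (fderiv ℝ (fderiv ℝ Y) w) w := by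
  have h1 : ContDiffAt ℝ ∞ (fderiv ℝ Y) w := (h.smoothY _ hw).fderiv_right (by simp)
  exact (h1.differentiableAt (by simp)).hasFDerivAt

theorem GeoBall.exGauss_hasFDerivAtG (h : GeoBall G S x Y δ) {w : E}
    (hw : w ∈ ball (0 : E) δ) : HasFDerivAt G (fderiv ℝ G (Y w)) (Y w) :=
  ((h.smoothG _ hw).differentiableAt (by simp)).hasFDerivAt

theorem GeoBall.exGauss_sym2 (h : GeoBall G S x Y δ) {w : E}
    (hw : w ∈ ball (0 : E) δ) (a b : E) :
    fderiv ℝ (fderiv ℝ Y) w a b = fderiv ℝ (fderiv ℝ Y) w b a :=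
  ((h.smoothY _ hw).isSymmSndFDerivAt
    (by simp only [minSmoothness_of_isRCLikeNormedField]; exact WithTop.coe_le_coe.2 le_top)) a b

theorem GeoBall.exGauss_hasDerivAt (h : GeoBall G S x Y δ) {v : E} {t : ℝ}
    (ht : t • v ∈ ball (0 : E) δ) :
    HasDerivAt (fun s : ℝ => Y (s • v)) (fderiv ℝ Y (t • v) v) t :=
  (h.exGauss_hasFDerivAt ht).comp_hasDerivAt t (exGauss_line v t)

theorem GeoBall.exGauss_hasDerivAt2 (h : GeoBall G S x Y δ) {v : E} {t : ℝ}
    (ht : t • v ∈ ball (0 : E) δ) (η : E) :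
    HasDerivAt (fun s : ℝ => fderiv ℝ Y (s • v) η)
      (fderiv ℝ (fderiv ℝ Y) (t • v) v η) t := by
  have h1 := (h.exGauss_hasFDerivAt2 ht).comp_hasDerivAt t (exGauss_line v t)
  exact h1.clm_apply (hasDerivAt_const t η) |>.congr_deriv (by simp)

theorem GeoBall.exGauss_deriv_eventually (h : GeoBall G S x Y δ) {v : E} {t : ℝ}
    (ht : t • v ∈ ball (0 : E) δ) :
    deriv (fun s : ℝ => Y (s • v)) =ᶠ[𝓝 t] fun s : ℝ => fderiv ℝ Y (s • v) v := by
  filter_upwards [exGauss_eventually ht] with s hs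
  exact (h.exGauss_hasDerivAt hs).deriv

/-- The differential equation in terms of the second derivative. -/
theorem GeoBall.exGauss_ode (h : GeoBall G S x Y δ) {v : E} (hv : v ∈ ball (0 : E) δ) {t : ℝ}
    (ht : t ∈ Ioo (0 : ℝ) 1) :
    fderiv ℝ (fderiv ℝ Y) (t • v) v v =
      S (Y (t • v)) (fderiv ℝ Y (t • v) v) (fderiv ℝ Y (t • v) v) := by
  have hm : t • v ∈ ball (0 : E) δ := exGauss_mem hv ⟨ht.1.le, ht.2.le⟩
  have h1 := h.ode v hv t ht
  rw [(h.exGauss_deriv_eventually hm).deriv_eq, (h.exGauss_hasDerivAt2 hm v).deriv,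
    (h.exGauss_hasDerivAt hm).deriv] at h1
  exact h1

/-- derivative of `G (c) a b` for curves -/
theorem GeoBall.exGauss_hasDerivAtG (h : GeoBall G S x Y δ) {w : ℝ → E} {w' : E} {t : ℝ}
    (ht : w t ∈ ball (0 : E) δ) (hw : HasDerivAt w w' t) {a b : ℝ → E} {a' b' : E}
    (ha : HasDerivAt a a' t) (hb : HasDerivAt b b' t) :
    HasDerivAt (fun s : ℝ => G (Y (w s)) (a s) (b s))
      (fderiv ℝ G (Y (w t)) (fderiv ℝ Y (w t) w') (a t) (b t) + G (Y (w t)) a' (b t) +
        G (Y (w t)) (a t) b') t := by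
  have h1 : HasDerivAt (fun s => Y (w s)) (fderiv ℝ Y (w t) w') t :=
    (h.exGauss_hasFDerivAt ht).comp_hasDerivAt t hw
  have h2 : HasDerivAt (fun s => G (Y (w s))) (fderiv ℝ G (Y (w t)) (fderiv ℝ Y (w t) w')) t :=
    HasFDerivAt.comp_hasDerivAt (l := G) (f := fun s => Y (w s)) t (h.exGauss_hasFDerivAtG ht) h1
  have h3 := (h2.clm_apply ha).clm_apply hb
  exact h3.congr_deriv (by simp only [add_apply])

/-- Conservation of the speed. -/
theorem GeoBall.exGauss_speed (h : GeoBall G S x Y δ) {v : E} (hv : v ∈ ball (0 : E) δ) {t : ℝ}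
    (ht : t ∈ Icc (0 : ℝ) 1) :
    G (Y (t • v)) (fderiv ℝ Y (t • v) v) (fderiv ℝ Y (t • v) v) = G x v v := by
  have hder : ∀ s ∈ Icc (0 : ℝ) 1, HasDerivAt
      (fun s : ℝ => G (Y (s • v)) (fderiv ℝ Y (s • v) v) (fderiv ℝ Y (s • v) v))
      (fderiv ℝ G (Y (s • v)) (fderiv ℝ Y (s • v) v) (fderiv ℝ Y (s • v) v)
        (fderiv ℝ Y (s • v) v) +
        G (Y (s • v)) (fderiv ℝ (fderiv ℝ Y) (s • v) v v) (fderiv ℝ Y (s • v) v) +
        G (Y (s • v)) (fderiv ℝ Y (s • v) v) (fderiv ℝ (fderiv ℝ Y) (s • v) v v)) s := by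
    intro s hs
    have hm : s • v ∈ ball (0 : E) δ := exGauss_mem hv hs
    exact h.exGauss_hasDerivAtG hm (exGauss_line v s) (h.exGauss_hasDerivAt2 hm v)
      (h.exGauss_hasDerivAt2 hm v)
  have hcont : ContinuousOn
      (fun s : ℝ => G (Y (s • v)) (fderiv ℝ Y (s • v) v) (fderiv ℝ Y (s • v) v))
      (Icc (0 : ℝ) 1) := fun s hs => (hder s hs).continuousAt.continuousWithinAt
  have hzero : ∀ s ∈ Ioo (0 : ℝ) 1, HasDerivAt
      (fun s : ℝ => G (Y (s • v)) (fderiv ℝ Y (s • v) v) (fderiv ℝ Y (s • v) v)) 0 s := by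
    intro s hs
    have hm : s • v ∈ ball (0 : E) δ := exGauss_mem hv ⟨hs.1.le, hs.2.le⟩
    have h1 := hder s ⟨hs.1.le, hs.2.le⟩
    rw [h.exGauss_ode hv hs, h.symm _ hm (fderiv ℝ Y (s • v) v) (S _ _ _),
      h.spray _ hm] at h1
    refine h1.congr_deriv ?_
    ring
  have this := exGauss_affine hcont hzero ht
  simp only [zero_smul, h.zero, h.dzero.fderiv] at this
  simpa using this

/-- Conservation of the speed. -/
theorem GeoBall.speed (h : GeoBall G S x Y δ) {v : E} (hv : v ∈ ball (0 : E) δ) {t : ℝ}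
    (ht : t ∈ Icc (0 : ℝ) 1) :
    G (Y (t • v)) (deriv (fun s : ℝ => Y (s • v)) t) (deriv (fun s : ℝ => Y (s • v)) t) =
      G x v v := by
  rw [(h.exGauss_hasDerivAt (exGauss_mem hv ht)).deriv]
  exact h.exGauss_speed hv ht

/-- The Gauss lemma. -/
theorem GeoBall.exGauss_gauss (h : GeoBall G S x Y δ) {v : E} (hv : v ∈ ball (0 : E) δ) (η : E) :
    G (Y v) (fderiv ℝ Y v v) (fderiv ℝ Y v η) = G x v η := by
  -- derivative in the parameter of the speed identity
  have hpar : ∀ t ∈ Icc (0 : ℝ) 1,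
      (1 / 2) * fderiv ℝ G (Y (t • v)) (fderiv ℝ Y (t • v) (t • η)) (fderiv ℝ Y (t • v) v)
        (fderiv ℝ Y (t • v) v) +
      G (Y (t • v)) (fderiv ℝ Y (t • v) v)
        (fderiv ℝ (fderiv ℝ Y) (t • v) (t • η) v + fderiv ℝ Y (t • v) η) = G x v η := by
    intro t ht
    have hm : t • v ∈ ball (0 : E) δ := exGauss_mem hv ht
    have hl0 : HasDerivAt (fun ε : ℝ => v + ε • η) η 0 := by
      simpa using (exGauss_line η 0).const_add v
    have hl : HasDerivAt (fun ε : ℝ => t • (v + ε • η)) (t • η) 0 := hl0.const_smul t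
    have hev : ∀ᶠ ε in 𝓝 (0 : ℝ), v + ε • η ∈ ball (0 : E) δ :=
      hl0.continuousAt.eventually (isOpen_ball.mem_nhds (by simpa using hv))
    have hA : HasDerivAt (fun ε : ℝ => fderiv ℝ Y (t • (v + ε • η)) (v + ε • η))
        (fderiv ℝ (fderiv ℝ Y) (t • v) (t • η) v + fderiv ℝ Y (t • v) η) 0 := by
      have h2 : HasFDerivAt (fderiv ℝ Y) (fderiv ℝ (fderiv ℝ Y) (t • v))
          (t • (v + (0 : ℝ) • η)) := by
        simpa only [zero_smul, add_zero] using h.exGauss_hasFDerivAt2 hm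
      have h1 := HasFDerivAt.comp_hasDerivAt (l := fderiv ℝ Y)
        (f := fun ε : ℝ => t • (v + ε • η)) 0 h2 hl
      exact (h1.clm_apply hl0).congr_deriv (by simp)
    have h0 : t • (v + (0 : ℝ) • η) ∈ ball (0 : E) δ := by simpa using hm
    have hD := h.exGauss_hasDerivAtG (w := fun ε : ℝ => t • (v + ε • η)) h0 hl hA hA
    have hR : HasDerivAt (fun ε : ℝ => G x (v + ε • η) (v + ε • η)) (G x η v + G x v η) 0 := by
      have h3 := ((hasDerivAt_const (0 : ℝ) (G x)).clm_apply hl0).clm_apply hl0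
      exact h3.congr_deriv (by simp only [zero_smul, add_zero, zero_apply, zero_add])
    have hE : (fun ε : ℝ => G (Y (t • (v + ε • η))) (fderiv ℝ Y (t • (v + ε • η)) (v + ε • η))
        (fderiv ℝ Y (t • (v + ε • η)) (v + ε • η))) =ᶠ[𝓝 0]
        fun ε : ℝ => G x (v + ε • η) (v + ε • η) := by
      filter_upwards [hev] with ε hε
      exact h.exGauss_speed hε ht
    have hU := hD.unique (hR.congr_of_eventuallyEq hE)
    have hs1 := h.symm _ hm (fderiv ℝ (fderiv ℝ Y) (t • v) (t • η) v + fderiv ℝ Y (t • v) η)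
      (fderiv ℝ Y (t • v) v)
    have hs2 := h.symm 0 (mem_ball_self h.pos) η v
    rw [h.zero] at hs2
    simp only [zero_smul, add_zero] at hU
    linarith
  have hder : ∀ t ∈ Icc (0 : ℝ) 1, HasDerivAt
      (fun s : ℝ => G (Y (s • v)) (fderiv ℝ Y (s • v) v) (s • fderiv ℝ Y (s • v) η))
      (fderiv ℝ G (Y (t • v)) (fderiv ℝ Y (t • v) v) (fderiv ℝ Y (t • v) v)
        (t • fderiv ℝ Y (t • v) η) +
        G (Y (t • v)) (fderiv ℝ (fderiv ℝ Y) (t • v) v v) (t • fderiv ℝ Y (t • v) η) +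
        G (Y (t • v)) (fderiv ℝ Y (t • v) v)
          (t • fderiv ℝ (fderiv ℝ Y) (t • v) v η + fderiv ℝ Y (t • v) η)) t := by
    intro t ht
    have hm : t • v ∈ ball (0 : E) δ := exGauss_mem hv ht
    have hJ : HasDerivAt (fun s : ℝ => s • fderiv ℝ Y (s • v) η)
        (t • fderiv ℝ (fderiv ℝ Y) (t • v) v η + fderiv ℝ Y (t • v) η) t := by
      have := (hasDerivAt_id t).smul (h.exGauss_hasDerivAt2 hm η)
      exact this.congr_deriv (by simp)
    exact h.exGauss_hasDerivAtG hm (exGauss_line v t) (h.exGauss_hasDerivAt2 hm v) hJ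
  have hcont : ContinuousOn
      (fun s : ℝ => G (Y (s • v)) (fderiv ℝ Y (s • v) v) (s • fderiv ℝ Y (s • v) η))
      (Icc (0 : ℝ) 1) := fun s hs => (hder s hs).continuousAt.continuousWithinAt
  have hd : ∀ t ∈ Ioo (0 : ℝ) 1, HasDerivAt
      (fun s : ℝ => G (Y (s • v)) (fderiv ℝ Y (s • v) v) (s • fderiv ℝ Y (s • v) η))
      (G x v η) t := by
    intro t ht
    have ht' : t ∈ Icc (0 : ℝ) 1 := ⟨ht.1.le, ht.2.le⟩
    have hm : t • v ∈ ball (0 : E) δ := exGauss_mem hv ht'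
    refine (hder t ht').congr_deriv ?_
    rw [h.exGauss_ode hv ht, h.spray _ hm, h.exGauss_sym2 hm v η]
    have h1 := hpar t ht'
    simp only [map_smul, smul_apply, smul_eq_mul, map_add] at h1 ⊢
    linarith
  have := exGauss_affine hcont hd (right_mem_Icc.2 zero_le_one)
  simpa only [one_smul, zero_smul, map_zero, mul_one, zero_add] using this

/-- Cauchy-Schwarz for a nonnegative symmetric form. -/
theorem exGauss_cs {B : E →L[ℝ] E →L[ℝ] ℝ} (hs : ∀ a b, B a b = B b a)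
    (hp : ∀ a, a ≠ 0 → 0 < B a a) (a b : E) : (B a b) ^ 2 ≤ B a a * B b b := by
  by_cases hb : b = 0
  · simp [hb]
  have hbb := hp b hb
  have h1 : 0 ≤ B (B b b • a - B a b • b) (B b b • a - B a b • b) := by
    by_cases h0 : B b b • a - B a b • b = 0
    · simp [h0]
    · exact (hp _ h0).le
  have h2 : B (B b b • a - B a b • b) (B b b • a - B a b • b) =
      B b b * (B a a * B b b - (B a b) ^ 2) := by
    simp only [map_sub, map_smul, sub_apply, smul_apply,
      smul_eq_mul]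
    rw [hs b a]
    ring
  rw [h2] at h1
  have := nonneg_of_mul_nonneg_right h1 hbb
  linarith only [this]

/-- The eikonal inequality for the squared length of the logarithm. -/
theorem GeoBall.eikonal (h : GeoBall G S x Y δ) {L : E → E} {c : E}
    (hL : DifferentiableAt ℝ L c) (hLc : L c ∈ ball (0 : E) δ)
    (hY : ∀ᶠ c' in 𝓝 c, Y (L c') = c') (ζ : E) :
    (fderiv ℝ (fun c' => G x (L c') (L c')) c ζ) ^ 2 ≤ 4 * G x (L c) (L c) * G c ζ ζ := by
  have hYc : Y (L c) = c := hY.self_of_nhds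
  have h1 : HasFDerivAt (fun c' => Y (L c')) ((fderiv ℝ Y (L c)).comp (fderiv ℝ L c)) c :=
    (h.exGauss_hasFDerivAt hLc).comp c hL.hasFDerivAt
  have h2 : HasFDerivAt (fun c' => Y (L c')) (ContinuousLinearMap.id ℝ E) c :=
    (hasFDerivAt_id c).congr_of_eventuallyEq hY
  have h3 : fderiv ℝ Y (L c) (fderiv ℝ L c ζ) = ζ := by
    have := congrArg (fun A : E →L[ℝ] E => A ζ) (h1.unique h2)
    simpa only [ContinuousLinearMap.comp_apply, ContinuousLinearMap.id_apply] using this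
  have h4 : fderiv ℝ (fun c' => G x (L c') (L c')) c ζ = 2 * G x (L c) (fderiv ℝ L c ζ) := by
    have h5 : HasFDerivAt (fun c' => G x (L c')) ((G x).comp (fderiv ℝ L c)) c :=
      (G x).hasFDerivAt.comp c hL.hasFDerivAt
    have h6 := h5.clm_apply hL.hasFDerivAt
    rw [h6.fderiv]
    have hs2 := h.symm 0 (mem_ball_self h.pos) (fderiv ℝ L c ζ) (L c)
    rw [h.zero] at hs2
    simp only [add_apply, ContinuousLinearMap.comp_apply, ContinuousLinearMap.flip_apply, hs2]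
    ring
  have h7 := h.exGauss_gauss hLc (fderiv ℝ L c ζ)
  rw [h3, hYc] at h7
  have h8 := h.exGauss_speed hLc (right_mem_Icc.2 zero_le_one)
  rw [one_smul, hYc] at h8
  have hsym : ∀ a b, G c a b = G c b a := by
    have := h.symm _ hLc
    rwa [hYc] at this
  have hpos : ∀ a, a ≠ 0 → 0 < G c a a := by
    have := h.posdef _ hLc
    rwa [hYc] at this
  have h9 := exGauss_cs hsym hpos (fderiv ℝ Y (L c) (L c)) ζ
  rw [h4, ← h7, ← h8]
  linarith

end

end Vale.Agent.P234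
end
end
end

section

section

section

/-! Distance estimates by curves and by functions. -/

set_option maxSynthPendingDepth 3
set_option linter.unusedSectionVars false

open Bundle Manifold Set Filter
open scoped ContDiff Manifold Topology

namespace Vale.Agent.P234

noncomputable section

variable {E : Type*} [NormedAddCommGroup E] [NormedSpace ℝ E] [FiniteDimensional ℝ E]
  {M : Type*} [MetricSpace M] [ChartedSpace E M]
  [RiemannianBundle (fun x : M => TangentSpace 𝓘(ℝ, E) x)]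
  [IsManifold 𝓘(ℝ, E) ∞ M]
  [IsContMDiffRiemannianBundle 𝓘(ℝ, E) ∞ E (fun x : M => TangentSpace 𝓘(ℝ, E) x)]
  [IsRiemannianManifold 𝓘(ℝ, E) M]

open MeasureTheory in
/-- A curve with speed at most `κ` has length at most `κ (b - a)`. -/
lemma dist_le_of_speed {c : ℝ → M} {a b κ : ℝ} (hab : a ≤ b) (hκ : 0 ≤ κ)
    (hc : ∀ t ∈ Icc a b, ContMDiffAt 𝓘(ℝ, ℝ) 𝓘(ℝ, E) 1 c t)
    (hs : ∀ t ∈ Icc a b, ‖mfderiv 𝓘(ℝ, ℝ) 𝓘(ℝ, E) c t (1 : ℝ)‖ ≤ κ) :
    dist (c a) (c b) ≤ κ * (b - a) := by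
  have h1 : ContMDiffOn 𝓘(ℝ, ℝ) 𝓘(ℝ, E) 1 c (Icc a b) :=
    fun t ht => (hc t ht).contMDiffWithinAt
  have h2 := riemannianEDist_le_pathELength (I := 𝓘(ℝ, E)) h1 rfl rfl hab
  rw [← IsRiemannianManifold.out (I := 𝓘(ℝ, E)) (c a) (c b)] at h2
  have h3 : pathELength 𝓘(ℝ, E) c a b ≤ ENNReal.ofReal (κ * (b - a)) := by
    rw [pathELength_eq_lintegral_mfderiv_Icc]
    calc _ ≤ ∫⁻ _t in Icc a b, ENNReal.ofReal κ := by
            refine setLIntegral_mono' measurableSet_Icc (fun t ht => ?_)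
            rw [← ofReal_norm]
            exact ENNReal.ofReal_le_ofReal (hs t ht)
      _ = _ := by
        rw [setLIntegral_const, Real.volume_Icc, ENNReal.ofReal_mul hκ]
  have h4 := h2.trans h3
  rw [edist_dist] at h4
  exact (ENNReal.ofReal_le_ofReal_iff (mul_nonneg hκ (by linarith only [hab]))).1 h4

set_option backward.isDefEq.respectTransparency false in
open MeasureTheory in
/-- Bound of the variation of a function along a curve. -/
lemma exDist_curve {f : M → ℝ} {K ℓ : ℝ} (hK : 0 ≤ K) (hℓ : 0 ≤ ℓ) {γ : ℝ → M}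
    (hγ : ContMDiff 𝓘(ℝ, ℝ) 𝓘(ℝ, E) 1 γ)
    (hf : ∀ t ∈ Icc (0 : ℝ) 1, ContMDiffAt 𝓘(ℝ, E) 𝓘(ℝ, ℝ) 1 f (γ t))
    (hd : ∀ t ∈ Icc (0 : ℝ) 1, ∀ w : TangentSpace 𝓘(ℝ, E) (γ t), |dfun f (γ t) w| ≤ K * ‖w‖)
    (hl : pathELength 𝓘(ℝ, E) γ 0 1 ≤ ENNReal.ofReal ℓ) :
    |f (γ 1) - f (γ 0)| ≤ K * ℓ := by
  have h1 : ContDiffOn ℝ 1 (f ∘ γ) (Icc 0 1) := by
    rw [← contMDiffOn_iff_contDiffOn]
    intro t ht
    exact ((hf t ht).comp t (hγ t)).contMDiffWithinAt
  have h2 := enorm_sub_le_lintegral_deriv_of_contDiffOn_Icc h1 zero_le_one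
  have h3 : ∫⁻ t in Icc (0 : ℝ) 1, ‖deriv (f ∘ γ) t‖ₑ ≤
      ∫⁻ t in Icc (0 : ℝ) 1, ENNReal.ofReal K * ‖mfderiv 𝓘(ℝ, ℝ) 𝓘(ℝ, E) γ t (1 : ℝ)‖ₑ := by
    refine setLIntegral_mono' measurableSet_Icc (fun t ht => ?_)
    have h4 : mfderiv 𝓘(ℝ, ℝ) 𝓘(ℝ, ℝ) (f ∘ γ) t =
        (mfderiv 𝓘(ℝ, E) 𝓘(ℝ, ℝ) f (γ t)).comp (mfderiv 𝓘(ℝ, ℝ) 𝓘(ℝ, E) γ t) :=
      mfderiv_comp t ((hf t ht).mdifferentiableAt one_ne_zero)
        ((hγ t).mdifferentiableAt one_ne_zero)
    have h5 : deriv (f ∘ γ) t = dfun f (γ t) (mfderiv 𝓘(ℝ, ℝ) 𝓘(ℝ, E) γ t (1 : ℝ)) := by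
      have h6 := congrArg (fun φ => φ (1 : ℝ)) h4
      rw [← fderiv_apply_one_eq_deriv, ← mfderiv_eq_fderiv]
      exact h6
    rw [h5, ← ofReal_norm, ← ofReal_norm, ← ENNReal.ofReal_mul hK]
    exact ENNReal.ofReal_le_ofReal (hd t ht _)
  have h7 := h2.trans h3
  rw [lintegral_const_mul' _ _ ENNReal.ofReal_ne_top,
    ← pathELength_eq_lintegral_mfderiv_Icc] at h7
  have h8 : ‖(f ∘ γ) 1 - (f ∘ γ) 0‖ₑ ≤ ENNReal.ofReal (K * ℓ) := by
    refine h7.trans ?_
    rw [ENNReal.ofReal_mul hK]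
    (clear * - hl; gcongr)
  rw [← ofReal_norm] at h8
  exact (ENNReal.ofReal_le_ofReal_iff (mul_nonneg hK hℓ)).1 h8

/-- A function with gradient at most `K` on a ball is `K`-Lipschitz from the centre. -/
lemma abs_sub_le_of_mfderiv_le {f : M → ℝ} {x : M} {R K : ℝ} (hK : 0 ≤ K)
    (hf : ∀ z ∈ Metric.ball x R, ContMDiffAt 𝓘(ℝ, E) 𝓘(ℝ, ℝ) 1 f z)
    (hd : ∀ z ∈ Metric.ball x R, ∀ w : TangentSpace 𝓘(ℝ, E) z,
      |dfun f z w| ≤ K * ‖w‖) {y : M} (hy : y ∈ Metric.ball x R) :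
    |f y - f x| ≤ K * dist x y := by
  have hy' : dist x y < R := by rwa [dist_comm, ← Metric.mem_ball]
  have key : ∀ η : ℝ, 0 < η → dist x y + η < R → |f y - f x| ≤ K * (dist x y + η) := by
    intro η hη hR
    have hpos : 0 < dist x y + η := by positivity
    have h1 : riemannianEDist 𝓘(ℝ, E) x y < ENNReal.ofReal (dist x y + η) := by
      rw [← IsRiemannianManifold.out (I := 𝓘(ℝ, E)) x y, edist_dist,
        ENNReal.ofReal_lt_ofReal_iff hpos]
      linarith
    obtain ⟨γ, hγ0, hγ1, hγ, hl, -, -⟩ :=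
      exists_lt_locally_constant_of_riemannianEDist_lt h1 (zero_lt_one (α := ℝ))
    have hball : ∀ t ∈ Icc (0 : ℝ) 1, γ t ∈ Metric.ball x R := by
      intro t ht
      have h2 : riemannianEDist 𝓘(ℝ, E) x (γ t) ≤ pathELength 𝓘(ℝ, E) γ 0 t :=
        riemannianEDist_le_pathELength hγ.contMDiffOn hγ0 rfl ht.1
      have h3 : pathELength 𝓘(ℝ, E) γ 0 t ≤ pathELength 𝓘(ℝ, E) γ 0 1 :=
        pathELength_mono le_rfl ht.2
      have h4 := (h2.trans h3).trans_lt hl
      rw [← IsRiemannianManifold.out (I := 𝓘(ℝ, E)) x (γ t), edist_dist,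
        ENNReal.ofReal_lt_ofReal_iff hpos] at h4
      rw [Metric.mem_ball, dist_comm]
      linarith only [hR, h4]
    have h5 := exDist_curve (f := f) hK hpos.le hγ (fun t ht => hf _ (hball t ht))
      (fun t ht => hd _ (hball t ht)) hl.le
    rwa [hγ0, hγ1] at h5
  refine le_of_forall_pos_le_add (fun ε hε => ?_)
  set η : ℝ := min (ε / (K + 1)) ((R - dist x y) / 2) with hη
  have hη0 : 0 < η := by
    rw [hη]
    refine lt_min (by positivity) (by linarith)
  have hηR : dist x y + η < R := by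
    have : η ≤ (R - dist x y) / 2 := min_le_right _ _
    linarith only [hη0, this]
  have hηε : K * η ≤ ε := by
    have h6 : η ≤ ε / (K + 1) := min_le_left _ _
    have h7 : (K + 1) * η ≤ ε := by
      calc (K + 1) * η ≤ (K + 1) * (ε / (K + 1)) := by gcongr
        _ = ε := by field_simp
    linarith only [h7, hη0]
  have := key η hη0 hηR
  linarith only [this, hηε]

set_option backward.isDefEq.respectTransparency false in
/-- The differential of `√(N + d²)`. -/
lemma exDist_dfun_sqrt {N : M → ℝ} {z : M} {d : ℝ} (hd : 0 < d) (hN : 0 ≤ N z)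
    (hf : ContMDiffAt 𝓘(ℝ, E) 𝓘(ℝ, ℝ) 1 N z) (w : TangentSpace 𝓘(ℝ, E) z) :
    ContMDiffAt 𝓘(ℝ, E) 𝓘(ℝ, ℝ) 1 (fun z => Real.sqrt (N z + d ^ 2)) z ∧
      dfun (fun z => Real.sqrt (N z + d ^ 2)) z w =
        dfun N z w / (2 * Real.sqrt (N z + d ^ 2)) := by
  have hpos : 0 < N z + d ^ 2 := by positivity
  have h1 : ContDiffAt ℝ 1 (fun s : ℝ => Real.sqrt (s + d ^ 2)) (N z) :=
    (contDiffAt_id.add contDiffAt_const).sqrt hpos.ne'
  have h2 : HasDerivAt (fun s : ℝ => Real.sqrt (s + d ^ 2))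
      (1 / (2 * Real.sqrt (N z + d ^ 2))) (N z) :=
    ((hasDerivAt_id (N z)).add_const _).sqrt hpos.ne'
  refine ⟨h1.contMDiffAt.comp z hf, ?_⟩
  have h3 : HasMFDerivAt 𝓘(ℝ, E) 𝓘(ℝ, ℝ) N z (mfderiv 𝓘(ℝ, E) 𝓘(ℝ, ℝ) N z) :=
    (hf.mdifferentiableAt one_ne_zero).hasMFDerivAt
  have h4 := (h2.hasFDerivAt.hasMFDerivAt.comp z h3).mfderiv
  have h5 : dfun (fun z => Real.sqrt (N z + d ^ 2)) z w =
      dfun N z w • (1 / (2 * Real.sqrt (N z + d ^ 2))) := by
    have h6 := DFunLike.congr_fun h4 w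
    exact h6
  rw [h5, smul_eq_mul, mul_one_div]

/-- Lower bound of the distance by the length of a logarithm: `N` is the squared length. -/
lemma sqrt_le_dist_of_eikonal {N : M → ℝ} {x : M} {R : ℝ} (hx : N x = 0)
    (hN : ∀ z ∈ Metric.ball x R, 0 ≤ N z)
    (hf : ∀ z ∈ Metric.ball x R, ContMDiffAt 𝓘(ℝ, E) 𝓘(ℝ, ℝ) 1 N z)
    (hd : ∀ z ∈ Metric.ball x R, ∀ w : TangentSpace 𝓘(ℝ, E) z,
      (dfun N z w) ^ 2 ≤ 4 * N z * ‖w‖ ^ 2) {y : M}
    (hy : y ∈ Metric.ball x R) :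
    Real.sqrt (N y) ≤ dist x y := by
  refine le_of_forall_pos_le_add (fun d hd0 => ?_)
  have key := abs_sub_le_of_mfderiv_le (f := fun z => Real.sqrt (N z + d ^ 2)) (x := x) (R := R)
    (K := 1) zero_le_one
    (fun z hz => (exDist_dfun_sqrt hd0 (hN z hz) (hf z hz) 0).1) (fun z hz w => by
      rw [(exDist_dfun_sqrt hd0 (hN z hz) (hf z hz) w).2]
      have hpos : 0 < N z + d ^ 2 := by have := hN z hz; positivity
      have hs : 0 < Real.sqrt (N z + d ^ 2) := Real.sqrt_pos.2 hpos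
      rw [abs_div, abs_of_pos (by (clear * - hpos; positivity) : (0 : ℝ) < 2 * Real.sqrt (N z + d ^ 2)),
        div_le_iff₀ (by positivity)]
      refine abs_le_of_sq_le_sq ?_ (by (clear * - hpos; positivity))
      have h1 := hd z hz w
      have h2 : (1 * ‖w‖ * (2 * Real.sqrt (N z + d ^ 2))) ^ 2 =
          4 * (N z + d ^ 2) * ‖w‖ ^ 2 := by
        have h3 := Real.sq_sqrt hpos.le
        linear_combination (4 * ‖w‖ ^ 2) * h3
      rw [h2]
      linarith only [mul_nonneg (sq_nonneg (‖w‖ : ℝ)) (sq_nonneg (d : ℝ)), h1]) hy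
  simp only [hx, zero_add, one_mul] at key
  rw [Real.sqrt_sq hd0.le] at key
  have h6 : Real.sqrt (N y) ≤ Real.sqrt (N y + d ^ 2) := Real.sqrt_le_sqrt (by (by_contra nlg; linarith [mul_pos (sub_pos.2 (not_le.1 nlg)) (sub_pos.2 (not_le.1 nlg)), mul_nonneg (sq_nonneg (d : ℝ)) (le_of_lt (sub_pos.2 (not_le.1 nlg)))]))
  have h7 := (abs_le.1 key).2
  linarith

end

end Vale.Agent.P234
end
end
end

section

section

section

/-! Local exponential map on the manifold: distances. -/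

set_option maxSynthPendingDepth 3
set_option linter.unusedSectionVars false

open Bundle Manifold Set Filter
open scoped ContDiff Manifold Topology

namespace Vale.Agent.P234

noncomputable section

variable {E : Type*} [NormedAddCommGroup E] [NormedSpace ℝ E] [FiniteDimensional ℝ E]
  {M : Type*} [MetricSpace M] [ChartedSpace E M]
  [RiemannianBundle (fun x : M => TangentSpace 𝓘(ℝ, E) x)]
  [IsManifold 𝓘(ℝ, E) ∞ M]
  [IsContMDiffRiemannianBundle 𝓘(ℝ, E) ∞ E (fun x : M => TangentSpace 𝓘(ℝ, E) x)]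
  [IsRiemannianManifold 𝓘(ℝ, E) M]
  {x₀ : M} {G : E → E →L[ℝ] E →L[ℝ] ℝ} {X L : E × E → E}

set_option backward.isDefEq.respectTransparency false in
lemma ExLocB_norm_dch {c : E}
    (hG : ∀ c ∈ (extChartAt 𝓘(ℝ, E) x₀).target, ∀ a b : E,
      G c a b = inner ℝ (dch x₀ c a) (dch x₀ c b))
    (hc : c ∈ (extChartAt 𝓘(ℝ, E) x₀).target) (a : E) :
    ‖dch x₀ c a‖ ^ 2 = G c a a := by
  rw [hG c hc, real_inner_self_eq_norm_sq]

lemma ExLocB_symm_contMDiffAt {c : E} (hc : c ∈ (extChartAt 𝓘(ℝ, E) x₀).target) :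
    ContMDiffAt 𝓘(ℝ, E) 𝓘(ℝ, E) ∞ (extChartAt 𝓘(ℝ, E) x₀).symm c := by
  have h1 := contMDiffOn_extChartAt_symm (I := 𝓘(ℝ, E)) (n := ∞) x₀
  exact h1.contMDiffAt ((isOpen_extChartAt_target x₀).mem_nhds hc)

set_option backward.isDefEq.respectTransparency false in
/-- Upper bound along one ray. -/
lemma ExLocB_ray_aux {x : M} (hx : x ∈ (extChartAt 𝓘(ℝ, E) x₀).source)
    (hG : ∀ c ∈ (extChartAt 𝓘(ℝ, E) x₀).target, ∀ a b : E,
      G c a b = inner ℝ (dch x₀ c a) (dch x₀ c b))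
    (v : TangentSpace 𝓘(ℝ, E) x)
    (h1 : ∀ r ∈ Icc (0 : ℝ) 1,
      ContDiffAt ℝ ∞ X (extChartAt 𝓘(ℝ, E) x₀ x, r • crd x₀ x v))
    (h2 : ∀ r ∈ Icc (0 : ℝ) 1,
      X (extChartAt 𝓘(ℝ, E) x₀ x, r • crd x₀ x v) ∈ (extChartAt 𝓘(ℝ, E) x₀).target)
    (h3 : ∀ t ∈ Icc (0 : ℝ) 1,
      G (X (extChartAt 𝓘(ℝ, E) x₀ x, t • crd x₀ x v))
        (deriv (fun s : ℝ => X (extChartAt 𝓘(ℝ, E) x₀ x, s • crd x₀ x v)) t)
        (deriv (fun s : ℝ => X (extChartAt 𝓘(ℝ, E) x₀ x, s • crd x₀ x v)) t) =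
        G (extChartAt 𝓘(ℝ, E) x₀ x) (crd x₀ x v) (crd x₀ x v))
    {s t : ℝ} (hs : s ∈ Icc (0 : ℝ) 1) (ht : t ∈ Icc (0 : ℝ) 1) (hst : s ≤ t) :
    dist (locE x₀ X x (s • v)) (locE x₀ X x (t • v)) ≤ (t - s) * ‖v‖ := by
  set c := extChartAt 𝓘(ℝ, E) x₀ x with hc
  set a := crd x₀ x v with ha
  set q : ℝ → E := fun r => X (c, r • a) with hq
  have hloc : ∀ r : ℝ, locE x₀ X x (r • v) = (extChartAt 𝓘(ℝ, E) x₀).symm (q r) := by
    intro r
    unfold locE
    rw [map_smul]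
  have hqd : ∀ r ∈ Icc (0 : ℝ) 1, ContDiffAt ℝ ∞ q r := by
    intro r hr
    have e1 : ContDiffAt ℝ ∞ (fun r : ℝ => ((c, r • a) : E × E)) r :=
      contDiffAt_const.prodMk (contDiffAt_id.smul contDiffAt_const)
    exact (h1 r hr).comp r e1
  have hsub : ∀ r ∈ Icc s t, r ∈ Icc (0 : ℝ) 1 := fun r hr => ⟨hs.1.trans hr.1, hr.2.trans ht.2⟩
  rw [hloc, hloc, mul_comm]
  refine dist_le_of_speed (E := E) (c := fun r => (extChartAt 𝓘(ℝ, E) x₀).symm (q r)) hst
    (norm_nonneg v) (fun r hr => ?_) (fun r hr => ?_)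
  · have e1 := (ExLocB_symm_contMDiffAt (h2 r (hsub r hr))).comp r
      ((hqd r (hsub r hr)).contMDiffAt)
    exact e1.of_le (by simp only [WithTop.one_le_coe, le_top])
  · have hd : DifferentiableAt ℝ q r := (hqd r (hsub r hr)).differentiableAt (by simp)
    rw [mfderiv_curve_chart x₀ (h2 r (hsub r hr)) hd]
    have e1 : ‖dch x₀ (q r) (deriv q r)‖ ^ 2 = ‖v‖ ^ 2 := by
      rw [ExLocB_norm_dch hG (h2 r (hsub r hr)), h3 r (hsub r hr), ← norm_sq_vec x₀ hG hx,
        vec_crd x₀ hx]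
    exact ((pow_left_inj₀ (norm_nonneg _) (norm_nonneg _) two_ne_zero).1 e1).le

/-- Upper bound of distances along rays. -/
lemma FlatData.dist_ray_le (h : FlatData x₀ G X L) :
    ∀ᶠ p in 𝓝 (⟨x₀, 0⟩ : TangentBundle 𝓘(ℝ, E) M), ∀ s ∈ Icc (0 : ℝ) 1, ∀ t ∈ Icc (0 : ℝ) 1,
      dist (locE x₀ X p.proj (s • p.snd)) (locE x₀ X p.proj (t • p.snd)) ≤ |t - s| * ‖p.snd‖ := by
  have hsrc : ∀ᶠ p in 𝓝 (⟨x₀, 0⟩ : TangentBundle 𝓘(ℝ, E) M),
      p.proj ∈ (extChartAt 𝓘(ℝ, E) x₀).source := by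
    have h1 : Tendsto (fun p : TangentBundle 𝓘(ℝ, E) M => p.proj)
        (𝓝 (⟨x₀, 0⟩ : TangentBundle 𝓘(ℝ, E) M)) (𝓝 x₀) :=
      (FiberBundle.continuous_proj E (TangentSpace 𝓘(ℝ, E))).tendsto _
    exact h1.eventually (extChartAt_source_mem_nhds x₀)
  filter_upwards [hsrc, (tendsto_tchart_zero x₀).eventually (eventually_ray h.smoothX),
    (tendsto_tchart_zero x₀).eventually (eventually_ray h.memX),
    (tendsto_tchart_zero x₀).eventually h.speedX] with p hp h1 h2 h3 s hs t ht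
  rcases le_total s t with hst | hst
  · rw [abs_of_nonneg (sub_nonneg.2 hst)]
    exact ExLocB_ray_aux hp h.metric p.snd h1 h2 h3 hs ht hst
  · rw [abs_sub_comm, abs_of_nonneg (sub_nonneg.2 hst), dist_comm]
    exact ExLocB_ray_aux hp h.metric p.snd h1 h2 h3 ht hs hst

set_option backward.isDefEq.respectTransparency false in
/-- Lower bound, one base point. -/
lemma ExLocB_log_aux {x : M} {R : ℝ}
    (hG : ∀ c ∈ (extChartAt 𝓘(ℝ, E) x₀).target, ∀ a b : E,
      G c a b = inner ℝ (dch x₀ c a) (dch x₀ c b))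
    (hx : x ∈ (extChartAt 𝓘(ℝ, E) x₀).source)
    (h0 : L (extChartAt 𝓘(ℝ, E) x₀ x, extChartAt 𝓘(ℝ, E) x₀ x) = 0)
    (hsrc : ∀ z ∈ Metric.ball x R, z ∈ (extChartAt 𝓘(ℝ, E) x₀).source)
    (hL : ∀ z ∈ Metric.ball x R,
      ContDiffAt ℝ ∞ L (extChartAt 𝓘(ℝ, E) x₀ x, extChartAt 𝓘(ℝ, E) x₀ z))
    (he : ∀ z ∈ Metric.ball x R, ∀ ζ : E,
      (fderiv ℝ (fun c : E => G (extChartAt 𝓘(ℝ, E) x₀ x) (L (extChartAt 𝓘(ℝ, E) x₀ x, c))
        (L (extChartAt 𝓘(ℝ, E) x₀ x, c))) (extChartAt 𝓘(ℝ, E) x₀ z) ζ) ^ 2 ≤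
      4 * G (extChartAt 𝓘(ℝ, E) x₀ x)
        (L (extChartAt 𝓘(ℝ, E) x₀ x, extChartAt 𝓘(ℝ, E) x₀ z))
        (L (extChartAt 𝓘(ℝ, E) x₀ x, extChartAt 𝓘(ℝ, E) x₀ z)) *
        G (extChartAt 𝓘(ℝ, E) x₀ z) ζ ζ)
    {y : M} (hy : y ∈ Metric.ball x R) : ‖locL x₀ L x y‖ ≤ dist x y := by
  set φ := extChartAt 𝓘(ℝ, E) x₀ with hφ
  set f : E → ℝ := fun c => G (φ x) (L (φ x, c)) (L (φ x, c)) with hf
  set N : M → ℝ := fun z => f (φ z) with hN
  have hNval : ∀ z, N z = ‖locL x₀ L x z‖ ^ 2 := fun z => by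
    simp only [hN, hf, locL]
    rw [norm_sq_vec x₀ hG hx]
  have hfd : ∀ z ∈ Metric.ball x R, ContDiffAt ℝ ∞ f (φ z) := by
    intro z hz
    have e1 : ContDiffAt ℝ ∞ (fun c : E => L (φ x, c)) (φ z) :=
      (hL z hz).comp (φ z) (contDiffAt_const.prodMk contDiffAt_id)
    have e2 : ContDiffAt ℝ ∞ (fun c : E => G (φ x) (L (φ x, c))) (φ z) :=
      (G (φ x)).contDiff.contDiffAt.comp (φ z) e1
    exact e2.clm_apply e1
  have hNd : ∀ z ∈ Metric.ball x R, ContMDiffAt 𝓘(ℝ, E) 𝓘(ℝ, ℝ) ∞ N z := by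
    intro z hz
    have e1 : ContMDiffAt 𝓘(ℝ, E) 𝓘(ℝ, E) ∞ φ z :=
      contMDiffAt_extChartAt' (by
        have := hsrc z hz
        rwa [hφ, extChartAt_source] at this)
    exact (hfd z hz).contMDiffAt.comp z e1
  have hmain := sqrt_le_dist_of_eikonal (N := N) (x := x) (R := R)
    (by simp only [hN, hf]; rw [h0]; simp) (fun z _ => by rw [hNval]; positivity)
    (fun z hz => (hNd z hz).of_le (by simp only [WithTop.one_le_coe, le_top])) (fun z hz w => ?_) hy
  · rw [hNval, Real.sqrt_sq (norm_nonneg _)] at hmain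
    exact hmain
  · -- the differential inequality
    have hzs := hsrc z hz
    obtain ⟨c, hc, rfl⟩ : ∃ c ∈ φ.target, z = φ.symm c :=
      ⟨φ z, φ.map_source hzs, (φ.left_inv hzs).symm⟩
    obtain ⟨ζ, rfl⟩ := dch_surjective x₀ hc w
    have hcc : φ (φ.symm c) = c := φ.right_inv hc
    rw [mfderiv_fun_chart x₀ hc ((hNd _ hz).mdifferentiableAt (by simp))]
    have e1 : (fun c' : E => N (φ.symm c')) =ᶠ[𝓝 c] f := by
      filter_upwards [(isOpen_extChartAt_target x₀).mem_nhds hc] with c' hc'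
      simp only [hN]
      rw [φ.right_inv hc']
    rw [e1.fderiv_eq]
    have e2 := he _ hz ζ
    rw [hcc] at e2
    have e3 : N (φ.symm c) = f c := by simp only [hN]; rw [hcc]
    rw [e3, ExLocB_norm_dch hG hc]
    exact e2

/-- Lower bound of the distance by the norm of the logarithm. -/
lemma FlatData.norm_log_le (h : FlatData x₀ G X L) :
    ∀ᶠ q in 𝓝 ((x₀, x₀) : M × M), ‖locL x₀ L q.1 q.2‖ ≤ dist q.1 q.2 := by
  set φ := extChartAt 𝓘(ℝ, E) x₀ with hφ
  have hφc : ContinuousAt φ x₀ := continuousAt_extChartAt x₀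
  have hpair : Tendsto (fun q : M × M => ((φ q.1, φ q.2) : E × E)) (𝓝 (x₀, x₀))
      (𝓝 (φ x₀, φ x₀)) := by
    have e1 : Tendsto (fun q : M × M => φ q.1) (𝓝 (x₀, x₀)) (𝓝 (φ x₀)) :=
      hφc.tendsto.comp (continuous_fst.tendsto (x₀, x₀))
    have e2 : Tendsto (fun q : M × M => φ q.2) (𝓝 (x₀, x₀)) (𝓝 (φ x₀)) :=
      hφc.tendsto.comp (continuous_snd.tendsto (x₀, x₀))
    exact e1.prodMk_nhds e2
  have hL0 : ∀ᶠ c in 𝓝 (φ x₀), L (c, c) = 0 := by
    have e1 : Tendsto (fun c : E => ((c, 0) : E × E)) (𝓝 (φ x₀)) (𝓝 (φ x₀, 0)) :=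
      tendsto_id.prodMk_nhds tendsto_const_nhds
    filter_upwards [e1.eventually h.logX, h.zeroX] with c h1 h2
    rw [h2] at h1
    exact h1
  have hall : ∀ᶠ q in 𝓝 ((x₀, x₀) : M × M), q.1 ∈ φ.source ∧ q.2 ∈ φ.source ∧
      L (φ q.1, φ q.1) = 0 ∧ ContDiffAt ℝ ∞ L (φ q.1, φ q.2) ∧
      ∀ ζ : E, (fderiv ℝ (fun c : E => G (φ q.1) (L (φ q.1, c)) (L (φ q.1, c))) (φ q.2) ζ) ^ 2 ≤
        4 * G (φ q.1) (L (φ q.1, φ q.2)) (L (φ q.1, φ q.2)) * G (φ q.2) ζ ζ := by
    have s1 : ∀ᶠ q in 𝓝 ((x₀, x₀) : M × M), q.1 ∈ φ.source :=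
      (continuous_fst.tendsto (x₀, x₀)).eventually (extChartAt_source_mem_nhds x₀)
    have s2 : ∀ᶠ q in 𝓝 ((x₀, x₀) : M × M), q.2 ∈ φ.source :=
      (continuous_snd.tendsto (x₀, x₀)).eventually (extChartAt_source_mem_nhds x₀)
    have s3 : ∀ᶠ q in 𝓝 ((x₀, x₀) : M × M), L (φ q.1, φ q.1) = 0 :=
      (hφc.tendsto.comp (continuous_fst.tendsto (x₀, x₀))).eventually hL0
    filter_upwards [s1, s2, s3, hpair.eventually h.smoothL, hpair.eventually h.eikonal]
      with q h1 h2 h3 h4 h5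
    exact ⟨h1, h2, h3, h4, h5⟩
  obtain ⟨R, hR, hball⟩ := Metric.eventually_nhds_iff_ball.1 hall
  have hmem : ∀ x z : M, dist x x₀ < R → dist z x₀ < R → (x, z) ∈ Metric.ball ((x₀, x₀) : M × M) R :=
    fun x z hx hz => by
      rw [Metric.mem_ball, Prod.dist_eq]
      exact max_lt hx hz
  refine Metric.eventually_nhds_iff_ball.2 ⟨R / 4, by linarith only [hR], fun q hq => ?_⟩
  rw [Metric.mem_ball, Prod.dist_eq, max_lt_iff] at hq
  obtain ⟨hq1, hq2⟩ := hq
  have hx1 : dist q.1 x₀ < R := by have := hq1; simp only at this; linarith only [hR, hq1]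
  have hz : ∀ z ∈ Metric.ball q.1 (R / 2), dist z x₀ < R := by
    intro z hz
    have e1 := dist_triangle z q.1 x₀
    have e2 := Metric.mem_ball.1 hz
    simp only at hq1
    linarith only [hR, hq1, e1, e2]
  refine ExLocB_log_aux (R := R / 2) h.metric (hball _ (hmem q.1 q.1 hx1 hx1)).1
    (hball _ (hmem q.1 q.1 hx1 hx1)).2.2.1
    (fun z hzb => (hball _ (hmem q.1 z hx1 (hz z hzb))).2.1)
    (fun z hzb => (hball _ (hmem q.1 z hx1 (hz z hzb))).2.2.2.1)
    (fun z hzb => (hball _ (hmem q.1 z hx1 (hz z hzb))).2.2.2.2) ?_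
  rw [Metric.mem_ball]
  have e1 := dist_triangle q.2 x₀ q.1
  rw [dist_comm x₀ q.1] at e1
  simp only at hq1 hq2
  linarith only [hq1, hq2, e1]

end

end Vale.Agent.P234
end
end
end

section

section

section

/-! Foundation 4: smoothness of the cost inside the injectivity domain. -/

set_option maxSynthPendingDepth 3

open Bundle Manifold Set Filter
open scoped ContDiff Manifold Topology

namespace Vale.Agent.P234

noncomputable section

variable {E : Type*} [NormedAddCommGroup E] [NormedSpace ℝ E] [FiniteDimensional ℝ E]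
  {M : Type*} [MetricSpace M] [ChartedSpace E M]
  [RiemannianBundle (fun x : M => TangentSpace 𝓘(ℝ, E) x)]
  [IsManifold 𝓘(ℝ, E) ∞ M]
  [IsContMDiffRiemannianBundle 𝓘(ℝ, E) ∞ E (fun x : M => TangentSpace 𝓘(ℝ, E) x)]
  [CompactSpace M]
  {e : ∀ x : M, TangentSpace 𝓘(ℝ, E) x → M}

/-- Existence of intermediate points in cost form. -/
lemma exists_mid_of_isExp [IsRiemannianManifold 𝓘(ℝ, E) M] [ConnectedSpace M] (he : IsExp e)
    {s t : ℝ} (hs : 0 < s) (ht : 0 < t) (x y : M) :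
    ∃ m : M, cost x y / (s + t) = cost x m / s + cost m y / t := by
  obtain ⟨v, hv, hd⟩ := hopfRinow_of_isExp he x y
  have hmin : v ∈ segMin e x := by
    show dist x (e x v) = ‖v‖
    rw [hv, hd]
  refine ⟨e x ((s / (s + t)) • v), ?_⟩
  have h0 : (0 : ℝ) ≤ s / (s + t) := by (clear * - hs ht; positivity)
  have h1 : s / (s + t) ≤ 1 := by
    rw [div_le_one (by positivity)]; linarith only [ht]
  have hA := segMin_cost he hmin le_rfl h0 h1
  have hB := segMin_cost he hmin h0 h1 le_rfl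
  have hC := segMin_cost he hmin le_rfl zero_le_one le_rfl
  simp only [zero_smul, one_smul, he.map_zero, hv, sub_zero] at hA hB hC
  rw [hA, hB, hC]
  field_simp
  ring

/-- Smoothness of the cost inside the injectivity domain. -/
lemma smooth_of_isExp [IsRiemannianManifold 𝓘(ℝ, E) M] [ConnectedSpace M] (he : IsExp e)
    (x : M) (v : TangentSpace 𝓘(ℝ, E) x) (hv : v ∈ injDomain e x) : SmoothAt E x (e x v) := by
  obtain ⟨a, ha, haV⟩ := (mem_injDomain_iff he).1 hv
  obtain ⟨ρ₁, hρ₁, hnear⟩ := exists_near he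
  obtain ⟨ρ₂, hρ₂, huniq⟩ := mid_unique he
  obtain ⟨ρ₃, hρ₃, hpos⟩ := mid_pos he
  set V : TangentSpace 𝓘(ℝ, E) x := a • v with hVdef
  set ρ := min ρ₁ (min ρ₂ ρ₃) with hρ
  have hρ0 : 0 < ρ := lt_min hρ₁ (lt_min hρ₂ hρ₃)
  have hV0 : 0 ≤ ‖V‖ := norm_nonneg _
  obtain ⟨r, hr0, hr⟩ : ∃ r : ℝ, 0 < r ∧ 2 * r * ‖V‖ < ρ := by
    refine ⟨ρ / (4 * (‖V‖ + 1)), by (clear * - hρ₁ hρ₂ hρ₃; positivity), ?_⟩
    have : 2 * (ρ / (4 * (‖V‖ + 1))) * ‖V‖ = ρ * (‖V‖ / (2 * (‖V‖ + 1))) := by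
      field_simp
      ring
    rw [this]
    have h2 : ‖V‖ / (2 * (‖V‖ + 1)) < 1 := by
      rw [div_lt_one (by positivity)]; linarith only [hV0]
    nlinarith only [hρ0, h2]
  -- small scale
  have hbase : ∀ p q : ℝ, 0 ≤ p → p ≤ q → q ≤ 1 → q - p ≤ r →
      SmoothAt E (e x (p • V)) (e x (q • V)) := by
    intro p q hp hpq hq hr'
    refine (hnear _ _ ?_).1
    rw [segMin_dist he haV hp hpq hq]
    have h1 : (q - p) * ‖V‖ ≤ r * ‖V‖ := mul_le_mul_of_nonneg_right hr' hV0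
    have h2 : r * ‖V‖ ≤ 2 * r * ‖V‖ := by nlinarith only [hV0, hr0]
    have h3 : ρ ≤ ρ₁ := min_le_left _ _
    linarith
  have hind : ∀ n : ℕ, ∀ p q : ℝ, 0 ≤ p → p ≤ q → q < 1 → q - p ≤ n * r →
      SmoothAt E (e x (p • V)) (e x (q • V)) := by
    intro n
    induction n with
    | zero =>
      intro p q hp hpq hq hn
      refine hbase p q hp hpq hq.le ?_
      simp only [Nat.cast_zero, zero_mul] at hn
      linarith only [hr0, hn]
    | succ n ih =>
      intro p q hp hpq hq hn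
      rcases le_or_gt (q - p) r with h | h
      · exact hbase p q hp hpq hq.le h
      set ε := min (1 - q) r with hε
      have hε0 : 0 < ε := lt_min (by linarith only [hq]) hr0
      have hε1 : q + ε ≤ 1 := by
        have : ε ≤ 1 - q := min_le_left _ _
        linarith only [this]
      have hsc : (r + ε) * ‖V‖ < ρ := by
        have h1 : ε ≤ r := min_le_right _ _
        have h2 : (r + ε) * ‖V‖ ≤ (2 * r) * ‖V‖ :=
          mul_le_mul_of_nonneg_right (by linarith only [h1]) hV0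
        linarith only [hr, h2]
      have hsm1 : SmoothAt E (e x (p • V)) (e x ((q - r) • V)) := by
        refine ih p (q - r) hp (by linarith only [h]) (by linarith only [hr0, hq]) ?_
        push_cast at hn
        linarith only [hn]
      have hsm2 : SmoothAt E (e x ((q - r) • V)) (e x (q • V)) :=
        hbase (q - r) q (by linarith only [hp, h]) (by linarith only [hr0]) hq.le (by linarith only [])
      exact core_smooth he (s := q - r - p) (t := r) (by linarith only [h]) hr0 hsm1 hsm2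
        (exists_mid_of_isExp he (by linarith only [h]) hr0)
        (huniq x V haV p q r ε hp (by linarith only [h]) hr0 hε0 hε1
          (lt_of_lt_of_le hsc ((min_le_right _ _).trans (min_le_left _ _))))
        (hpos x V haV p q r ε hp (by linarith only [h]) hr0 hε0 hε1
          (lt_of_lt_of_le hsc ((min_le_right _ _).trans (min_le_right _ _))) hsm1)
  obtain ⟨n, hn⟩ := exists_nat_ge (1 / r)
  have ha0 : a ≠ 0 := by linarith only [ha]
  have hfin := hind n 0 (1 / a) le_rfl (by positivity)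
    (by rw [div_lt_one (by linarith only [ha])]; exact ha) (by
      rw [div_le_iff₀ hr0] at hn
      have : 1 / a < 1 := by rw [div_lt_one (by linarith only [ha])]; exact ha
      linarith)
  rw [zero_smul, he.map_zero, hVdef, smul_smul, one_div, inv_mul_cancel₀ ha0, one_smul] at hfin
  exact hfin

end

end Vale.Agent.P234
end
end
end

section

section

section

/-! Foundation 5: all the facts. -/

set_option maxSynthPendingDepth 3

open Bundle Manifold Set Filter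
open scoped ContDiff Manifold Topology

namespace Vale.Agent.P234

noncomputable section

variable {E : Type*} [NormedAddCommGroup E] [NormedSpace ℝ E] [FiniteDimensional ℝ E]
  {M : Type*} [MetricSpace M] [ChartedSpace E M]
  [RiemannianBundle (fun x : M => TangentSpace 𝓘(ℝ, E) x)]
  [IsManifold 𝓘(ℝ, E) ∞ M]
  [IsContMDiffRiemannianBundle 𝓘(ℝ, E) ∞ E (fun x : M => TangentSpace 𝓘(ℝ, E) x)]
  [CompactSpace M]
  {e : ∀ x : M, TangentSpace 𝓘(ℝ, E) x → M}

theorem facts_of_isExp [IsRiemannianManifold 𝓘(ℝ, E) M] [ConnectedSpace M] (he : IsExp e) :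
    Facts e :=
  ⟨he, hopfRinow_of_isExp he, flow_of_isExp he, smooth_of_isExp he⟩

end

end Vale.Agent.P234
end
end
end

section

section

section

open Matrix Real Set Filter Topology MeasureTheory
open scoped ContDiff

namespace Vale.Agent.P231

noncomputable section

section Basic

variable {ι : Type*} [Fintype ι] [DecidableEq ι] {D : ℝ} {A : ℝ → ℝ → Matrix ι ι ℝ}

/-- Conjugation by a constant orthogonal matrix. -/
theorem JData.conj {μ : Type*} [Fintype μ] [DecidableEq μ] (h : JData D A)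
    {O : Matrix ι μ ℝ} (h1 : Oᵀ * O = 1) (h2 : O * Oᵀ = 1) :
    JData D (fun s t => Oᵀ * A s t * O) := by
  have hinv : ∀ M : Matrix ι ι ℝ, IsUnit M → (Oᵀ * M * O)⁻¹ = Oᵀ * M⁻¹ * O := by
    intro M hM
    apply Matrix.inv_eq_right_inv
    have hdet : IsUnit M.det := (Matrix.isUnit_iff_isUnit_det M).1 hM
    calc Oᵀ * M * O * (Oᵀ * M⁻¹ * O) = Oᵀ * M * (O * Oᵀ) * M⁻¹ * O := by
          simp only [Matrix.mul_assoc]
      _ = Oᵀ * (M * M⁻¹) * O := by rw [h2]; simp only [Matrix.mul_assoc, Matrix.one_mul]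
      _ = 1 := by rw [Matrix.mul_nonsing_inv _ hdet, Matrix.mul_one, h1]
  have hcomp : ∀ M N : Matrix ι ι ℝ, Oᵀ * M * O * (Oᵀ * N * O) = Oᵀ * (M * N) * O := by
    intro M N
    calc Oᵀ * M * O * (Oᵀ * N * O) = Oᵀ * M * (O * Oᵀ) * N * O := by
          simp only [Matrix.mul_assoc]
      _ = Oᵀ * (M * N) * O := by rw [h2]; simp only [Matrix.mul_assoc, Matrix.one_mul]
  have htr : ∀ M : Matrix ι ι ℝ, (Oᵀ * M * O)ᵀ = Oᵀ * Mᵀ * O := by
    intro M
    simp only [Matrix.transpose_mul, Matrix.transpose_transpose, Matrix.mul_assoc]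
  have hunit : ∀ M : Matrix ι ι ℝ, IsUnit M → IsUnit (Oᵀ * M * O) := by
    intro M hM
    have hdet : IsUnit M.det := (Matrix.isUnit_iff_isUnit_det M).1 hM
    have : Oᵀ * M * O * (Oᵀ * M⁻¹ * O) = 1 := by
      rw [hcomp, Matrix.mul_nonsing_inv _ hdet, Matrix.mul_one, h1]
    exact (Matrix.isUnit_iff_isUnit_det _).2 (Matrix.isUnit_det_of_right_inverse this)
  have hunit' : ∀ M : Matrix ι ι ℝ, IsUnit (Oᵀ * M * O) → IsUnit M := by
    intro M hM
    have e : M = O * (Oᵀ * M * O) * Oᵀ := by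
      calc M = (O * Oᵀ) * M * (O * Oᵀ) := by rw [h2]; simp
        _ = O * (Oᵀ * M * O) * Oᵀ := by simp only [Matrix.mul_assoc]
    have hdet : IsUnit (Oᵀ * M * O).det := (Matrix.isUnit_iff_isUnit_det _).1 hM
    have : M * (O * (Oᵀ * M * O)⁻¹ * Oᵀ) = 1 := by
      calc M * (O * (Oᵀ * M * O)⁻¹ * Oᵀ)
          = (O * Oᵀ) * M * O * (Oᵀ * M * O)⁻¹ * Oᵀ := by
            rw [h2]; simp only [Matrix.mul_assoc, Matrix.one_mul]
        _ = O * ((Oᵀ * M * O) * (Oᵀ * M * O)⁻¹) * Oᵀ := by simp only [Matrix.mul_assoc]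
        _ = 1 := by rw [Matrix.mul_nonsing_inv _ hdet, Matrix.mul_one, h2]
    exact (Matrix.isUnit_iff_isUnit_det _).2 (Matrix.isUnit_det_of_right_inverse this)
  refine ⟨h.pos, ?_, ?_, ?_, ?_, ?_, ?_, ?_⟩
  · intro s; simp only [h.diag s, Matrix.mul_zero, Matrix.zero_mul]
  · intro s t
    rw [h.anti s t, htr]
    simp only [Matrix.mul_neg, Matrix.neg_mul]
  · intro s t a b hab
    have hab' := hunit' _ hab
    have hba' : IsUnit (A b a) := by
      rw [h.anti a b]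
      exact ((Matrix.isUnit_transpose _).2 hab').neg
    show Oᵀ * A s t * O = Oᵀ * A a t * O * (Oᵀ * A a b * O)⁻¹ * (Oᵀ * A s b * O) +
      Oᵀ * A b t * O * (Oᵀ * A b a * O)⁻¹ * (Oᵀ * A s a * O)
    rw [h.rel s t a b hab', hinv _ hab', hinv _ hba', hcomp, hcomp, hcomp, hcomp,
      Matrix.mul_add, Matrix.add_mul]
  · intro a b i j
    have e : (fun t => ((Oᵀ * A a t * O)ᵀ * (Oᵀ * A b t * O)) i j) =
        fun t => ∑ y, ∑ x, Oᵀ i x * ((A a t)ᵀ * A b t) x y * O y j := by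
      funext t
      rw [htr, hcomp]
      simp only [Matrix.mul_apply, Finset.sum_mul]
    rw [e]
    refine ContDiff.sum fun y _ => ContDiff.sum fun x _ => ?_
    exact (contDiff_const.mul (h.smooth a b x y)).mul contDiff_const
  · intro a b i j
    have e : (fun t => ((Oᵀ * A a t * O)ᵀ * (Oᵀ * A b t * O)) i j) =
        fun t => ∑ y, ∑ x, Oᵀ i x * ((A a t)ᵀ * A b t) x y * O y j := by
      funext t
      rw [htr, hcomp]
      simp only [Matrix.mul_apply, Finset.sum_mul]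
    have e2 : (Oᵀ * A a b * O) j i = ∑ y, ∑ x, Oᵀ i x * (A a b y x) * O y j := by
      simp only [Matrix.mul_apply, Finset.sum_mul, Matrix.transpose_apply]
      rw [Finset.sum_comm]
      refine Finset.sum_congr rfl fun y _ => Finset.sum_congr rfl fun x _ => ?_
      ring
    show HasDerivAt (fun t => ((Oᵀ * A a t * O)ᵀ * (Oᵀ * A b t * O)) i j)
      ((Oᵀ * A a b * O) j i) b
    rw [e, e2]
    refine HasDerivAt.fun_sum fun y _ => HasDerivAt.fun_sum fun x _ => ?_
    exact ((h.der a b x y).const_mul _).mul_const _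
  · intro s t
    show Oᵀ * A s (t + 2 * D) * O = _
    rw [h.per]
  · intro s t h3 h4
    exact hunit _ (h.unit s t h3 h4)


theorem JData.unit_symm_aux (h : JData D A) {s t : ℝ} (hu : IsUnit (A s t)) :
    IsUnit (A t s) := by
  rw [h.anti s t]
  exact ((Matrix.isUnit_transpose _).2 hu).neg

/-- Translation of the parameter. -/
theorem JData.shift (h : JData D A) (c : ℝ) : JData D (fun s t => A (c + s) (c + t)) := by
  refine ⟨h.pos, fun s => h.diag _, fun s t => h.anti _ _, fun s t a b hab => h.rel _ _ _ _ hab,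
    ?_, ?_, ?_, ?_⟩
  · intro a b i j
    exact (h.smooth (c + a) (c + b) i j).comp (contDiff_const.add contDiff_id)
  · intro a b i j
    have h1 := h.der (c + a) (c + b) i j
    have h2 : HasDerivAt (fun t : ℝ => c + t) 1 b := by
      simpa using (hasDerivAt_id b).const_add c
    have h3 := h1.comp b h2
    simpa using! h3
  · intro s t
    show A (c + s) (c + (t + 2 * D)) = _
    rw [← add_assoc, h.per]
  · intro s t h1 h2
    exact h.unit _ _ (by (clear * - h1; linarith)) (by linarith only [h2])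

/-- Reversal of the parameter. -/
theorem JData.reverse (h : JData D A) : JData D (fun s t => -A (-s) (-t)) := by
  refine ⟨h.pos, fun s => by simp [h.diag], ?_, ?_, ?_, ?_, ?_, ?_⟩
  · intro s t
    show -A (-t) (-s) = -(-A (-s) (-t))ᵀ
    rw [h.anti (-s) (-t)]
    simp
  · intro s t a b hab
    have hab' : IsUnit (A (-a) (-b)) := by simpa only [neg_neg] using hab.neg
    have hba' : IsUnit (A (-b) (-a)) := h.unit_symm_aux hab'
    have hinv : ∀ M : Matrix ι ι ℝ, IsUnit M → (-M)⁻¹ = -M⁻¹ := by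
      intro M hM
      apply Matrix.inv_eq_right_inv
      rw [neg_mul_neg, Matrix.mul_nonsing_inv _ ((Matrix.isUnit_iff_isUnit_det M).1 hM)]
    show -A (-s) (-t) = -A (-a) (-t) * (-A (-a) (-b))⁻¹ * -A (-s) (-b) +
      -A (-b) (-t) * (-A (-b) (-a))⁻¹ * -A (-s) (-a)
    rw [hinv _ hab', hinv _ hba', h.rel (-s) (-t) (-a) (-b) hab']
    simp only [neg_mul, mul_neg, neg_neg, neg_add]
  · intro a b i j
    have := (h.smooth (-a) (-b) i j).comp (contDiff_neg (𝕜 := ℝ) (F := ℝ) (n := ∞))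
    have e : (fun t => ((-A (-a) (-t))ᵀ * -A (-b) (-t)) i j) =
        (fun t => ((A (-a) t)ᵀ * A (-b) t) i j) ∘ fun t => -t := by
      funext t
      simp only [transpose_neg, mul_neg, neg_mul, Matrix.neg_apply, neg_neg, Function.comp]
    rw [e]
    exact this
  · intro a b i j
    have h1 := h.der (-a) (-b) i j
    have h2 : HasDerivAt (fun t : ℝ => -t) (-1) b := hasDerivAt_neg b
    have h3 := h1.comp b h2
    show HasDerivAt (fun t => ((-A (-a) (-t))ᵀ * -A (-b) (-t)) i j) ((-A (-a) (-b)) j i) b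
    have e : (fun t => ((-A (-a) (-t))ᵀ * -A (-b) (-t)) i j) =
        (fun t => ((A (-a) t)ᵀ * A (-b) t) i j) ∘ Neg.neg := by
      funext t
      simp only [transpose_neg, mul_neg, neg_mul, Matrix.neg_apply, neg_neg, Function.comp]
    rw [e]
    have e2 : (-A (-a) (-b)) j i = A (-a) (-b) j i * -1 := by simp
    rw [e2]
    exact h3
  · intro s t
    show -A (-s) (-(t + 2 * D)) = -A (-s) (-t)
    have := h.per (-s) (-(t + 2 * D))
    rw [← this]
    congr 2
    ring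
  · intro s t h1 h2
    have := h.unit (-t) (-s) (by linarith only [h1]) (by linarith only [h2])
    exact (h.unit_symm_aux this).neg

end Basic


section Frame

variable {ι : Type*} [Fintype ι] [DecidableEq ι]

open Module in
/-- An orthogonal matrix whose first columns span a given subspace. -/
theorem exists_frame (K : Submodule ℝ (ι → ℝ)) {k : ℕ} (hk : finrank ℝ K = k) :
    ∃ O : Matrix ι (Fin k ⊕ Fin (Fintype.card ι - k)) ℝ,
      Oᵀ * O = 1 ∧ O * Oᵀ = 1 ∧
      ∀ v, O *ᵥ v ∈ K ↔ ∀ j, v (Sum.inr j) = 0 := by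
  classical
  have hkle : k ≤ Fintype.card ι := by
    have := Submodule.finrank_le K
    rw [Module.finrank_fintype_fun_eq_card, hk] at this
    exact this
  set e : EuclideanSpace ℝ ι ≃ₗ[ℝ] (ι → ℝ) := WithLp.linearEquiv 2 ℝ (ι → ℝ) with he
  set K' : Submodule ℝ (EuclideanSpace ℝ ι) := K.comap e.toLinearMap with hK'
  have hK'K : ∀ x, x ∈ K' ↔ e x ∈ K := fun x => Iff.rfl
  have hfin : finrank ℝ K' = k := by
    have hmap : K'.map e.toLinearMap = K := by
      rw [hK', Submodule.map_comap_eq_of_surjective e.surjective]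
    have := LinearEquiv.finrank_map_eq e K'
    rw [hmap, hk] at this
    exact this.symm
  let b0 : OrthonormalBasis (Fin (finrank ℝ K')) ℝ K' := stdOrthonormalBasis ℝ K'
  let b1 : OrthonormalBasis (Fin k) ℝ K' := b0.reindex (finCongr hfin)
  let w : Fin k ⊕ Fin (Fintype.card ι - k) → EuclideanSpace ℝ ι :=
    Sum.elim (fun i => (b1 i : EuclideanSpace ℝ ι)) (fun _ => 0)
  have hw : Orthonormal ℝ ((Set.range (Sum.inl : Fin k → Fin k ⊕ Fin (Fintype.card ι - k))).domRestrict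
      w) := by
    rw [orthonormal_iff_ite]
    rintro ⟨_, i, rfl⟩ ⟨_, j, rfl⟩
    have hb := orthonormal_iff_ite.1 b1.orthonormal i j
    simp only [domRestrict, Sum.elim_inl, w]
    rw [← Submodule.coe_inner, hb]
    by_cases hij : i = j
    · subst hij; simp
    · have : (Sum.inl i : Fin k ⊕ Fin (Fintype.card ι - k)) ≠ Sum.inl j := by
        intro hh; exact hij (Sum.inl.inj hh)
      rw [if_neg hij, if_neg (fun hh => this (congrArg Subtype.val hh))]
  have hcard : finrank ℝ (EuclideanSpace ℝ ι) = Fintype.card (Fin k ⊕ Fin (Fintype.card ι - k)) := by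
    simp only [finrank_euclideanSpace, Fintype.card_sum, Fintype.card_fin]
    omega
  obtain ⟨b, hb⟩ := hw.exists_orthonormalBasis_extension_of_card_eq hcard
  have hbl : ∀ i, b (Sum.inl i) = (b1 i : EuclideanSpace ℝ ι) := fun i => hb _ ⟨i, rfl⟩
  let O : Matrix ι (Fin k ⊕ Fin (Fintype.card ι - k)) ℝ := Matrix.of fun i j => b j i
  have hO1 : Oᵀ * O = 1 := by
    ext i j
    rw [Matrix.mul_apply, Matrix.one_apply]
    have := orthonormal_iff_ite.1 b.orthonormal i j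
    rw [← this, PiLp.inner_apply]
    refine Finset.sum_congr rfl fun x _ => ?_
    simp [O, mul_comm]
  have hO2 : O * Oᵀ = 1 := by
    refine (Matrix.mul_eq_one_comm_of_card_eq (Fin k ⊕ Fin (Fintype.card ι - k)) ι ℝ ?_).1 hO1
    simp only [Fintype.card_sum, Fintype.card_fin]
    omega
  have hOv : ∀ v : Fin k ⊕ Fin (Fintype.card ι - k) → ℝ, O *ᵥ v = e (∑ j, v j • b j) := by
    intro v
    funext x
    rw [he]
    simp only [mulVec, dotProduct, of_apply, mul_comm, Fintype.sum_sum_type, WithLp.linearEquiv_apply, AddEquiv.toEquiv_eq_coe, Equiv.toFun_as_coe, EquivLike.coe_coe, WithLp.addEquiv_apply, PiLp.add_apply, WithLp.ofLp_sum, WithLp.ofLp_smul, Finset.sum_apply, Pi.smul_apply, smul_eq_mul, O]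
  refine ⟨O, hO1, hO2, fun v => ?_⟩
  rw [hOv, ← hK'K]
  constructor
  · intro hx j
    obtain ⟨c, hc⟩ : ∃ c : Fin k → ℝ, (∑ i, c i • (b1 i : K')) = ⟨_, hx⟩ :=
      ⟨fun i => b1.repr ⟨_, hx⟩ i, b1.sum_repr ⟨_, hx⟩⟩
    have h1 : inner ℝ (b (Sum.inr j)) (∑ j, v j • b j) = v (Sum.inr j) := by
      rw [← b.repr_apply_apply]
      have := b.toBasis.repr_sum_self v
      have h2 : b.repr (∑ j, v j • b j) = WithLp.toLp 2 v := by
        apply b.repr.symm.injective
        rw [LinearIsometryEquiv.symm_apply_apply, ← b.sum_repr_symm]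
      rw [h2]
    rw [← h1]
    have h3 : (∑ j, v j • b j) = ∑ i, c i • (b1 i : EuclideanSpace ℝ ι) := by
      have := congrArg (fun x : K' => (x : EuclideanSpace ℝ ι)) hc
      simp only [Submodule.coe_sum, Submodule.coe_smul] at this
      exact this.symm
    rw [h3, inner_sum]
    refine Finset.sum_eq_zero fun i _ => ?_
    rw [inner_smul_right, ← hbl, b.inner_eq_zero (by simp)]
    simp
  · intro hv
    rw [Fintype.sum_sum_type]
    refine K'.add_mem (K'.sum_mem fun i _ => ?_) ?_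
    · rw [hbl]
      exact K'.smul_mem _ (b1 i).2
    · rw [Finset.sum_eq_zero fun j _ => by rw [hv j, zero_smul]]
      exact K'.zero_mem

end Frame

section Adapt

variable {ι : Type*} [Fintype ι] [DecidableEq ι] {D : ℝ} {A : ℝ → ℝ → Matrix ι ι ℝ}

open Module in
theorem JData.exists_adapted (h : JData (π / 2) A) {k : ℕ}
    (hk : finrank ℝ (LinearMap.ker (A 0 (π / 2)).mulVecLin) = k) :
    ∃ O : Matrix ι (Fin k ⊕ Fin (Fintype.card ι - k)) ℝ, Oᵀ * O = 1 ∧ O * Oᵀ = 1 ∧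
      JData (π / 2) (fun s t => Oᵀ * A s t * O) ∧
      Adapted (fun s t => Oᵀ * A s t * O) := by
  obtain ⟨O, h1, h2, h3⟩ := exists_frame (LinearMap.ker (A 0 (π / 2)).mulVecLin) hk
  refine ⟨O, h1, h2, h.conj h1 h2, fun v => ?_⟩
  rw [← h3 v, LinearMap.mem_ker, Matrix.mulVecLin_apply]
  show (Oᵀ * A 0 (π / 2) * O) *ᵥ v = 0 ↔ A 0 (π / 2) *ᵥ O *ᵥ v = 0
  constructor
  · intro hv
    have := congrArg (fun u => O *ᵥ u) hv
    simp only [Matrix.mulVec_zero] at this
    rw [Matrix.mulVec_mulVec] at this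
    rw [Matrix.mulVec_mulVec]
    have e : O * (Oᵀ * A 0 (π / 2) * O) = A 0 (π / 2) * O := by
      rw [Matrix.mul_assoc, ← Matrix.mul_assoc O, h2, Matrix.one_mul]
    rw [e] at this
    exact this
  · intro hv
    rw [Matrix.mul_assoc, ← Matrix.mulVec_mulVec, ← Matrix.mulVec_mulVec, hv, Matrix.mulVec_zero]

open Module in
omit [DecidableEq ι] in
theorem card_adapted (K : Submodule ℝ (ι → ℝ)) {k : ℕ} (hk : finrank ℝ K = k) :
    Fintype.card (Fin k ⊕ Fin (Fintype.card ι - k)) = Fintype.card ι := by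
  have := Submodule.finrank_le K
  rw [Module.finrank_fintype_fun_eq_card, hk] at this
  simp only [Fintype.card_sum, Fintype.card_fin]
  omega

theorem det_conj_orth {μ : Type*} [Fintype μ] [DecidableEq μ] {O : Matrix ι μ ℝ}
    (h1 : Oᵀ * O = 1) (h2 : O * Oᵀ = 1) (M : Matrix ι ι ℝ) : (Oᵀ * M * O).det = M.det :=
  Matrix.det_conj_of_mul_eq_one h1 h2

end Adapt

section Block

variable {κ ν : Type*} [Fintype κ] [DecidableEq κ] [Fintype ν] [DecidableEq ν]

/-- The projection appearing in `core_rigid_block` is an orthogonal projection. -/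
theorem block_projection {M : Matrix (κ ⊕ ν) (κ ⊕ ν) ℝ} (hM : (Mᵀ * M).PosDef) :
    let G := (Mᵀ * M)⁻¹
    let Q := M * G * Matrix.fromBlocks 0 0 0 (G.toBlocks₂₂)⁻¹ * G * Mᵀ
    Qᵀ = Q ∧ Q * Q = Q := by
  intro G Q
  have hG : G.PosDef := hM.inv
  have hGt : Gᵀ = G := by
    have := hG.isHermitian
    rw [Matrix.IsHermitian, Matrix.conjTranspose_eq_transpose_of_trivial] at this
    exact this
  have hGM : G * (Mᵀ * M) = 1 := by
    exact Matrix.nonsing_inv_mul _ ((Matrix.isUnit_iff_isUnit_det _).1 hM.isUnit)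
  have hG22 : (G.toBlocks₂₂).PosDef := by
    have := hG.submatrix (e := (Sum.inr : ν → κ ⊕ ν)) Sum.inr_injective
    exact this
  have hXt : ((G.toBlocks₂₂)⁻¹)ᵀ = (G.toBlocks₂₂)⁻¹ := by
    have := hG22.inv.isHermitian
    rw [Matrix.IsHermitian, Matrix.conjTranspose_eq_transpose_of_trivial] at this
    exact this
  set E : Matrix (κ ⊕ ν) (κ ⊕ ν) ℝ := Matrix.fromBlocks 0 0 0 (G.toBlocks₂₂)⁻¹ with hE
  have hEt : Eᵀ = E := by
    rw [hE, Matrix.fromBlocks_transpose, hXt]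
    simp
  have hEGE : E * G * E = E := by
    conv_lhs => rw [← Matrix.fromBlocks_toBlocks G]
    rw [hE, Matrix.fromBlocks_multiply, Matrix.fromBlocks_multiply]
    simp only [zero_mul, Matrix.zero_mul, add_zero, mul_zero, Matrix.mul_zero, zero_add, Matrix.nonsing_inv_mul _ ((Matrix.isUnit_iff_isUnit_det _).1 hG22.isUnit), one_mul]
  have hQE : Q = M * G * E * G * Mᵀ := rfl
  clear_value Q
  constructor
  · rw [hQE]
    simp only [Matrix.transpose_mul, Matrix.transpose_transpose, hGt, hEt, Matrix.mul_assoc]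
  · rw [hQE]
    calc M * G * E * G * Mᵀ * (M * G * E * G * Mᵀ)
          = M * G * E * (G * (Mᵀ * M)) * G * E * G * Mᵀ := by
          simp only [Matrix.mul_assoc]
      _ = M * G * (E * G * E) * G * Mᵀ := by
          rw [hGM]; simp only [Matrix.mul_assoc, Matrix.one_mul]
      _ = M * G * E * G * Mᵀ := by rw [hEGE]

end Block

theorem eq_zero_of_eventually_left {f : ℝ → ℝ} {x : ℝ} (hf : Continuous f)
    (h : ∀ᶠ t in 𝓝[<] x, f t = 0) : f x = 0 := by
  have h1 : Tendsto f (𝓝[<] x) (𝓝 (f x)) := (hf.tendsto x).mono_left nhdsWithin_le_nhds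
  have h2 : Tendsto f (𝓝[<] x) (𝓝 0) := by
    refine tendsto_const_nhds.congr' ?_
    filter_upwards [h] with t ht
    exact ht.symm
  exact tendsto_nhds_unique h1 h2


end

end Vale.Agent.P231
end
end
end

section

section

section

/-! P231 core, C4a and C4b: the coordinate `Hc` of a system of Jacobi data. -/

open Matrix Real Set Filter Topology MeasureTheory
open scoped ContDiff

namespace Vale.Agent.P231

noncomputable section

section Coord

variable {ι : Type*} [Fintype ι] [DecidableEq ι] {D : ℝ} {A : ℝ → ℝ → Matrix ι ι ℝ}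

theorem JData.per' (h : JData D A) (s t : ℝ) : A (s + 2 * D) t = A s t := by
  rw [h.anti t (s + 2 * D), h.per t s, ← h.anti t s]

theorem JData.unit_symm (h : JData D A) {s t : ℝ} (hu : IsUnit (A s t)) : IsUnit (A t s) := by
  rw [h.anti s t]
  exact ((Matrix.isUnit_transpose _).2 hu).neg

theorem JData.unit' (h : JData D A) {s t : ℝ} (h1 : s < t) (h2 : t < s + 2 * D)
    (h3 : t ≠ s + D) : IsUnit (A s t) := by
  rcases lt_or_gt_of_ne h3 with h4 | h4
  · exact h.unit s t h1 h4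
  · have h5 : IsUnit (A (t - 2 * D) s) := h.unit (t - 2 * D) s (by linarith only [h2]) (by linarith)
    have h6 := h.unit_symm h5
    have h7 := h.per s (t - 2 * D)
    rw [sub_add_cancel] at h7
    rwa [h7]

/-- the cocycle `K_a(s,t)` -/
def Kc (A : ℝ → ℝ → Matrix ι ι ℝ) (a s t : ℝ) : Matrix ι ι ℝ :=
  (A a t)⁻¹ * A s t * ((A a s)⁻¹)ᵀ

theorem Hc_eq_Kc (A : ℝ → ℝ → Matrix ι ι ℝ) (a b t : ℝ) : Hc A a b t = Kc A a b t := rfl

theorem JData.inv_anti (h : JData D A) (s t : ℝ) : (A t s)⁻¹ = -((A s t)⁻¹)ᵀ := by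
  rw [h.anti s t, Matrix.transpose_nonsing_inv]
  by_cases hu : IsUnit ((A s t)ᵀ)
  · apply Matrix.inv_eq_left_inv
    rw [neg_mul_neg, Matrix.nonsing_inv_mul _ ((Matrix.isUnit_iff_isUnit_det _).1 hu)]
  · have h1 : ¬ IsUnit ((A s t)ᵀ).det := fun h' => hu ((Matrix.isUnit_iff_isUnit_det _).2 h')
    have h2 : ¬ IsUnit (-(A s t)ᵀ).det := by
      intro h'
      have h3 : IsUnit (-(A s t)ᵀ) := (Matrix.isUnit_iff_isUnit_det _).2 h'
      have h4 := h3.neg
      rw [neg_neg] at h4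
      exact hu h4
    rw [Matrix.nonsing_inv_apply_not_isUnit _ h1, Matrix.nonsing_inv_apply_not_isUnit _ h2,
      neg_zero]

theorem JData.Kc_add (h : JData D A) {a c s t : ℝ} (hc : IsUnit (A a c))
    (hs : IsUnit (A a s)) (ht : IsUnit (A a t)) :
    Kc A a s t = Kc A a s c + Kc A a c t := by
  have hs' := (Matrix.isUnit_iff_isUnit_det _).1 hs
  have ht' := (Matrix.isUnit_iff_isUnit_det _).1 ht
  have e1 : (A a s)ᵀ * ((A a s)⁻¹)ᵀ = 1 := by
    rw [← Matrix.transpose_mul, Matrix.nonsing_inv_mul _ hs', Matrix.transpose_one]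
  have e2 : (A a t)⁻¹ * A a t = 1 := Matrix.nonsing_inv_mul _ ht'
  unfold Kc
  rw [h.rel s t a c hc, h.inv_anti a c, h.anti a s, Matrix.mul_add, Matrix.add_mul]
  congr 1
  · calc (A a t)⁻¹ * (A a t * (A a c)⁻¹ * A s c) * ((A a s)⁻¹)ᵀ
        = ((A a t)⁻¹ * A a t) * (A a c)⁻¹ * A s c * ((A a s)⁻¹)ᵀ := by
          simp only [Matrix.mul_assoc]
      _ = (A a c)⁻¹ * A s c * ((A a s)⁻¹)ᵀ := by rw [e2, Matrix.one_mul]
  · calc (A a t)⁻¹ * (A c t * -((A a c)⁻¹)ᵀ * -(A a s)ᵀ) * ((A a s)⁻¹)ᵀ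
        = (A a t)⁻¹ * A c t * ((A a c)⁻¹)ᵀ * ((A a s)ᵀ * ((A a s)⁻¹)ᵀ) := by
          simp only [Matrix.mul_assoc, Matrix.neg_mul, Matrix.mul_neg, neg_neg]
      _ = (A a t)⁻¹ * A c t * ((A a c)⁻¹)ᵀ := by rw [e1, Matrix.mul_one]

theorem JData.Kc_self (h : JData D A) (a s : ℝ) : Kc A a s s = 0 := by
  simp [Kc, h.diag s]

theorem JData.Kc_transpose (h : JData D A) (a s t : ℝ) :
    (Kc A a s t)ᵀ = -Kc A a t s := by
  unfold Kc
  rw [h.anti s t]
  simp only [Matrix.transpose_mul, Matrix.transpose_transpose, Matrix.mul_neg, Matrix.neg_mul,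
    neg_neg, Matrix.mul_assoc]

theorem JData.Kc_anti (h : JData D A) {a s t : ℝ} (hs : IsUnit (A a s)) (ht : IsUnit (A a t)) :
    Kc A a t s = -Kc A a s t := by
  have h1 := h.Kc_add ht hs hs
  rw [h.Kc_self] at h1
  exact eq_neg_of_add_eq_zero_right h1.symm

theorem JData.Kc_symm (h : JData D A) {a s t : ℝ} (hs : IsUnit (A a s)) (ht : IsUnit (A a t)) :
    (Kc A a s t)ᵀ = Kc A a s t := by
  rw [h.Kc_transpose, h.Kc_anti hs ht, neg_neg]

/-- `K_a(s,t) = H(t) - H(s)`. -/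
theorem JData.Kc_eq_sub (h : JData D A) {a b s t : ℝ} (hb : IsUnit (A a b))
    (hs : IsUnit (A a s)) (ht : IsUnit (A a t)) :
    Kc A a s t = Hc A a b t - Hc A a b s := by
  rw [Hc_eq_Kc, Hc_eq_Kc, h.Kc_add hb hs ht, h.Kc_anti hb hs]
  abel

theorem JData.Hc_symm (h : JData D A) {a b t : ℝ} (hb : IsUnit (A a b)) (ht : IsUnit (A a t)) :
    (Hc A a b t)ᵀ = Hc A a b t := h.Kc_symm hb ht

theorem JData.factor (h : JData D A) {a b s t : ℝ} (hb : IsUnit (A a b))
    (hs : IsUnit (A a s)) (ht : IsUnit (A a t)) :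
    A s t = A a t * (Hc A a b t - Hc A a b s) * (A a s)ᵀ := by
  have hs' := (Matrix.isUnit_iff_isUnit_det _).1 hs
  have ht' := (Matrix.isUnit_iff_isUnit_det _).1 ht
  have e1 : ((A a s)⁻¹)ᵀ * (A a s)ᵀ = 1 := by
    rw [← Matrix.transpose_mul, Matrix.mul_nonsing_inv _ hs', Matrix.transpose_one]
  have e2 : A a t * (A a t)⁻¹ = 1 := Matrix.mul_nonsing_inv _ ht'
  rw [← h.Kc_eq_sub hb hs ht]
  unfold Kc
  calc A s t = (A a t * (A a t)⁻¹) * A s t * (((A a s)⁻¹)ᵀ * (A a s)ᵀ) := by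
        rw [e1, e2, Matrix.one_mul, Matrix.mul_one]
    _ = A a t * ((A a t)⁻¹ * A s t * ((A a s)⁻¹)ᵀ) * (A a s)ᵀ := by
        simp only [Matrix.mul_assoc]

theorem det_Gm (A : ℝ → ℝ → Matrix ι ι ℝ) (a t : ℝ) : (Gm A a t).det = (A a t).det ^ 2 := by
  rw [Gm, Matrix.det_mul, Matrix.det_transpose, sq]

theorem log_abs_det_eq (A : ℝ → ℝ → Matrix ι ι ℝ) (a t : ℝ) :
    log |(A a t).det| = log (Gm A a t).det / 2 := by
  rw [det_Gm, Real.log_pow, Real.log_abs]
  push_cast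
  ring

theorem JData.abs_det (h : JData D A) {a b s t : ℝ} (hb : IsUnit (A a b))
    (hs : IsUnit (A a s)) (ht : IsUnit (A a t)) (hst : IsUnit (A s t)) :
    log |(A s t).det| = log |(Hc A a b t - Hc A a b s).det|
      + log (Gm A a t).det / 2 + log (Gm A a s).det / 2 := by
  have hs' := ((Matrix.isUnit_iff_isUnit_det _).1 hs).ne_zero
  have ht' := ((Matrix.isUnit_iff_isUnit_det _).1 ht).ne_zero
  have hst' := ((Matrix.isUnit_iff_isUnit_det _).1 hst).ne_zero
  have e : (A s t).det = (A a t).det * (Hc A a b t - Hc A a b s).det * (A a s).det := by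
    conv_lhs => rw [h.factor hb hs ht]
    rw [Matrix.det_mul, Matrix.det_mul, Matrix.det_transpose]
  have hX : (Hc A a b t - Hc A a b s).det ≠ 0 := by
    intro h0
    rw [h0] at e
    exact hst' (by rw [e]; ring)
  rw [← log_abs_det_eq, ← log_abs_det_eq, e, abs_mul, abs_mul,
    Real.log_mul (mul_ne_zero (abs_ne_zero.2 ht') (abs_ne_zero.2 hX)) (abs_ne_zero.2 hs'),
    Real.log_mul (abs_ne_zero.2 ht') (abs_ne_zero.2 hX)]
  ring

theorem Gm_inv (A : ℝ → ℝ → Matrix ι ι ℝ) (a t : ℝ) :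
    (Gm A a t)⁻¹ = (A a t)⁻¹ * ((A a t)⁻¹)ᵀ := by
  rw [Gm, Matrix.mul_inv_rev, Matrix.transpose_nonsing_inv]

theorem JData.trace_inv (h : JData D A) {a b s t : ℝ} (hb : IsUnit (A a b))
    (hs : IsUnit (A a s)) (ht : IsUnit (A a t)) (_hst : IsUnit (A s t)) :
    ((A s t)⁻¹ * ((A s t)⁻¹)ᵀ).trace =
      ((Hc A a b t - Hc A a b s)⁻¹ * (Gm A a s)⁻¹ * (Hc A a b t - Hc A a b s)⁻¹
        * (Gm A a t)⁻¹).trace := by
  have hsym : ((Hc A a b t - Hc A a b s)⁻¹)ᵀ = (Hc A a b t - Hc A a b s)⁻¹ := by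
    rw [Matrix.transpose_nonsing_inv, Matrix.transpose_sub, h.Hc_symm hb ht, h.Hc_symm hb hs]
  set X := Hc A a b t - Hc A a b s with hX
  have e : (A s t)⁻¹ = ((A a s)⁻¹)ᵀ * X⁻¹ * (A a t)⁻¹ := by
    conv_lhs => rw [h.factor hb hs ht, ← hX]
    rw [Matrix.mul_inv_rev, Matrix.mul_inv_rev, Matrix.transpose_nonsing_inv, Matrix.mul_assoc]
  rw [e, Gm_inv, Gm_inv]
  rw [show ((((A a s)⁻¹)ᵀ * X⁻¹ * (A a t)⁻¹)ᵀ) = ((A a t)⁻¹)ᵀ * X⁻¹ * (A a s)⁻¹ by
    rw [Matrix.transpose_mul, Matrix.transpose_mul, hsym, Matrix.transpose_transpose,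
      Matrix.mul_assoc]]
  calc (((A a s)⁻¹)ᵀ * X⁻¹ * (A a t)⁻¹ * (((A a t)⁻¹)ᵀ * X⁻¹ * (A a s)⁻¹)).trace
      = (((A a s)⁻¹)ᵀ * (X⁻¹ * (A a t)⁻¹ * (((A a t)⁻¹)ᵀ * X⁻¹ * (A a s)⁻¹))).trace := by
        simp only [Matrix.mul_assoc]
    _ = ((X⁻¹ * (A a t)⁻¹ * (((A a t)⁻¹)ᵀ * X⁻¹ * (A a s)⁻¹)) * ((A a s)⁻¹)ᵀ).trace :=
        Matrix.trace_mul_comm _ _
    _ = ((X⁻¹ * ((A a t)⁻¹ * ((A a t)⁻¹)ᵀ)) * (X⁻¹ * ((A a s)⁻¹ * ((A a s)⁻¹)ᵀ))).trace := by
        simp only [Matrix.mul_assoc]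
    _ = ((X⁻¹ * ((A a s)⁻¹ * ((A a s)⁻¹)ᵀ)) * (X⁻¹ * ((A a t)⁻¹ * ((A a t)⁻¹)ᵀ))).trace :=
        Matrix.trace_mul_comm _ _
    _ = _ := by simp only [Matrix.mul_assoc]

theorem JData.Gm_posDef (_h : JData D A) {a t : ℝ} (ht : IsUnit (A a t)) :
    (Gm A a t).PosDef := by
  have h1 := (Matrix.PosDef.conjTranspose_mul_self (A a t)
    (Matrix.mulVec_injective_iff_isUnit.2 ht))
  rwa [Matrix.conjTranspose_eq_transpose_of_trivial] at h1

theorem JData.Gm_contDiff (h : JData D A) (a : ℝ) (i j : ι) :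
    ContDiff ℝ ∞ (fun t => Gm A a t i j) := h.smooth a a i j

/-! ### smoothness of matrix expressions, entrywise -/

theorem contDiffAt_det_entry {n : WithTop ℕ∞} {f : ℝ → Matrix ι ι ℝ} {t : ℝ}
    (hf : ∀ i j, ContDiffAt ℝ n (fun t => f t i j) t) :
    ContDiffAt ℝ n (fun t => (f t).det) t := by
  have e : (fun t => (f t).det) = fun t => ∑ σ : Equiv.Perm ι,
      ((Equiv.Perm.sign σ : ℤ) : ℝ) * ∏ i, f t (σ i) i := by
    funext t
    rw [Matrix.det_apply']
  rw [e]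
  refine ContDiffAt.sum fun σ _ => ?_
  exact contDiffAt_const.mul (contDiffAt_prod fun i _ => hf _ _)

theorem contDiffAt_adjugate_entry {n : WithTop ℕ∞} {f : ℝ → Matrix ι ι ℝ} {t : ℝ}
    (hf : ∀ i j, ContDiffAt ℝ n (fun t => f t i j) t) (i j : ι) :
    ContDiffAt ℝ n (fun t => (f t).adjugate i j) t := by
  have e : (fun t => (f t).adjugate i j) =
      fun t => ((f t).updateRow j (Pi.single i 1)).det := by
    funext t
    rw [Matrix.adjugate_apply]
  rw [e]
  refine contDiffAt_det_entry fun k l => ?_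
  by_cases hk : k = j
  · subst hk
    simp only [Matrix.updateRow_self]
    exact contDiffAt_const
  · simp only [Matrix.updateRow_ne hk]
    exact hf k l

theorem contDiffAt_inv_entry {n : WithTop ℕ∞} {f : ℝ → Matrix ι ι ℝ} {t : ℝ}
    (hf : ∀ i j, ContDiffAt ℝ n (fun t => f t i j) t) (hu : IsUnit (f t)) (i j : ι) :
    ContDiffAt ℝ n (fun t => (f t)⁻¹ i j) t := by
  have e : (fun t => (f t)⁻¹ i j) = fun t => ((f t).det)⁻¹ * (f t).adjugate i j := by
    funext t
    rw [Matrix.inv_def, Matrix.smul_apply, smul_eq_mul, Ring.inverse_eq_inv']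
  rw [e]
  exact ((contDiffAt_det_entry hf).inv ((Matrix.isUnit_iff_isUnit_det _).1 hu).ne_zero).mul
    (contDiffAt_adjugate_entry hf i j)

omit [DecidableEq ι] in
theorem contDiffAt_mul_entry {n : WithTop ℕ∞} {f g : ℝ → Matrix ι ι ℝ} {t : ℝ}
    (hf : ∀ i j, ContDiffAt ℝ n (fun t => f t i j) t)
    (hg : ∀ i j, ContDiffAt ℝ n (fun t => g t i j) t) (i j : ι) :
    ContDiffAt ℝ n (fun t => (f t * g t) i j) t := by
  simp only [Matrix.mul_apply]
  exact ContDiffAt.sum fun k _ => (hf i k).mul (hg k j)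

theorem JData.isOpen_unit (h : JData D A) (a : ℝ) : IsOpen {t | IsUnit (A a t)} := by
  have e : {t | IsUnit (A a t)} = (fun t => (Gm A a t).det) ⁻¹' {0}ᶜ := by
    ext t
    simp only [Set.mem_ofPred_eq, mem_preimage, mem_compl_iff, mem_singleton_iff]
    rw [Matrix.isUnit_iff_isUnit_det, isUnit_iff_ne_zero, det_Gm]
    exact (pow_eq_zero_iff two_ne_zero).not.symm
  rw [e]
  refine isOpen_compl_singleton.preimage ?_
  refine continuous_iff_continuousAt.2 fun t => ?_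
  exact (contDiffAt_det_entry (n := ∞)
    (fun i j => (h.Gm_contDiff a i j).contDiffAt)).continuousAt

theorem Kc_eq_Gm (A : ℝ → ℝ → Matrix ι ι ℝ) {a s t : ℝ} (ht : IsUnit (A a t)) :
    Kc A a s t = (Gm A a t)⁻¹ * ((A a t)ᵀ * A s t) * ((A a s)⁻¹)ᵀ := by
  have ht' := (Matrix.isUnit_iff_isUnit_det _).1 ht
  have e1 : ((A a t)⁻¹)ᵀ * (A a t)ᵀ = 1 := by
    rw [← Matrix.transpose_mul, Matrix.mul_nonsing_inv _ ht', Matrix.transpose_one]
  rw [Gm_inv, Kc]
  calc (A a t)⁻¹ * A s t * ((A a s)⁻¹)ᵀ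
      = (A a t)⁻¹ * (((A a t)⁻¹)ᵀ * (A a t)ᵀ) * A s t * ((A a s)⁻¹)ᵀ := by
        rw [e1, Matrix.mul_one]
    _ = _ := by simp only [Matrix.mul_assoc]

theorem isUnit_Gm {A : ℝ → ℝ → Matrix ι ι ℝ} {a t : ℝ} (ht : IsUnit (A a t)) :
    IsUnit (Gm A a t) := ((Matrix.isUnit_transpose _).2 ht).mul ht

theorem JData.Gm_inv_contDiffAt (h : JData D A) {a t : ℝ} (ht : IsUnit (A a t)) (i j : ι) :
    ContDiffAt ℝ ∞ (fun t => (Gm A a t)⁻¹ i j) t :=
  contDiffAt_inv_entry (f := fun t => Gm A a t)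
    (fun p q => (h.Gm_contDiff a p q).contDiffAt) (isUnit_Gm ht) i j

theorem JData.Kc_contDiffAt (h : JData D A) {a b t : ℝ}
    (ht : IsUnit (A a t)) (i j : ι) : ContDiffAt ℝ ∞ (fun t => Kc A a b t i j) t := by
  have h0 : ∀ i j, ContDiffAt ℝ ∞
      (fun t => ((Gm A a t)⁻¹ * ((A a t)ᵀ * A b t)) i j) t := fun i j =>
    contDiffAt_mul_entry (f := fun t => (Gm A a t)⁻¹) (g := fun t => (A a t)ᵀ * A b t)
      (fun p q => h.Gm_inv_contDiffAt ht p q) (fun p q => (h.smooth a b p q).contDiffAt) i j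
  have h1 : ContDiffAt ℝ ∞
      (fun t => ((Gm A a t)⁻¹ * ((A a t)ᵀ * A b t) * ((A a b)⁻¹)ᵀ) i j) t :=
    contDiffAt_mul_entry (f := fun t => (Gm A a t)⁻¹ * ((A a t)ᵀ * A b t))
      (g := fun _ => ((A a b)⁻¹)ᵀ) h0 (fun k l => contDiffAt_const) i j
  refine h1.congr_of_eventuallyEq ?_
  filter_upwards [(h.isOpen_unit a).mem_nhds ht] with t' ht'
  rw [Kc_eq_Gm A ht']

theorem JData.Hc_contDiffAt (h : JData D A) {a b t : ℝ} (_hb : IsUnit (A a b))
    (ht : IsUnit (A a t)) (i j : ι) : ContDiffAt ℝ ∞ (fun t => Hc A a b t i j) t :=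
  h.Kc_contDiffAt ht i j

theorem JData.Kc_hasDerivAt_self (h : JData D A) {a t : ℝ} (ht : IsUnit (A a t)) (i j : ι) :
    HasDerivAt (fun t' => Kc A a t t' i j) ((Gm A a t)⁻¹ i j) t := by
  have ht' := (Matrix.isUnit_iff_isUnit_det _).1 ht
  -- derivative of `(Gm A a t')⁻¹ * ((A a t')ᵀ * A t t') * ((A a t)⁻¹)ᵀ`
  have hG : ∀ p q, DifferentiableAt ℝ (fun t' => (Gm A a t')⁻¹ p q) t := fun p q =>
    (h.Gm_inv_contDiffAt ht p q).differentiableAt (by simp)
  have hM : ∀ p q, HasDerivAt (fun t' => ((A a t')ᵀ * A t t') p q) ((A a t)ᵀ p q) t :=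
    fun p q => h.der a t p q
  have hM0 : (A a t)ᵀ * A t t = 0 := by rw [h.diag, Matrix.mul_zero]
  have h1 : HasDerivAt
      (fun t' => ((Gm A a t')⁻¹ * ((A a t')ᵀ * A t t') * ((A a t)⁻¹)ᵀ) i j)
      (((Gm A a t)⁻¹ * (A a t)ᵀ * ((A a t)⁻¹)ᵀ) i j) t := by
    show HasDerivAt (fun t' => ∑ l, (∑ k, (Gm A a t')⁻¹ i k * ((A a t')ᵀ * A t t') k l)
        * ((A a t)⁻¹)ᵀ l j)
      (∑ l, (∑ k, (Gm A a t)⁻¹ i k * (A a t)ᵀ k l) * ((A a t)⁻¹)ᵀ l j) t
    refine HasDerivAt.fun_sum fun l _ => ?_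
    refine HasDerivAt.mul_const ?_ _
    refine HasDerivAt.fun_sum fun k _ => ?_
    have h2 := (hG i k).hasDerivAt.mul (hM k l)
    have h3 : ((A a t)ᵀ * A t t) k l = 0 := by rw [hM0]; rfl
    rw [h3, mul_zero, zero_add] at h2
    exact h2
  have h4 : (Gm A a t)⁻¹ * (A a t)ᵀ * ((A a t)⁻¹)ᵀ = (Gm A a t)⁻¹ := by
    rw [Matrix.mul_assoc, ← Matrix.transpose_mul, Matrix.nonsing_inv_mul _ ht',
      Matrix.transpose_one, Matrix.mul_one]
  rw [h4] at h1
  refine h1.congr_of_eventuallyEq ?_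
  filter_upwards [(h.isOpen_unit a).mem_nhds ht] with t' ht'
  rw [Kc_eq_Gm A ht']

theorem JData.Hc_hasDerivAt (h : JData D A) {a b t : ℝ} (hb : IsUnit (A a b))
    (ht : IsUnit (A a t)) (i j : ι) :
    HasDerivAt (fun t => Hc A a b t i j) ((Gm A a t)⁻¹ i j) t := by
  have h1 := (h.Kc_hasDerivAt_self ht i j).const_add (Hc A a b t i j)
  refine h1.congr_of_eventuallyEq ?_
  filter_upwards [(h.isOpen_unit a).mem_nhds ht] with t' ht'
  rw [h.Kc_eq_sub hb ht ht', Matrix.sub_apply]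
  ring

/-- rescaling to `D = π / 2` -/
theorem JData.scale (h : JData D A) :
    JData (π / 2) (fun s t => (π / (2 * D)) • A (s * (2 * D / π)) (t * (2 * D / π))) := by
  have hD := h.pos
  have hπ := Real.pi_pos
  set c := π / (2 * D) with hc
  set k := 2 * D / π with hk
  have hc0 : c ≠ 0 := by (clear * - hD; positivity)
  have hk0 : 0 < k := by positivity
  have hck : c * k = 1 := by rw [hc, hk]; field_simp
  have hkπ : k * π = 2 * D := by rw [hk]; field_simp
  refine ⟨by positivity, ?_, ?_, ?_, ?_, ?_, ?_, ?_⟩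
  · intro s
    simp [h.diag]
  · intro s t
    rw [h.anti (s * k) (t * k)]
    simp only [smul_neg, transpose_smul]
  · intro s t a b hu
    have hu' : IsUnit (A (a * k) (b * k)) := by
      rw [Matrix.isUnit_iff_isUnit_det, isUnit_iff_ne_zero] at hu ⊢
      intro h0
      apply hu
      rw [Matrix.det_smul, h0, mul_zero]
    have hu2 : IsUnit (A (b * k) (a * k)) := h.unit_symm hu'
    have e1 : (c • A (a * k) (b * k))⁻¹ = c⁻¹ • (A (a * k) (b * k))⁻¹ := by
      have : Invertible c := invertibleOfNonzero hc0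
      rw [Matrix.inv_smul _ c ((Matrix.isUnit_iff_isUnit_det _).1 hu'), invOf_eq_inv]
    have e2 : (c • A (b * k) (a * k))⁻¹ = c⁻¹ • (A (b * k) (a * k))⁻¹ := by
      have : Invertible c := invertibleOfNonzero hc0
      rw [Matrix.inv_smul _ c ((Matrix.isUnit_iff_isUnit_det _).1 hu2), invOf_eq_inv]
    rw [e1, e2, h.rel (s * k) (t * k) (a * k) (b * k) hu']
    simp only [Matrix.smul_mul, Matrix.mul_smul, smul_smul, smul_add]
    rw [inv_mul_cancel₀ hc0, mul_one]
  · intro a b i j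
    have h1 : ContDiff ℝ ∞ (fun t => ((A (a * k) (t * k))ᵀ * A (b * k) (t * k)) i j) :=
      (h.smooth (a * k) (b * k) i j).comp (contDiff_id.mul contDiff_const)
    have h2 := (contDiff_const (c := c * c)).mul h1
    have e : (fun t => ((c • A (a * k) (t * k))ᵀ * (c • A (b * k) (t * k))) i j) =
        fun t => c * c * ((A (a * k) (t * k))ᵀ * A (b * k) (t * k)) i j := by
      funext t
      rw [Matrix.transpose_smul, Matrix.smul_mul, Matrix.mul_smul, smul_smul, Matrix.smul_apply,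
        smul_eq_mul]
    rw [e]
    exact h2
  · intro a b i j
    have h1 : HasDerivAt (fun t => ((A (a * k) (t * k))ᵀ * A (b * k) (t * k)) i j)
        (A (a * k) (b * k) j i * k) b := by
      have h3 : HasDerivAt (fun t : ℝ => t * k) k b := by
        simpa using (hasDerivAt_id b).mul_const k
      exact (h.der (a * k) (b * k) i j).comp b h3
    have h2 := h1.const_mul (c * c)
    have e : c * c * (A (a * k) (b * k) j i * k) = (c • A (a * k) (b * k)) j i := by
      rw [Matrix.smul_apply, smul_eq_mul]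
      calc c * c * (A (a * k) (b * k) j i * k) = c * (c * k) * A (a * k) (b * k) j i := by ring
        _ = _ := by rw [hck, mul_one]
    rw [e] at h2
    refine h2.congr_of_eventuallyEq (Eventually.of_forall fun t => ?_)
    show ((c • A (a * k) (t * k))ᵀ * (c • A (b * k) (t * k))) i j = _
    rw [Matrix.transpose_smul, Matrix.smul_mul, Matrix.mul_smul, smul_smul, Matrix.smul_apply,
      smul_eq_mul]
  · intro s t
    have e : (t + 2 * (π / 2)) * k = t * k + 2 * D := by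
      rw [← hkπ]; ring
    simp only [e, h.per]
  · intro s t h1 h2
    have h3 : IsUnit (A (s * k) (t * k)) := by
      refine h.unit _ _ (mul_lt_mul_of_pos_right h1 hk0) ?_
      have e : D = (π / 2) * k := by rw [hk]; (clear * - hD; field_simp)
      calc t * k < (s + π / 2) * k := mul_lt_mul_of_pos_right h2 hk0
        _ = s * k + D := by rw [add_mul, ← e]
    rw [Matrix.isUnit_iff_isUnit_det, isUnit_iff_ne_zero] at h3 ⊢
    rw [Matrix.det_smul]
    exact mul_ne_zero (pow_ne_zero _ hc0) h3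

end Coord

end

end Vale.Agent.P231
end
end
end

section

section

section

/-! P231 core, C5: the reduced system extends in a `C^1` way through the singular times. -/

open Matrix Real Set Filter Topology MeasureTheory
open scoped ContDiff

namespace Vale.Agent.P231

theorem red_contDiffAt_deriv {f : ℝ → ℝ} {x : ℝ} {m n : WithTop ℕ∞} (hf : ContDiffAt ℝ n f x)
    (hmn : m + 1 ≤ n) : ContDiffAt ℝ m (deriv f) x := by
  have h := (hf.fderiv_right hmn).clm_apply (contDiffAt_const (c := (1 : ℝ)))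
  refine h.congr_of_eventuallyEq ?_
  filter_upwards with t
  simp only [fderiv_eq_smul_deriv, smul_eq_mul, one_mul]

theorem red_hasDerivAt_of_punctured {f g : ℝ → ℝ} {x l : ℝ}
    (hd : ∀ᶠ y in 𝓝[≠] x, HasDerivAt f (g y) y) (hf : ContinuousAt f x)
    (hg : Tendsto g (𝓝[≠] x) (𝓝 l)) : HasDerivAt f l x := by
  obtain ⟨ε, hε, hball⟩ := Metric.mem_nhdsWithin_iff.mp hd
  have key : ∀ y, y ≠ x → |y - x| < ε → HasDerivAt f (g y) y := by
    intro y hy hyx
    apply hball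
    exact ⟨by simpa [Real.dist_eq] using hyx, hy⟩
  have A : HasDerivWithinAt f l (Ici x) x := by
    have diff : DifferentiableOn ℝ f (Ioo x (x + ε)) := fun y hy =>
      (key y (ne_of_gt hy.1) (by rw [abs_lt]; constructor <;> linarith only [hy.2, hε, hy.1])).differentiableAt.differentiableWithinAt
    apply hasDerivWithinAt_Ici_of_tendsto_deriv diff hf.continuousWithinAt
      (Ioo_mem_nhdsGT (by linarith))
    have h1 : Tendsto g (𝓝[>] x) (𝓝 l) := hg.mono_left (nhdsWithin_mono _ (fun y hy => ne_of_gt hy))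
    apply h1.congr' _
    filter_upwards [Ioo_mem_nhdsGT (show x < x + ε by linarith)] with y hy
    exact (key y (ne_of_gt hy.1) (by rw [abs_lt]; constructor <;> linarith only [hy.2, hε, hy.1])).deriv.symm
  have B : HasDerivWithinAt f l (Iic x) x := by
    have diff : DifferentiableOn ℝ f (Ioo (x - ε) x) := fun y hy =>
      (key y (ne_of_lt hy.2) (by rw [abs_lt]; constructor <;> linarith only [hy.1, hε, hy.2])).differentiableAt.differentiableWithinAt
    apply hasDerivWithinAt_Iic_of_tendsto_deriv diff hf.continuousWithinAt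
      (Ioo_mem_nhdsLT (by linarith only [hε]))
    have h1 : Tendsto g (𝓝[<] x) (𝓝 l) := hg.mono_left (nhdsWithin_mono _ (fun y hy => ne_of_lt hy))
    apply h1.congr' _
    filter_upwards [Ioo_mem_nhdsLT (show x - ε < x by linarith only [hε])] with y hy
    exact (key y (ne_of_lt hy.2) (by rw [abs_lt]; constructor <;> linarith only [hy.1, hε, hy.2])).deriv.symm
  simpa using B.union A

/-- `C^1` at a point from a derivative on a punctured neighbourhood with a limit. -/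
theorem red_contDiffAt_of_punctured {f g : ℝ → ℝ} {x l : ℝ}
    (hd : ∀ᶠ y in 𝓝[≠] x, HasDerivAt f (g y) y) (hgc : ∀ᶠ y in 𝓝[≠] x, ContinuousAt g y)
    (hf : ContinuousAt f x)
    (hg : Tendsto g (𝓝[≠] x) (𝓝 l)) : ContDiffAt ℝ 1 f x := by
  classical
  rw [contDiffAt_one_iff]
  set G : ℝ → ℝ := fun y => if y = x then l else g y with hG
  obtain ⟨ε, hε, hball⟩ := Metric.mem_nhdsWithin_iff.mp (hd.and hgc)
  have key : ∀ y, y ≠ x → |y - x| < ε → HasDerivAt f (g y) y ∧ ContinuousAt g y := by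
    intro y hy hyx
    apply hball
    exact ⟨by simpa [Real.dist_eq] using hyx, hy⟩
  refine ⟨fun y => ContinuousLinearMap.toSpanSingleton ℝ (G y), Metric.ball x ε,
    Metric.ball_mem_nhds x hε, ?_, ?_⟩
  · intro y hy
    have hy' : |y - x| < ε := by simpa [Real.dist_eq] using hy
    apply ContinuousAt.continuousWithinAt
    have hGc : ContinuousAt G y := by
      rcases eq_or_ne y x with rfl | hne
      · have : Tendsto G (𝓝[≠] y) (𝓝 l) := by
          apply hg.congr'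
          filter_upwards [self_mem_nhdsWithin] with z hz
          simp only [hG]
          rw [if_neg (by simpa using hz)]
        have h2 : G y = l := by simp [hG]
        rw [← h2] at this
        exact continuousAt_iff_punctured_nhds.mpr this
      · have : G =ᶠ[𝓝 y] g := by
          filter_upwards [isOpen_ne.mem_nhds hne] with z hz
          simp only [hG]
          rw [if_neg hz]
        exact (key y hne hy').2.congr this.symm
    have := (ContinuousLinearMap.toSpanSingletonCLE (𝕜 := ℝ) (E := ℝ)).continuous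
    exact this.continuousAt.comp hGc
  · intro y hy
    have hy' : |y - x| < ε := by simpa [Real.dist_eq] using hy
    have : HasDerivAt f (G y) y := by
      rcases eq_or_ne y x with rfl | hne
      · have h2 : G y = l := by simp [hG]
        rw [h2]
        exact red_hasDerivAt_of_punctured hd hf hg
      · have h2 : G y = g y := by simp [hG, hne]
        rw [h2]
        exact (key y hne hy').1
    exact this.hasFDerivAt

/-- Divided difference of a `C^2` function is `C^1`. -/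
theorem red_dd {f : ℝ → ℝ} {x : ℝ} (hf : ContDiffAt ℝ ∞ f x) (h0 : f x = 0) :
    ContDiffAt ℝ 1 (fun t => if t = x then deriv f x else f t / (t - x)) x := by
  classical
  have hf3 : ContDiffAt ℝ 3 f x := hf.of_le
    (show ((3 : ℕ∞) : WithTop ℕ∞) ≤ ((⊤ : ℕ∞) : WithTop ℕ∞) from WithTop.coe_le_coe.mpr le_top)
  have hf1 : ContDiffAt ℝ 2 (deriv f) x := red_contDiffAt_deriv hf3 (by norm_num)
  have hf2 : ContDiffAt ℝ 1 (deriv (deriv f)) x := red_contDiffAt_deriv hf1 (by norm_num)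
  have e0 : ∀ᶠ y in 𝓝 x, HasDerivAt f (deriv f y) y := by
    filter_upwards [hf3.eventually (by simp)] with y hy
    exact (hy.differentiableAt (by simp)).hasDerivAt
  have e1 : ∀ᶠ y in 𝓝 x, HasDerivAt (deriv f) (deriv (deriv f) y) y := by
    filter_upwards [hf1.eventually (by simp)] with y hy
    exact (hy.differentiableAt (by simp)).hasDerivAt
  have hd : ∀ᶠ y in 𝓝[≠] x, HasDerivAt (fun t => if t = x then deriv f x else f t / (t - x))
      ((deriv f y * (y - x) - f y) / (y - x) ^ 2) y := by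
    filter_upwards [nhdsWithin_le_nhds e0, self_mem_nhdsWithin] with y hy hne
    have h1 : HasDerivAt (fun t => f t / (t - x)) ((deriv f y * (y - x) - f y * 1) / (y - x) ^ 2) y :=
      hy.div ((hasDerivAt_id y).sub_const x) (sub_ne_zero.mpr hne)
    rw [mul_one] at h1
    refine h1.congr_of_eventuallyEq ?_
    filter_upwards [isOpen_ne.mem_nhds hne] with z hz
    rw [if_neg hz]
  have hcont : ContinuousAt (fun t => if t = x then deriv f x else f t / (t - x)) x := by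
    rw [continuousAt_iff_punctured_nhds]
    have h1 := (hasDerivAt_iff_tendsto_slope.mp e0.self_of_nhds)
    rw [if_pos rfl]
    refine h1.congr' ?_
    filter_upwards [self_mem_nhdsWithin] with y hy
    rw [if_neg (by simpa using hy), slope_def_field, h0, sub_zero]
  have hlim : Tendsto (fun y => (deriv f y * (y - x) - f y) / (y - x) ^ 2) (𝓝[≠] x)
      (𝓝 (deriv (deriv f) x / 2)) := by
    apply HasDerivAt.lhopital_zero_nhdsNE (f' := fun y => deriv (deriv f) y * (y - x))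
      (g' := fun y => 2 * (y - x))
    · filter_upwards [nhdsWithin_le_nhds e0, nhdsWithin_le_nhds e1] with y h0 h1
      have := (h1.mul ((hasDerivAt_id y).sub_const x)).sub h0
      refine this.congr_deriv ?_
      simp
    · filter_upwards with y
      have := ((hasDerivAt_id y).sub_const x).pow 2
      refine this.congr_deriv ?_
      simp only [Nat.cast_ofNat, id_eq, Nat.add_one_sub_one, pow_one, mul_one]
    · filter_upwards [self_mem_nhdsWithin] with y hy
      exact mul_ne_zero two_ne_zero (sub_ne_zero.mpr hy)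
    · have : ContinuousAt (fun y => deriv f y * (y - x) - f y) x := by
        have c1 := hf1.continuousAt
        have c0 := hf.continuousAt
        (clear * - c1 c0; fun_prop)
      have h := this.tendsto
      simp only [sub_self, mul_zero, h0] at h
      exact h.mono_left nhdsWithin_le_nhds
    · have : ContinuousAt (fun y : ℝ => (y - x) ^ 2) x := by fun_prop
      have h := this.tendsto
      simp only [sub_self, ne_eq, OfNat.ofNat_ne_zero, not_false_eq_true, zero_pow] at h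
      exact h.mono_left nhdsWithin_le_nhds
    · have : ContinuousAt (fun y => deriv (deriv f) y / 2) x := by
        have := hf2.continuousAt
        (clear * - this; fun_prop)
      have h := this.tendsto
      refine (h.mono_left nhdsWithin_le_nhds).congr' ?_
      filter_upwards [self_mem_nhdsWithin] with y hy
      have : y - x ≠ 0 := sub_ne_zero.mpr hy
      (clear * - this; field_simp)
  refine red_contDiffAt_of_punctured hd ?_ hcont hlim
  filter_upwards [nhdsWithin_le_nhds (hf3.eventually (by simp)),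
    nhdsWithin_le_nhds (hf1.eventually (by simp)), self_mem_nhdsWithin] with y h3 h1 hy
  have c1 := h1.continuousAt
  have c0 := h3.continuousAt
  have : (y - x) ^ 2 ≠ 0 := pow_ne_zero 2 (sub_ne_zero.mpr hy)
  fun_prop (disch := assumption)

/-! ### The function `Y(t) = -Hc A 0 (π/4) t ⁻¹`, smooth across `0` and `π / 2` -/

section Y

variable {ι : Type*} [Fintype ι] [DecidableEq ι] {D : ℝ} {A : ℝ → ℝ → Matrix ι ι ℝ}

/-- `Y(t) = A(a,0) A(a,t)⁻¹ A(0,t)`. -/
noncomputable def redY (A : ℝ → ℝ → Matrix ι ι ℝ) (a t : ℝ) : Matrix ι ι ℝ :=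
  A a 0 * (A a t)⁻¹ * A 0 t

theorem redY_eq (_h : JData D A) {a : ℝ} (ha : IsUnit (A a 0)) (t : ℝ) :
    redY A a t = A a 0 * Hc A a 0 t * (A a 0)ᵀ := by
  have ha' := (Matrix.isUnit_iff_isUnit_det _).1 ha
  have e : ((A a 0)⁻¹)ᵀ * (A a 0)ᵀ = 1 := by
    rw [← Matrix.transpose_mul, Matrix.mul_nonsing_inv _ ha', Matrix.transpose_one]
  rw [redY, Hc]
  calc A a 0 * (A a t)⁻¹ * A 0 t = A a 0 * (A a t)⁻¹ * A 0 t * (((A a 0)⁻¹)ᵀ * (A a 0)ᵀ) := by
        rw [e, Matrix.mul_one]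
    _ = _ := by simp only [Matrix.mul_assoc]

theorem redY_symm (h : JData D A) {a t : ℝ} (ha : IsUnit (A a 0)) (ht : IsUnit (A a t)) :
    (redY A a t)ᵀ = redY A a t := by
  rw [redY_eq h ha, Matrix.transpose_mul, Matrix.transpose_mul, h.Hc_symm ha ht,
    Matrix.transpose_transpose, Matrix.mul_assoc]

theorem redY_contDiffAt (h : JData D A) {a t : ℝ} (ha : IsUnit (A a 0)) (ht : IsUnit (A a t))
    (i j : ι) : ContDiffAt ℝ ∞ (fun t => redY A a t i j) t := by
  have h1 : ContDiffAt ℝ ∞ (fun t => (A a 0 * Hc A a 0 t * (A a 0)ᵀ) i j) t :=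
    contDiffAt_mul_entry (f := fun t => A a 0 * Hc A a 0 t) (g := fun _ => (A a 0)ᵀ)
      (fun p q => contDiffAt_mul_entry (f := fun _ => A a 0) (g := fun t => Hc A a 0 t)
        (fun _ _ => contDiffAt_const) (fun p q => h.Hc_contDiffAt ha ht p q) p q)
      (fun _ _ => contDiffAt_const) i j
  simpa only [redY_eq h ha] using h1

theorem redY_hasDerivAt (h : JData D A) {a t : ℝ} (ha : IsUnit (A a 0)) (ht : IsUnit (A a t))
    (i j : ι) : HasDerivAt (fun t => redY A a t i j)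
      ((A a 0 * (Gm A a t)⁻¹ * (A a 0)ᵀ) i j) t := by
  have e : (fun t => redY A a t i j) = fun t => ∑ l, (∑ k, A a 0 i k * Hc A a 0 t k l)
      * (A a 0)ᵀ l j := by
    funext t
    rw [redY_eq h ha]
    simp only [Matrix.mul_apply]
  rw [e]
  show HasDerivAt _ (∑ l, (∑ k, A a 0 i k * (Gm A a t)⁻¹ k l) * (A a 0)ᵀ l j) t
  refine HasDerivAt.fun_sum fun l _ => ?_
  refine HasDerivAt.mul_const ?_ _
  refine HasDerivAt.fun_sum fun k _ => ?_
  exact (h.Hc_hasDerivAt ha ht k l).const_mul _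

theorem redY_zero (h : JData D A) (a : ℝ) : redY A a 0 = 0 := by
  rw [redY, h.diag, Matrix.mul_zero]

theorem redY_deriv_zero (_h : JData D A) {a : ℝ} (ha : IsUnit (A a 0)) :
    A a 0 * (Gm A a 0)⁻¹ * (A a 0)ᵀ = 1 := by
  have ha' := (Matrix.isUnit_iff_isUnit_det _).1 ha
  rw [Gm_inv]
  have e : ((A a 0)⁻¹)ᵀ * (A a 0)ᵀ = 1 := by
    rw [← Matrix.transpose_mul, Matrix.mul_nonsing_inv _ ha', Matrix.transpose_one]
  calc A a 0 * ((A a 0)⁻¹ * ((A a 0)⁻¹)ᵀ) * (A a 0)ᵀ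
      = (A a 0 * (A a 0)⁻¹) * (((A a 0)⁻¹)ᵀ * (A a 0)ᵀ) := by simp only [Matrix.mul_assoc]
    _ = 1 := by rw [e, Matrix.mul_nonsing_inv _ ha', Matrix.mul_one]

theorem redY_deriv_posDef (h : JData D A) {a t : ℝ} (ha : IsUnit (A a 0))
    (ht : IsUnit (A a t)) : (A a 0 * (Gm A a t)⁻¹ * (A a 0)ᵀ).PosDef := by
  have h1 := (h.Gm_posDef ht).inv
  have h2 := h1.mul_mul_conjTranspose_same (B := A a 0)
    (Matrix.vecMul_injective_iff_isUnit.2 ha)
  rwa [Matrix.conjTranspose_eq_transpose_of_trivial] at h2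

theorem Hc_eq_neg_inv (h : JData D A) {a t : ℝ} (ht : IsUnit (A a t)) :
    Hc A 0 a t = -(redY A a t)⁻¹ := by
  have ht' := (Matrix.isUnit_iff_isUnit_det _).1 ht
  rw [Hc, redY, Matrix.mul_inv_rev, Matrix.mul_inv_rev, Matrix.nonsing_inv_nonsing_inv _ ht',
    h.inv_anti a 0, Matrix.transpose_neg, Matrix.transpose_transpose, Matrix.mul_neg,
    Matrix.mul_assoc]

end Y

/-! ### The reduced system -/

section Reduced

variable {κ ν : Type*} [Fintype κ] [DecidableEq κ] [Fintype ν] [DecidableEq ν]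
  {A : ℝ → ℝ → Matrix (κ ⊕ ν) (κ ⊕ ν) ℝ}

theorem red_unit {ι : Type*} [Fintype ι] [DecidableEq ι] {A : ℝ → ℝ → Matrix ι ι ℝ}
    (h : JData (π / 2) A) {t : ℝ} (ht : sin (2 * t) ≠ 0) : IsUnit (A 0 t) := by
  have hper : Function.Periodic (A 0) π := by
    intro x
    have := h.per 0 x
    rwa [mul_div_cancel₀ π two_ne_zero] at this
  set n : ℤ := ⌊t / π⌋ with hn
  set t0 : ℝ := t - n * π with ht0
  have hπ := Real.pi_pos
  have h1 : 0 ≤ t0 := by
    have := Int.floor_le (t / π)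
    rw [le_div_iff₀ hπ] at this
    rw [ht0]; linarith only [this]
  have h2 : t0 < π := by
    have := Int.lt_floor_add_one (t / π)
    rw [div_lt_iff₀ hπ] at this
    rw [ht0]; linarith only [this]
  have h3 : A 0 t0 = A 0 t := by
    have := hper.sub_zsmul_eq (x := t) n
    rwa [zsmul_eq_mul] at this
  have h4 : sin (2 * t0) ≠ 0 := by
    have : 2 * t0 = 2 * t - n * (2 * π) := by rw [ht0]; ring
    rw [this, Real.sin_sub_int_mul_two_pi]
    exact ht
  rw [← h3]
  refine h.unit' ?_ (by linarith only [h2]) ?_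
  · rcases h1.eq_or_lt with h5 | h5
    · exfalso; apply h4; rw [← h5]; simp
    · exact h5
  · intro h5
    apply h4
    rw [h5, zero_add, mul_div_cancel₀ π two_ne_zero, Real.sin_pi]

theorem red_unit_a {ι : Type*} [Fintype ι] [DecidableEq ι] {A : ℝ → ℝ → Matrix ι ι ℝ}
    (h : JData (π / 2) A) {t : ℝ} (h1 : -(π / 4) < t) (h2 : t < 3 * π / 4) (h3 : t ≠ π / 4) :
    IsUnit (A (π / 4) t) := by
  rcases lt_or_gt_of_ne h3 with h4 | h4
  · exact h.unit_symm (h.unit t (π / 4) h4 (by linarith only [h1]))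
  · exact h.unit (π / 4) t h4 (by linarith only [h2])

theorem red_unit_a0 {ι : Type*} [Fintype ι] [DecidableEq ι] {A : ℝ → ℝ → Matrix ι ι ℝ}
    (h : JData (π / 2) A) : IsUnit (A (π / 4) 0) := by
  have hπ := Real.pi_pos
  exact red_unit_a h (by linarith only [hπ]) (by linarith) (by linarith only [hπ])

theorem red_punctured (t0 : ℝ) : ∀ᶠ t in 𝓝[≠] t0, sin (2 * t) ≠ 0 := by
  by_cases h0 : sin (2 * t0) = 0
  · have h1 : HasDerivAt (fun t : ℝ => sin (2 * t)) (cos (2 * t0) * 2) t0 := by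
      have h5 : HasDerivAt (fun t : ℝ => 2 * t) 2 t0 := by
        simpa using (hasDerivAt_id t0).const_mul (2 : ℝ)
      exact h5.sin
    have h2 : cos (2 * t0) * 2 ≠ 0 := by
      intro h3
      have h4 : cos (2 * t0) = 0 := by linarith
      have := Real.sin_sq_add_cos_sq (2 * t0)
      rw [h0, h4] at this
      norm_num at this
    have h3 := h1.eventually_ne (c := 0) h2
    exact h3
  · have : ContinuousAt (fun t : ℝ => sin (2 * t)) t0 := by (clear * -; fun_prop)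
    exact nhdsWithin_le_nhds (this.eventually_ne h0)

/-- the matrix `P(t) = Y(t) / sin t`, extended by `1` at `0`. -/
noncomputable def redP {ι : Type*} [Fintype ι] [DecidableEq ι] (A : ℝ → ℝ → Matrix ι ι ℝ)
    (t : ℝ) : Matrix ι ι ℝ :=
  if t = 0 then 1 else (sin t)⁻¹ • redY A (π / 4) t

theorem redP_contDiffAt {ι : Type*} [Fintype ι] [DecidableEq ι] {A : ℝ → ℝ → Matrix ι ι ℝ}
    (h : JData (π / 2) A) (i j : ι) : ContDiffAt ℝ 1 (fun t => redP A t i j) 0 := by
  have ha := red_unit_a0 h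
  have h1 := red_dd (redY_contDiffAt h ha ha i j)
    (by rw [redY_zero h]; rfl)
  have h2 := red_dd (f := sin) (x := 0) Real.contDiff_sin.contDiffAt Real.sin_zero
  have h3 : deriv (fun t => redY A (π / 4) t i j) 0 = (1 : Matrix ι ι ℝ) i j := by
    rw [(redY_hasDerivAt h ha ha i j).deriv, redY_deriv_zero h ha]
  have h4 := h1.div h2 (by simp)
  refine h4.congr_of_eventuallyEq ?_
  filter_upwards with t
  by_cases ht : t = 0
  · subst ht
    simp only [redP, ↓reduceIte, h3, sub_zero, Real.deriv_sin, cos_zero, Pi.div_apply, div_one]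
  · simp only [redP, if_neg ht, Matrix.smul_apply, smul_eq_mul, sub_zero, Pi.div_apply]
    rcases eq_or_ne (sin t) 0 with hs | hs
    · rw [hs]; simp
    · (clear * - ht hs; field_simp)

theorem redY_unit {ι : Type*} [Fintype ι] [DecidableEq ι] {A : ℝ → ℝ → Matrix ι ι ℝ}
    {a t : ℝ} (ha : IsUnit (A a 0)) (ht : IsUnit (A a t)) (h0 : IsUnit (A 0 t)) :
    IsUnit (redY A a t) :=
  (ha.mul (Matrix.isUnit_nonsing_inv_iff.2 ht)).mul h0

theorem redP_zero {ι : Type*} [Fintype ι] [DecidableEq ι] (A : ℝ → ℝ → Matrix ι ι ℝ) :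
    redP A 0 = 1 := by simp [redP]

theorem redP_inv_contDiffAt {ι : Type*} [Fintype ι] [DecidableEq ι] {A : ℝ → ℝ → Matrix ι ι ℝ}
    (h : JData (π / 2) A) (i j : ι) : ContDiffAt ℝ 1 (fun t => (redP A t)⁻¹ i j) 0 :=
  contDiffAt_inv_entry (redP_contDiffAt h) (by rw [redP_zero]; exact isUnit_one) i j

theorem redP_inv_eq {ι : Type*} [Fintype ι] [DecidableEq ι] {A : ℝ → ℝ → Matrix ι ι ℝ}
    {t : ℝ} (ht : t ≠ 0) (hs : sin t ≠ 0) (hu : IsUnit (redY A (π / 4) t)) :
    (redP A t)⁻¹ = sin t • (redY A (π / 4) t)⁻¹ := by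
  rw [redP, if_neg ht]
  apply Matrix.inv_eq_right_inv
  rw [Matrix.smul_mul, Matrix.mul_smul, smul_smul, inv_mul_cancel₀ hs, one_smul,
    Matrix.mul_nonsing_inv _ ((Matrix.isUnit_iff_isUnit_det _).1 hu)]

/-- `Y(t)` with the first block rows divided by `t - π / 2`. -/
noncomputable def redU (A : ℝ → ℝ → Matrix (κ ⊕ ν) (κ ⊕ ν) ℝ) (t : ℝ) :
    Matrix (κ ⊕ ν) (κ ⊕ ν) ℝ :=
  Matrix.of fun x y => Sum.elim
    (fun i : κ => if t = π / 2 then deriv (fun s => redY A (π / 4) s (Sum.inl i) y) (π / 2)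
      else redY A (π / 4) t (Sum.inl i) y / (t - π / 2))
    (fun j : ν => redY A (π / 4) t (Sum.inr j) y) x

theorem redU_inl (A : ℝ → ℝ → Matrix (κ ⊕ ν) (κ ⊕ ν) ℝ) (t : ℝ) (i : κ) (y : κ ⊕ ν) :
    redU A t (Sum.inl i) y =
      if t = π / 2 then deriv (fun s => redY A (π / 4) s (Sum.inl i) y) (π / 2)
      else redY A (π / 4) t (Sum.inl i) y / (t - π / 2) := rfl

theorem redU_inr (A : ℝ → ℝ → Matrix (κ ⊕ ν) (κ ⊕ ν) ℝ) (t : ℝ) (j : ν) (y : κ ⊕ ν) :
    redU A t (Sum.inr j) y = redY A (π / 4) t (Sum.inr j) y := rfl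

theorem red_unit_half {ι : Type*} [Fintype ι] [DecidableEq ι] {A : ℝ → ℝ → Matrix ι ι ℝ}
    (h : JData (π / 2) A) : IsUnit (A (π / 4) (π / 2)) := by
  have hπ := Real.pi_pos
  exact red_unit_a h (by linarith) (by linarith only [hπ]) (by linarith)

theorem redY_half_mulVec (h : JData (π / 2) A) (ha : Adapted A) (v : κ ⊕ ν → ℝ) :
    redY A (π / 4) (π / 2) *ᵥ v = 0 ↔ ∀ j, v (Sum.inr j) = 0 := by
  rw [← ha v]
  have h1 : IsUnit (A (π / 4) 0 * (A (π / 4) (π / 2))⁻¹) :=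
    (red_unit_a0 h).mul (Matrix.isUnit_nonsing_inv_iff.2 (red_unit_half h))
  rw [redY, ← Matrix.mulVec_mulVec]
  constructor
  · intro h2
    have h3 := Matrix.mulVec_injective_iff_isUnit.2 h1
    apply h3
    rw [h2, Matrix.mulVec_zero]
  · intro h2
    rw [h2, Matrix.mulVec_zero]

theorem redY_half_inl (h : JData (π / 2) A) (ha : Adapted A) (x : κ ⊕ ν) (i : κ) :
    redY A (π / 4) (π / 2) x (Sum.inl i) = 0 := by
  have h1 := (redY_half_mulVec h ha (Pi.single (Sum.inl i) 1)).2 (fun j => by simp)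
  have h2 := congrFun h1 x
  simpa using h2

theorem redY_half_inl' (h : JData (π / 2) A) (ha : Adapted A) (i : κ) (y : κ ⊕ ν) :
    redY A (π / 4) (π / 2) (Sum.inl i) y = 0 := by
  have h1 := redY_symm h (red_unit_a0 h) (red_unit_half h)
  rw [← h1, Matrix.transpose_apply]
  exact redY_half_inl h ha y i

theorem redU_contDiffAt (h : JData (π / 2) A) (ha : Adapted A) (x y : κ ⊕ ν) :
    ContDiffAt ℝ 1 (fun t => redU A t x y) (π / 2) := by
  have h1 := redY_contDiffAt h (red_unit_a0 h) (red_unit_half h)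
  rcases x with i | j
  · exact red_dd (h1 (Sum.inl i) y) (redY_half_inl' h ha i y)
  · exact (h1 (Sum.inr j) y).of_le
      (show ((1 : ℕ∞) : WithTop ℕ∞) ≤ ((⊤ : ℕ∞) : WithTop ℕ∞) from WithTop.coe_le_coe.mpr le_top)

theorem redU_unit (h : JData (π / 2) A) (ha : Adapted A) : IsUnit (redU A (π / 2)) := by
  have h1 : (redU A (π / 2)).toBlocks₂₁ = 0 := by
    ext j i
    exact redY_half_inl h ha (Sum.inr j) i
  have hpd := redY_deriv_posDef h (red_unit_a0 h) (red_unit_half h)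
  have h2 : (redU A (π / 2)).toBlocks₁₁ =
      (A (π / 4) 0 * (Gm A (π / 4) (π / 2))⁻¹ * (A (π / 4) 0)ᵀ).submatrix Sum.inl Sum.inl := by
    ext i j
    show redU A (π / 2) (Sum.inl i) (Sum.inl j) = _
    rw [redU_inl, if_pos rfl,
      (redY_hasDerivAt h (red_unit_a0 h) (red_unit_half h) (Sum.inl i) (Sum.inl j)).deriv]
    rfl
  have h3 : IsUnit ((redU A (π / 2)).toBlocks₁₁).det := by
    rw [h2]
    exact isUnit_iff_ne_zero.2 (hpd.submatrix Sum.inl_injective).det_pos.ne'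
  have h4 : IsUnit ((redU A (π / 2)).toBlocks₂₂).det := by
    rw [← Matrix.isUnit_iff_isUnit_det, ← Matrix.mulVec_injective_iff_isUnit]
    intro v w hvw
    have h5 : (redU A (π / 2)).toBlocks₂₂ *ᵥ (v - w) = 0 := by
      rw [Matrix.mulVec_sub, sub_eq_zero]
      exact hvw
    have h6 : redY A (π / 4) (π / 2) *ᵥ (Sum.elim 0 (v - w)) = 0 := by
      ext x
      rcases x with i | j
      · simp only [mulVec, dotProduct, redY_half_inl' h ha, zero_mul, Finset.sum_const_zero, Pi.zero_apply]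
      · have := congrFun h5 j
        simp only [Matrix.mulVec, dotProduct, Fintype.sum_sum_type, Sum.elim_inl, Sum.elim_inr,
          Pi.zero_apply, mul_zero, Finset.sum_const_zero, zero_add] at this ⊢
        exact this
    have h7 := (redY_half_mulVec h ha _).1 h6
    ext j
    have := h7 j
    simp only [Sum.elim_inr, Pi.sub_apply] at this
    linarith only [this]
  rw [Matrix.isUnit_iff_isUnit_det, ← Matrix.fromBlocks_toBlocks (redU A (π / 2)), h1,
    Matrix.det_fromBlocks_zero₂₁]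
  exact h3.mul h4

theorem redU_inv_contDiffAt (h : JData (π / 2) A) (ha : Adapted A) (x y : κ ⊕ ν) :
    ContDiffAt ℝ 1 (fun t => (redU A t)⁻¹ x y) (π / 2) :=
  contDiffAt_inv_entry (redU_contDiffAt h ha) (redU_unit h ha) x y

theorem redU_inv_eq (A : ℝ → ℝ → Matrix (κ ⊕ ν) (κ ⊕ ν) ℝ) {t : ℝ} (ht : t ≠ π / 2)
    (x : κ ⊕ ν) (j : ν) :
    (redU A t)⁻¹ x (Sum.inr j) = (redY A (π / 4) t)⁻¹ x (Sum.inr j) := by
  set E : Matrix (κ ⊕ ν) (κ ⊕ ν) ℝ :=
    Matrix.diagonal (Sum.elim (fun _ => t - π / 2) (fun _ => 1)) with hE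
  have ht' : t - π / 2 ≠ 0 := sub_ne_zero.2 ht
  have h1 : redY A (π / 4) t = E * redU A t := by
    ext x y
    rw [hE, Matrix.diagonal_mul]
    rcases x with i | j
    · rw [Sum.elim_inl, redU_inl, if_neg ht]
      exact (mul_div_cancel₀ _ ht').symm
    · rw [Sum.elim_inr, redU_inr, one_mul]
  have h2 : E⁻¹ = Matrix.diagonal (Sum.elim (fun _ => (t - π / 2)⁻¹) (fun _ => 1)) := by
    apply Matrix.inv_eq_right_inv
    rw [hE, Matrix.diagonal_mul_diagonal, ← Matrix.diagonal_one]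
    congr 1
    ext x
    rcases x with i | j
    · simp [ht']
    · simp
  rw [h1, Matrix.mul_inv_rev, h2, Matrix.mul_diagonal, Sum.elim_inr, mul_one]

/-- the reduced `cos`-like matrix -/
noncomputable def redC (A : ℝ → ℝ → Matrix (κ ⊕ ν) (κ ⊕ ν) ℝ) (t : ℝ) : Matrix ν ν ℝ :=
  if sin t = 0 then cos t • 1
  else if cos t = 0 then sin t • ((redU A (π / 2))⁻¹).toBlocks₂₂
  else -(sin t) • (Hc A 0 (π / 4) t).toBlocks₂₂

theorem red_sin_two_ne {t : ℝ} : sin (2 * t) ≠ 0 ↔ sin t ≠ 0 ∧ cos t ≠ 0 := by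
  rw [Real.sin_two_mul]
  constructor
  · intro h
    exact ⟨fun h1 => h (by rw [h1]; ring), fun h1 => h (by rw [h1]; ring)⟩
  · rintro ⟨h1, h2⟩
    exact mul_ne_zero (mul_ne_zero two_ne_zero h1) h2

theorem redC_regular (A : ℝ → ℝ → Matrix (κ ⊕ ν) (κ ⊕ ν) ℝ) {t : ℝ} (ht : sin (2 * t) ≠ 0) :
    redC A t = -(sin t) • (Hc A 0 (π / 4) t).toBlocks₂₂ := by
  obtain ⟨h1, h2⟩ := red_sin_two_ne.1 ht
  rw [redC, if_neg h1, if_neg h2]

theorem redC_of_sin (A : ℝ → ℝ → Matrix (κ ⊕ ν) (κ ⊕ ν) ℝ) {t : ℝ} (ht : sin t = 0) :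
    redC A t = cos t • 1 := by
  rw [redC, if_pos ht]

theorem redC_anti (h : JData (π / 2) A) (t : ℝ) : redC A (t + π) = -redC A t := by
  have hper : Hc A 0 (π / 4) (t + π) = Hc A 0 (π / 4) t := by
    have e : ∀ s, A s (t + π) = A s t := by
      intro s
      have := h.per s t
      rwa [mul_div_cancel₀ π two_ne_zero] at this
    rw [Hc, Hc, e, e]
  rw [redC, redC, Real.sin_add_pi, Real.cos_add_pi, hper]
  simp only [neg_eq_zero]
  split_ifs
  · rw [neg_smul]
  · rw [neg_smul]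
  · rw [neg_smul (-sin t)]

theorem redC_contDiffAt_regular (h : JData (π / 2) A) {t : ℝ} (ht : sin (2 * t) ≠ 0) (i j : ν) :
    ContDiffAt ℝ 1 (fun t => redC A t i j) t := by
  have hπ := Real.pi_pos
  have hb : IsUnit (A 0 (π / 4)) := h.unit 0 (π / 4) (by linarith) (by linarith only [hπ])
  have h1 := (h.Hc_contDiffAt hb (red_unit h ht) (Sum.inr i) (Sum.inr j)).of_le
    (show ((1 : ℕ∞) : WithTop ℕ∞) ≤ ((⊤ : ℕ∞) : WithTop ℕ∞) from WithTop.coe_le_coe.mpr le_top)
  have h2 : ContDiffAt ℝ 1 (fun t => -(sin t)) t := Real.contDiff_sin.contDiffAt.neg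
  refine (h2.mul h1).congr_of_eventuallyEq ?_
  have h3 : ContinuousAt (fun t : ℝ => sin (2 * t)) t := by (clear * -; fun_prop)
  filter_upwards [h3.eventually_ne ht] with s hs
  rw [redC_regular A hs]
  rfl

theorem redC_contDiffAt_zero (h : JData (π / 2) A) (i j : ν) :
    ContDiffAt ℝ 1 (fun t => redC A t i j) 0 := by
  have hπ := Real.pi_pos
  refine (redP_inv_contDiffAt h (Sum.inr i) (Sum.inr j)).congr_of_eventuallyEq ?_
  filter_upwards [Ioo_mem_nhds (show -(π / 4) < 0 by linarith only [hπ]) (show (0 : ℝ) < π / 4 by linarith)]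
    with t ht
  rcases eq_or_ne t 0 with rfl | h0
  · rw [redC_of_sin A Real.sin_zero, Real.cos_zero, one_smul, redP_zero, inv_one,
      Matrix.one_apply, Matrix.one_apply]
    simp
  · have hs : sin t ≠ 0 := by
      rcases lt_or_gt_of_ne h0 with h1 | h1
      · exact (Real.sin_neg_of_neg_of_neg_pi_lt h1 (by linarith only [h1, ht.1])).ne
      · exact (Real.sin_pos_of_pos_of_lt_pi h1 (by linarith [ht.2])).ne'
    have hc : cos t ≠ 0 :=
      (Real.cos_pos_of_mem_Ioo ⟨by linarith [ht.1], by linarith [ht.2]⟩).ne'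
    have h2 := red_sin_two_ne.2 ⟨hs, hc⟩
    have hu := red_unit_a h ht.1 (by linarith [ht.2]) ht.2.ne
    rw [redC_regular A h2, Hc_eq_neg_inv h hu,
      redP_inv_eq h0 hs (redY_unit (red_unit_a0 h) hu (red_unit h h2))]
    simp only [toBlocks₂₂, Matrix.neg_apply, Matrix.smul_apply, of_apply, smul_eq_mul, mul_neg, neg_mul, neg_neg]

theorem redC_contDiffAt_half (h : JData (π / 2) A) (ha : Adapted A) (i j : ν) :
    ContDiffAt ℝ 1 (fun t => redC A t i j) (π / 2) := by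
  have hπ := Real.pi_pos
  have h2 : ContDiffAt ℝ 1 (fun t => sin t) (π / 2) := Real.contDiff_sin.contDiffAt
  refine (h2.mul (redU_inv_contDiffAt h ha (Sum.inr i) (Sum.inr j))).congr_of_eventuallyEq ?_
  filter_upwards [Ioo_mem_nhds (show π / 4 < π / 2 by linarith)
    (show (π / 2 : ℝ) < 3 * π / 4 by linarith)] with t ht
  have hs : sin t ≠ 0 :=
    (Real.sin_pos_of_pos_of_lt_pi (by linarith [ht.1]) (by linarith only [hπ, ht.2])).ne'
  rcases eq_or_ne t (π / 2) with rfl | h0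
  · rw [redC, if_neg hs, if_pos Real.cos_pi_div_two]
    rfl
  · have hc : cos t ≠ 0 := by
      rcases lt_or_gt_of_ne h0 with h1 | h1
      · exact (Real.cos_pos_of_mem_Ioo ⟨by linarith only [hπ, ht.1], by linarith only [h1]⟩).ne'
      · exact (Real.cos_neg_of_pi_div_two_lt_of_lt h1 (by linarith only [hπ, ht.2])).ne
    have h2 := red_sin_two_ne.2 ⟨hs, hc⟩
    have hu := red_unit_a h (by linarith only [hπ, ht.1]) ht.2 ht.1.ne'
    rw [redC_regular A h2, Hc_eq_neg_inv h hu, redU_inv_eq A h0]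
    simp only [toBlocks₂₂, Matrix.neg_apply, Matrix.smul_apply, of_apply, smul_eq_mul, mul_neg, neg_mul, neg_neg]

theorem redC_contDiffAt (h : JData (π / 2) A) (ha : Adapted A) (i j : ν) (t0 : ℝ) :
    ContDiffAt ℝ 1 (fun t => redC A t i j) t0 := by
  by_cases ht : sin (2 * t0) = 0
  · -- reduce to `t0 = 0` or `t0 = π / 2` by antiperiodicity
    have key : ∀ (n : ℤ) (x : ℝ), ContDiffAt ℝ 1 (fun t => redC A t i j) x →
        ContDiffAt ℝ 1 (fun t => redC A t i j) (x + n * π) := by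
      intro n x hx
      have hanti : Function.Antiperiodic (fun t => redC A t i j) π := by
        intro t
        show redC A (t + π) i j = -redC A t i j
        rw [redC_anti h]
        rfl
      have h1 : ∀ t, redC A t i j = ((n.negOnePow : ℤ) : ℝ) * redC A (t - n * π) i j := by
        intro t
        have := hanti.add_int_mul_eq (x := t - n * π) n
        simp only [sub_add_cancel] at this
        exact this
      have h2 : ContDiffAt ℝ 1 (fun t => redC A (t - n * π) i j) (x + n * π) := by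
        have h3 : ContDiffAt ℝ 1 (fun t : ℝ => t - n * π) (x + n * π) :=
          contDiffAt_id.sub contDiffAt_const
        exact ContDiffAt.comp (x + n * π) (g := fun t => redC A t i j)
          (by rw [add_sub_cancel_right]; exact hx) h3
      have h5 := contDiffAt_const (c := ((n.negOnePow : ℤ) : ℝ)).mul h2
      refine h5.congr_of_eventuallyEq ?_
      filter_upwards with t
      exact h1 t
    rw [Real.sin_two_mul] at ht
    rcases mul_eq_zero.1 ht with h1 | h1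
    · have h2 : sin t0 = 0 := by
        rcases mul_eq_zero.1 h1 with h3 | h3
        · norm_num at h3
        · exact h3
      obtain ⟨n, hn⟩ := Real.sin_eq_zero_iff.1 h2
      have := key n 0 (redC_contDiffAt_zero h i j)
      rwa [zero_add, hn] at this
    · obtain ⟨n, hn⟩ := Real.cos_eq_zero_iff.1 h1
      have := key n (π / 2) (redC_contDiffAt_half h ha i j)
      rwa [show π / 2 + n * π = t0 by rw [hn]; ring] at this
  · exact redC_contDiffAt_regular h ht i j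

theorem red_eq_of_regular {f g : ℝ → ℝ} {t0 : ℝ} (hf : ContinuousAt f t0)
    (hg : ContinuousAt g t0) (hfg : ∀ t, sin (2 * t) ≠ 0 → f t = g t) : f t0 = g t0 := by
  refine tendsto_nhds_unique_of_eventuallyEq (hf.tendsto.mono_left nhdsWithin_le_nhds)
    (hg.tendsto.mono_left nhdsWithin_le_nhds) (l := 𝓝[≠] t0) ?_
  filter_upwards [red_punctured t0] with t ht
  exact hfg t ht

theorem red_le_of_regular {f g : ℝ → ℝ} {t0 : ℝ} (hf : ContinuousAt f t0)
    (hg : ContinuousAt g t0) (hfg : ∀ t, sin (2 * t) ≠ 0 → f t ≤ g t) : f t0 ≤ g t0 := by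
  refine le_of_tendsto_of_tendsto (hf.tendsto.mono_left nhdsWithin_le_nhds)
    (hg.tendsto.mono_left nhdsWithin_le_nhds) (b := 𝓝[≠] t0) ?_
  filter_upwards [red_punctured t0] with t ht
  exact hfg t ht

/-- derivative of `redC` -/
noncomputable def redC' (A : ℝ → ℝ → Matrix (κ ⊕ ν) (κ ⊕ ν) ℝ) (t : ℝ) : Matrix ν ν ℝ :=
  Matrix.of fun i j => deriv (fun s => redC A s i j) t

theorem redC_contDiff (h : JData (π / 2) A) (ha : Adapted A) (i j : ν) :
    ContDiff ℝ 1 (fun t => redC A t i j) :=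
  contDiff_iff_contDiffAt.2 fun t => redC_contDiffAt h ha i j t

theorem redC_hasDerivAt (h : JData (π / 2) A) (ha : Adapted A) (t : ℝ) (i j : ν) :
    HasDerivAt (fun t => redC A t i j) (redC' A t i j) t :=
  (((redC_contDiff h ha i j).differentiable one_ne_zero) t).hasDerivAt

theorem redC'_continuous (h : JData (π / 2) A) (ha : Adapted A) (i j : ν) :
    Continuous (fun t => redC' A t i j) :=
  (contDiff_one_iff_deriv.1 (redC_contDiff h ha i j)).2

theorem redC_continuous (h : JData (π / 2) A) (ha : Adapted A) (i j : ν) :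
    Continuous (fun t => redC A t i j) := (redC_contDiff h ha i j).continuous

theorem redC_symm (h : JData (π / 2) A) (ha : Adapted A) (t : ℝ) (i j : ν) :
    redC A t i j = redC A t j i := by
  have hπ := Real.pi_pos
  have hb : IsUnit (A 0 (π / 4)) := h.unit 0 (π / 4) (by linarith) (by linarith only [hπ])
  refine red_eq_of_regular (f := fun t => redC A t i j) (g := fun t => redC A t j i)
    (redC_continuous h ha i j).continuousAt (redC_continuous h ha j i).continuousAt ?_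
  intro t ht
  have h1 := h.Hc_symm hb (red_unit h ht)
  have h2 := congrFun (congrFun h1 (Sum.inr i)) (Sum.inr j)
  rw [Matrix.transpose_apply] at h2
  show redC A t i j = redC A t j i
  rw [redC_regular A ht]
  show -(sin t) * Hc A 0 (π / 4) t (Sum.inr i) (Sum.inr j)
    = -(sin t) * Hc A 0 (π / 4) t (Sum.inr j) (Sum.inr i)
  rw [h2]

theorem redC'_symm (h : JData (π / 2) A) (ha : Adapted A) (t : ℝ) (i j : ν) :
    redC' A t i j = redC' A t j i := by
  show deriv (fun s => redC A s i j) t = deriv (fun s => redC A s j i) t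
  congr 1
  funext s
  exact redC_symm h ha s i j

theorem redC_rel (h : JData (π / 2) A) (ha : Adapted A) {t : ℝ} (ht : sin (2 * t) ≠ 0) :
    cos t • redC A t - sin t • redC' A t = (sin t) ^ 2 • ((Gm A 0 t)⁻¹).toBlocks₂₂ := by
  have hπ := Real.pi_pos
  have hb : IsUnit (A 0 (π / 4)) := h.unit 0 (π / 4) (by linarith) (by linarith)
  ext i j
  have h1 := h.Hc_hasDerivAt hb (red_unit h ht) (Sum.inr i) (Sum.inr j)
  have h2 := (Real.hasDerivAt_sin t).neg.mul h1
  have h3 : HasDerivAt (fun t => redC A t i j)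
      (-cos t * Hc A 0 (π / 4) t (Sum.inr i) (Sum.inr j)
        + -sin t * (Gm A 0 t)⁻¹ (Sum.inr i) (Sum.inr j)) t := by
    refine h2.congr_of_eventuallyEq ?_
    have h3 : ContinuousAt (fun t : ℝ => sin (2 * t)) t := by (clear * -; fun_prop)
    filter_upwards [h3.eventually_ne ht] with s hs
    rw [redC_regular A hs]
    rfl
  have h4 := (redC_hasDerivAt h ha t i j).unique h3
  rw [Matrix.sub_apply, Matrix.smul_apply, Matrix.smul_apply, Matrix.smul_apply, h4,
    redC_regular A ht]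
  simp only [Matrix.smul_apply, smul_eq_mul, Matrix.toBlocks₂₂, Matrix.of_apply]
  ring

/-- `|Aᵀ z|² ≤ tr (Aᵀ A) |z|²`, applied to `v = Aᵀ z`. -/
theorem red_inv_bound {ι : Type*} [Fintype ι] [DecidableEq ι] {M : Matrix ι ι ℝ}
    (hM : IsUnit M) (v : ι → ℝ) :
    v ⬝ᵥ v ≤ (Mᵀ * M).trace * (v ⬝ᵥ ((Mᵀ * M)⁻¹ *ᵥ v)) := by
  have hM' := (Matrix.isUnit_iff_isUnit_det _).1 hM
  set z : ι → ℝ := (M⁻¹)ᵀ *ᵥ v with hz
  have h1 : v = Mᵀ *ᵥ z := by
    rw [hz, Matrix.mulVec_mulVec, ← Matrix.transpose_mul, Matrix.nonsing_inv_mul _ hM',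
      Matrix.transpose_one, Matrix.one_mulVec]
  have h2 : v ⬝ᵥ ((Mᵀ * M)⁻¹ *ᵥ v) = z ⬝ᵥ z := by
    rw [Matrix.mul_inv_rev, ← Matrix.mulVec_mulVec, Matrix.dotProduct_mulVec,
      ← Matrix.mulVec_transpose, ← Matrix.transpose_nonsing_inv]
  rw [h2, Matrix.trace, dotProduct, Finset.sum_mul]
  refine Finset.sum_le_sum fun i _ => ?_
  rw [Matrix.diag_apply, Matrix.mul_apply]
  have h3 : v i = ∑ j, M j i * z j := by
    conv_lhs => rw [h1]
    rfl
  rw [h3, ← sq]
  simp only [Matrix.transpose_apply, dotProduct, ← sq]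
  exact Finset.sum_mul_sq_le_sq_mul_sq _ _ _

theorem red_bound (h : JData (π / 2) A) (ha : Adapted A) (v : ν → ℝ) (t : ℝ) :
    (sin t) ^ 2 * (v ⬝ᵥ v) ≤
      (Gm A 0 t).trace * (v ⬝ᵥ ((cos t • redC A t - sin t • redC' A t) *ᵥ v)) := by
  have c1 : ∀ i j, Continuous fun t => (cos t • redC A t - sin t • redC' A t) i j := by
    intro i j
    have h1 := redC_continuous h ha i j
    have h2 := redC'_continuous h ha i j
    simp only [Matrix.sub_apply, Matrix.smul_apply, smul_eq_mul]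
    fun_prop
  refine red_le_of_regular (f := fun t => (sin t) ^ 2 * (v ⬝ᵥ v)) (g := fun t =>
    (Gm A 0 t).trace * (v ⬝ᵥ ((cos t • redC A t - sin t • redC' A t) *ᵥ v))) ?_ ?_ ?_
  · (clear * -; fun_prop)
  · apply Continuous.continuousAt
    apply Continuous.mul
    · simp only [Matrix.trace, Matrix.diag_apply]
      exact continuous_finsetSum _ fun i _ => (h.Gm_contDiff 0 i i).continuous
    · simp only [dotProduct, Matrix.mulVec]
      refine continuous_finsetSum _ fun i _ => continuous_const.mul ?_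
      exact continuous_finsetSum _ fun j _ => (c1 i j).mul continuous_const
  · intro t ht
    show (sin t) ^ 2 * (v ⬝ᵥ v) ≤
      (Gm A 0 t).trace * (v ⬝ᵥ ((cos t • redC A t - sin t • redC' A t) *ᵥ v))
    rw [redC_rel h ha ht, Matrix.smul_mulVec, dotProduct_smul, smul_eq_mul, ← mul_assoc,
      mul_comm _ ((sin t) ^ 2), mul_assoc]
    refine mul_le_mul_of_nonneg_left ?_ (sq_nonneg _)
    have h1 := red_inv_bound (red_unit h ht) (Sum.elim (0 : κ → ℝ) v)
    have h2 : (Sum.elim (0 : κ → ℝ) v) ⬝ᵥ (Sum.elim (0 : κ → ℝ) v) = v ⬝ᵥ v := by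
      simp only [dotProduct, Fintype.sum_sum_type, Sum.elim_inl, Pi.zero_apply, mul_zero, Finset.sum_const_zero, Sum.elim_inr, zero_add]
    have h3 : (Sum.elim (0 : κ → ℝ) v) ⬝ᵥ (((A 0 t)ᵀ * A 0 t)⁻¹ *ᵥ (Sum.elim (0 : κ → ℝ) v))
        = v ⬝ᵥ (((Gm A 0 t)⁻¹).toBlocks₂₂ *ᵥ v) := by
      simp only [dotProduct, mulVec, Fintype.sum_sum_type, Sum.elim_inl, Pi.zero_apply, mul_zero, Finset.sum_const_zero, Sum.elim_inr, zero_add, zero_mul, toBlocks₂₂, Gm, of_apply]
    rw [h2, h3] at h1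
    exact h1

theorem redC_pos (h : JData (π / 2) A) (ha : Adapted A) (t : ℝ) :
    (cos t • redC A t - sin t • redC' A t).PosDef := by
  by_cases hs : sin t = 0
  · have h1 : cos t * cos t = 1 := by
      have := Real.sin_sq_add_cos_sq t
      rw [hs] at this
      linarith
    rw [redC_of_sin A hs, hs, zero_smul, sub_zero, smul_smul, h1, one_smul]
    exact Matrix.PosDef.one
  · refine Matrix.PosDef.of_dotProduct_mulVec_pos ?_ ?_
    · ext i j
      simp only [Matrix.conjTranspose_apply, Matrix.sub_apply, Matrix.smul_apply, smul_eq_mul,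
        star_trivial]
      rw [redC_symm h ha t j i, redC'_symm h ha t j i]
    · intro v hv
      rw [star_trivial]
      have h1 := red_bound h ha v t
      have h2 : 0 < v ⬝ᵥ v := by
        have := Matrix.dotProduct_star_self_pos_iff.2 hv
        rwa [star_trivial] at this
      have h3 : 0 < (sin t) ^ 2 * (v ⬝ᵥ v) := mul_pos (by (clear * - hs; positivity)) h2
      have h4 : 0 ≤ (Gm A 0 t).trace := by
        have : (Gm A 0 t).PosSemidef := by
          have := Matrix.posSemidef_conjTranspose_mul_self (A 0 t)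
          rwa [Matrix.conjTranspose_eq_transpose_of_trivial] at this
        exact this.trace_nonneg
      by_contra h5
      push Not at h5
      have := mul_nonpos_of_nonneg_of_nonpos h4 h5
      linarith only [h1, h3, this]

theorem JData.exists_CData (h : JData (π / 2) A) (ha : Adapted A) :
    ∃ C C' : ℝ → Matrix ν ν ℝ, CData C C' ∧ ∀ t, sin (2 * t) ≠ 0 →
      C t = -(sin t) • (Hc A 0 (π / 4) t).toBlocks₂₂ ∧
      cos t • C t - sin t • C' t = (sin t) ^ 2 • ((Gm A 0 t)⁻¹).toBlocks₂₂ := by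
  refine ⟨redC A, redC' A, ⟨redC_hasDerivAt h ha, redC'_continuous h ha, ?_, redC_anti h, ?_,
    redC_pos h ha⟩, fun t ht => ⟨redC_regular A ht, redC_rel h ha ht⟩⟩
  · intro t
    ext i j
    rw [Matrix.transpose_apply]
    exact redC_symm h ha t j i
  · rw [redC_of_sin A Real.sin_zero, Real.cos_zero, one_smul]

end Reduced

end Vale.Agent.P231
end
end
end

section

section

section

/-! P231 core C2: a maximum principle. -/

open Real Set Filter Topology

namespace Vale.Agent.P231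

noncomputable section

/-- A function with vanishing first and negative second derivative has no local minimum. -/
theorem cmp_no_min {v v' : ℝ → ℝ} {a b r0 c : ℝ} (hr0 : r0 ∈ Ioo a b)
    (h1 : ∀ r ∈ Ioo a b, HasDerivAt v (v' r) r) (h2 : HasDerivAt v' c r0)
    (hmin : IsLocalMin v r0) : 0 ≤ c := by
  by_contra hc
  push Not at hc
  have hv0 : v' r0 = 0 := hmin.hasDerivAt_eq_zero (h1 r0 hr0)
  have hs := (hasDerivAt_iff_tendsto_slope.1 h2).eventually (gt_mem_nhds hc)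
  have hs2 : ∀ᶠ r in 𝓝[>] r0, v' r < 0 := by
    have h3 : ∀ᶠ r in 𝓝[>] r0, slope v' r0 r < 0 :=
      nhdsWithin_mono r0 (fun x (hx : r0 < x) => ne_of_gt hx) hs
    filter_upwards [h3, self_mem_nhdsWithin] with r hr hr'
    have hpos : 0 < r - r0 := sub_pos.2 hr'
    rw [slope_def_field, hv0, sub_zero] at hr
    rcases div_neg_iff.1 hr with h | h
    · linarith only [hpos, h]
    · exact h.1
  have hs3 : ∀ᶠ r in 𝓝[>] r0, v r0 ≤ v r := nhdsWithin_le_nhds hmin
  have hs4 : ∀ᶠ r in 𝓝[>] r0, r < b := nhdsWithin_le_nhds (gt_mem_nhds hr0.2)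
  have hall := (hs2.and (hs3.and hs4))
  obtain ⟨d, hd, hsub⟩ := mem_nhdsGT_iff_exists_Ioo_subset.1 hall
  obtain ⟨x, hx⟩ := exists_between (show r0 < d from hd)
  have hxm : x ∈ Ioo r0 d := hx
  obtain ⟨-, hx3, hx4⟩ := hsub hxm
  have hcont : ContinuousOn v (Icc r0 x) := by
    intro y hy
    refine (h1 y ⟨?_, ?_⟩).continuousAt.continuousWithinAt
    · exact lt_of_lt_of_le hr0.1 hy.1
    · exact lt_of_le_of_lt hy.2 hx4
  have hanti : StrictAntiOn v (Icc r0 x) := by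
    refine strictAntiOn_of_deriv_neg (convex_Icc r0 x) hcont ?_
    intro y hy
    rw [interior_Icc] at hy
    have hyab : y ∈ Ioo a b := ⟨lt_trans hr0.1 hy.1, lt_trans hy.2 hx4⟩
    rw [(h1 y hyab).deriv]
    exact (hsub ⟨hy.1, lt_trans hy.2 hx.2⟩).1
  have := hanti (left_mem_Icc.2 hx.1.le) (right_mem_Icc.2 hx.1.le) hx.1
  linarith only [hx3, this]

theorem comparison {k T : ℝ} (hk : 0 < k) (hT : k * T = π) {u u' u'' : ℝ → ℝ}
    (h1 : ∀ r ∈ Ioo 0 T, HasDerivAt u (u' r) r)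
    (h2 : ∀ r ∈ Ioo 0 T, HasDerivAt u' (u'' r) r)
    (h3 : ∀ r ∈ Ioo 0 T, u'' r ≤ 2 * k ^ 2 / (sin (k * r)) ^ 2 * u r)
    (h0 : ∀ ε > 0, ∀ᶠ r in 𝓝[>] (0 : ℝ), -ε ≤ sin (k * r) * u r)
    (h4 : ∀ ε > 0, ∀ᶠ r in 𝓝[<] T, -ε ≤ sin (k * r) * u r) :
    ∀ r ∈ Ioo 0 T, 0 ≤ u r := by
  have hTpos : 0 < T := by
    have := Real.pi_pos
    rw [← hT] at this
    exact (pos_iff_pos_of_mul_pos this).1 hk
  have hsin : ∀ r ∈ Ioo 0 T, 0 < sin (k * r) := by
    intro r hr
    refine sin_pos_of_pos_of_lt_pi (mul_pos hk hr.1) ?_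
    rw [← hT]
    exact mul_lt_mul_of_pos_left hr.2 hk
  -- key claim
  have key : ∀ ε > 0, ∀ r ∈ Ioo 0 T, 0 ≤ sin (k * r) * u r + ε := by
    intro ε hε r1 hr1
    by_contra hneg
    push Not at hneg
    set v : ℝ → ℝ := fun r => u r + ε * (sin (k * r))⁻¹ with hv
    set v' : ℝ → ℝ := fun r => u' r + ε * (-(k * cos (k * r)) / (sin (k * r)) ^ 2) with hv'
    have hdk : ∀ r : ℝ, HasDerivAt (fun r => k * r) k r := fun r => by
      simpa using (hasDerivAt_id r).const_mul k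
    have hds : ∀ r : ℝ, HasDerivAt (fun r => sin (k * r)) (k * cos (k * r)) r := fun r => by
      have := (hasDerivAt_sin (k * r)).comp r (hdk r)
      rw [mul_comm] at this
      exact this
    have hdc : ∀ r : ℝ, HasDerivAt (fun r => cos (k * r)) (-(k * sin (k * r))) r := fun r => by
      have := (hasDerivAt_cos (k * r)).comp r (hdk r)
      have e : -sin (k * r) * k = -(k * sin (k * r)) := by ring
      rw [e] at this
      exact this
    have hv1 : ∀ r ∈ Ioo 0 T, HasDerivAt v (v' r) r := by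
      intro r hr
      have hne := (hsin r hr).ne'
      exact (h1 r hr).add (((hds r).inv hne).const_mul ε)
    have hv2 : ∀ r ∈ Ioo 0 T, HasDerivAt v'
        (u'' r + ε * (2 * k ^ 2 / (sin (k * r)) ^ 3 - k ^ 2 / sin (k * r))) r := by
      intro r hr
      have hne := (hsin r hr).ne'
      have hd1 : HasDerivAt (fun r => -(k * cos (k * r))) (-(k * -(k * sin (k * r)))) r :=
        ((hdc r).const_mul k).neg
      have hd2 : HasDerivAt (fun r => (sin (k * r)) ^ 2)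
          (((2 : ℕ) : ℝ) * sin (k * r) ^ (2 - 1) * (k * cos (k * r))) r := (hds r).pow 2
      have hd3 := (h2 r hr).add ((hd1.div hd2 (pow_ne_zero 2 hne)).const_mul ε)
      refine hd3.congr_deriv ?_
      have hc2 : cos (k * r) ^ 2 = 1 - sin (k * r) ^ 2 := by
        have := sin_sq_add_cos_sq (k * r)
        linarith only [this]
      have e : ((2 : ℕ) : ℝ) * sin (k * r) ^ (2 - 1) * (k * cos (k * r)) =
        2 * sin (k * r) * (k * cos (k * r)) := by norm_num
      rw [e]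
      have e2 : (-(k * -(k * sin (k * r))) * sin (k * r) ^ 2 -
          -(k * cos (k * r)) * (2 * sin (k * r) * (k * cos (k * r)))) / (sin (k * r) ^ 2) ^ 2 =
          2 * k ^ 2 / (sin (k * r)) ^ 3 - k ^ 2 / sin (k * r) := by
        have e3 : -(k * -(k * sin (k * r))) * sin (k * r) ^ 2 -
          -(k * cos (k * r)) * (2 * sin (k * r) * (k * cos (k * r))) =
          k ^ 2 * sin (k * r) * (sin (k * r) ^ 2 + 2 * cos (k * r) ^ 2) := by ring
        rw [e3, hc2]
        field_simp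
        ring
      rw [e2]
    -- the function v is positive near the ends
    have e0 : ∀ᶠ r in 𝓝[>] (0 : ℝ), 0 < sin (k * r) * u r + ε := by
      filter_upwards [h0 (ε / 2) (by linarith only [hε])] with r hr
      linarith only [hε, hr]
    have e4 : ∀ᶠ r in 𝓝[<] T, 0 < sin (k * r) * u r + ε := by
      filter_upwards [h4 (ε / 2) (by linarith only [hε])] with r hr
      linarith only [hε, hr]
    obtain ⟨a, ha1, ha2, ha3⟩ : ∃ a, 0 < a ∧ a < r1 ∧ 0 < sin (k * a) * u a + ε := by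
      have h5 : ∀ᶠ r in 𝓝[>] (0 : ℝ), r < r1 := nhdsWithin_le_nhds (gt_mem_nhds hr1.1)
      have h6 : ∀ᶠ r in 𝓝[>] (0 : ℝ), 0 < r := self_mem_nhdsWithin
      obtain ⟨a, h⟩ := (h6.and (h5.and e0)).exists
      exact ⟨a, h.1, h.2.1, h.2.2⟩
    obtain ⟨b, hb1, hb2, hb3⟩ : ∃ b, r1 < b ∧ b < T ∧ 0 < sin (k * b) * u b + ε := by
      have h5 : ∀ᶠ r in 𝓝[<] T, r1 < r := nhdsWithin_le_nhds (lt_mem_nhds hr1.2)
      have h6 : ∀ᶠ r in 𝓝[<] T, r < T := self_mem_nhdsWithin
      obtain ⟨b, h⟩ := (h6.and (h5.and e4)).exists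
      exact ⟨b, h.2.1, h.1, h.2.2⟩
    have hsub : ∀ y ∈ Icc a b, y ∈ Ioo 0 T := fun y hy =>
      ⟨lt_of_lt_of_le ha1 hy.1, lt_of_le_of_lt hy.2 hb2⟩
    have hvcont : ContinuousOn v (Icc a b) := fun y hy =>
      (hv1 y (hsub y hy)).continuousAt.continuousWithinAt
    have hmul : ∀ r ∈ Ioo 0 T, sin (k * r) * v r = sin (k * r) * u r + ε := by
      intro r hr
      have hne := (hsin r hr).ne'
      simp only [hv]
      (clear * - hne; field_simp)
    obtain ⟨r0, hr0, hr0min⟩ := isCompact_Icc.exists_isMinOn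
      (nonempty_Icc.2 (le_of_lt (lt_trans ha2 hb1))) hvcont
    have hv1neg : v r1 < 0 := by
      have := hmul r1 hr1
      have hs := hsin r1 hr1
      by_contra hcon
      push Not at hcon
      linarith only [mul_nonneg (le_of_lt (sub_pos.2 hs)) (sub_nonneg.2 hcon), this, hneg]
    have hv0neg : v r0 < 0 := lt_of_le_of_lt (hr0min ⟨ha2.le, hb1.le⟩) hv1neg
    have hposend : ∀ y ∈ Ioo 0 T, 0 < sin (k * y) * u y + ε → 0 < v y := by
      intro y hy h
      rw [← hmul y hy] at h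
      exact (pos_iff_pos_of_mul_pos h).1 (hsin y hy)
    have hne_a : r0 ≠ a := by
      rintro rfl
      exact absurd (hposend r0 (hsub r0 hr0) ha3) (not_lt.2 hv0neg.le)
    have hne_b : r0 ≠ b := by
      rintro rfl
      exact absurd (hposend r0 (hsub r0 hr0) hb3) (not_lt.2 hv0neg.le)
    have hr0' : r0 ∈ Ioo a b := ⟨lt_of_le_of_ne hr0.1 hne_a.symm, lt_of_le_of_ne hr0.2 hne_b⟩
    have hloc : IsLocalMin v r0 := hr0min.isLocalMin (Icc_mem_nhds hr0'.1 hr0'.2)
    have hfin := cmp_no_min hr0' (fun r hr => hv1 r (hsub r ⟨hr.1.le, hr.2.le⟩))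
      (hv2 r0 (hsub r0 hr0)) hloc
    have hs := hsin r0 (hsub r0 hr0)
    have hu := h3 r0 (hsub r0 hr0)
    have hlt : 2 * k ^ 2 / (sin (k * r0)) ^ 2 * v r0 < 0 :=
      mul_neg_of_pos_of_neg (by positivity) hv0neg
    have hexp : 2 * k ^ 2 / (sin (k * r0)) ^ 2 * v r0 =
        2 * k ^ 2 / (sin (k * r0)) ^ 2 * u r0 + ε * (2 * k ^ 2 / (sin (k * r0)) ^ 3) := by
      simp only [hv]
      (clear * - hs hk; field_simp)
    have hpos : 0 < ε * (k ^ 2 / sin (k * r0)) := by (clear * - hε hk hs; positivity)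
    have : u'' r0 + ε * (2 * k ^ 2 / (sin (k * r0)) ^ 3 - k ^ 2 / sin (k * r0)) < 0 := by
      have e2 : ε * (2 * k ^ 2 / (sin (k * r0)) ^ 3 - k ^ 2 / sin (k * r0)) =
        ε * (2 * k ^ 2 / (sin (k * r0)) ^ 3) - ε * (k ^ 2 / sin (k * r0)) := by ring
      rw [e2]
      linarith only [hu, hlt, hexp, hpos]
    linarith only [hfin, hu, hlt, hexp, hpos]
  intro r hr
  have hs := hsin r hr
  have : 0 ≤ sin (k * r) * u r := by
    refine le_of_forall_pos_le_add ?_
    intro ε hε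
    exact key ε hε r hr
  exact nonneg_of_mul_nonneg_right this hs

end

end Vale.Agent.P231
end
end
end

section

section

section

/-! P231 core C3: differentiation of averages over the strip. -/

open Real Set Filter Topology MeasureTheory

namespace Vale.Agent.P231

noncomputable section

/-- Differentiation under the integral sign over `[0, π]`. -/
theorem avg_deriv {G G' : ℝ → ℝ → ℝ} {T : ℝ}
    (cG : ContinuousOn (fun p : ℝ × ℝ => G p.1 p.2) (univ ×ˢ Ioo 0 T))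
    (cG' : ContinuousOn (fun p : ℝ × ℝ => G' p.1 p.2) (univ ×ˢ Ioo 0 T))
    (dG : ∀ s, ∀ r ∈ Ioo 0 T, HasDerivAt (fun r => G s r) (G' s r) r)
    {r : ℝ} (hr : r ∈ Ioo 0 T) :
    HasDerivAt (fun r => ∫ s in (0 : ℝ)..π, G s r) (∫ s in (0 : ℝ)..π, G' s r) r := by
  obtain ⟨ε, hε, hball⟩ := Metric.isOpen_iff.1 isOpen_Ioo r hr
  have hsub : Metric.closedBall r (ε / 2) ⊆ Ioo 0 T :=
    (Metric.closedBall_subset_ball (by linarith)).trans hball
  have hcontG : ∀ x ∈ Ioo 0 T, Continuous (fun s => G s x) := by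
    intro x hx
    rw [continuous_iff_continuousAt]
    intro s
    have hmem : (s, x) ∈ (univ ×ˢ Ioo 0 T : Set (ℝ × ℝ)) := ⟨mem_univ _, hx⟩
    have hca : ContinuousAt (fun p : ℝ × ℝ => G p.1 p.2) (s, x) :=
      cG.continuousAt ((isOpen_univ.prod isOpen_Ioo).mem_nhds hmem)
    exact ContinuousAt.comp (f := fun s : ℝ => (s, x)) hca (by fun_prop)
  have hcontG' : ∀ x ∈ Ioo 0 T, Continuous (fun s => G' s x) := by
    intro x hx
    rw [continuous_iff_continuousAt]
    intro s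
    have hmem : (s, x) ∈ (univ ×ˢ Ioo 0 T : Set (ℝ × ℝ)) := ⟨mem_univ _, hx⟩
    have hca : ContinuousAt (fun p : ℝ × ℝ => G' p.1 p.2) (s, x) :=
      cG'.continuousAt ((isOpen_univ.prod isOpen_Ioo).mem_nhds hmem)
    exact ContinuousAt.comp (f := fun s : ℝ => (s, x)) hca (by fun_prop)
  obtain ⟨B, hB⟩ : ∃ B, ∀ p ∈ (Icc (0 : ℝ) π) ×ˢ (Metric.closedBall r (ε / 2)),
      ‖G' p.1 p.2‖ ≤ B := by
    have hK : IsCompact ((Icc (0 : ℝ) π) ×ˢ (Metric.closedBall r (ε / 2))) :=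
      isCompact_Icc.prod (isCompact_closedBall r (ε / 2))
    exact hK.exists_bound_of_continuousOn
      (cG'.mono (prod_mono (subset_univ _) hsub))
  have hpi : (0 : ℝ) ≤ π := Real.pi_pos.le
  refine (intervalIntegral.hasDerivAt_integral_of_dominated_loc_of_deriv_le
    (𝕜 := ℝ) (E := ℝ) (μ := volume) (a := 0) (b := π)
    (F := fun x s => G s x) (F' := fun x s => G' s x)
    (s := Metric.ball r (ε / 2)) (bound := fun _ => B)
    (Metric.ball_mem_nhds r (by linarith only [hε])) ?_ ?_ ?_ ?_ ?_ ?_).2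
  · filter_upwards [Metric.ball_mem_nhds r (show (0 : ℝ) < ε / 2 by linarith only [hε])] with x hx
    exact (hcontG x (hsub (Metric.ball_subset_closedBall hx))).aestronglyMeasurable
  · exact (hcontG r hr).intervalIntegrable _ _
  · exact (hcontG' r hr).aestronglyMeasurable
  · refine Eventually.of_forall ?_
    intro s hs x hx
    rw [uIoc_of_le hpi] at hs
    exact hB (s, x) ⟨⟨hs.1.le, hs.2⟩, Metric.ball_subset_closedBall hx⟩
  · exact intervalIntegrable_const
  · refine Eventually.of_forall ?_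
    intro s _ x hx
    exact dG s x (hsub (Metric.ball_subset_closedBall hx))

/-- Integrals over a period do not see a shift. -/
theorem avg_shift {f : ℝ → ℝ} (hf : Function.Periodic f π) (r : ℝ) :
    ∫ s in (0 : ℝ)..π, f (s + r) = ∫ t in (0 : ℝ)..π, f t := by
  rw [intervalIntegral.integral_comp_add_right (fun t => f t) r]
  have := hf.intervalIntegral_add_eq (0 + r) 0
  rw [zero_add] at this ⊢
  rw [zero_add] at this
  rw [add_comm π r]
  exact this

theorem average {F Ft Fts : ℝ → ℝ → ℝ} {T : ℝ}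
    (hF : ∀ s t, F (s + π) (t + π) = F s t)
    (cF : ContinuousOn (fun p : ℝ × ℝ => F p.1 p.2) (strip T))
    (cFt : ContinuousOn (fun p : ℝ × ℝ => Ft p.1 p.2) (strip T))
    (cFts : ContinuousOn (fun p : ℝ × ℝ => Fts p.1 p.2) (strip T))
    (dF : ∀ s t, (s, t) ∈ strip T → HasDerivAt (fun t' => F s t') (Ft s t) t)
    (dFt : ∀ s t, (s, t) ∈ strip T → HasDerivAt (fun s' => Ft s' t) (Fts s t) s) :
    ∀ r ∈ Ioo 0 T,
      HasDerivAt (fun r => ∫ s in (0 : ℝ)..π, F s (s + r)) (∫ s in (0 : ℝ)..π, Ft s (s + r)) r ∧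
      HasDerivAt (fun r => ∫ s in (0 : ℝ)..π, Ft s (s + r))
        (-∫ s in (0 : ℝ)..π, Fts s (s + r)) r := by
  have hm1 : ∀ s : ℝ, ∀ r ∈ Ioo 0 T, (s, s + r) ∈ strip T := by
    intro s r hr
    exact ⟨by simpa only [lt_add_iff_pos_right] using hr.1, by simpa using hr.2⟩
  have hm2 : ∀ t : ℝ, ∀ r ∈ Ioo 0 T, (t - r, t) ∈ strip T := by
    intro t r hr
    refine ⟨?_, ?_⟩
    · have := hr.1
      show t - r < t
      linarith
    · have := hr.2
      show t < t - r + T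
      linarith only [this]
  have hstrip : ∀ {s t : ℝ}, (s, t) ∈ strip T → (s + π, t + π) ∈ strip T := by
    intro s t h
    refine ⟨?_, ?_⟩
    · have := h.1
      show s + π < t + π
      simpa using this
    · have h2 : t < s + T := h.2
      show t + π < s + π + T
      linarith only [h2]
  have hFt : ∀ s t, (s, t) ∈ strip T → Ft (s + π) (t + π) = Ft s t := by
    intro s t h
    have h1 : HasDerivAt (fun t' => F (s + π) t') (Ft (s + π) (t + π)) (t + π) :=
      dF _ _ (hstrip h)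
    have h2 : HasDerivAt (fun t' => F (s + π) (t' + π)) (Ft (s + π) (t + π)) t :=
      h1.comp_add_const t π
    have h3 : (fun t' => F (s + π) (t' + π)) = fun t' => F s t' := by
      funext t'
      exact hF s t'
    rw [h3] at h2
    exact h2.unique (dF s t h)
  have hFts : ∀ s t, (s, t) ∈ strip T → Fts (s + π) (t + π) = Fts s t := by
    intro s t h
    have h1 : HasDerivAt (fun s' => Ft s' (t + π)) (Fts (s + π) (t + π)) (s + π) :=
      dFt _ _ (hstrip h)
    have h2 : HasDerivAt (fun s' => Ft (s' + π) (t + π)) (Fts (s + π) (t + π)) s :=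
      h1.comp_add_const s π
    have h3 : (fun s' => Ft (s' + π) (t + π)) =ᶠ[𝓝 s] fun s' => Ft s' t := by
      have hopen : ∀ᶠ s' in 𝓝 s, (s', t) ∈ strip T := by
        have ha : ∀ᶠ s' in 𝓝 s, s' < t := gt_mem_nhds h.1
        have hb : ∀ᶠ s' in 𝓝 s, t - T < s' := by
          refine lt_mem_nhds ?_
          have : t < s + T := h.2
          linarith
        filter_upwards [ha, hb] with s' h1 h2
        exact ⟨h1, by show t < s' + T; linarith⟩
      filter_upwards [hopen] with s' hs'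
      exact hFt s' t hs'
    exact (h2.congr_of_eventuallyEq h3.symm).unique (dFt s t h)
  have hcs : ContinuousOn (fun p : ℝ × ℝ => (p.1, p.1 + p.2)) (univ ×ˢ Ioo 0 T) := by fun_prop
  have hct : ContinuousOn (fun p : ℝ × ℝ => (p.1 - p.2, p.1)) (univ ×ˢ Ioo 0 T) := by (clear * -; fun_prop)
  have hms : MapsTo (fun p : ℝ × ℝ => (p.1, p.1 + p.2)) (univ ×ˢ Ioo 0 T) (strip T) :=
    fun p hp => hm1 p.1 p.2 hp.2
  have hmt : MapsTo (fun p : ℝ × ℝ => (p.1 - p.2, p.1)) (univ ×ˢ Ioo 0 T) (strip T) :=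
    fun p hp => hm2 p.1 p.2 hp.2
  intro r hr
  refine ⟨?_, ?_⟩
  · refine avg_deriv (G := fun s r => F s (s + r)) (G' := fun s r => Ft s (s + r)) (T := T)
      ?_ ?_ ?_ hr
    · exact cF.comp hcs hms
    · exact cFt.comp hcs hms
    · intro s x hx
      have h1 := dF s (s + x) (hm1 s x hx)
      exact h1.comp_const_add s x
  · -- rewrite both integrals
    have hper1 : ∀ x ∈ Ioo 0 T, Function.Periodic (fun t => Ft (t - x) t) π := by
      intro x hx t
      have e : t + π - x = (t - x) + π := by ring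
      show Ft (t + π - x) (t + π) = Ft (t - x) t
      rw [e]
      exact hFt _ _ (hm2 t x hx)
    have hper2 : ∀ x ∈ Ioo 0 T, Function.Periodic (fun t => Fts (t - x) t) π := by
      intro x hx t
      have e : t + π - x = (t - x) + π := by ring
      show Fts (t + π - x) (t + π) = Fts (t - x) t
      rw [e]
      exact hFts _ _ (hm2 t x hx)
    have hi1 : ∀ x ∈ Ioo 0 T,
        ∫ s in (0 : ℝ)..π, Ft s (s + x) = ∫ t in (0 : ℝ)..π, Ft (t - x) t := by
      intro x hx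
      have := avg_shift (hper1 x hx) x
      simpa only [add_sub_cancel_right] using this
    have hi2 : ∀ x ∈ Ioo 0 T,
        ∫ s in (0 : ℝ)..π, Fts s (s + x) = ∫ t in (0 : ℝ)..π, Fts (t - x) t := by
      intro x hx
      have := avg_shift (hper2 x hx) x
      simpa only [add_sub_cancel_right] using this
    have hmain : HasDerivAt (fun r => ∫ t in (0 : ℝ)..π, Ft (t - r) t)
        (∫ t in (0 : ℝ)..π, -Fts (t - r) t) r := by
      refine avg_deriv (G := fun t r => Ft (t - r) t) (G' := fun t r => -Fts (t - r) t) (T := T)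
        ?_ ?_ ?_ hr
      · exact cFt.comp hct hmt
      · exact (cFts.comp hct hmt).neg
      · intro t x hx
        have h1 := dFt (t - x) t (hm2 t x hx)
        exact h1.comp_const_sub t x
    rw [intervalIntegral.integral_neg, ← hi2 r hr] at hmain
    refine hmain.congr_of_eventuallyEq ?_
    filter_upwards [isOpen_Ioo.mem_nhds hr] with x hx
    exact hi1 x hx

end

end Vale.Agent.P231
end
end
end

section

section

section

/-! Derivatives of determinants, inverses and products of matrix valued functions, stated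
entrywise. -/

set_option linter.unusedSectionVars false

open Matrix Real Set Filter Topology

namespace Vale.Agent.P231

noncomputable section

variable {ν : Type*} [Fintype ν] [DecidableEq ν]

/-- Entrywise derivative of a matrix valued function. -/
def HasMatDeriv (M : ℝ → Matrix ν ν ℝ) (M' : Matrix ν ν ℝ) (t : ℝ) : Prop :=
  ∀ i j, HasDerivAt (fun t => M t i j) (M' i j) t

theorem HasMatDeriv.continuousAt {M : ℝ → Matrix ν ν ℝ} {M' : Matrix ν ν ℝ} {t : ℝ}
    (h : HasMatDeriv M M' t) : ContinuousAt M t := by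
  refine continuousAt_pi.2 (fun i => continuousAt_pi.2 (fun j => (h i j).continuousAt))

theorem HasMatDeriv.mul {M N : ℝ → Matrix ν ν ℝ} {M' N' : Matrix ν ν ℝ} {t : ℝ}
    (hM : HasMatDeriv M M' t) (hN : HasMatDeriv N N' t) :
    HasMatDeriv (fun t => M t * N t) (M' * N t + M t * N') t := by
  intro i j
  have h1 : HasDerivAt (fun t => ∑ k, M t i k * N t k j)
      (∑ k, (M' i k * N t k j + M t i k * N' k j)) t :=
    HasDerivAt.fun_sum (fun k _ => (hM i k).mul (hN k j))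
  have h2 : (M' * N t + M t * N') i j = ∑ k, (M' i k * N t k j + M t i k * N' k j) := by
    rw [Matrix.add_apply, Matrix.mul_apply, Matrix.mul_apply, Finset.sum_add_distrib]
  rw [h2]
  exact h1

theorem HasMatDeriv.trace {M : ℝ → Matrix ν ν ℝ} {M' : Matrix ν ν ℝ} {t : ℝ}
    (hM : HasMatDeriv M M' t) : HasDerivAt (fun t => (M t).trace) M'.trace t :=
  HasDerivAt.fun_sum (fun k _ => hM k k)

theorem HasMatDeriv.const (M : Matrix ν ν ℝ) (t : ℝ) : HasMatDeriv (fun _ => M) 0 t :=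
  fun i j => hasDerivAt_const t (M i j)

theorem HasMatDeriv.sub {M N : ℝ → Matrix ν ν ℝ} {M' N' : Matrix ν ν ℝ} {t : ℝ}
    (hM : HasMatDeriv M M' t) (hN : HasMatDeriv N N' t) :
    HasMatDeriv (fun t => M t - N t) (M' - N') t :=
  fun i j => (hM i j).sub (hN i j)

theorem HasMatDeriv.smul {f : ℝ → ℝ} {f' : ℝ} {M : ℝ → Matrix ν ν ℝ} {M' : Matrix ν ν ℝ} {t : ℝ}
    (hf : HasDerivAt f f' t) (hM : HasMatDeriv M M' t) :
    HasMatDeriv (fun t => f t • M t) (f' • M t + f t • M') t := by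
  intro i j
  exact hf.mul (hM i j)

theorem sum_updateCol_eq (X Y : Matrix ν ν ℝ) :
    ∑ σ : Equiv.Perm ν, (Equiv.Perm.sign σ : ℤ) •
      ∑ i, (∏ j ∈ Finset.univ.erase i, X (σ j) j) * Y (σ i) i =
      (X.adjugate * Y).trace := by
  simp only [Finset.smul_sum]
  rw [Finset.sum_comm]
  rw [Matrix.trace]
  refine Finset.sum_congr rfl fun i _ => ?_
  have h1 : (X.adjugate * Y).diag i = (X.updateCol i (fun j => Y j i)).det := by
    rw [← Matrix.cramer_apply, Matrix.cramer_eq_adjugate_mulVec]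
    simp only [diag, Matrix.mul_apply, mulVec, dotProduct]
  rw [h1, Matrix.det_apply]
  refine Finset.sum_congr rfl fun σ _ => ?_
  have : ∏ k, (X.updateCol i (fun j => Y j i)) (σ k) k =
      (∏ j ∈ Finset.univ.erase i, X (σ j) j) * Y (σ i) i := by
    rw [← Finset.prod_erase_mul Finset.univ _ (Finset.mem_univ i)]
    congr 1
    · refine Finset.prod_congr rfl fun j hj => ?_
      rw [Matrix.updateCol_ne (Finset.ne_of_mem_erase hj)]
    · simp
  rw [this]
  rfl

/-- Jacobi's formula. -/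
theorem HasMatDeriv.det {M : ℝ → Matrix ν ν ℝ} {M' : Matrix ν ν ℝ} {t : ℝ}
    (hM : HasMatDeriv M M' t) : HasDerivAt (fun t => (M t).det) ((M t).adjugate * M').trace t := by
  rw [← sum_updateCol_eq]
  have h1 : ∀ t, (M t).det = ∑ σ : Equiv.Perm ν, (Equiv.Perm.sign σ : ℤ) • ∏ i, M t (σ i) i := by
    intro t
    rw [Matrix.det_apply]
    rfl
  simp only [h1]
  refine HasDerivAt.fun_sum (fun σ _ => ?_)
  have h2 := HasDerivAt.fun_finsetProd (u := Finset.univ) (x := t)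
    (f := fun i t => M t (σ i) i) (f' := fun i => M' (σ i) i) (fun i _ => hM (σ i) i)
  simp only [smul_eq_mul] at h2
  exact h2.const_smul ((Equiv.Perm.sign σ : ℤ))

theorem HasMatDeriv.log_det {M : ℝ → Matrix ν ν ℝ} {M' : Matrix ν ν ℝ} {t : ℝ}
    (hM : HasMatDeriv M M' t) (hd : (M t).det ≠ 0) :
    HasDerivAt (fun t => log (M t).det) ((M t)⁻¹ * M').trace t := by
  have h1 := hM.det.log hd
  refine h1.congr_deriv ?_
  rw [Matrix.inv_def, Ring.inverse_eq_inv', Matrix.smul_mul, Matrix.trace_smul, smul_eq_mul]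
  field_simp

theorem continuousAt_matInv {M : ℝ → Matrix ν ν ℝ} {t : ℝ} (hM : ContinuousAt M t)
    (hd : (M t).det ≠ 0) : ContinuousAt (fun t => (M t)⁻¹) t := by
  have h1 : ContinuousAt (fun t => (M t).det⁻¹ • (M t).adjugate) t := by
    have h2 : ContinuousAt (fun t => (M t).det) t :=
      (continuous_id.matrix_det (R := ℝ) (n := ν)).continuousAt.comp hM
    have h3 : ContinuousAt (fun t => (M t).adjugate) t :=
      (continuous_id.matrix_adjugate (R := ℝ) (n := ν)).continuousAt.comp hM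
    exact (h2.inv₀ hd).smul h3
  have h4 : (fun t => (M t)⁻¹) = (fun t => (M t).det⁻¹ • (M t).adjugate) := by
    funext t
    rw [Matrix.inv_def, Ring.inverse_eq_inv']
  rw [h4]
  exact h1

theorem HasMatDeriv.inv {M : ℝ → Matrix ν ν ℝ} {M' : Matrix ν ν ℝ} {t : ℝ}
    (hM : HasMatDeriv M M' t) (hd : (M t).det ≠ 0) :
    HasMatDeriv (fun t => (M t)⁻¹) (-((M t)⁻¹ * M' * (M t)⁻¹)) t := by
  have hc := hM.continuousAt
  have hci := continuousAt_matInv hc hd
  have hslope : Tendsto (fun y => (y - t)⁻¹ • (M y - M t)) (𝓝[≠] t) (𝓝 M') := by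
    refine tendsto_pi_nhds.2 (fun i => tendsto_pi_nhds.2 (fun j => ?_))
    exact hasDerivAt_iff_tendsto_slope.1 (hM i j)
  have hdet : ∀ᶠ y in 𝓝[≠] t, (M y).det ≠ 0 := by
    have h2 : ContinuousAt (fun t => (M t).det) t :=
      (continuous_id.matrix_det (R := ℝ) (n := ν)).continuousAt.comp hc
    exact (h2.eventually_ne hd).filter_mono nhdsWithin_le_nhds
  have hlim : Tendsto (fun y => -((M y)⁻¹ * ((y - t)⁻¹ • (M y - M t)) * (M t)⁻¹)) (𝓝[≠] t)
      (𝓝 (-((M t)⁻¹ * M' * (M t)⁻¹))) := by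
    have h3 : Tendsto (fun y => (M y)⁻¹) (𝓝[≠] t) (𝓝 ((M t)⁻¹)) :=
      hci.tendsto.mono_left nhdsWithin_le_nhds
    exact ((h3.mul hslope).mul tendsto_const_nhds).neg
  have hlim2 : Tendsto (fun y => (y - t)⁻¹ • ((M y)⁻¹ - (M t)⁻¹)) (𝓝[≠] t)
      (𝓝 (-((M t)⁻¹ * M' * (M t)⁻¹))) := by
    refine hlim.congr' ?_
    filter_upwards [hdet] with y hy
    have hu : IsUnit (M y).det := isUnit_iff_ne_zero.2 hy
    have hu' : IsUnit (M t).det := isUnit_iff_ne_zero.2 hd
    rw [Matrix.mul_smul, Matrix.smul_mul, ← smul_neg]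
    congr 1
    rw [Matrix.mul_sub, Matrix.sub_mul, Matrix.nonsing_inv_mul _ hu, Matrix.one_mul,
      Matrix.mul_assoc, Matrix.mul_nonsing_inv _ hu', Matrix.mul_one, neg_sub]
  intro i j
  rw [hasDerivAt_iff_tendsto_slope]
  have h4 := (tendsto_pi_nhds.1 (tendsto_pi_nhds.1 hlim2 i)) j
  exact h4

end

end Vale.Agent.P231
end
end
end

section

section

section

/-! P231 core: the matrix Kazdan inequality for `cos`-like matrix functions. -/

set_option linter.unusedSectionVars false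

open Matrix Real Set Filter Topology MeasureTheory
open scoped ContDiff

namespace Vale.Agent.P231

noncomputable section

variable {ν : Type*} [Fintype ν] [DecidableEq ν]

theorem Xc_symm {C C' : ℝ → Matrix ν ν ℝ} (h : CData C C') (s t : ℝ) :
    (Xc C s t)ᵀ = Xc C s t := by
  simp [Xc, h.symm]

theorem Xc_shift {C C' : ℝ → Matrix ν ν ℝ} (h : CData C C') (s t : ℝ) :
    Xc C (s + π) (t + π) = Xc C s t := by
  simp only [Xc, sin_add_pi, h.anti, smul_neg, neg_smul, neg_neg]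

theorem Xc_shift_int {C C' : ℝ → Matrix ν ν ℝ} (h : CData C C') (s t : ℝ) (k : ℤ) :
    Xc C (s + k * π) (t + k * π) = Xc C s t := by
  have hper : Function.Periodic (fun u : ℝ => Xc C (s + u) (t + u)) π := by
    intro u
    change Xc C (s + (u + π)) (t + (u + π)) = Xc C (s + u) (t + u)
    rw [← add_assoc, ← add_assoc]
    exact Xc_shift h _ _
  have h1 := hper.int_mul k 0
  simpa using h1

theorem Xc_flip {C C' : ℝ → Matrix ν ν ℝ} (h : CData C C') (s t : ℝ) :
    Xc C s t = Xc C (t - π) s := by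
  have h1 : C t = - C (t - π) := by
    have := h.anti (t - π)
    rwa [sub_add_cancel] at this
  have h2 : sin t = - sin (t - π) := by
    rw [sin_sub_pi, neg_neg]
  rw [Xc, Xc, h1, h2]
  simp only [neg_smul, smul_neg]
  abel

theorem CData.C_pi {C C' : ℝ → Matrix ν ν ℝ} (h : CData C C') : C π = -1 := by
  have := h.anti 0
  rwa [zero_add, h.zero] at this

/-- The regular case. -/
theorem CData.X_posDef_reg {C C' : ℝ → Matrix ν ν ℝ} (h : CData C C') {s t : ℝ} (h0 : 0 < s)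
    (h1 : s < t) (h2 : t < π) : (Xc C s t).PosDef := by
  refine Matrix.PosDef.of_dotProduct_mulVec_pos (Xc_symm h s t) (fun v hv => ?_)
  rw [star_trivial]
  -- the scalar function
  set c : ℝ → ℝ := fun u => v ⬝ᵥ (C u *ᵥ v) with hc
  set c' : ℝ → ℝ := fun u => v ⬝ᵥ (C' u *ᵥ v) with hc'
  have hder : ∀ u, HasDerivAt c (c' u) u := by
    intro u
    have h3 : HasDerivAt (fun u => ∑ i, v i * ∑ j, C u i j * v j)
        (∑ i, v i * ∑ j, C' u i j * v j) u := by
      refine HasDerivAt.fun_sum (fun i _ => ?_)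
      refine HasDerivAt.const_mul _ ?_
      refine HasDerivAt.fun_sum (fun j _ => ?_)
      exact (h.der u i j).mul_const _
    exact h3
  have hg : ∀ u, 0 < cos u * c u - sin u * c' u := by
    intro u
    have h3 := (h.pos u).dotProduct_mulVec_pos hv
    rw [star_trivial, Matrix.sub_mulVec, Matrix.smul_mulVec, Matrix.smul_mulVec, dotProduct_sub,
      dotProduct_smul, dotProduct_smul, smul_eq_mul, smul_eq_mul] at h3
    exact h3
  have hx : v ⬝ᵥ (Xc C s t *ᵥ v) = sin t * c s - sin s * c t := by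
    rw [Xc, Matrix.sub_mulVec, Matrix.smul_mulVec, Matrix.smul_mulVec, dotProduct_sub,
      dotProduct_smul, dotProduct_smul, smul_eq_mul, smul_eq_mul]
  rw [hx]
  have hmono : StrictMonoOn (fun u => - c u / sin u) (Ioo 0 π) := by
    refine strictMonoOn_of_deriv_pos (convex_Ioo 0 π) ?_ ?_
    · intro u hu
      have hs := sin_pos_of_mem_Ioo hu
      exact ((hder u).neg.div (hasDerivAt_sin u) hs.ne').continuousAt.continuousWithinAt
    · intro u hu
      rw [interior_Ioo] at hu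
      have hs := sin_pos_of_mem_Ioo hu
      have h3 := ((hder u).neg.div (hasDerivAt_sin u) hs.ne').deriv
      have h4 : (fun u => - c u / sin u) = ((-c) / sin) := rfl
      rw [h4, h3]
      have h5 := hg u
      have h6 : -c' u * sin u - (-c) u * cos u = cos u * c u - sin u * c' u := by
        simp only [Pi.neg_apply]
        ring
      rw [h6]
      (clear * - h5 hs; positivity)
  have hst := hmono ⟨h0, h1.trans h2⟩ ⟨h0.trans h1, h2⟩ h1
  have hs := sin_pos_of_pos_of_lt_pi h0 (h1.trans h2)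
  have ht := sin_pos_of_pos_of_lt_pi (h0.trans h1) h2
  change -c s / sin s < -c t / sin t at hst
  rw [div_lt_div_iff₀ hs ht] at hst
  linarith only [hst]

theorem CData.X_posDef {C C' : ℝ → Matrix ν ν ℝ} (h : CData C C') {s t : ℝ} (h1 : s < t)
    (h2 : t < s + π) : (Xc C s t).PosDef := by
  -- reduction to `0 ≤ s < π`
  have key : ∀ s t : ℝ, 0 ≤ s → s < π → s < t → t < s + π → (Xc C s t).PosDef := by
    intro s t hs0 hsπ h1 h2
    rcases hs0.eq_or_lt with h0 | h0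
    · subst h0
      have ht := sin_pos_of_pos_of_lt_pi h1 (by linarith only [h2])
      have h3 : Xc C 0 t = sin t • (1 : Matrix ν ν ℝ) := by simp only [Xc, h.zero, sin_zero, zero_smul, sub_zero]
      rw [h3]
      exact Matrix.PosDef.one.smul ht
    · have hs := sin_pos_of_pos_of_lt_pi h0 hsπ
      rcases lt_trichotomy t π with h3 | h3 | h3
      · exact h.X_posDef_reg h0 h1 h3
      · subst h3
        have h3 : Xc C s π = sin s • (1 : Matrix ν ν ℝ) := by simp only [Xc, sin_pi, zero_smul, h.C_pi, smul_neg, sub_neg_eq_add, zero_add]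
        rw [h3]
        exact Matrix.PosDef.one.smul hs
      · rw [Xc_flip h]
        exact h.X_posDef_reg (by linarith only [h3]) (by linarith only [h2]) hsπ
  set k : ℤ := ⌊s / π⌋ with hk
  have hkl := Int.floor_le (s / π)
  have hku := Int.lt_floor_add_one (s / π)
  rw [← hk] at hkl hku
  rw [le_div_iff₀ pi_pos] at hkl
  rw [div_lt_iff₀ pi_pos] at hku
  have h3 := Xc_shift_int h (s - k * π) (t - k * π) k
  rw [sub_add_cancel, sub_add_cancel] at h3
  rw [h3]
  refine key _ _ (by linarith only [hkl]) (by linarith only [hku]) (by linarith only [h1]) (by linarith only [h2])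

theorem CData.contC {C C' : ℝ → Matrix ν ν ℝ} (h : CData C C') : Continuous C :=
  continuous_pi (fun i => continuous_pi (fun j =>
    continuous_iff_continuousAt.2 (fun t => (h.der t i j).continuousAt)))

theorem CData.contC' {C C' : ℝ → Matrix ν ν ℝ} (h : CData C C') : Continuous C' :=
  continuous_pi (fun i => continuous_pi (fun j => h.cont i j))

theorem CData.contX {C C' : ℝ → Matrix ν ν ℝ} (h : CData C C') :
    Continuous (fun p : ℝ × ℝ => Xc C p.1 p.2) := by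
  have h1 := h.contC
  unfold Xc
  (clear * - h1; fun_prop)

theorem CData.contG {C C' : ℝ → Matrix ν ν ℝ} (h : CData C C') : Continuous (Gc C C') := by
  have h1 := h.contC
  have h2 := h.contC'
  unfold Gc
  fun_prop

theorem CData.anti' {C C' : ℝ → Matrix ν ν ℝ} (h : CData C C') (t : ℝ) : C' (t + π) = -C' t := by
  ext i j
  have h1 : HasDerivAt (fun u => C (u + π) i j) (C' (t + π) i j) t :=
    HasDerivAt.comp_add_const t π (h.der (t + π) i j)
  have h2 : HasDerivAt (fun u => C (u + π) i j) (-C' t i j) t := by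
    have h3 : (fun u => C (u + π) i j) = fun u => - C u i j := by
      funext u
      rw [h.anti]
      rfl
    rw [h3]
    exact (h.der t i j).neg
  exact h1.unique h2

theorem CData.G_shift {C C' : ℝ → Matrix ν ν ℝ} (h : CData C C') (t : ℝ) :
    Gc C C' (t + π) = Gc C C' t := by
  simp [Gc, h.anti, h.anti']

theorem CData.G_det_pos {C C' : ℝ → Matrix ν ν ℝ} (h : CData C C') (t : ℝ) :
    0 < (Gc C C' t).det := (h.pos t).det_pos

theorem CData.contF {C C' : ℝ → Matrix ν ν ℝ} (h : CData C C') :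
    ContinuousOn (fun p : ℝ × ℝ => log (Xc C p.1 p.2).det) (strip π) := by
  refine ContinuousOn.log (h.contX.matrix_det.continuousOn) (fun p hp => ?_)
  exact (h.X_posDef hp.1 hp.2).det_pos.ne'

theorem CData.continuousOn {C C' : ℝ → Matrix ν ν ℝ} (h : CData C C') :
    ContinuousOn (fun p : ℝ × ℝ => log (Xc C p.1 p.2).det - log (Gc C C' p.1).det / 2
      - log (Gc C C' p.2).det / 2) (strip π) := by
  have hG : Continuous (fun t => log (Gc C C' t).det) :=
    h.contG.matrix_det.log (fun t => (h.G_det_pos t).ne')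
  exact (h.contF.sub ((hG.comp continuous_fst).div_const 2).continuousOn).sub
    ((hG.comp continuous_snd).div_const 2).continuousOn

/-- partial derivatives of `Xc` -/
def KXt (C C' : ℝ → Matrix ν ν ℝ) (s t : ℝ) : Matrix ν ν ℝ := cos t • C s - sin s • C' t

/-- partial derivatives of `Xc` -/
def KXs (C C' : ℝ → Matrix ν ν ℝ) (s t : ℝ) : Matrix ν ν ℝ := sin t • C' s - cos s • C t

/-- partial derivatives of `Xc` -/
def KXst (C' : ℝ → Matrix ν ν ℝ) (s t : ℝ) : Matrix ν ν ℝ := cos t • C' s - cos s • C' t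

theorem CData.hX_t {C C' : ℝ → Matrix ν ν ℝ} (h : CData C C') (s t : ℝ) :
    HasMatDeriv (fun t => Xc C s t) (KXt C C' s t) t := by
  have h1 := HasMatDeriv.sub (HasMatDeriv.smul (hasDerivAt_sin t) (HasMatDeriv.const (C s) t))
    (HasMatDeriv.smul (hasDerivAt_const t (sin s)) (show HasMatDeriv C (C' t) t from h.der t))
  intro i j
  have h2 := h1 i j
  simp only [smul_zero, add_zero, zero_smul, zero_add] at h2
  exact h2

theorem CData.hX_s {C C' : ℝ → Matrix ν ν ℝ} (h : CData C C') (s t : ℝ) :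
    HasMatDeriv (fun s => Xc C s t) (KXs C C' s t) s := by
  have h1 := HasMatDeriv.sub (HasMatDeriv.smul (hasDerivAt_const s (sin t))
    (show HasMatDeriv C (C' s) s from h.der s))
    (HasMatDeriv.smul (hasDerivAt_sin s) (HasMatDeriv.const (C t) s))
  intro i j
  have h2 := h1 i j
  simp only [smul_zero, add_zero, zero_smul, zero_add] at h2
  exact h2

theorem CData.hXt_s {C C' : ℝ → Matrix ν ν ℝ} (h : CData C C') (s t : ℝ) :
    HasMatDeriv (fun s => KXt C C' s t) (KXst C' s t) s := by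
  have h1 := HasMatDeriv.sub (HasMatDeriv.smul (hasDerivAt_const s (cos t))
    (show HasMatDeriv C (C' s) s from h.der s))
    (HasMatDeriv.smul (hasDerivAt_sin s) (HasMatDeriv.const (C' t) s))
  intro i j
  have h2 := h1 i j
  simp only [zero_smul, zero_add, smul_zero, add_zero] at h2
  exact h2

/-- first derivative of `log det X` -/
def KFt (C C' : ℝ → Matrix ν ν ℝ) (s t : ℝ) : ℝ := ((Xc C s t)⁻¹ * KXt C C' s t).trace

/-- mixed derivative of `log det X` -/
def KFts (C C' : ℝ → Matrix ν ν ℝ) (s t : ℝ) : ℝ :=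
  ((Xc C s t)⁻¹ * Gc C C' s * (Xc C s t)⁻¹ * Gc C C' t).trace

/-- mixed derivative of `log det X`, second form -/
def KFts' (C C' : ℝ → Matrix ν ν ℝ) (s t : ℝ) : ℝ :=
  ((Xc C s t)⁻¹ * KXst C' s t).trace -
    ((Xc C s t)⁻¹ * KXs C C' s t * (Xc C s t)⁻¹ * KXt C C' s t).trace

theorem CData.dF {C C' : ℝ → Matrix ν ν ℝ} (h : CData C C') {s t : ℝ} (hst : (s, t) ∈ strip π) :
    HasDerivAt (fun t' => log (Xc C s t').det) (KFt C C' s t) t :=
  (h.hX_t s t).log_det (h.X_posDef hst.1 hst.2).det_pos.ne'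

theorem CData.dFt' {C C' : ℝ → Matrix ν ν ℝ} (h : CData C C') {s t : ℝ}
    (hst : (s, t) ∈ strip π) :
    HasDerivAt (fun s' => KFt C C' s' t) (KFts' C C' s t) s := by
  have hd := (h.X_posDef hst.1 hst.2).det_pos.ne'
  have h1 := (((h.hX_s s t).inv hd).mul (h.hXt_s s t)).trace
  refine h1.congr_deriv ?_
  rw [KFts', Matrix.trace_add, Matrix.neg_mul, Matrix.trace_neg, add_comm, sub_eq_add_neg]

/-- The algebraic identity. -/
theorem CData.identity {C C' : ℝ → Matrix ν ν ℝ} (h : CData C C') {s t : ℝ}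
    (hst : (s, t) ∈ strip π) :
    (sin s * sin t) * KFts' C C' s t = (sin s * sin t) * KFts C C' s t := by
  have hd : IsUnit (Xc C s t).det :=
    isUnit_iff_ne_zero.2 (h.X_posDef hst.1 hst.2).det_pos.ne'
  set X := Xc C s t with hX
  set Gs := Gc C C' s with hGs
  set Gt := Gc C C' t with hGt
  have e1 : sin s • KXs C C' s t = cos s • X - sin t • Gs := by
    rw [hX, hGs, KXs, Xc, Gc]
    module
  have e2 : sin t • KXt C C' s t = cos t • X + sin s • Gt := by
    rw [hX, hGt, KXt, Xc, Gc]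
    module
  have e3 : (sin s * sin t) • KXst C' s t =
      (cos s * cos t) • X - (sin t * cos t) • Gs + (sin s * cos s) • Gt := by
    rw [hX, hGs, hGt, KXst, Xc, Gc, Gc]
    module
  have f1 : (sin s * sin t) * (X⁻¹ * KXst C' s t).trace = (cos s * cos t) * (1 : Matrix ν ν ℝ).trace
      - (sin t * cos t) * (X⁻¹ * Gs).trace + (sin s * cos s) * (X⁻¹ * Gt).trace := by
    rw [← smul_eq_mul, ← Matrix.trace_smul, ← Matrix.mul_smul, e3, Matrix.mul_add, Matrix.mul_sub,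
      Matrix.mul_smul, Matrix.mul_smul, Matrix.mul_smul, Matrix.nonsing_inv_mul _ hd,
      Matrix.trace_add, Matrix.trace_sub, Matrix.trace_smul, Matrix.trace_smul, Matrix.trace_smul]
    rfl
  have f2 : (sin s * sin t) * (X⁻¹ * KXs C C' s t * X⁻¹ * KXt C C' s t).trace =
      ((X⁻¹ * (sin s • KXs C C' s t)) * (X⁻¹ * (sin t • KXt C C' s t))).trace := by
    rw [Matrix.mul_smul, Matrix.mul_smul, Matrix.smul_mul, Matrix.mul_smul, Matrix.trace_smul,
      Matrix.trace_smul, smul_eq_mul, smul_eq_mul, Matrix.mul_assoc (X⁻¹ * KXs C C' s t)]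
    ring
  have f3 : X⁻¹ * (sin s • KXs C C' s t) = cos s • (1 : Matrix ν ν ℝ) - sin t • (X⁻¹ * Gs) := by
    rw [e1, Matrix.mul_sub, Matrix.mul_smul, Matrix.mul_smul, Matrix.nonsing_inv_mul _ hd]
  have f4 : X⁻¹ * (sin t • KXt C C' s t) = cos t • (1 : Matrix ν ν ℝ) + sin s • (X⁻¹ * Gt) := by
    rw [e2, Matrix.mul_add, Matrix.mul_smul, Matrix.mul_smul, Matrix.nonsing_inv_mul _ hd]
  rw [f3, f4] at f2
  rw [KFts', KFts, mul_sub, f1, f2]
  simp only [Matrix.sub_mul, Matrix.mul_add, Matrix.smul_mul, Matrix.mul_smul, Matrix.one_mul,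
    Matrix.mul_one, Matrix.trace_add, Matrix.trace_sub, Matrix.trace_smul, smul_eq_mul,
    Matrix.mul_assoc]
  ring

theorem CData.contXinv {C C' : ℝ → Matrix ν ν ℝ} (h : CData C C') :
    ContinuousOn (fun p : ℝ × ℝ => (Xc C p.1 p.2)⁻¹) (strip π) := by
  have h4 : (fun p : ℝ × ℝ => (Xc C p.1 p.2)⁻¹) =
      (fun p : ℝ × ℝ => (Xc C p.1 p.2).det⁻¹ • (Xc C p.1 p.2).adjugate) := by
    funext p
    rw [Matrix.inv_def, Ring.inverse_eq_inv']
  rw [h4]
  refine ContinuousOn.smul (ContinuousOn.inv₀ h.contX.matrix_det.continuousOn (fun p hp => ?_))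
    h.contX.matrix_adjugate.continuousOn
  exact (h.X_posDef hp.1 hp.2).det_pos.ne'

theorem CData.contKXt {C C' : ℝ → Matrix ν ν ℝ} (h : CData C C') :
    Continuous (fun p : ℝ × ℝ => KXt C C' p.1 p.2) := by
  have h1 := h.contC
  have h2 := h.contC'
  unfold KXt
  fun_prop

theorem CData.contKXs {C C' : ℝ → Matrix ν ν ℝ} (h : CData C C') :
    Continuous (fun p : ℝ × ℝ => KXs C C' p.1 p.2) := by
  have h1 := h.contC
  have h2 := h.contC'
  unfold KXs
  fun_prop

theorem CData.contKXst {C C' : ℝ → Matrix ν ν ℝ} (h : CData C C') :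
    Continuous (fun p : ℝ × ℝ => KXst C' p.1 p.2) := by
  have h2 := h.contC'
  unfold KXst
  fun_prop

theorem CData.contFt {C C' : ℝ → Matrix ν ν ℝ} (h : CData C C') :
    ContinuousOn (fun p : ℝ × ℝ => KFt C C' p.1 p.2) (strip π) :=
  (Continuous.matrix_trace continuous_id).comp_continuousOn
    (h.contXinv.mul h.contKXt.continuousOn)

theorem CData.contFts {C C' : ℝ → Matrix ν ν ℝ} (h : CData C C') :
    ContinuousOn (fun p : ℝ × ℝ => KFts C C' p.1 p.2) (strip π) :=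
  (Continuous.matrix_trace continuous_id).comp_continuousOn
    (((h.contXinv.mul (h.contG.comp continuous_fst).continuousOn).mul h.contXinv).mul
      (h.contG.comp continuous_snd).continuousOn)

theorem CData.contFts' {C C' : ℝ → Matrix ν ν ℝ} (h : CData C C') :
    ContinuousOn (fun p : ℝ × ℝ => KFts' C C' p.1 p.2) (strip π) :=
  ((Continuous.matrix_trace continuous_id).comp_continuousOn
    (h.contXinv.mul h.contKXst.continuousOn)).sub
  ((Continuous.matrix_trace continuous_id).comp_continuousOn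
    (((h.contXinv.mul h.contKXs.continuousOn).mul h.contXinv).mul h.contKXt.continuousOn))

theorem sin_shift_ne (s : ℝ) : ∀ᶠ u in 𝓝[≠] (0 : ℝ), sin (s + u) ≠ 0 := by
  by_cases hs : sin s = 0
  · have hc : cos s ≠ 0 := by
      intro h
      have := sin_sq_add_cos_sq s
      rw [hs, h] at this
      norm_num at this
    have h1 : HasDerivAt (fun u => sin (s + u)) (cos s) 0 := by
      have h2 := (hasDerivAt_sin (s + 0)).comp_const_add s 0
      rwa [add_zero] at h2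
    exact h1.eventually_ne hc
  · have h1 : ContinuousAt (fun u => sin (s + u)) 0 := by (clear * -; fun_prop)
    exact (h1.eventually_ne (by simpa using hs)).filter_mono nhdsWithin_le_nhds

/-- Two continuous functions on the strip that agree off the lines `sin s sin t = 0` agree. -/
theorem eq_on_strip {f g : ℝ → ℝ → ℝ} (hf : ContinuousOn (fun p : ℝ × ℝ => f p.1 p.2) (strip π))
    (hg : ContinuousOn (fun p : ℝ × ℝ => g p.1 p.2) (strip π))
    (hfg : ∀ s t, (s, t) ∈ strip π → (sin s * sin t) * f s t = (sin s * sin t) * g s t)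
    {s t : ℝ} (hst : (s, t) ∈ strip π) : f s t = g s t := by
  have hmem : ∀ u : ℝ, (s + u, t + u) ∈ strip π := by
    intro u
    have h1 : s < t := hst.1
    have h2 : t < s + π := hst.2
    exact ⟨by change s + u < t + u; linarith only [h1], by change t + u < s + u + π; linarith only [h2]⟩
  have hc : Continuous (fun u : ℝ => (s + u, t + u)) := by fun_prop
  have h1 : Continuous (fun u : ℝ => f (s + u) (t + u)) := hf.comp_continuous hc hmem
  have h2 : Continuous (fun u : ℝ => g (s + u) (t + u)) := hg.comp_continuous hc hmem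
  have h3 : (fun u : ℝ => f (s + u) (t + u)) =ᶠ[𝓝[≠] 0] (fun u : ℝ => g (s + u) (t + u)) := by
    filter_upwards [sin_shift_ne s, sin_shift_ne t] with u hu1 hu2
    exact mul_left_cancel₀ (mul_ne_zero hu1 hu2) (hfg _ _ (hmem u))
  have h4 : Tendsto (fun u : ℝ => f (s + u) (t + u)) (𝓝[≠] 0) (𝓝 (f (s + 0) (t + 0))) :=
    (h1.tendsto 0).mono_left nhdsWithin_le_nhds
  have h5 : Tendsto (fun u : ℝ => g (s + u) (t + u)) (𝓝[≠] 0) (𝓝 (g (s + 0) (t + 0))) :=
    (h2.tendsto 0).mono_left nhdsWithin_le_nhds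
  have h6 := tendsto_nhds_unique_of_eventuallyEq h4 h5 h3
  rwa [add_zero, add_zero] at h6

theorem CData.Fts_eq {C C' : ℝ → Matrix ν ν ℝ} (h : CData C C') {s t : ℝ}
    (hst : (s, t) ∈ strip π) : KFts' C C' s t = KFts C C' s t :=
  eq_on_strip (f := KFts' C C') (g := KFts C C') h.contFts' h.contFts
    (fun _ _ hst => h.identity hst) hst

/-- The pointwise inequality. -/
theorem CData.Fts_ge {C C' : ℝ → Matrix ν ν ℝ} (h : CData C C') {s t b : ℝ}
    (hst : (s, t) ∈ strip π) (hb : 0 < b) :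
    Fintype.card ν * (b * (1 - log b)) + b * (log (Gc C C' s).det
      - 2 * log (Xc C s t).det + log (Gc C C' t).det) ≤ KFts C C' s t := by
  have hX := h.X_posDef hst.1 hst.2
  have hXd := hX.det_pos
  have hinv : (Xc C s t)⁻¹.PosDef := hX.inv
  have hP : ((Xc C s t)⁻¹ * Gc C C' s * (Xc C s t)⁻¹).PosDef := by
    have h1 := (h.pos s).conjTranspose_mul_mul_same (B := (Xc C s t)⁻¹)
      (Matrix.mulVec_injective_of_isUnit hinv.isUnit)
    rwa [hinv.1] at h1
  have h2 := trace_mul_ge hP (h.pos t) hb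
  have h3 : log ((Xc C s t)⁻¹ * Gc C C' s * (Xc C s t)⁻¹).det =
      log (Gc C C' s).det - 2 * log (Xc C s t).det := by
    rw [Matrix.det_mul, Matrix.det_mul, Matrix.det_nonsing_inv, Ring.inverse_eq_inv',
      log_mul (by have := h.G_det_pos s; (clear * - hXd this; positivity)) (by positivity),
      log_mul (by positivity) (h.G_det_pos s).ne', log_inv]
    ring
  rw [h3] at h2
  exact h2

/-- the matrices given by the mean value theorem -/
def Dmat (C C' : ℝ → Matrix ν ν ℝ) (p : ℝ × (ν → ν → ℝ)) : Matrix ν ν ℝ :=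
  Matrix.of fun i j => KXt C C' p.1 (p.1 + p.2 i j) i j

theorem CData.contD {C C' : ℝ → Matrix ν ν ℝ} (h : CData C C') : Continuous (Dmat C C') := by
  refine continuous_matrix (fun i j => ?_)
  have h1 : Continuous (fun p : ℝ × (ν → ν → ℝ) => (p.1, p.1 + p.2 i j)) := by fun_prop
  have h2 : Continuous (fun p : ℝ × ℝ => KXt C C' p.1 p.2 i j) := by
    exact h.contKXt.matrix_elem i j
  have h3 := h2.comp h1
  exact h3

theorem Dmat_zero (C C' : ℝ → Matrix ν ν ℝ) (s : ℝ) : Dmat C C' (s, 0) = Gc C C' s := by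
  ext i j
  change KXt C C' s (s + 0) i j = Gc C C' s i j
  rw [add_zero]
  rfl

theorem CData.exists_Dmat {C C' : ℝ → Matrix ν ν ℝ} (h : CData C C') (s : ℝ) {r : ℝ}
    (hr0 : 0 < r) : ∃ θ : ν → ν → ℝ, ‖θ‖ ≤ r ∧ Xc C s (s + r) = r • Dmat C C' (s, θ) := by
  have hex : ∀ i j, ∃ θ ∈ Ioo (0 : ℝ) r, Xc C s (s + r) i j = r * KXt C C' s (s + θ) i j := by
    intro i j
    have hder : ∀ x : ℝ, HasDerivAt (fun x => Xc C s (s + x) i j) (KXt C C' s (s + x) i j) x :=
      fun x => (h.hX_t s (s + x) i j).comp_const_add s x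
    obtain ⟨θ, hθ, h1⟩ := exists_hasDerivAt_eq_slope (fun x => Xc C s (s + x) i j)
      (fun x => KXt C C' s (s + x) i j) hr0
      (fun x _ => (hder x).continuousAt.continuousWithinAt) (fun x _ => hder x)
    refine ⟨θ, hθ, ?_⟩
    have h2 : Xc C s (s + 0) i j = 0 := by
      rw [add_zero, Xc, sub_self]
      rfl
    rw [h2, sub_zero, sub_zero, eq_div_iff hr0.ne'] at h1
    rw [← h1]
    ring
  choose θ hθ hθX using hex
  refine ⟨θ, ?_, ?_⟩
  · rw [pi_norm_le_iff_of_nonneg hr0.le]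
    intro i
    rw [pi_norm_le_iff_of_nonneg hr0.le]
    intro j
    rw [Real.norm_eq_abs, abs_of_pos (hθ i j).1]
    exact (hθ i j).2.le
  · ext i j
    exact hθX i j

/-- Lower bound of the determinant near the diagonal. -/
theorem CData.det_lower {C C' : ℝ → Matrix ν ν ℝ} (h : CData C C') :
    ∃ c δ : ℝ, 0 < c ∧ 0 < δ ∧ ∀ s ∈ Icc 0 π, ∀ r, 0 < r → r < δ →
      c * r ^ Fintype.card ν ≤ (Xc C s (s + r)).det := by
  -- minimum of `det G`
  have hGc : Continuous (fun s => (Gc C C' s).det) := h.contG.matrix_det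
  obtain ⟨s₀, _, hs₀⟩ := (isCompact_Icc (a := (0 : ℝ)) (b := π)).exists_isMinOn
    ⟨0, ⟨le_rfl, pi_pos.le⟩⟩ hGc.continuousOn
  obtain ⟨m, hm⟩ : ∃ m, m = (Gc C C' s₀).det := ⟨_, rfl⟩
  have hmpos : 0 < m := hm ▸ h.G_det_pos s₀
  have hopen : IsOpen {p : ℝ × (ν → ν → ℝ) | m / 2 < (Dmat C C' p).det} :=
    isOpen_lt continuous_const h.contD.matrix_det
  have hsub : Icc (0 : ℝ) π ×ˢ ({0} : Set (ν → ν → ℝ)) ⊆
      {p : ℝ × (ν → ν → ℝ) | m / 2 < (Dmat C C' p).det} := by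
    rintro ⟨s, Θ⟩ ⟨hs, hΘ⟩
    have hΘ' : Θ = 0 := hΘ
    subst hΘ'
    change m / 2 < (Dmat C C' (s, 0)).det
    rw [Dmat_zero]
    have h2 : m ≤ (Gc C C' s).det := hm ▸ hs₀ hs
    linarith only [hmpos, h2]
  obtain ⟨U, V, _, hV, hU1, hV1, hUV⟩ := generalized_tube_lemma isCompact_Icc
    (isCompact_singleton (x := (0 : ν → ν → ℝ))) hopen hsub
  obtain ⟨δ, hδ, hball⟩ := Metric.isOpen_iff.1 hV 0 (hV1 rfl)
  refine ⟨m / 2, δ, by positivity, hδ, fun s hs r hr0 hrδ => ?_⟩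
  obtain ⟨θ, hθ, hXD⟩ := h.exists_Dmat s hr0
  have hθmem : θ ∈ V := by
    apply hball
    rw [mem_ball_zero_iff]
    exact lt_of_le_of_lt hθ hrδ
  have h5 : m / 2 < (Dmat C C' (s, θ)).det := hUV (Set.mk_mem_prod (hU1 hs) hθmem)
  rw [hXD, Matrix.det_smul, mul_comm]
  exact mul_le_mul_of_nonneg_left h5.le (by (clear * - hr0; positivity))

theorem int_lin {A B D : ℝ → ℝ} (hA : Continuous A) (hB : Continuous B) (hD : Continuous D)
    (K b : ℝ) : ∫ s in (0 : ℝ)..π, (K + b * (A s - 2 * B s + D s)) =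
      π * K + b * ((∫ s in (0 : ℝ)..π, A s) - 2 * (∫ s in (0 : ℝ)..π, B s) +
        ∫ s in (0 : ℝ)..π, D s) := by
  have i1 : IntervalIntegrable (fun _ : ℝ => K) volume 0 π := continuous_const.intervalIntegrable _ _
  have i2 : IntervalIntegrable (fun s : ℝ => b * (A s - 2 * B s + D s)) volume 0 π :=
    Continuous.intervalIntegrable (by fun_prop) _ _
  have i3 : IntervalIntegrable (fun s : ℝ => A s - 2 * B s) volume 0 π :=
    Continuous.intervalIntegrable (by fun_prop) _ _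
  have i4 : IntervalIntegrable (fun s : ℝ => 2 * B s) volume 0 π :=
    Continuous.intervalIntegrable (by fun_prop) _ _
  have i5 : IntervalIntegrable (fun s : ℝ => D s) volume 0 π := hD.intervalIntegrable _ _
  have i6 : IntervalIntegrable (fun s : ℝ => A s) volume 0 π := hA.intervalIntegrable _ _
  rw [intervalIntegral.integral_add i1 i2, intervalIntegral.integral_const,
    intervalIntegral.integral_const_mul, intervalIntegral.integral_add i3 i5,
    intervalIntegral.integral_sub i6 i4, intervalIntegral.integral_const_mul, sub_zero,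
    smul_eq_mul]

theorem int_sub {A B D : ℝ → ℝ} (hA : Continuous A) (hB : Continuous B) (hD : Continuous D) :
    ∫ s in (0 : ℝ)..π, (A s - B s / 2 - D s / 2) =
      (∫ s in (0 : ℝ)..π, A s) - (∫ s in (0 : ℝ)..π, B s) / 2 - (∫ s in (0 : ℝ)..π, D s) / 2 := by
  have i1 : IntervalIntegrable (fun s : ℝ => A s - B s / 2) volume 0 π :=
    Continuous.intervalIntegrable (by fun_prop) _ _
  have i2 : IntervalIntegrable (fun s : ℝ => D s / 2) volume 0 π :=
    Continuous.intervalIntegrable (by (clear * - hD; fun_prop)) _ _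
  have i3 : IntervalIntegrable (fun s : ℝ => A s) volume 0 π := hA.intervalIntegrable _ _
  have i4 : IntervalIntegrable (fun s : ℝ => B s / 2) volume 0 π :=
    Continuous.intervalIntegrable (by fun_prop) _ _
  rw [intervalIntegral.integral_sub i1 i2, intervalIntegral.integral_sub i3 i4,
    intervalIntegral.integral_div, intervalIntegral.integral_div]

theorem int_shift {f : ℝ → ℝ} (hf : Function.Periodic f π) (d : ℝ) :
    ∫ s in (0 : ℝ)..π, f (s + d) = ∫ s in (0 : ℝ)..π, f s := by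
  rw [intervalIntegral.integral_comp_add_right, zero_add, add_comm π d,
    hf.intervalIntegral_add_eq d 0, zero_add]

/-- the mean of `log det X` -/
def Kl (C : ℝ → Matrix ν ν ℝ) (r : ℝ) : ℝ := ∫ s in (0 : ℝ)..π, log (Xc C s (s + r)).det

theorem Kl_symm {C C' : ℝ → Matrix ν ν ℝ} (h : CData C C') (r : ℝ) :
    Kl C (π - r) = Kl C r := by
  have h1 : ∀ s : ℝ, (fun s => log (Xc C s (s + (π - r))).det) (s + r) =
      log (Xc C s (s + r)).det := by
    intro s
    change log (Xc C (s + r) (s + r + (π - r))).det = _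
    rw [Xc_flip h]
    congr 3
    ring
  have h2 : Function.Periodic (fun s => log (Xc C s (s + (π - r))).det) π := by
    intro s
    change log (Xc C (s + π) (s + π + (π - r))).det = log (Xc C s (s + (π - r))).det
    rw [← Xc_shift h s (s + (π - r))]
    congr 3
    ring
  have h3 := int_shift h2 r
  rw [Kl, Kl, ← h3]
  exact intervalIntegral.integral_congr (fun s _ => h1 s)

theorem CData.mem_strip_add {s r : ℝ} (hr : r ∈ Ioo 0 π) : (s, s + r) ∈ strip π :=
  ⟨by change s < s + r; (clear * - hr; linarith [hr.1]), by change s + r < s + π; linarith only [hr.2]⟩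

theorem cont_of_strip {f : ℝ → ℝ → ℝ} (hf : ContinuousOn (fun p : ℝ × ℝ => f p.1 p.2) (strip π))
    {r : ℝ} (hr : r ∈ Ioo 0 π) : Continuous (fun s => f s (s + r)) := by
  have h1 : Continuous (fun s : ℝ => (s, s + r)) := by fun_prop
  have h2 := hf.comp_continuous h1 (fun _ => CData.mem_strip_add hr)
  exact h2

theorem CData.cont_logX {C C' : ℝ → Matrix ν ν ℝ} (h : CData C C') {r : ℝ} (hr : r ∈ Ioo 0 π) :
    Continuous (fun s => log (Xc C s (s + r)).det) :=
  cont_of_strip (f := fun s t => log (Xc C s t).det) h.contF hr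

theorem CData.cont_KFts {C C' : ℝ → Matrix ν ν ℝ} (h : CData C C') {r : ℝ} (hr : r ∈ Ioo 0 π) :
    Continuous (fun s => KFts C C' s (s + r)) :=
  cont_of_strip (f := KFts C C') h.contFts hr

theorem CData.cont_logG {C C' : ℝ → Matrix ν ν ℝ} (h : CData C C') :
    Continuous (fun s => log (Gc C C' s).det) :=
  h.contG.matrix_det.log (fun t => (h.G_det_pos t).ne')

theorem CData.cont_logG' {C C' : ℝ → Matrix ν ν ℝ} (h : CData C C') (r : ℝ) :
    Continuous (fun s => log (Gc C C' (s + r)).det) := by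
  have h1 : Continuous (fun s : ℝ => s + r) := by fun_prop
  have h2 := h.cont_logG.comp h1
  exact h2

theorem CData.int_logG {C C' : ℝ → Matrix ν ν ℝ} (h : CData C C') (r : ℝ) :
    ∫ s in (0 : ℝ)..π, log (Gc C C' (s + r)).det = ∫ s in (0 : ℝ)..π, log (Gc C C' s).det :=
  int_shift (f := fun s => log (Gc C C' s).det) (fun s => by
    change log (Gc C C' (s + π)).det = log (Gc C C' s).det
    rw [h.G_shift]) r

theorem CData.kl_lower {C C' : ℝ → Matrix ν ν ℝ} (h : CData C C') :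
    ∃ K δ : ℝ, 0 ≤ K ∧ 0 < δ ∧ δ ≤ π ∧ ∀ r, 0 < r → r < δ →
      -K ≤ Kl C r - (∫ s in (0 : ℝ)..π, log (Gc C C' s).det)
        - π * (Fintype.card ν * log (sin r)) := by
  obtain ⟨c, δ, hc, hδ, hcδ⟩ := h.det_lower
  refine ⟨|π * log c - ∫ s in (0 : ℝ)..π, log (Gc C C' s).det|, min δ π, abs_nonneg _,
    lt_min hδ pi_pos, min_le_right _ _, fun r hr0 hr => ?_⟩
  have hrδ : r < δ := hr.trans_le (min_le_left _ _)
  have hrπ : r < π := hr.trans_le (min_le_right _ _)
  have hsin : 0 < sin r := sin_pos_of_pos_of_lt_pi hr0 hrπ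
  have h1 : π * (log c + Fintype.card ν * log r) ≤ Kl C r := by
    have h2 : ∫ _s in (0 : ℝ)..π, (log c + Fintype.card ν * log r) ≤ Kl C r := by
      refine intervalIntegral.integral_mono_on pi_pos.le
        (continuous_const.intervalIntegrable _ _)
        ((h.cont_logX ⟨hr0, hrπ⟩).intervalIntegrable _ _) (fun s hs => ?_)
      have h3 := hcδ s hs r hr0 hrδ
      have h4 : log c + Fintype.card ν * log r = log (c * r ^ Fintype.card ν) := by
        rw [log_mul hc.ne' (by (clear * - hr0; positivity)), log_pow]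
      rw [h4]
      exact log_le_log (by (clear * - hc hr0; positivity)) h3
    rwa [intervalIntegral.integral_const, sub_zero, smul_eq_mul] at h2
  have h5 : log (sin r) ≤ log r := log_le_log hsin (sin_lt hr0).le
  have h6 : π * (Fintype.card ν * log (sin r)) ≤ π * (Fintype.card ν * log r) := by
    have := pi_pos
    gcongr
  have h7 := neg_abs_le (π * log c - ∫ s in (0 : ℝ)..π, log (Gc C C' s).det)
  linarith

theorem CData.kazdan {C C' : ℝ → Matrix ν ν ℝ} (h : CData C C') {r : ℝ} (hr : r ∈ Ioo 0 π) :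
    π * (Fintype.card ν * log (sin r)) ≤ ∫ s in (0 : ℝ)..π,
      (log (Xc C s (s + r)).det - log (Gc C C' s).det / 2 - log (Gc C C' (s + r)).det / 2) := by
  obtain ⟨g0, hg0⟩ : ∃ g0, g0 = ∫ s in (0 : ℝ)..π, log (Gc C C' s).det := ⟨_, rfl⟩
  obtain ⟨n, hn⟩ : ∃ n : ℝ, n = Fintype.card ν := ⟨_, rfl⟩
  have hn0 : 0 ≤ n := hn ▸ Nat.cast_nonneg _
  have hπ := pi_pos
  -- the integral
  have hint : ∫ s in (0 : ℝ)..π, (log (Xc C s (s + r)).det - log (Gc C C' s).det / 2
      - log (Gc C C' (s + r)).det / 2) = Kl C r - g0 := by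
    have h1 := int_sub (h.cont_logX hr) h.cont_logG (h.cont_logG' r)
    rw [h.int_logG, ← hg0] at h1
    rw [h1, Kl]
    ring
  rw [hint]
  -- derivatives
  have hav := average (F := fun s t => log (Xc C s t).det) (Ft := KFt C C') (Fts := KFts C C')
    (T := π) (fun s t => by rw [Xc_shift h]) h.contF h.contFt h.contFts
    (fun s t hst => h.dF hst) (fun s t hst => by
      have h1 := h.dFt' hst
      rwa [h.Fts_eq hst] at h1)
  obtain ⟨K, δ, hK, hδ, hδπ, hlow⟩ := h.kl_lower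
  rw [← hg0, ← hn] at hlow
  have key := comparison (k := 1) (T := π) one_pos (one_mul π)
    (u := fun r => Kl C r - g0 - π * (n * log (sin r)))
    (u' := fun r => (∫ s in (0 : ℝ)..π, KFt C C' s (s + r)) - π * (n * (cos r / sin r)))
    (u'' := fun r => (-∫ s in (0 : ℝ)..π, KFts C C' s (s + r)) + π * (n * (1 / sin r ^ 2)))
    ?_ ?_ ?_ ?_ ?_ r hr
  · rw [← hn]
    change 0 ≤ Kl C r - g0 - π * (n * log (sin r)) at key
    linarith only [key]
  · intro x hx
    have hs := sin_pos_of_mem_Ioo hx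
    have h1 := (hav x hx).1
    have h2 : HasDerivAt (fun r => log (sin r)) (cos x / sin x) x :=
      (hasDerivAt_sin x).log hs.ne'
    exact (h1.sub_const g0).sub ((h2.const_mul n).const_mul π)
  · intro x hx
    have hs := sin_pos_of_mem_Ioo hx
    have h1 := (hav x hx).2
    have h2 : HasDerivAt (fun r => cos r / sin r) (-(1 / sin x ^ 2)) x := by
      have h3 := (hasDerivAt_cos x).div (hasDerivAt_sin x) hs.ne'
      refine h3.congr_deriv ?_
      have h4 := sin_sq_add_cos_sq x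
      rw [neg_mul, ← sq, ← sq, ← neg_div]
      congr 1
      linarith only [h4]
    have h5 := h1.sub ((h2.const_mul n).const_mul π)
    refine h5.congr_deriv ?_
    ring
  · intro x hx
    have hs := sin_pos_of_mem_Ioo hx
    obtain ⟨b, hb⟩ : ∃ b, b = 1 / sin x ^ 2 := ⟨_, rfl⟩
    have hb0 : 0 < b := by rw [hb]; (clear * - hs; positivity)
    have hlogb : log b = -(2 * log (sin x)) := by
      rw [hb, one_div, log_inv, log_pow]
      push_cast
      ring
    have h1 : ∫ s in (0 : ℝ)..π, (n * (b * (1 - log b)) + b * (log (Gc C C' s).det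
        - 2 * log (Xc C s (s + x)).det + log (Gc C C' (s + x)).det)) ≤
        ∫ s in (0 : ℝ)..π, KFts C C' s (s + x) := by
      have c1 := h.cont_logG
      have c2 := h.cont_logX hx
      have c3 := h.cont_logG' x
      have c4 : Continuous (fun s => n * (b * (1 - log b)) + b * (log (Gc C C' s).det
        - 2 * log (Xc C s (s + x)).det + log (Gc C C' (s + x)).det)) :=
        continuous_const.add (continuous_const.mul ((c1.sub (continuous_const.mul c2)).add c3))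
      refine intervalIntegral.integral_mono_on pi_pos.le (c4.intervalIntegrable _ _)
        ((h.cont_KFts hx).intervalIntegrable _ _) (fun s _ => ?_)
      have h2 := h.Fts_ge (CData.mem_strip_add (s := s) hx) hb0
      rwa [← hn] at h2
    have h1' := int_lin h.cont_logG (h.cont_logX hx) (h.cont_logG' x) (n * (b * (1 - log b))) b
    rw [h1', h.int_logG, ← hg0] at h1
    change π * (n * (b * (1 - log b))) + b * (g0 - 2 * Kl C x + g0) ≤ _ at h1
    have h3 : 2 * (1 : ℝ) ^ 2 / sin (1 * x) ^ 2 = 2 * b := by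
      rw [one_mul, hb]
      ring
    change (-∫ s in (0 : ℝ)..π, KFts C C' s (s + x)) + π * (n * (1 / sin x ^ 2)) ≤
      2 * (1 : ℝ) ^ 2 / sin (1 * x) ^ 2 * (Kl C x - g0 - π * (n * log (sin x)))
    rw [h3, ← hb]
    rw [hlogb] at h1
    linarith only [h1]
  · intro ε hε
    have h1 : ∀ᶠ x in 𝓝[>] (0 : ℝ), x ∈ Ioo 0 (min δ (ε / (K + 1))) :=
      Ioo_mem_nhdsGT (lt_min hδ (by (clear * - hε hK; positivity)))
    filter_upwards [h1] with x hx
    have hx1 : x < δ := hx.2.trans_le (min_le_left _ _)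
    have hx2 : x < ε / (K + 1) := hx.2.trans_le (min_le_right _ _)
    have hs : 0 < sin x := sin_pos_of_pos_of_lt_pi hx.1 (hx1.trans_le hδπ)
    have hs2 : sin x < x := sin_lt hx.1
    have h2 := hlow x hx.1 hx1
    rw [lt_div_iff₀ (by positivity)] at hx2
    rw [one_mul]
    change -ε ≤ sin x * (Kl C x - g0 - π * (n * log (sin x)))
    linarith [mul_nonneg (le_of_lt (sub_pos.2 hs2)) (sub_nonneg.2 hK), mul_nonneg (le_of_lt (sub_pos.2 hs)) (sub_nonneg.2 h2), hs2, hs, hx2]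
  · intro ε hε
    have h1 : ∀ᶠ x in 𝓝[<] π, x ∈ Ioo (π - min δ (ε / (K + 1))) π :=
      Ioo_mem_nhdsLT (by
        have : 0 < min δ (ε / (K + 1)) := lt_min hδ (by (clear * - hε hK; positivity))
        linarith only [this])
    filter_upwards [h1] with x hx
    have hx0 : 0 < π - x := by linarith only [hx.2]
    have hxm : π - x < min δ (ε / (K + 1)) := by linarith only [hx.1]
    have hx1 : π - x < δ := hxm.trans_le (min_le_left _ _)
    have hx2 : π - x < ε / (K + 1) := hxm.trans_le (min_le_right _ _)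
    have hs : 0 < sin (π - x) := sin_pos_of_pos_of_lt_pi hx0 (hx1.trans_le hδπ)
    have hs2 : sin (π - x) < π - x := sin_lt hx0
    have h2 := hlow (π - x) hx0 hx1
    rw [lt_div_iff₀ (by (clear * - hK; positivity))] at hx2
    rw [Kl_symm h, sin_pi_sub] at h2
    rw [sin_pi_sub] at hs hs2
    rw [one_mul]
    change -ε ≤ sin x * (Kl C x - g0 - π * (n * log (sin x)))
    linarith only [mul_nonneg (le_of_lt (sub_pos.2 hs2)) (sub_nonneg.2 hK), mul_nonneg (le_of_lt (sub_pos.2 hs)) (sub_nonneg.2 h2), hs2, hs, hx2]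

end

end Vale.Agent.P231
end
end
end

section

section

section

/-! P231 core: pointwise inequality for adapted Jacobi data. -/

open Matrix Real Set Filter Topology MeasureTheory
open scoped ContDiff

namespace Vale.Agent.P231

noncomputable section

section General

variable {ι : Type*} [Fintype ι] [DecidableEq ι] {A : ℝ → ℝ → Matrix ι ι ℝ}

theorem JData.per_pi (h : JData (π / 2) A) (s t : ℝ) : A s (t + π) = A s t := by
  have h1 := h.per s t
  rwa [show 2 * (π / 2) = π by ring] at h1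

theorem JData.per_pi' (h : JData (π / 2) A) (s t : ℝ) : A (s + π) t = A s t := by
  have h1 := h.per' s t
  rwa [show 2 * (π / 2) = π by ring] at h1

theorem JData.per_diag (h : JData (π / 2) A) (s t : ℝ) : A (s + π) (t + π) = A s t := by
  rw [h.per_pi, h.per_pi']

theorem JData.unit0 (h : JData (π / 2) A) {t : ℝ} (ht : sin (2 * t) ≠ 0) :
    IsUnit (A 0 t) := by
  have hp : Function.Periodic (fun t : ℝ => (A 0 t, sin (2 * t))) π := by
    intro t
    show (A 0 (t + π), sin (2 * (t + π))) = (A 0 t, sin (2 * t))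
    rw [h.per_pi, show 2 * (t + π) = 2 * t + 2 * π by ring, Real.sin_add_two_pi]
  obtain ⟨y, hy, hy2⟩ := hp.exists_mem_Ico₀ Real.pi_pos t
  have h1 : A 0 t = A 0 y := (Prod.ext_iff.1 hy2).1
  have h2 : sin (2 * t) = sin (2 * y) := (Prod.ext_iff.1 hy2).2
  rw [h2] at ht
  have h3 : y ≠ 0 := by
    rintro rfl
    simp at ht
  have h4 : y ≠ π / 2 := by
    rintro rfl
    rw [show 2 * (π / 2) = π by ring, Real.sin_pi] at ht
    exact ht rfl
  rw [h1]
  refine h.unit' (lt_of_le_of_ne hy.1 (Ne.symm h3)) ?_ ?_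
  · linarith only [hy.2]
  · simpa using h4

theorem JData.unit_quarter (h : JData (π / 2) A) : IsUnit (A 0 (π / 4)) :=
  h.unit 0 (π / 4) (by positivity) (by linarith only [Real.pi_pos])

end General

/-- The regular base points are dense. -/
theorem dense_regular (r : ℝ) : Dense {s : ℝ | sin (2 * s) ≠ 0 ∧ sin (2 * (s + r)) ≠ 0} := by
  have h1 : ({s : ℝ | sin (2 * s) = 0 ∨ sin (2 * (s + r)) = 0}).Countable := by
    refine ((Set.countable_range (fun n : ℤ => (n : ℝ) * π / 2)).union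
      (Set.countable_range (fun n : ℤ => (n : ℝ) * π / 2 - r))).mono ?_
    rintro s (hs | hs)
    · left
      obtain ⟨n, hn⟩ := Real.sin_eq_zero_iff.1 hs
      exact ⟨n, by simp only; linarith⟩
    · right
      obtain ⟨n, hn⟩ := Real.sin_eq_zero_iff.1 hs
      exact ⟨n, by simp only; linarith⟩
  have h2 := h1.dense_compl ℝ
  refine h2.mono ?_
  intro s hs
  exact not_or.1 hs

section Reduced

variable {κ ν : Type*} [Fintype κ] [DecidableEq κ] [Fintype ν] [DecidableEq ν]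
  {A : ℝ → ℝ → Matrix (κ ⊕ ν) (κ ⊕ ν) ℝ} {C C' : ℝ → Matrix ν ν ℝ}

/-- The relation between the reduced system and the full one. -/
def Link (A : ℝ → ℝ → Matrix (κ ⊕ ν) (κ ⊕ ν) ℝ) (C C' : ℝ → Matrix ν ν ℝ) : Prop :=
  ∀ t, sin (2 * t) ≠ 0 →
      C t = -(sin t) • (Hc A 0 (π / 4) t).toBlocks₂₂ ∧
      cos t • C t - sin t • C' t = (sin t) ^ 2 • ((Gm A 0 t)⁻¹).toBlocks₂₂

/-- The weighted logarithm of the reduced system. -/
def gc (C C' : ℝ → Matrix ν ν ℝ) (s t : ℝ) : ℝ :=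
  log (Xc C s t).det - log (Gc C C' s).det / 2 - log (Gc C C' t).det / 2

theorem sin_ne_of_two {t : ℝ} (ht : sin (2 * t) ≠ 0) : sin t ≠ 0 := by
  intro h0
  rw [Real.sin_two_mul, h0] at ht
  simp at ht

theorem Link.Xc_eq (hL : Link A C C') {s t : ℝ} (hs : sin (2 * s) ≠ 0) (ht : sin (2 * t) ≠ 0) :
    Xc C s t = (sin s * sin t) •
      (Hc A 0 (π / 4) t - Hc A 0 (π / 4) s).toBlocks₂₂ := by
  unfold Xc
  rw [(hL s hs).1, (hL t ht).1]
  have : (Hc A 0 (π / 4) t - Hc A 0 (π / 4) s).toBlocks₂₂ =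
    (Hc A 0 (π / 4) t).toBlocks₂₂ - (Hc A 0 (π / 4) s).toBlocks₂₂ := rfl
  rw [this]
  module

theorem Link.log_Xc (hL : Link A C C') {s t : ℝ} (hs : sin (2 * s) ≠ 0) (ht : sin (2 * t) ≠ 0)
    (h0 : (Hc A 0 (π / 4) t - Hc A 0 (π / 4) s).toBlocks₂₂.det ≠ 0) :
    log (Xc C s t).det = Fintype.card ν * (log (sin s) + log (sin t)) +
      log |(Hc A 0 (π / 4) t - Hc A 0 (π / 4) s).toBlocks₂₂.det| := by
  rw [hL.Xc_eq hs ht, Matrix.det_smul, Real.log_abs,
    Real.log_mul (pow_ne_zero _ (mul_ne_zero (sin_ne_of_two hs) (sin_ne_of_two ht))) h0,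
    Real.log_pow, Real.log_mul (sin_ne_of_two hs) (sin_ne_of_two ht)]

theorem Link.log_Gc (hL : Link A C C') {t : ℝ} (ht : sin (2 * t) ≠ 0)
    (h0 : ((Gm A 0 t)⁻¹).toBlocks₂₂.det ≠ 0) :
    log (Gc C C' t).det = Fintype.card ν * (2 * log (sin t)) +
      log ((Gm A 0 t)⁻¹).toBlocks₂₂.det := by
  unfold Gc
  rw [(hL t ht).2, Matrix.det_smul,
    Real.log_mul (pow_ne_zero _ (pow_ne_zero _ (sin_ne_of_two ht))) h0,
    Real.log_pow, Real.log_pow]
  (clear * -; norm_num)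

theorem toBlocks₂₂_posDef {M : Matrix (κ ⊕ ν) (κ ⊕ ν) ℝ} (hM : M.PosDef) :
    M.toBlocks₂₂.PosDef :=
  hM.submatrix (e := Sum.inr) Sum.inr_injective

theorem isUnit_factor {ι : Type*} [Fintype ι] [DecidableEq ι] {P X Q R : Matrix ι ι ℝ}
    (h : R = P * X * Q) (hR : IsUnit R) : IsUnit X := by
  rw [Matrix.isUnit_iff_isUnit_det, isUnit_iff_ne_zero] at hR ⊢
  intro h0
  apply hR
  rw [h, Matrix.det_mul, Matrix.det_mul, h0]
  ring

theorem log_det_inv {ι : Type*} [Fintype ι] [DecidableEq ι] (M : Matrix ι ι ℝ) :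
    log (M⁻¹).det = -log M.det := by
  rw [Matrix.det_nonsing_inv, Ring.inverse_eq_inv', Real.log_inv]

/-- All the facts about a regular pair. -/
theorem regular_facts (h : JData (π / 2) A) (hC : CData C C') (hL : Link A C C') {s t : ℝ}
    (h1 : s < t) (h2 : t < s + π / 2) (h3 : sin (2 * s) ≠ 0) (h4 : sin (2 * t) ≠ 0) :
    let X := Hc A 0 (π / 4) t - Hc A 0 (π / 4) s
    let G := (Gm A 0 t)⁻¹
    let G' := (Gm A 0 s)⁻¹
    Xᵀ = X ∧ IsUnit X ∧ IsUnit X.toBlocks₂₂ ∧ G.PosDef ∧ G'.PosDef ∧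
      log |(A s t).det| = log |X.det| - log G.det / 2 - log G'.det / 2 ∧
      gc C C' s t = log |X.toBlocks₂₂.det| - log G.toBlocks₂₂.det / 2
        - log G'.toBlocks₂₂.det / 2 ∧
      ((A s t)⁻¹ * ((A s t)⁻¹)ᵀ).trace = (X⁻¹ * G' * X⁻¹ * G).trace := by
  intro X G G'
  have u0 := h.unit_quarter
  have us := h.unit0 h3
  have ut := h.unit0 h4
  have ust := h.unit s t h1 h2
  have hX : Xᵀ = X := by
    show (Hc A 0 (π / 4) t - Hc A 0 (π / 4) s)ᵀ = _
    rw [Matrix.transpose_sub, h.Hc_symm u0 ut, h.Hc_symm u0 us]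
  have hXu : IsUnit X := isUnit_factor (h.factor u0 us ut) ust
  have hXc : (Xc C s t).PosDef := hC.X_posDef h1 (by linarith [Real.pi_pos])
  have hX2 : IsUnit X.toBlocks₂₂ := by
    have h5 := hXc.isUnit
    rw [hL.Xc_eq h3 h4, Matrix.isUnit_iff_isUnit_det, Matrix.det_smul, isUnit_iff_ne_zero] at h5
    rw [Matrix.isUnit_iff_isUnit_det, isUnit_iff_ne_zero]
    exact right_ne_zero_of_mul h5
  have hG : G.PosDef := (h.Gm_posDef ut).inv
  have hG' : G'.PosDef := (h.Gm_posDef us).inv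
  refine ⟨hX, hXu, hX2, hG, hG', ?_, ?_, ?_⟩
  · rw [h.abs_det u0 us ut ust]
    show _ = log |(Hc A 0 (π / 4) t - Hc A 0 (π / 4) s).det| - log ((Gm A 0 t)⁻¹).det / 2
      - log ((Gm A 0 s)⁻¹).det / 2
    rw [log_det_inv, log_det_inv]
    ring
  · have h6 : X.toBlocks₂₂.det ≠ 0 := by
      rwa [Matrix.isUnit_iff_isUnit_det, isUnit_iff_ne_zero] at hX2
    unfold gc
    rw [hL.log_Xc h3 h4 h6, hL.log_Gc h3 (toBlocks₂₂_posDef hG').det_pos.ne',
      hL.log_Gc h4 (toBlocks₂₂_posDef hG).det_pos.ne']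
    ring
  · exact h.trace_inv u0 us ut ust

theorem pointwise_ineq (h : JData (π / 2) A) (hC : CData C C') (hL : Link A C C') {s t : ℝ}
    (h1 : s < t) (h2 : t < s + π / 2) (h3 : sin (2 * s) ≠ 0) (h4 : sin (2 * t) ≠ 0)
    {α β : ℝ} (hβ : 0 < β) (hαβ : β ≤ α) :
    Fintype.card κ * (α * (1 - log α)) + Fintype.card ν * (β * (1 - log β))
      - 2 * α * log |(A s t).det| + 2 * (α - β) * gc C C' s t
      ≤ ((A s t)⁻¹ * ((A s t)⁻¹)ᵀ).trace := by
  obtain ⟨hX, hXu, hX2, hG, hG', e1, e2, e3⟩ := regular_facts h hC hL h1 h2 h3 h4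
  rw [e1, e2, e3]
  exact block_ineq hX hXu hX2 hG hG' hβ hαβ

theorem pointwise_eq (h : JData (π / 2) A) (hC : CData C C') (hL : Link A C C') {s t : ℝ}
    (h1 : s < t) (h2 : t < s + π / 2) (h3 : sin (2 * s) ≠ 0) (h4 : sin (2 * t) ≠ 0)
    {α β : ℝ} (hβ : 0 < β) (hαβ : β < α)
    (heq : ((A s t)⁻¹ * ((A s t)⁻¹)ᵀ).trace ≤
      Fintype.card κ * (α * (1 - log α)) + Fintype.card ν * (β * (1 - log β))
      - 2 * α * log |(A s t).det| + 2 * (α - β) * gc C C' s t) :
    A s t * (A s t)ᵀ = α⁻¹ • (1 : Matrix (κ ⊕ ν) (κ ⊕ ν) ℝ) + (β⁻¹ - α⁻¹) •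
      ((A 0 t) * (Gm A 0 t)⁻¹ *
        Matrix.fromBlocks 0 0 0 (((Gm A 0 t)⁻¹).toBlocks₂₂)⁻¹ * (Gm A 0 t)⁻¹ * (A 0 t)ᵀ) := by
  obtain ⟨hX, hXu, hX2, hG, hG', e1, e2, e3⟩ := regular_facts h hC hL h1 h2 h3 h4
  rw [e1, e2, e3] at heq
  have key := block_eq hX hXu hX2 hG hG' hβ hαβ heq
  have u0 := h.unit_quarter
  have us := h.unit0 h3
  have ut := h.unit0 h4
  have hf := h.factor (a := 0) (b := π / 4) (s := s) (t := t) u0 us ut
  have hinv : ((Gm A 0 s)⁻¹)⁻¹ = Gm A 0 s :=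
    Matrix.nonsing_inv_nonsing_inv _ ((Matrix.isUnit_iff_isUnit_det _).1 (h.Gm_posDef us).isUnit)
  rw [hinv] at key
  set X := Hc A 0 (π / 4) t - Hc A 0 (π / 4) s with hXdef
  have h5 : A s t * (A s t)ᵀ = A 0 t * (X * Gm A 0 s * X) * (A 0 t)ᵀ := by
    rw [hf, Matrix.transpose_mul, Matrix.transpose_mul, Matrix.transpose_transpose, hX]
    unfold Gm
    simp only [Matrix.mul_assoc]
  have h6 : A 0 t * (Gm A 0 t)⁻¹ * (A 0 t)ᵀ = 1 := by
    have h7 : IsUnit (A 0 t).det := (Matrix.isUnit_iff_isUnit_det _).1 ut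
    have h8 : IsUnit ((A 0 t)ᵀ).det := by rwa [Matrix.det_transpose]
    unfold Gm
    rw [Matrix.mul_inv_rev, ← Matrix.mul_assoc, Matrix.mul_nonsing_inv _ h7, Matrix.one_mul,
      Matrix.nonsing_inv_mul _ h8]
  rw [h5, key, Matrix.mul_add, Matrix.add_mul, Matrix.mul_smul, Matrix.smul_mul, h6,
    Matrix.mul_smul, Matrix.smul_mul]
  simp only [Matrix.mul_assoc]

end Reduced

end

end Vale.Agent.P231
end
end
end

section

section

section

/-! P231 core, C4c: regularity of `log |det A|` on the strip. -/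

open Matrix Real Set Filter Topology MeasureTheory
open scoped ContDiff

namespace Vale.Agent.P231

noncomputable section

variable {ι : Type*} [Fintype ι] [DecidableEq ι] {D : ℝ} {A : ℝ → ℝ → Matrix ι ι ℝ}

theorem JData.exists_base (h : JData D A) {s t : ℝ} (hst : (s, t) ∈ strip D) :
    ∃ a, IsUnit (A a s) ∧ a < s ∧ s < t ∧ t < a + D := by
  have h1 : s < t := hst.1
  have h2 : t < s + D := hst.2
  refine ⟨(s + t - D) / 2, h.unit _ _ (by linarith) (by linarith only [h1, h2]), by linarith, h1, by linarith⟩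

theorem JData.H_unit (h : JData D A) {a b s t : ℝ} (hb : IsUnit (A a b)) (h1 : a < s)
    (h2 : s < t) (h3 : t < a + D) : IsUnit (Hc A a b t - Hc A a b s) := by
  have hs : IsUnit (A a s) := h.unit a s h1 (by linarith only [h2, h3])
  have ht : IsUnit (A a t) := h.unit a t (by linarith only [h1, h2]) h3
  have hst : IsUnit (A s t) := h.unit s t h2 (by linarith)
  rw [MatCalc.isUnit_iff]
  intro h0
  have h4 := h.factor hb hs ht
  have h5 : (A s t).det = 0 := by rw [h4, det_mul, det_mul, h0]; ring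
  exact (MatCalc.isUnit_iff.1 hst) h5

/-- half of the logarithm of the Gram determinant -/
def mG (A : ℝ → ℝ → Matrix ι ι ℝ) (a t : ℝ) : ℝ := log (Gm A a t).det / 2

theorem JData.mG_contDiffAt (h : JData D A) {a t : ℝ} (ht : IsUnit (A a t)) :
    ContDiffAt ℝ ∞ (mG A a) t := by
  have h1 : 0 < (Gm A a t).det := (h.Gm_posDef ht).det_pos
  have h2 : ContDiffAt ℝ ∞ (fun t => (Gm A a t).det) t :=
    MatCalc.contDiffAt_det fun i j => (h.Gm_contDiff a i j).contDiffAt
  exact (h2.log h1.ne').div_const 2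

theorem JData.log_formula (h : JData D A) {a b s t : ℝ} (hb : IsUnit (A a b)) (h1 : a < s)
    (h2 : s < t) (h3 : t < a + D) :
    log |(A s t).det| = log |(Hc A a b t - Hc A a b s).det| + mG A a t + mG A a s :=
  h.abs_det hb (h.unit a s h1 (by (clear * - h2 h3; linarith))) (h.unit a t (by linarith only [h1, h2]) h3)
    (h.unit s t h2 (by linarith))

theorem JData.log_hasDerivAt (h : JData D A) {a b s t : ℝ} (hb : IsUnit (A a b)) (h1 : a < s)
    (h2 : s < t) (h3 : t < a + D) :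
    HasDerivAt (fun t' => log |(A s t').det|)
      (((Hc A a b t - Hc A a b s)⁻¹ * (Gm A a t)⁻¹).trace + deriv (mG A a) t) t := by
  have ht : IsUnit (A a t) := h.unit a t (by linarith) h3
  have e1 : HasDerivAt (fun t' => log |(Hc A a b t' - Hc A a b s).det|)
      (((Hc A a b t - Hc A a b s)⁻¹ * (Gm A a t)⁻¹).trace) t := by
    refine MatCalc.hasDerivAt_log_det (X := fun t' => Hc A a b t' - Hc A a b s) (fun i j => ?_)
      (h.H_unit hb h1 h2 h3)
    have := (h.Hc_hasDerivAt hb ht i j).sub_const (Hc A a b s i j)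
    exact this
  have e2 : HasDerivAt (mG A a) (deriv (mG A a) t) t :=
    ((h.mG_contDiffAt ht).differentiableAt (by simp)).hasDerivAt
  have e3 := (e1.add e2).add_const (mG A a s)
  refine e3.congr_of_eventuallyEq ?_
  filter_upwards [Ioo_mem_nhds h2 h3] with t' ht'
  exact h.log_formula hb h1 ht'.1 ht'.2

theorem JData.deriv_formula (h : JData D A) {a b s t : ℝ} (hb : IsUnit (A a b)) (h1 : a < s)
    (h2 : s < t) (h3 : t < a + D) :
    deriv (fun t' => log |(A s t').det|) t =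
      ((Hc A a b t - Hc A a b s)⁻¹ * (Gm A a t)⁻¹).trace + deriv (mG A a) t :=
  (h.log_hasDerivAt hb h1 h2 h3).deriv

theorem base_mem_nhds {a s t c : ℝ} (h1 : a < s) (h2 : s < t) (h3 : t < c) :
    ∀ᶠ p : ℝ × ℝ in 𝓝 (s, t), a < p.1 ∧ p.1 < p.2 ∧ p.2 < c := by
  have e1 : ∀ᶠ p : ℝ × ℝ in 𝓝 (s, t), a < p.1 :=
    continuousAt_fst.eventually (lt_mem_nhds h1)
  have e2 : ∀ᶠ p : ℝ × ℝ in 𝓝 (s, t), p.1 < p.2 :=
    (continuousAt_fst (p := ((s, t) : ℝ × ℝ))).eventually_lt continuousAt_snd h2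
  have e3 : ∀ᶠ p : ℝ × ℝ in 𝓝 (s, t), p.2 < c :=
    continuousAt_snd.eventually (gt_mem_nhds h3)
  filter_upwards [e1, e2, e3] with p h1 h2 h3
  exact ⟨h1, h2, h3⟩

theorem JData.H_continuousAt (h : JData D A) {a b t : ℝ} (hb : IsUnit (A a b))
    (ht : IsUnit (A a t)) : ContinuousAt (fun t => Hc A a b t) t :=
  MatCalc.continuousAt_of_entries fun i j => (h.Hc_contDiffAt hb ht i j).continuousAt

theorem JData.G_continuousAt (h : JData D A) (a t : ℝ) :
    ContinuousAt (fun t => Gm A a t) t :=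
  MatCalc.continuousAt_of_entries fun i j => (h.Gm_contDiff a i j).continuous.continuousAt

theorem JData.Ginv_continuousAt (h : JData D A) {a t : ℝ} (ht : IsUnit (A a t)) :
    ContinuousAt (fun t => (Gm A a t)⁻¹) t :=
  MatCalc.continuousAt_inv (h.G_continuousAt a t) (h.Gm_posDef ht).isUnit

theorem JData.HH_continuousAt (h : JData D A) {a b s t : ℝ} (hb : IsUnit (A a b)) (h1 : a < s)
    (h2 : s < t) (h3 : t < a + D) :
    ContinuousAt (fun p : ℝ × ℝ => Hc A a b p.2 - Hc A a b p.1) (s, t) := by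
  have hs : IsUnit (A a s) := h.unit a s h1 (by linarith)
  have ht : IsUnit (A a t) := h.unit a t (by linarith only [h1, h2]) h3
  exact ((h.H_continuousAt hb ht).comp (f := Prod.snd) (x := ((s, t) : ℝ × ℝ))
    continuousAt_snd).sub ((h.H_continuousAt hb hs).comp (f := Prod.fst) (x := ((s, t) : ℝ × ℝ))
      continuousAt_fst)

theorem JData.strip_log (h : JData D A) : ∃ Ft : ℝ → ℝ → ℝ,
    ContinuousOn (fun p : ℝ × ℝ => log |(A p.1 p.2).det|) (strip D) ∧
    ContinuousOn (fun p : ℝ × ℝ => Ft p.1 p.2) (strip D) ∧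
    ContinuousOn (fun p : ℝ × ℝ => ((A p.1 p.2)⁻¹ * ((A p.1 p.2)⁻¹)ᵀ).trace) (strip D) ∧
    (∀ s t, (s, t) ∈ strip D → HasDerivAt (fun t' => log |(A s t').det|) (Ft s t) t) ∧
    (∀ s t, (s, t) ∈ strip D →
      HasDerivAt (fun s' => Ft s' t) (((A s t)⁻¹ * ((A s t)⁻¹)ᵀ).trace) s) := by
  refine ⟨fun s t => deriv (fun t' => log |(A s t').det|) t, ?_, ?_, ?_, ?_, ?_⟩
  · rintro ⟨s, t⟩ hst
    obtain ⟨a, hb, h1, h2, h3⟩ := h.exists_base hst
    have hs : IsUnit (A a s) := h.unit a s h1 (by linarith)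
    have ht : IsUnit (A a t) := h.unit a t (by linarith only [h1, h2]) h3
    have e1 : ContinuousAt (fun p : ℝ × ℝ => log |(Hc A a s p.2 - Hc A a s p.1).det|
        + mG A a p.2 + mG A a p.1) (s, t) := by
      refine ContinuousAt.add (ContinuousAt.add ?_ ?_) ?_
      · have c1 := (continuous_id.matrix_det).continuousAt.comp (h.HH_continuousAt hb h1 h2 h3)
        have c2 : |(Hc A a s t - Hc A a s s).det| ≠ 0 :=
          abs_ne_zero.2 (MatCalc.isUnit_iff.1 (h.H_unit hb h1 h2 h3))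
        exact ContinuousAt.log c1.abs c2
      · exact ((h.mG_contDiffAt ht).continuousAt).comp (f := Prod.snd) (x := ((s, t) : ℝ × ℝ))
          continuousAt_snd
      · exact ((h.mG_contDiffAt hs).continuousAt).comp (f := Prod.fst) (x := ((s, t) : ℝ × ℝ))
          continuousAt_fst
    refine (e1.congr ?_).continuousWithinAt
    filter_upwards [base_mem_nhds h1 h2 h3] with p hp
    exact (h.log_formula hb hp.1 hp.2.1 hp.2.2).symm
  · rintro ⟨s, t⟩ hst
    obtain ⟨a, hb, h1, h2, h3⟩ := h.exists_base hst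
    have hs : IsUnit (A a s) := h.unit a s h1 (by linarith)
    have ht : IsUnit (A a t) := h.unit a t (by linarith) h3
    have e1 : ContinuousAt (fun p : ℝ × ℝ =>
        ((Hc A a s p.2 - Hc A a s p.1)⁻¹ * (Gm A a p.2)⁻¹).trace + deriv (mG A a) p.2) (s, t) := by
      refine ContinuousAt.add ?_ ?_
      · have c1 := MatCalc.continuousAt_inv (h.HH_continuousAt hb h1 h2 h3) (h.H_unit hb h1 h2 h3)
        have c2 := (h.Ginv_continuousAt ht).comp (f := Prod.snd) (x := ((s, t) : ℝ × ℝ))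
          continuousAt_snd
        have c3 := c1.mul c2
        exact (continuous_id.matrix_trace).continuousAt.comp c3
      · have c1 : ContinuousAt (deriv (mG A a)) t := by
          have c2 : ContDiffAt ℝ 0 (fun x => fderiv ℝ (mG A a) x) t :=
            (h.mG_contDiffAt ht).fderiv_right (m := 0) (by simp only [zero_add, WithTop.one_le_coe, le_top])
          have c3 : ContinuousAt (fun x => fderiv ℝ (mG A a) x 1) t :=
            c2.continuousAt.clm_apply continuousAt_const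
          exact c3
        exact c1.comp (f := Prod.snd) (x := ((s, t) : ℝ × ℝ)) continuousAt_snd
    refine (e1.congr ?_).continuousWithinAt
    filter_upwards [base_mem_nhds h1 h2 h3] with p hp
    exact (h.deriv_formula hb hp.1 hp.2.1 hp.2.2).symm
  · rintro ⟨s, t⟩ hst
    obtain ⟨a, hb, h1, h2, h3⟩ := h.exists_base hst
    have hs : IsUnit (A a s) := h.unit a s h1 (by linarith only [h2, h3])
    have ht : IsUnit (A a t) := h.unit a t (by linarith) h3
    have e1 : ContinuousAt (fun p : ℝ × ℝ =>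
        ((Hc A a s p.2 - Hc A a s p.1)⁻¹ * (Gm A a p.1)⁻¹ * (Hc A a s p.2 - Hc A a s p.1)⁻¹
          * (Gm A a p.2)⁻¹).trace) (s, t) := by
      have c1 := MatCalc.continuousAt_inv (h.HH_continuousAt hb h1 h2 h3) (h.H_unit hb h1 h2 h3)
      have c2 := (h.Ginv_continuousAt ht).comp (f := Prod.snd) (x := ((s, t) : ℝ × ℝ))
        continuousAt_snd
      have c3 := (h.Ginv_continuousAt hs).comp (f := Prod.fst) (x := ((s, t) : ℝ × ℝ))
        continuousAt_fst
      have c4 := ((c1.mul c3).mul c1).mul c2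
      exact (continuous_id.matrix_trace).continuousAt.comp c4
    refine (e1.congr ?_).continuousWithinAt
    filter_upwards [base_mem_nhds h1 h2 h3] with p hp
    exact (h.trace_inv hb (h.unit a p.1 hp.1 (by linarith only [hp]))
      (h.unit a p.2 (by linarith [hp.1, hp.2.1]) hp.2.2)
      (h.unit p.1 p.2 hp.2.1 (by linarith only [hp]))).symm
  · intro s t hst
    obtain ⟨a, hb, h1, h2, h3⟩ := h.exists_base hst
    have := h.log_hasDerivAt hb h1 h2 h3
    rw [← this.deriv] at this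
    exact this
  · intro s t hst
    obtain ⟨a, hb, h1, h2, h3⟩ := h.exists_base hst
    have hs : IsUnit (A a s) := h.unit a s h1 (by linarith)
    have ht : IsUnit (A a t) := h.unit a t (by linarith only [h1, h2]) h3
    have hu := h.H_unit hb h1 h2 h3
    have e0 : ∀ i j, HasDerivAt (fun s' => (Hc A a s t - Hc A a s s') i j)
        ((-(Gm A a s)⁻¹) i j) s := by
      intro i j
      have := (h.Hc_hasDerivAt hb hs i j).const_sub (Hc A a s t i j)
      exact this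
    have e1 := fun i j => MatCalc.hasDerivAt_inv e0 hu i j
    have e2 := (MatCalc.hasDerivAt_trace e1 ((Gm A a t)⁻¹)).add_const (deriv (mG A a) t)
    rw [h.trace_inv hb hs ht (h.unit s t h2 (by linarith))]
    have e3 : -((Hc A a s t - Hc A a s s)⁻¹ * -(Gm A a s)⁻¹ * (Hc A a s t - Hc A a s s)⁻¹) =
        (Hc A a s t - Hc A a s s)⁻¹ * (Gm A a s)⁻¹ * (Hc A a s t - Hc A a s s)⁻¹ := by
      rw [Matrix.mul_neg, Matrix.neg_mul, neg_neg]
    rw [e3] at e2
    refine e2.congr_of_eventuallyEq ?_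
    filter_upwards [Ioo_mem_nhds h1 h2] with s' hs'
    exact h.deriv_formula hb hs'.1 hs'.2 h3

end

end Vale.Agent.P231
end
end
end

section

section

section

/-! P231 core, C4d: behaviour of `log |det A|` at the ends of the strip. -/

open Matrix Real Set Filter Topology MeasureTheory
open scoped ContDiff

namespace Vale.Agent.P231

noncomputable section

variable {ι : Type*} [Fintype ι] [DecidableEq ι] {D : ℝ} {A : ℝ → ℝ → Matrix ι ι ℝ}

namespace Bounds

/-- slopes of a `C^1` function -/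
theorem tendsto_slope {f f' : ℝ → ℝ} {s : ℝ} (h1 : ∀ᶠ x in 𝓝 s, HasDerivAt f (f' x) x)
    (h2 : ContinuousAt f' s) :
    Tendsto (fun p : ℝ × ℝ => p.1⁻¹ * (f (p.2 + p.1) - f p.2)) (𝓝[{p | 0 < p.1}] ((0 : ℝ), s))
      (𝓝 (f' s)) := by
  rw [Metric.tendsto_nhds]
  intro ε hε
  have h3 : ∀ᶠ x in 𝓝 s, HasDerivAt f (f' x) x ∧ dist (f' x) (f' s) < ε :=
    h1.and (Metric.tendsto_nhds.1 h2 ε hε)
  obtain ⟨δ, hδ, hball⟩ := Metric.eventually_nhds_iff.1 h3
  rw [eventually_nhdsWithin_iff]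
  have h4 : ∀ᶠ p : ℝ × ℝ in 𝓝 ((0 : ℝ), s), |p.1| < δ / 2 ∧ |p.2 - s| < δ / 2 := by
    have e1 : ∀ᶠ p : ℝ × ℝ in 𝓝 ((0 : ℝ), s), |p.1| < δ / 2 := by
      have : ContinuousAt (fun p : ℝ × ℝ => |p.1|) ((0 : ℝ), s) := continuousAt_fst.abs
      refine this.eventually (gt_mem_nhds ?_)
      simpa only [abs_zero, Nat.ofNat_pos, div_pos_iff_of_pos_right, gt_iff_lt] using hδ
    have e2 : ∀ᶠ p : ℝ × ℝ in 𝓝 ((0 : ℝ), s), |p.2 - s| < δ / 2 := by
      have : ContinuousAt (fun p : ℝ × ℝ => |p.2 - s|) ((0 : ℝ), s) :=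
        (continuousAt_snd.sub continuousAt_const).abs
      refine this.eventually (gt_mem_nhds ?_)
      simpa using hδ
    exact e1.and e2
  filter_upwards [h4] with p hp hp0
  have hp0' : 0 < p.1 := hp0
  have hp1 := abs_lt.1 hp.1
  have hp2 := abs_lt.1 hp.2
  have hin : ∀ x ∈ Icc p.2 (p.2 + p.1), dist x s < δ := by
    intro x hx
    rw [Real.dist_eq, abs_lt]
    constructor <;> linarith only [hp1, hp2, hx.2, hx.1]
  obtain ⟨c, hc, hc'⟩ := exists_hasDerivAt_eq_slope f f' (a := p.2) (b := p.2 + p.1)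
    (by linarith only [hp0]) (fun x hx => ((hball (hin x hx)).1.continuousAt).continuousWithinAt)
    (fun x hx => (hball (hin x (Ioo_subset_Icc_self hx))).1)
  have e : p.1⁻¹ * (f (p.2 + p.1) - f p.2) = f' c := by
    rw [hc']
    have : p.2 + p.1 - p.2 = p.1 := by ring
    rw [this, div_eq_inv_mul]
  rw [e]
  exact (hball (hin c (Ioo_subset_Icc_self hc))).2

omit [DecidableEq ι] in
theorem quad_hasDerivAt {X : ℝ → Matrix ι ι ℝ} {X' : Matrix ι ι ℝ} {t : ℝ}
    (hX : ∀ i j, HasDerivAt (fun t => X t i j) (X' i j) t) (x : ι → ℝ) :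
    HasDerivAt (fun t => x ⬝ᵥ (X t *ᵥ x)) (x ⬝ᵥ (X' *ᵥ x)) t := by
  simp only [dotProduct, mulVec]
  refine HasDerivAt.fun_sum fun i _ => ?_
  refine HasDerivAt.const_mul _ (HasDerivAt.fun_sum fun j _ => ?_)
  exact (hX i j).mul_const _

omit [DecidableEq ι] in
/-- uniform positivity of a continuous family of positive definite matrices -/
theorem exists_lower {Q : ℝ → Matrix ι ι ℝ} {K : Set ℝ} (hK : IsCompact K)
    (hQ : ContinuousOn Q K) (hpos : ∀ τ ∈ K, (Q τ).PosDef) :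
    ∃ c : ℝ, 0 < c ∧ ∀ τ ∈ K, ∀ x : ι → ℝ, c * (x ⬝ᵥ x) ≤ x ⬝ᵥ (Q τ *ᵥ x) := by
  have hS : IsCompact (Metric.sphere (0 : ι → ℝ) 1) := isCompact_sphere _ _
  have hKS := hK.prod hS
  set F : ℝ × (ι → ℝ) → ℝ := fun p => p.2 ⬝ᵥ (Q p.1 *ᵥ p.2) with hF
  have hFc : ContinuousOn F (K ×ˢ Metric.sphere (0 : ι → ℝ) 1) := by
    have e1 : ContinuousOn (fun p : ℝ × (ι → ℝ) => Q p.1)
        (K ×ˢ Metric.sphere (0 : ι → ℝ) 1) :=
      hQ.comp continuousOn_fst (fun p hp => hp.1)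
    have e2 : ContinuousOn (fun p : ℝ × (ι → ℝ) => p.2)
        (K ×ˢ Metric.sphere (0 : ι → ℝ) 1) := continuousOn_snd
    simp only [hF, dotProduct, mulVec]
    refine continuousOn_finsetSum _ fun i _ => ?_
    have e3 : ∀ i, ContinuousOn (fun p : ℝ × (ι → ℝ) => p.2 i)
        (K ×ˢ Metric.sphere (0 : ι → ℝ) 1) := fun i => (continuousOn_pi.1 e2) i
    refine (e3 i).mul (continuousOn_finsetSum _ fun j _ => ?_)
    exact ((continuousOn_pi.1 ((continuousOn_pi.1 e1) i)) j).mul (e3 j)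
  have hFpos : ∀ p ∈ K ×ˢ Metric.sphere (0 : ι → ℝ) 1, 0 < F p := by
    rintro ⟨τ, x⟩ ⟨hτ, hx⟩
    have hx0 : x ≠ 0 := by
      rintro rfl
      simp only [mem_sphere_iff_norm, sub_self, norm_zero, zero_ne_one] at hx
    have := (hpos τ hτ).dotProduct_mulVec_pos hx0
    simpa only [gt_iff_lt, star_trivial] using this
  obtain ⟨δ, hδ, hδF⟩ : ∃ δ : ℝ, 0 < δ ∧ ∀ p ∈ K ×ˢ Metric.sphere (0 : ι → ℝ) 1, δ ≤ F p := by
    rcases (K ×ˢ Metric.sphere (0 : ι → ℝ) 1).eq_empty_or_nonempty with he | hne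
    · exact ⟨1, one_pos, fun p hp => by rw [he] at hp; exact absurd hp (notMem_empty p)⟩
    · obtain ⟨p₀, hp₀, hmin⟩ := hKS.exists_isMinOn hne hFc
      exact ⟨F p₀, hFpos p₀ hp₀, fun p hp => hmin hp⟩
  refine ⟨δ / (Fintype.card ι + 1), by (clear * - hδ; positivity), fun τ hτ x => ?_⟩
  rcases eq_or_ne x 0 with rfl | hx
  · simp only [dotProduct_zero, mul_zero, mulVec_zero, Std.le_refl]
  have hn : 0 < ‖x‖ := norm_pos_iff.2 hx
  have h1 := hδF (τ, ‖x‖⁻¹ • x) ⟨hτ, by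
    rw [mem_sphere_zero_iff_norm, norm_smul, norm_inv, norm_norm, inv_mul_cancel₀ hn.ne']⟩
  have h2 : F (τ, ‖x‖⁻¹ • x) = (‖x‖⁻¹) ^ 2 * (x ⬝ᵥ (Q τ *ᵥ x)) := by
    simp only [hF]
    rw [mulVec_smul, smul_dotProduct, dotProduct_smul, smul_eq_mul, smul_eq_mul]; ring
  rw [h2] at h1
  have h3 : δ * ‖x‖ ^ 2 ≤ x ⬝ᵥ (Q τ *ᵥ x) := by
    have := mul_le_mul_of_nonneg_right h1 (sq_nonneg ‖x‖)
    have e : (‖x‖⁻¹) ^ 2 * (x ⬝ᵥ (Q τ *ᵥ x)) * ‖x‖ ^ 2 = x ⬝ᵥ (Q τ *ᵥ x) := by
      (clear * - hx; field_simp)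
    rwa [e] at this
  have h4 : x ⬝ᵥ x ≤ (Fintype.card ι + 1) * ‖x‖ ^ 2 := by
    have h5 : x ⬝ᵥ x ≤ ∑ _i : ι, ‖x‖ ^ 2 := by
      refine Finset.sum_le_sum fun i _ => ?_
      have := norm_le_pi_norm x i
      rw [Real.norm_eq_abs] at this
      rw [← sq, ← sq_abs]
      exact pow_le_pow_left₀ (abs_nonneg _) this 2
    rw [Finset.sum_const, Finset.card_univ, nsmul_eq_mul] at h5
    nlinarith only [h5]
  calc δ / (Fintype.card ι + 1) * (x ⬝ᵥ x)
      ≤ δ / (Fintype.card ι + 1) * ((Fintype.card ι + 1) * ‖x‖ ^ 2) :=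
        mul_le_mul_of_nonneg_left h4 (by (clear * - hδ; (clear * - hδ; positivity)))
    _ = δ * ‖x‖ ^ 2 := by field_simp
    _ ≤ _ := h3

end Bounds

theorem JData.periodic (h : JData D A) (r : ℝ) :
    Function.Periodic (fun s => A s (s + r)) (2 * D) := by
  intro s
  show A (s + 2 * D) (s + 2 * D + r) = A s (s + r)
  rw [h.per', show s + 2 * D + r = s + r + 2 * D by ring, h.per]

theorem JData.near_zero_local (h : JData D A) (s₀ : ℝ) {ε : ℝ} (hε : 0 < ε) :
    ∀ᶠ p : ℝ × ℝ in 𝓝 ((0 : ℝ), s₀), 0 < p.1 →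
      |log |(A p.2 (p.2 + p.1)).det| - Fintype.card ι * log p.1| ≤ ε := by
  have hD := h.pos
  set a := s₀ - D / 2 with ha
  have hb : IsUnit (A a s₀) := h.unit _ _ (by (clear * - hD ha; linarith)) (by linarith)
  have hGd : 0 < (Gm A a s₀).det := (h.Gm_posDef hb).det_pos
  -- slopes
  have hS : ∀ i j, Tendsto (fun p : ℝ × ℝ => p.1⁻¹ * (Hc A a s₀ (p.2 + p.1) i j
      - Hc A a s₀ p.2 i j)) (𝓝[{p | 0 < p.1}] ((0 : ℝ), s₀)) (𝓝 ((Gm A a s₀)⁻¹ i j)) := by
    intro i j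
    refine Bounds.tendsto_slope (f := fun t => Hc A a s₀ t i j)
      (f' := fun t => (Gm A a t)⁻¹ i j) ?_ ?_
    · filter_upwards [(h.isOpen_unit a).mem_nhds hb] with t ht
      exact h.Hc_hasDerivAt hb ht i j
    · have := h.Ginv_continuousAt hb
      exact (continuousAt_pi.1 ((continuousAt_pi.1 this) i)) j
  set S : ℝ × ℝ → Matrix ι ι ℝ := fun p =>
    p.1⁻¹ • (Hc A a s₀ (p.2 + p.1) - Hc A a s₀ p.2) with hSdef
  have hS' : Tendsto S (𝓝[{p | 0 < p.1}] ((0 : ℝ), s₀)) (𝓝 ((Gm A a s₀)⁻¹)) := by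
    refine tendsto_pi_nhds.2 fun i => tendsto_pi_nhds.2 fun j => ?_
    exact hS i j
  have hSdet : Tendsto (fun p => log |(S p).det|) (𝓝[{p | 0 < p.1}] ((0 : ℝ), s₀))
      (𝓝 (-log (Gm A a s₀).det)) := by
    have h1 : Tendsto (fun p => |(S p).det|) (𝓝[{p | 0 < p.1}] ((0 : ℝ), s₀))
        (𝓝 |((Gm A a s₀)⁻¹).det|) :=
      (((continuous_id.matrix_det).continuousAt.tendsto).comp hS').abs
    have h2 : |((Gm A a s₀)⁻¹).det| ≠ 0 := by
      rw [Matrix.det_nonsing_inv, Ring.inverse_eq_inv']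
      (clear * - hGd; positivity)
    have h3 := h1.log h2
    have h4 : log |((Gm A a s₀)⁻¹).det| = -log (Gm A a s₀).det := by
      rw [Matrix.det_nonsing_inv, Ring.inverse_eq_inv', Real.log_abs, Real.log_inv]
    rw [h4] at h3
    exact h3
  have hm1 : Tendsto (fun p : ℝ × ℝ => mG A a (p.2 + p.1)) (𝓝[{p | 0 < p.1}] ((0 : ℝ), s₀))
      (𝓝 (mG A a s₀)) := by
    have h1 : Tendsto (fun p : ℝ × ℝ => p.2 + p.1) (𝓝 ((0 : ℝ), s₀)) (𝓝 s₀) := by
      have h0 : ContinuousAt (fun p : ℝ × ℝ => p.2 + p.1) ((0 : ℝ), s₀) :=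
        continuousAt_snd.add continuousAt_fst
      simpa only [ContinuousAt, add_zero] using h0
    exact ((h.mG_contDiffAt hb).continuousAt.tendsto.comp h1).mono_left nhdsWithin_le_nhds
  have hm2 : Tendsto (fun p : ℝ × ℝ => mG A a p.2) (𝓝[{p | 0 < p.1}] ((0 : ℝ), s₀))
      (𝓝 (mG A a s₀)) := by
    have h1 : Tendsto (fun p : ℝ × ℝ => p.2) (𝓝 ((0 : ℝ), s₀)) (𝓝 s₀) :=
      (continuousAt_snd (p := (((0 : ℝ), s₀) : ℝ × ℝ))).tendsto
    exact ((h.mG_contDiffAt hb).continuousAt.tendsto.comp h1).mono_left nhdsWithin_le_nhds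
  have hsum : Tendsto (fun p : ℝ × ℝ => log |(S p).det| + mG A a (p.2 + p.1) + mG A a p.2)
      (𝓝[{p | 0 < p.1}] ((0 : ℝ), s₀)) (𝓝 0) := by
    have := (hSdet.add hm1).add hm2
    have e : -log (Gm A a s₀).det + mG A a s₀ + mG A a s₀ = 0 := by
      simp only [mG]; ring
    rw [e] at this
    exact this
  have hev := Metric.tendsto_nhds.1 hsum ε hε
  rw [eventually_nhdsWithin_iff] at hev
  have hloc : ∀ᶠ p : ℝ × ℝ in 𝓝 ((0 : ℝ), s₀), a < p.2 ∧ p.2 + p.1 < a + D := by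
    have e1 : ∀ᶠ p : ℝ × ℝ in 𝓝 ((0 : ℝ), s₀), a < p.2 :=
      continuousAt_snd.eventually (lt_mem_nhds (by linarith only [ha, hD]))
    have e2 : ∀ᶠ p : ℝ × ℝ in 𝓝 ((0 : ℝ), s₀), p.2 + p.1 < a + D := by
      have h1 : ContinuousAt (fun p : ℝ × ℝ => p.2 + p.1) ((0 : ℝ), s₀) :=
        continuousAt_snd.add continuousAt_fst
      refine h1.eventually (gt_mem_nhds ?_)
      simp only [add_zero]
      linarith only [hD, ha]
    exact e1.and e2
  filter_upwards [hev, hloc] with p hp1 hp2 hp0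
  have h5 := hp1 hp0
  rw [Real.dist_eq, sub_zero] at h5
  have h6 := h.log_formula hb hp2.1 (by linarith only [hp0] : p.2 < p.2 + p.1) hp2.2
  have hu := h.H_unit hb hp2.1 (by linarith only [hp0] : p.2 < p.2 + p.1) hp2.2
  have h7 : log |(S p).det| = log |(Hc A a s₀ (p.2 + p.1) - Hc A a s₀ p.2).det|
      - Fintype.card ι * log p.1 := by
    simp only [hSdef]
    rw [Matrix.det_smul, abs_mul, Real.log_mul, abs_of_pos (by (clear * - hp0; positivity) : 0 < p.1⁻¹ ^ _),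
      Real.log_pow, Real.log_inv]
    · ring
    · positivity
    · exact abs_ne_zero.2 (MatCalc.isUnit_iff.1 hu)
  rw [h7] at h5
  rw [h6]
  refine le_of_lt (lt_of_eq_of_lt ?_ h5)
  congr 1
  ring

theorem JData.near_zero (h : JData D A) : ∀ ε > 0, ∀ᶠ r in 𝓝[>] (0 : ℝ), ∀ s,
    |log |(A s (s + r)).det| - Fintype.card ι * log r| ≤ ε := by
  intro ε hε
  have h1 := (isCompact_Icc (a := (0 : ℝ)) (b := 2 * D)).eventually_forall_of_forall_eventually
    (x₀ := (0 : ℝ)) (P := fun r s => 0 < r →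
      |log |(A s (s + r)).det| - Fintype.card ι * log r| ≤ ε)
    (fun s _ => h.near_zero_local s hε)
  rw [eventually_nhdsWithin_iff]
  filter_upwards [h1] with r hr hr0 s
  obtain ⟨s', hs', he⟩ := (h.periodic r).exists_mem_Ico₀ (by linarith only [h.pos] : 0 < 2 * D) s
  have he' : A s (s + r) = A s' (s' + r) := he
  rw [he']
  exact hr s' (Ico_subset_Icc_self hs') hr0

/-- the coordinate with base `s` is positive definite -/
theorem JData.Hc_posDef (h : JData D A) {s a t : ℝ} (h1 : s < a) (h2 : a < t)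
    (h3 : t < s + D) : (Hc A s a t).PosDef := by
  have ha : IsUnit (A s a) := h.unit s a h1 (by linarith)
  have hu : ∀ τ ∈ Icc a t, IsUnit (A s τ) := fun τ hτ =>
    h.unit s τ (by linarith only [h1, hτ.1]) (by linarith only [h3, hτ.2])
  rw [Matrix.posDef_iff_dotProduct_mulVec]
  refine ⟨?_, fun x hx => ?_⟩
  · have := h.Hc_symm ha (hu t ⟨h2.le, le_rfl⟩)
    rw [Matrix.IsHermitian, Matrix.conjTranspose_eq_transpose_of_trivial]
    exact this
  · have hd : ∀ τ ∈ Icc a t, HasDerivAt (fun τ => x ⬝ᵥ (Hc A s a τ *ᵥ x))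
        (x ⬝ᵥ ((Gm A s τ)⁻¹ *ᵥ x)) τ := fun τ hτ =>
      Bounds.quad_hasDerivAt (fun i j => h.Hc_hasDerivAt ha (hu τ hτ) i j) x
    obtain ⟨ξ, hξ, hξ'⟩ := exists_hasDerivAt_eq_slope (fun τ => x ⬝ᵥ (Hc A s a τ *ᵥ x))
      (fun τ => x ⬝ᵥ ((Gm A s τ)⁻¹ *ᵥ x)) h2
      (fun τ hτ => (hd τ hτ).continuousAt.continuousWithinAt)
      (fun τ hτ => hd τ (Ioo_subset_Icc_self hτ))
    have h4 : 0 < x ⬝ᵥ ((Gm A s ξ)⁻¹ *ᵥ x) := by
      have := (h.Gm_posDef (hu ξ (Ioo_subset_Icc_self hξ))).inv.dotProduct_mulVec_pos hx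
      simpa only [gt_iff_lt, star_trivial] using this
    have h5 : x ⬝ᵥ (Hc A s a a *ᵥ x) = 0 := by
      have : Hc A s a a = 0 := by rw [Hc, h.diag]; simp only [mul_zero, zero_mul]
      rw [this]; simp only [zero_mulVec, dotProduct_zero]
    rw [h5, sub_zero] at hξ'
    rw [hξ', div_pos_iff] at h4
    simp only [star_trivial]
    rcases h4 with h4 | h4
    · exact h4.1
    · exact absurd h4.2 (by linarith only [h2])

/-- the coordinate with base `a > s` is negative definite -/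
theorem JData.neg_Hc_posDef (h : JData D A) {s a t : ℝ} (h1 : s < a) (h2 : a < t)
    (h3 : t < s + D) : (-(Hc A a s t)).PosDef := by
  have hsa : IsUnit (A s a) := h.unit s a h1 (by linarith)
  have has : IsUnit (A a s) := h.unit_symm hsa
  have hst : IsUnit (A s t) := h.unit s t (by linarith only [h1, h2]) h3
  have hat : IsUnit (A a t) := h.unit a t h2 (by linarith)
  have hK := (h.Hc_posDef h1 h2 h3).inv
  have e1 : (Hc A s a t)⁻¹ = -(A a s * (A a t)⁻¹ * A s t) := by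
    have d1 := MatCalc.isUnit_iff.1 hst
    have d2 := MatCalc.isUnit_iff.1 hat
    have d3 := MatCalc.isUnit_iff.1 hsa
    refine Matrix.inv_eq_left_inv ?_
    rw [Hc, h.anti s a]
    have u1 : A s t * (A s t)⁻¹ = 1 := Matrix.mul_nonsing_inv _ (isUnit_iff_ne_zero.2 d1)
    have u2 : (A a t)⁻¹ * A a t = 1 := Matrix.nonsing_inv_mul _ (isUnit_iff_ne_zero.2 d2)
    have u3 : (A s a)ᵀ * ((A s a)⁻¹)ᵀ = 1 := by
      rw [← Matrix.transpose_mul, Matrix.nonsing_inv_mul _ (isUnit_iff_ne_zero.2 d3),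
        Matrix.transpose_one]
    calc -(-(A s a)ᵀ * (A a t)⁻¹ * A s t) * ((A s t)⁻¹ * A a t * ((A s a)⁻¹)ᵀ)
        = (A s a)ᵀ * ((A a t)⁻¹ * (A s t * (A s t)⁻¹) * A a t) * ((A s a)⁻¹)ᵀ := by
          noncomm_ring
      _ = 1 := by rw [u1, Matrix.mul_one, u2, Matrix.mul_one, u3]
  have e2 : -(Hc A a s t) = (A a s)⁻¹ * (Hc A s a t)⁻¹ * ((A a s)⁻¹)ᴴ := by
    have d3 := MatCalc.isUnit_iff.1 has
    have u3 : (A a s)⁻¹ * A a s = 1 := Matrix.nonsing_inv_mul _ (isUnit_iff_ne_zero.2 d3)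
    rw [e1, Matrix.conjTranspose_eq_transpose_of_trivial, Hc]
    calc -((A a t)⁻¹ * A s t * ((A a s)⁻¹)ᵀ)
        = -(((A a s)⁻¹ * A a s) * (A a t)⁻¹ * A s t * ((A a s)⁻¹)ᵀ) := by
          rw [u3, Matrix.one_mul]
      _ = _ := by noncomm_ring
  rw [e2]
  refine hK.mul_mul_conjTranspose_same ?_
  rw [Matrix.vecMul_injective_iff_isUnit]
  exact (Matrix.isUnit_nonsing_inv_iff).2 has

/-- quantitative version -/
theorem JData.neg_Hc_lower (h : JData D A) {s a t c : ℝ} (h1 : s < a) (h2 : a < t)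
    (h3 : t < s + D) (hc : ∀ τ ∈ Ioo t (s + D), ∀ x : ι → ℝ,
      c * (x ⬝ᵥ x) ≤ x ⬝ᵥ ((Gm A a τ)⁻¹ *ᵥ x)) (x : ι → ℝ) :
    c * (s + D - t) * (x ⬝ᵥ x) ≤ x ⬝ᵥ ((-(Hc A a s t)) *ᵥ x) := by
  have hsa : IsUnit (A s a) := h.unit s a h1 (by linarith only [h2, h3])
  have has : IsUnit (A a s) := h.unit_symm hsa
  have hbound : ∀ t' ∈ Ioo t (s + D), c * (t' - t) * (x ⬝ᵥ x) ≤
      x ⬝ᵥ ((-(Hc A a s t)) *ᵥ x) := by
    intro t' ht'
    have hu : ∀ τ ∈ Icc t t', IsUnit (A a τ) := fun τ hτ =>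
      h.unit a τ (by linarith only [h2, hτ.1]) (by linarith [hτ.2, ht'.2])
    have hd : ∀ τ ∈ Icc t t', HasDerivAt (fun τ => x ⬝ᵥ (Hc A a s τ *ᵥ x))
        (x ⬝ᵥ ((Gm A a τ)⁻¹ *ᵥ x)) τ := fun τ hτ =>
      Bounds.quad_hasDerivAt (fun i j => h.Hc_hasDerivAt has (hu τ hτ) i j) x
    obtain ⟨ξ, hξ, hξ'⟩ := exists_hasDerivAt_eq_slope (fun τ => x ⬝ᵥ (Hc A a s τ *ᵥ x))
      (fun τ => x ⬝ᵥ ((Gm A a τ)⁻¹ *ᵥ x)) ht'.1
      (fun τ hτ => (hd τ hτ).continuousAt.continuousWithinAt)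
      (fun τ hτ => hd τ (Ioo_subset_Icc_self hτ))
    have h4 := hc ξ ⟨hξ.1, by linarith only [hξ.2, ht'.2]⟩ x
    have hpos : 0 < t' - t := by linarith only [ht'.1]
    rw [hξ', le_div_iff₀ hpos] at h4
    have h5 : 0 ≤ x ⬝ᵥ ((-(Hc A a s t')) *ᵥ x) := by
      have := (h.neg_Hc_posDef h1 (by linarith only [h2, hpos] : a < t') ht'.2).posSemidef
      have := this.dotProduct_mulVec_nonneg x
      simpa only [ge_iff_le, star_trivial] using this
    rw [Matrix.neg_mulVec, dotProduct_neg] at h5 ⊢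
    linarith
  have hlim : Tendsto (fun t' => c * (t' - t) * (x ⬝ᵥ x)) (𝓝[<] (s + D))
      (𝓝 (c * (s + D - t) * (x ⬝ᵥ x))) := by
    have : Continuous (fun t' => c * (t' - t) * (x ⬝ᵥ x)) := by fun_prop
    exact this.continuousAt.tendsto.mono_left nhdsWithin_le_nhds
  refine le_of_tendsto hlim ?_
  filter_upwards [Ioo_mem_nhdsLT h3] with t' ht'
  exact hbound t' ht'

theorem JData.near_D_local (h : JData D A) (s₀ : ℝ) :
    ∃ C : ℝ, ∀ᶠ p : ℝ × ℝ in 𝓝 (D, s₀), p.1 < D →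
      Fintype.card ι * log (D - p.1) - C ≤ log |(A p.2 (p.2 + p.1)).det| := by
  have hD := h.pos
  set a := s₀ + D / 4 with ha
  have hsa₀ : IsUnit (A s₀ a) := h.unit _ _ (by linarith only [hD, ha]) (by linarith only [hD, ha])
  have has₀ : IsUnit (A a s₀) := h.unit_symm hsa₀
  set K : Set ℝ := Icc (s₀ + D / 2) (s₀ + 9 * D / 8) with hK
  have hKc : IsCompact K := isCompact_Icc
  have hKu : ∀ τ ∈ K, IsUnit (A a τ) := fun τ hτ =>
    h.unit a τ (by linarith [hτ.1, ha, hD]) (by linarith only [hτ.2, ha, hD])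
  obtain ⟨c, hc0, hc⟩ := Bounds.exists_lower (Q := fun τ => (Gm A a τ)⁻¹) hKc
    (fun τ hτ => (h.Ginv_continuousAt (hKu τ hτ)).continuousWithinAt)
    (fun τ hτ => (h.Gm_posDef (hKu τ hτ)).inv)
  have hmc : ContinuousOn (mG A a) K := fun τ hτ =>
    ((h.mG_contDiffAt (hKu τ hτ)).continuousAt).continuousWithinAt
  obtain ⟨τ₀, hτ₀, hmin⟩ := hKc.exists_isMinOn
    ⟨s₀ + D / 2, le_rfl, by linarith only [hD]⟩ hmc
  refine ⟨-(Fintype.card ι * log c) - mG A a τ₀ - (mG A a s₀ - 1), ?_⟩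
  have e1 : ∀ᶠ p : ℝ × ℝ in 𝓝 (D, s₀), |p.1 - D| < D / 16 := by
    have : ContinuousAt (fun p : ℝ × ℝ => |p.1 - D|) (D, s₀) :=
      (continuousAt_fst.sub continuousAt_const).abs
    refine this.eventually (gt_mem_nhds ?_)
    simp only [sub_self, abs_zero]; linarith only [hD]
  have e2 : ∀ᶠ p : ℝ × ℝ in 𝓝 (D, s₀), |p.2 - s₀| < D / 16 := by
    have : ContinuousAt (fun p : ℝ × ℝ => |p.2 - s₀|) (D, s₀) :=
      (continuousAt_snd.sub continuousAt_const).abs
    refine this.eventually (gt_mem_nhds ?_)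
    simp only [sub_self, abs_zero]; linarith only [hD]
  have e3 : ∀ᶠ p : ℝ × ℝ in 𝓝 (D, s₀), mG A a s₀ - 1 < mG A a p.2 := by
    have h1 : Tendsto (fun p : ℝ × ℝ => p.2) (𝓝 (D, s₀)) (𝓝 s₀) :=
      (continuousAt_snd (p := ((D, s₀) : ℝ × ℝ))).tendsto
    have h2 := (h.mG_contDiffAt has₀).continuousAt.tendsto.comp h1
    exact h2.eventually (lt_mem_nhds (by linarith only []))
  filter_upwards [e1, e2, e3] with p hp1 hp2 hp3 hp0
  have hp1 := abs_lt.1 hp1
  have hp2 := abs_lt.1 hp2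
  set s := p.2 with hs
  set t := p.2 + p.1 with ht
  have hsa : s < a := by linarith only [ha, hp2]
  have hat : a < t := by linarith
  have hts : t < s + D := by linarith only [hp0]
  have htK : t ∈ K := ⟨by linarith only [hp1, hp2], by linarith only [hp1, hp2]⟩
  have has : IsUnit (A a s) := h.unit_symm (h.unit s a hsa (by linarith only [ha, hp2]))
  have hform := h.abs_det (b := s) has has (hKu t htK) (h.unit s t (by linarith only [hp1]) hts)
  have hzero : Hc A a s s = 0 := by rw [Hc, h.diag]; simp only [mul_zero, zero_mul]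
  rw [hzero, sub_zero] at hform
  have hlow := fun x => h.neg_Hc_lower (c := c) hsa hat hts
    (fun τ hτ x => hc τ ⟨by linarith only [hp1, hp2, hτ.1], by linarith only [hp2, hτ.2]⟩ x) x
  have hpos : 0 < c * (s + D - t) := by
    have : 0 < s + D - t := by linarith only [hp0]
    (clear * - hc0 hts; positivity)
  set P : Matrix ι ι ℝ := (c * (s + D - t)) • 1 with hP
  have hPpos : P.PosDef := Matrix.PosDef.one.smul hpos
  have hdiff : (-(Hc A a s t) - P).PosSemidef := by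
    refine Matrix.PosSemidef.of_dotProduct_mulVec_nonneg ?_ fun x => ?_
    · exact (h.neg_Hc_posDef hsa hat hts).isHermitian.sub hPpos.isHermitian
    · rw [star_trivial, Matrix.sub_mulVec, dotProduct_sub, hP, Matrix.smul_mulVec,
        Matrix.one_mulVec, dotProduct_smul, smul_eq_mul]
      linarith only [hlow x]
  have hdet := det_le_det hPpos hdiff
  have hPdet : P.det = (c * (s + D - t)) ^ Fintype.card ι := by
    rw [hP, Matrix.det_smul, Matrix.det_one, mul_one]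
  rw [hPdet] at hdet
  have habs : |(Hc A a s t).det| = (-(Hc A a s t)).det := by
    have h1 : 0 < (-(Hc A a s t)).det := (h.neg_Hc_posDef hsa hat hts).det_pos
    rw [← abs_of_pos h1, Matrix.det_neg, abs_mul, abs_pow, abs_neg, abs_one, one_pow, one_mul]
  have hlog : Fintype.card ι * log c + Fintype.card ι * log (D - p.1) ≤
      log |(Hc A a s t).det| := by
    rw [habs]
    have h1 : s + D - t = D - p.1 := by rw [ht, hs]; ring
    rw [h1] at hdet
    have h2 : 0 < D - p.1 := by linarith only [hp0]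
    have h3 := Real.log_le_log (by (clear * - hc0 hp0; positivity)) hdet
    rw [Real.log_pow, Real.log_mul hc0.ne' h2.ne'] at h3
    linarith only [h3]
  have hm1 : mG A a τ₀ ≤ mG A a t := hmin htK
  have hform' : log |(A s t).det| = log |(Hc A a s t).det| + mG A a t + mG A a s := hform
  rw [hform']
  linarith only [hp3, hlog, hm1]

theorem JData.near_D (h : JData D A) : ∃ C : ℝ, ∀ᶠ r in 𝓝[<] D, ∀ s,
    Fintype.card ι * log (D - r) - C ≤ log |(A s (s + r)).det| := by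
  have key : ∃ C : ℝ, ∀ᶠ r in 𝓝 D, ∀ s ∈ Icc (0 : ℝ) (2 * D), r < D →
      Fintype.card ι * log (D - r) - C ≤ log |(A s (s + r)).det| := by
    refine (isCompact_Icc (a := (0 : ℝ)) (b := 2 * D)).induction_on
      (p := fun S => ∃ C : ℝ, ∀ᶠ r in 𝓝 D, ∀ s ∈ S, r < D →
        Fintype.card ι * log (D - r) - C ≤ log |(A s (s + r)).det|) ?_ ?_ ?_ ?_
    · exact ⟨0, Eventually.of_forall fun r s hs => absurd hs (notMem_empty s)⟩
    · rintro S T hST ⟨C, hC⟩
      exact ⟨C, hC.mono fun r hr s hs => hr s (hST hs)⟩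
    · rintro S T ⟨C, hC⟩ ⟨C', hC'⟩
      refine ⟨max C C', ?_⟩
      filter_upwards [hC, hC'] with r hr hr' s hs hrD
      rcases hs with hs | hs
      · linarith only [hr s hs hrD, le_max_left C C']
      · linarith only [hr' s hs hrD, le_max_right C C']
    · intro s₀ _
      obtain ⟨C, hC⟩ := h.near_D_local s₀
      rw [nhds_prod_eq, Filter.eventually_prod_iff] at hC
      obtain ⟨pa, hpa, pb, hpb, hC⟩ := hC
      refine ⟨{s | pb s}, mem_nhdsWithin_of_mem_nhds hpb, C, ?_⟩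
      filter_upwards [hpa] with r hr s hs hrD
      exact hC hr hs hrD
  obtain ⟨C, hC⟩ := key
  refine ⟨C, ?_⟩
  rw [eventually_nhdsWithin_iff]
  filter_upwards [hC] with r hr hr0 s
  obtain ⟨s', hs', he⟩ := (h.periodic r).exists_mem_Ico₀ (by linarith only [h.pos] : 0 < 2 * D) s
  have he' : A s (s + r) = A s' (s' + r) := he
  rw [he']
  exact hr s' (Ico_subset_Icc_self hs') hr0

end

end Vale.Agent.P231
end
end
end

section

section

section

/-! P231 core: the averaged determinant inequality for adapted Jacobi data, and its equality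
case. -/

open Matrix Real Set Filter Topology MeasureTheory
open scoped ContDiff

namespace Vale.Agent.P231

noncomputable section

theorem slice_cont {f : ℝ × ℝ → ℝ} {T r : ℝ} (hf : ContinuousOn f (strip T))
    (hr : r ∈ Ioo 0 T) : Continuous (fun s : ℝ => f (s, s + r)) :=
  hf.comp_continuous (by fun_prop) fun s =>
    ⟨by simpa only [lt_add_iff_pos_right] using hr.1, by simpa using hr.2⟩

section Reduced

variable {κ ν : Type*} [Fintype κ] [DecidableEq κ] [Fintype ν] [DecidableEq ν]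
  {A : ℝ → ℝ → Matrix (κ ⊕ ν) (κ ⊕ ν) ℝ} {C C' : ℝ → Matrix ν ν ℝ}

theorem gc_cont (hC : CData C C') {r : ℝ} (hr : r ∈ Ioo 0 (π / 2)) :
    Continuous (fun s : ℝ => gc C C' s (s + r)) :=
  slice_cont hC.continuousOn ⟨hr.1, by linarith [hr.2, Real.pi_pos]⟩

theorem log_det_cont (h : JData (π / 2) A) {r : ℝ} (hr : r ∈ Ioo 0 (π / 2)) :
    Continuous (fun s : ℝ => log |(A s (s + r)).det|) := by
  obtain ⟨Ft, h1, -⟩ := h.strip_log
  exact slice_cont h1 hr

theorem trace_cont (h : JData (π / 2) A) {r : ℝ} (hr : r ∈ Ioo 0 (π / 2)) :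
    Continuous (fun s : ℝ => ((A s (s + r))⁻¹ * ((A s (s + r))⁻¹)ᵀ).trace) := by
  obtain ⟨Ft, -, -, h1, -⟩ := h.strip_log
  exact slice_cont h1 hr

/-- The defect in the pointwise inequality. -/
def defect (A : ℝ → ℝ → Matrix (κ ⊕ ν) (κ ⊕ ν) ℝ) (C C' : ℝ → Matrix ν ν ℝ) (α β r s : ℝ) : ℝ :=
  ((A s (s + r))⁻¹ * ((A s (s + r))⁻¹)ᵀ).trace -
    (Fintype.card κ * (α * (1 - log α)) + Fintype.card ν * (β * (1 - log β))
      - 2 * α * log |(A s (s + r)).det| + 2 * (α - β) * gc C C' s (s + r))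

theorem defect_cont (h : JData (π / 2) A) (hC : CData C C') {α β r : ℝ}
    (hr : r ∈ Ioo 0 (π / 2)) : Continuous (defect A C C' α β r) := by
  have h1 := gc_cont hC hr
  have h2 := log_det_cont h hr
  have h3 := trace_cont h hr
  unfold defect
  exact h3.sub ((continuous_const.sub (continuous_const.mul h2)).add (continuous_const.mul h1))

theorem defect_nonneg (h : JData (π / 2) A) (hC : CData C C') (hL : Link A C C') {α β r : ℝ}
    (hr : r ∈ Ioo 0 (π / 2)) (hβ : 0 < β) (hαβ : β ≤ α) (s : ℝ) :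
    0 ≤ defect A C C' α β r s := by
  have hcl : IsClosed {s | 0 ≤ defect A C C' α β r s} :=
    isClosed_le continuous_const (defect_cont h hC hr)
  have hsub : {s : ℝ | sin (2 * s) ≠ 0 ∧ sin (2 * (s + r)) ≠ 0} ⊆
      {s | 0 ≤ defect A C C' α β r s} := by
    intro s hs
    have := pointwise_ineq h hC hL (s := s) (t := s + r) (by linarith only [hr.1])
      (by linarith only [hr.2]) hs.1 hs.2 hβ hαβ
    exact sub_nonneg.2 this
  exact hcl.closure_subset_iff.2 hsub (dense_regular r s)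

theorem integral_defect (h : JData (π / 2) A) (hC : CData C C') {α β r : ℝ}
    (hr : r ∈ Ioo 0 (π / 2)) :
    ∫ s in (0 : ℝ)..π, defect A C C' α β r s =
      (∫ s in (0 : ℝ)..π, ((A s (s + r))⁻¹ * ((A s (s + r))⁻¹)ᵀ).trace) -
      (π * (Fintype.card κ * (α * (1 - log α)) + Fintype.card ν * (β * (1 - log β)))
        - 2 * α * (∫ s in (0 : ℝ)..π, log |(A s (s + r)).det|)
        + 2 * (α - β) * ∫ s in (0 : ℝ)..π, gc C C' s (s + r)) := by
  have h1 := gc_cont hC hr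
  have h2 := log_det_cont h hr
  have h3 := trace_cont h hr
  set K : ℝ := Fintype.card κ * (α * (1 - log α)) + Fintype.card ν * (β * (1 - log β)) with hK
  have c1 : Continuous (fun s : ℝ => 2 * α * log |(A s (s + r)).det|) := continuous_const.mul h2
  have c2 : Continuous (fun s : ℝ => K - 2 * α * log |(A s (s + r)).det|) :=
    continuous_const.sub c1
  have c3 : Continuous (fun s : ℝ => 2 * (α - β) * gc C C' s (s + r)) :=
    continuous_const.mul h1
  have c4 : Continuous (fun s : ℝ => K - 2 * α * log |(A s (s + r)).det| +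
    2 * (α - β) * gc C C' s (s + r)) := c2.add c3
  unfold defect
  rw [← hK, intervalIntegral.integral_sub (h3.intervalIntegrable _ _)
      (c4.intervalIntegrable _ _),
    intervalIntegral.integral_add (c2.intervalIntegrable _ _) (c3.intervalIntegrable _ _),
    intervalIntegral.integral_sub (continuous_const.intervalIntegrable _ _)
      (c1.intervalIntegrable _ _),
    intervalIntegral.integral_const, intervalIntegral.integral_const_mul,
    intervalIntegral.integral_const_mul, smul_eq_mul, sub_zero]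

/-- The algebraic identity satisfied by the model. -/
theorem model_identity {r : ℝ} (hs : 0 < sin r) (hc : 0 < cos r) (k n : ℝ) :
    k * ((1 / (sin r * cos r) ^ 2) * (1 - log (1 / (sin r * cos r) ^ 2)))
      + n * ((1 / (sin r) ^ 2) * (1 - log (1 / (sin r) ^ 2)))
      - 2 * (1 / (sin r * cos r) ^ 2) * (k * log (cos r) + (k + n) * log (sin r))
      + 2 * (1 / (sin r * cos r) ^ 2 - 1 / (sin r) ^ 2) * (n * log (sin r))
      = k / (cos r) ^ 2 + (k + n) / (sin r) ^ 2 := by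
  have e1 : log (1 / (sin r * cos r) ^ 2) = -2 * (log (sin r) + log (cos r)) := by
    rw [one_div, Real.log_inv, Real.log_pow, Real.log_mul hs.ne' hc.ne']
    push_cast
    ring
  have e2 : log (1 / (sin r) ^ 2) = -2 * log (sin r) := by
    rw [one_div, Real.log_inv, Real.log_pow]
    push_cast
    ring
  have e3 : 1 / (sin r * cos r) ^ 2 = 1 / (cos r) ^ 2 + 1 / (sin r) ^ 2 := by
    have h1 : (sin r) ^ 2 + (cos r) ^ 2 = 1 := Real.sin_sq_add_cos_sq r
    have h2 : (sin r) ≠ 0 := hs.ne'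
    have h3 : (cos r) ≠ 0 := hc.ne'
    field_simp
    linarith only [h1]
  rw [e1, e2, e3]
  ring

theorem sin_cos_pos {r : ℝ} (hr : r ∈ Ioo 0 (π / 2)) : 0 < sin r ∧ 0 < cos r :=
  ⟨Real.sin_pos_of_pos_of_lt_pi hr.1 (by linarith [hr.2, Real.pi_pos]),
    Real.cos_pos_of_mem_Ioo ⟨by linarith only [hr.1, Real.pi_pos], hr.2⟩⟩

theorem alpha_beta {r : ℝ} (hr : r ∈ Ioo 0 (π / 2)) :
    0 < 1 / (sin r) ^ 2 ∧ 1 / (sin r) ^ 2 < 1 / (sin r * cos r) ^ 2 := by
  obtain ⟨hs, hc⟩ := sin_cos_pos hr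
  refine ⟨by positivity, ?_⟩
  have h1 : (sin r) ^ 2 + (cos r) ^ 2 = 1 := Real.sin_sq_add_cos_sq r
  have h2 : 0 < (sin r) ^ 2 := by positivity
  have h3 : 0 < (cos r) ^ 2 := by positivity
  apply one_div_lt_one_div_of_lt (by positivity)
  rw [mul_pow]
  nlinarith only [h1, h2]

/-- The integrated inequality. -/
theorem integrated_ineq (h : JData (π / 2) A) (hC : CData C C') {r : ℝ}
    (hr : r ∈ Ioo 0 (π / 2)) :
    π * (Fintype.card κ / (cos r) ^ 2 + (Fintype.card κ + Fintype.card ν) / (sin r) ^ 2)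
      + 2 * (1 / (sin r * cos r) ^ 2) *
        (π * (Fintype.card κ * log (cos r) + (Fintype.card κ + Fintype.card ν) * log (sin r))
          - ∫ s in (0 : ℝ)..π, log |(A s (s + r)).det|)
      + (∫ s in (0 : ℝ)..π, defect A C C' (1 / (sin r * cos r) ^ 2) (1 / (sin r) ^ 2) r s)
      ≤ ∫ s in (0 : ℝ)..π, ((A s (s + r))⁻¹ * ((A s (s + r))⁻¹)ᵀ).trace := by
  obtain ⟨hs, hc⟩ := sin_cos_pos hr
  obtain ⟨h1, h2⟩ := alpha_beta hr
  have hid := model_identity hs hc (Fintype.card κ : ℝ) (Fintype.card ν : ℝ)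
  have hk : π * (Fintype.card ν * log (sin r)) ≤ ∫ s in (0 : ℝ)..π, gc C C' s (s + r) :=
    hC.kazdan ⟨hr.1, by linarith only [hr.2, Real.pi_pos]⟩
  rw [integral_defect h hC hr, ← hid]
  set α := 1 / (sin r * cos r) ^ 2 with hα
  set β := 1 / (sin r) ^ 2 with hβ
  have h3 : 2 * (α - β) * (π * (Fintype.card ν * log (sin r))) ≤
      2 * (α - β) * ∫ s in (0 : ℝ)..π, gc C C' s (s + r) :=
    mul_le_mul_of_nonneg_left hk (by linarith only [h2])
  linarith only [h3]

theorem hasDerivAt_log_cos {r : ℝ} (hc : cos r ≠ 0) :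
    HasDerivAt (fun r => log (cos r)) (-sin r / cos r) r :=
  (Real.hasDerivAt_cos r).log hc

theorem hasDerivAt_log_sin {r : ℝ} (hs : sin r ≠ 0) :
    HasDerivAt (fun r => log (sin r)) (cos r / sin r) r :=
  (Real.hasDerivAt_sin r).log hs

theorem hasDerivAt_tan' {r : ℝ} (hc : cos r ≠ 0) :
    HasDerivAt (fun r => -sin r / cos r) (-(1 / (cos r) ^ 2)) r := by
  have h2 : HasDerivAt (fun r : ℝ => -sin r) (-cos r) r := (Real.hasDerivAt_sin r).neg
  refine (h2.div (Real.hasDerivAt_cos r) hc).congr_deriv ?_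
  have h1 : (sin r) ^ 2 + (cos r) ^ 2 = 1 := Real.sin_sq_add_cos_sq r
  field_simp
  linarith only [h1]

theorem hasDerivAt_cot' {r : ℝ} (hs : sin r ≠ 0) :
    HasDerivAt (fun r => cos r / sin r) (-(1 / (sin r) ^ 2)) r := by
  refine ((Real.hasDerivAt_cos r).div (Real.hasDerivAt_sin r) hs).congr_deriv ?_
  have h1 : (sin r) ^ 2 + (cos r) ^ 2 = 1 := Real.sin_sq_add_cos_sq r
  field_simp
  linarith

/-- The averaged logarithm of the model. -/
def modelLog (k n r : ℝ) : ℝ := π * (k * log (cos r) + (k + n) * log (sin r))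

/-- its derivative -/
def modelLog' (k n r : ℝ) : ℝ := π * (k * (-sin r / cos r) + (k + n) * (cos r / sin r))

theorem hasDerivAt_modelLog {k n r : ℝ} (hr : r ∈ Ioo 0 (π / 2)) :
    HasDerivAt (modelLog k n) (modelLog' k n r) r := by
  obtain ⟨hs, hc⟩ := sin_cos_pos hr
  exact (((hasDerivAt_log_cos hc.ne').const_mul k).add
    ((hasDerivAt_log_sin hs.ne').const_mul (k + n))).const_mul π

theorem hasDerivAt_modelLog' {k n r : ℝ} (hr : r ∈ Ioo 0 (π / 2)) :
    HasDerivAt (modelLog' k n) (-(π * (k / (cos r) ^ 2 + (k + n) / (sin r) ^ 2))) r := by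
  obtain ⟨hs, hc⟩ := sin_cos_pos hr
  refine ((((hasDerivAt_tan' hc.ne').const_mul k).add
    ((hasDerivAt_cot' hs.ne').const_mul (k + n))).const_mul π).congr_deriv ?_
  ring

theorem modelLog_nonpos {k n r : ℝ} (hk : 0 ≤ k) (hn : 0 ≤ n) (hr : r ∈ Ioo 0 (π / 2)) :
    modelLog k n r ≤ 0 := by
  obtain ⟨hs, hc⟩ := sin_cos_pos hr
  unfold modelLog
  have h1 : log (cos r) ≤ 0 := Real.log_nonpos hc.le (Real.cos_le_one r)
  have h2 : log (sin r) ≤ 0 := Real.log_nonpos hs.le (Real.sin_le_one r)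
  have h3 : k * log (cos r) + (k + n) * log (sin r) ≤ 0 := by
    have := mul_nonneg hk (neg_nonneg.2 h1)
    have := mul_nonneg (add_nonneg hk hn) (neg_nonneg.2 h2)
    linarith
  have := mul_nonneg Real.pi_pos.le (neg_nonneg.2 h3)
  linarith only [this]

/-- integral bounds from uniform pointwise bounds -/
theorem integral_ge_of_forall {f : ℝ → ℝ} (hf : Continuous f) {c : ℝ} (h : ∀ s, c ≤ f s) :
    π * c ≤ ∫ s in (0 : ℝ)..π, f s := by
  have h1 : ∫ s in (0 : ℝ)..π, c ≤ ∫ s in (0 : ℝ)..π, f s :=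
    intervalIntegral.integral_mono_on Real.pi_pos.le (continuous_const.intervalIntegrable _ _)
      (hf.intervalIntegrable _ _) (fun s _ => h s)
  rwa [intervalIntegral.integral_const, sub_zero, smul_eq_mul] at h1

theorem end_zero (h : JData (π / 2) A) : ∀ ε > 0, ∀ᶠ r in 𝓝[>] (0 : ℝ),
    -ε ≤ sin (2 * r) * ((∫ s in (0 : ℝ)..π, log |(A s (s + r)).det|) -
      modelLog (Fintype.card κ) (Fintype.card ν) r) := by
  intro ε hε
  have hpi := Real.pi_pos
  have h1 := h.near_zero (ε / π) (by positivity)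
  have h2 : ∀ᶠ r in 𝓝[>] (0 : ℝ), r ∈ Ioo 0 (π / 2) := by
    apply Ioo_mem_nhdsGT
    positivity
  filter_upwards [h1, h2] with r h3 hr
  obtain ⟨hs, hc⟩ := sin_cos_pos hr
  have h4 : π * (Fintype.card (κ ⊕ ν) * log r - ε / π) ≤
      ∫ s in (0 : ℝ)..π, log |(A s (s + r)).det| := by
    apply integral_ge_of_forall (log_det_cont h hr)
    intro s
    have := abs_le.1 (h3 s)
    linarith only [this]
  have h5 : log (sin r) ≤ log r := Real.log_le_log hs (Real.sin_le hr.1.le)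
  have h6 : log (cos r) ≤ 0 := Real.log_nonpos hc.le (Real.cos_le_one r)
  have h7 : (Fintype.card (κ ⊕ ν) : ℝ) = Fintype.card κ + Fintype.card ν := by
    rw [Fintype.card_sum]
    push_cast
    rfl
  have h8 : -ε ≤ (∫ s in (0 : ℝ)..π, log |(A s (s + r)).det|) -
      modelLog (Fintype.card κ) (Fintype.card ν) r := by
    unfold modelLog
    rw [h7, mul_sub, mul_div_cancel₀ _ hpi.ne'] at h4
    have h9 : (0 : ℝ) ≤ (Fintype.card κ : ℝ) + Fintype.card ν := by (clear * -; positivity)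
    have h10 : 0 ≤ π * (((Fintype.card κ : ℝ) + Fintype.card ν) * (log r - log (sin r))) :=
      mul_nonneg hpi.le (mul_nonneg h9 (by linarith only [h5]))
    have h11 : 0 ≤ π * ((Fintype.card κ : ℝ) * (-log (cos r))) :=
      mul_nonneg hpi.le (mul_nonneg (by (clear * -; positivity)) (by linarith only [h6]))
    linarith only [h4, h10, h11]
  have h12 : 0 ≤ sin (2 * r) :=
    Real.sin_nonneg_of_nonneg_of_le_pi (by linarith only [hr.1]) (by linarith only [hr.2])
  have h13 : sin (2 * r) ≤ 1 := Real.sin_le_one _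
  linarith only [mul_nonneg (sub_nonneg.2 h8) (sub_nonneg.2 h12), mul_nonneg (le_of_lt (sub_pos.2 hε)) (sub_nonneg.2 h13)]

theorem end_right (h : JData (π / 2) A) : ∀ ε > 0, ∀ᶠ r in 𝓝[<] (π / 2 : ℝ),
    -ε ≤ sin (2 * r) * ((∫ s in (0 : ℝ)..π, log |(A s (s + r)).det|) -
      modelLog (Fintype.card κ) (Fintype.card ν) r) := by
  intro ε hε
  have hpi := Real.pi_pos
  obtain ⟨K, hK⟩ := h.near_D
  have h2 : ∀ᶠ r in 𝓝[<] (π / 2 : ℝ), r ∈ Ioo 0 (π / 2) := by
    apply Ioo_mem_nhdsLT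
    positivity
  have hx : Tendsto (fun r : ℝ => π / 2 - r) (𝓝[<] (π / 2)) (𝓝[>] 0) := by
    refine tendsto_nhdsWithin_iff.2 ⟨?_, ?_⟩
    · have h1 : Tendsto (fun r : ℝ => π / 2 - r) (𝓝 (π / 2)) (𝓝 (π / 2 - π / 2)) :=
        Continuous.tendsto (by fun_prop) _
      rw [sub_self] at h1
      exact h1.mono_left nhdsWithin_le_nhds
    · filter_upwards [self_mem_nhdsWithin] with r hr
      exact sub_pos.2 (mem_Iio.1 hr)
  have hw : Tendsto (fun x : ℝ => 2 * (π * (Fintype.card (κ ⊕ ν) * |log x * x| + |K| * x)))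
      (𝓝[>] 0) (𝓝 0) := by
    have h0 : Tendsto (fun x : ℝ => log x * x) (𝓝[>] 0) (𝓝 0) := by
      simpa only [rpow_one] using tendsto_log_mul_rpow_nhdsGT_zero zero_lt_one
    have h1 := h0.abs
    have h3 : Tendsto (fun x : ℝ => x) (𝓝[>] (0 : ℝ)) (𝓝 0) :=
      tendsto_id.mono_left nhdsWithin_le_nhds
    have h4 := ((((h1.const_mul (Fintype.card (κ ⊕ ν) : ℝ)).add
      (h3.const_mul |K|)).const_mul π).const_mul 2)
    simpa only [Fintype.card_sum, Nat.cast_add, abs_mul, abs_zero, mul_zero, add_zero] using h4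
  have h5 := (hw.comp hx).eventually (ge_mem_nhds hε)
  filter_upwards [hK, h2, h5] with r h3 hr h6
  set x := π / 2 - r with hxr
  have hx0 : 0 < x := by rw [hxr]; linarith only [hr.2]
  have h4 : π * (Fintype.card (κ ⊕ ν) * log x - K) ≤
      ∫ s in (0 : ℝ)..π, log |(A s (s + r)).det| :=
    integral_ge_of_forall (log_det_cont h hr) h3
  have h7 := modelLog_nonpos (k := Fintype.card κ) (n := Fintype.card ν) (by (clear * -; positivity))
    (by positivity) hr
  have h8 : sin (2 * r) ≤ 2 * x := by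
    have h9 : sin (2 * r) = sin (2 * x) := by
      rw [hxr, ← Real.sin_pi_sub]
      congr 1
      ring
    rw [h9]
    exact Real.sin_le (by linarith only [hx0])
  have h12 : 0 ≤ sin (2 * r) :=
    Real.sin_nonneg_of_nonneg_of_le_pi (by linarith only [hr.1]) (by linarith only [hxr, hx0])
  have h13 : -(π * (Fintype.card (κ ⊕ ν) * |log x| + |K|)) ≤
      (∫ s in (0 : ℝ)..π, log |(A s (s + r)).det|) -
      modelLog (Fintype.card κ) (Fintype.card ν) r := by
    have h14 : (Fintype.card (κ ⊕ ν) : ℝ) * (-|log x|) ≤ Fintype.card (κ ⊕ ν) * log x :=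
      mul_le_mul_of_nonneg_left (neg_abs_le _) (by (clear * -; positivity))
    have h15 : -|K| ≤ -K := neg_le_neg (le_abs_self K)
    have h16 : π * (-(Fintype.card (κ ⊕ ν) * |log x| + |K|)) ≤
        π * (Fintype.card (κ ⊕ ν) * log x - K) :=
      mul_le_mul_of_nonneg_left (by linarith only [h14, h15]) hpi.le
    linarith only [h4, h7, h16]
  have h17 : 0 ≤ π * (Fintype.card (κ ⊕ ν) * |log x| + |K|) := by (clear * -; positivity)
  have h18 : sin (2 * r) * (π * (Fintype.card (κ ⊕ ν) * |log x| + |K|)) ≤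
      2 * x * (π * (Fintype.card (κ ⊕ ν) * |log x| + |K|)) :=
    mul_le_mul_of_nonneg_right h8 h17
  have h19 : sin (2 * r) * (-(π * (Fintype.card (κ ⊕ ν) * |log x| + |K|))) ≤
      sin (2 * r) * ((∫ s in (0 : ℝ)..π, log |(A s (s + r)).det|) -
      modelLog (Fintype.card κ) (Fintype.card ν) r) :=
    mul_le_mul_of_nonneg_left h13 h12
  have h20 : 2 * (π * (Fintype.card (κ ⊕ ν) * |log x * x| + |K| * x)) ≤ ε := h6
  rw [abs_mul, abs_of_pos hx0] at h20
  linarith only [h18, h19, h20]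

/-- the block form of the averaged inequality -/
theorem core_block (h : JData (π / 2) A) (ha : Adapted A) {r : ℝ} (hr : r ∈ Ioo 0 (π / 2)) :
    π * (Fintype.card κ * log (cos r) + Fintype.card (κ ⊕ ν) * log (sin r)) ≤
      ∫ s in (0 : ℝ)..π, log |(A s (s + r)).det| := by
  obtain ⟨C, C', hC, hL⟩ := h.exists_CData ha
  obtain ⟨Ft, c1, c2, c3, d1, d2⟩ := h.strip_log
  have hav := average (T := π / 2) (F := fun s t => log |(A s t).det|) (Ft := Ft)
    (Fts := fun s t => ((A s t)⁻¹ * ((A s t)⁻¹)ᵀ).trace)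
    (fun s t => by rw [h.per_diag]) c1 c2 c3 d1 d2
  have key := comparison (k := 2) (T := π / 2) (by norm_num) (by ring)
    (u := fun r => (∫ s in (0 : ℝ)..π, log |(A s (s + r)).det|) -
      modelLog (Fintype.card κ) (Fintype.card ν) r)
    (u' := fun r => (∫ s in (0 : ℝ)..π, Ft s (s + r)) -
      modelLog' (Fintype.card κ) (Fintype.card ν) r)
    (u'' := fun r => (-∫ s in (0 : ℝ)..π, ((A s (s + r))⁻¹ * ((A s (s + r))⁻¹)ᵀ).trace) -
      -(π * (Fintype.card κ / (cos r) ^ 2 + (Fintype.card κ + Fintype.card ν) / (sin r) ^ 2)))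
    (fun r hr => (hav r hr).1.sub (hasDerivAt_modelLog hr))
    (fun r hr => (hav r hr).2.sub (hasDerivAt_modelLog' hr)) ?_ (end_zero h) (end_right h) r hr
  · have h7 : (Fintype.card (κ ⊕ ν) : ℝ) = Fintype.card κ + Fintype.card ν := by
      rw [Fintype.card_sum]
      push_cast
      rfl
    have h8 : modelLog (Fintype.card κ) (Fintype.card ν) r =
      π * (Fintype.card κ * log (cos r) + Fintype.card (κ ⊕ ν) * log (sin r)) := by
      rw [h7]
      rfl
    rw [← h8]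
    exact sub_nonneg.1 key
  · intro r hr
    obtain ⟨hs, hc⟩ := sin_cos_pos hr
    obtain ⟨h1, h2⟩ := alpha_beta hr
    have h3 := integrated_ineq h hC hr
    have h4 : 0 ≤ ∫ s in (0 : ℝ)..π,
        defect A C C' (1 / (sin r * cos r) ^ 2) (1 / (sin r) ^ 2) r s :=
      intervalIntegral.integral_nonneg Real.pi_pos.le
        fun s _ => defect_nonneg h hC hL hr h1 h2.le s
    have h5 : 2 * (2 : ℝ) ^ 2 / (sin (2 * r)) ^ 2 = 2 * (1 / (sin r * cos r) ^ 2) := by
      rw [Real.sin_two_mul]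
      have := hs.ne'
      have := hc.ne'
      field_simp
    rw [h5]
    unfold modelLog
    linarith only [h3, h4]

/-- In the equality case the defect vanishes. -/
theorem defect_eq_zero (h : JData (π / 2) A) (hC : CData C C') (hL : Link A C C')
    (hdet : ∀ s t, s < t → t < s + π / 2 →
      |(A s t).det| = cos (t - s) ^ Fintype.card κ * sin (t - s) ^ Fintype.card (κ ⊕ ν))
    {r : ℝ} (hr : r ∈ Ioo 0 (π / 2)) {s : ℝ} (hs : s ∈ Icc 0 π) :
    defect A C C' (1 / (sin r * cos r) ^ 2) (1 / (sin r) ^ 2) r s = 0 := by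
  obtain ⟨Ft, c1, c2, c3, d1, d2⟩ := h.strip_log
  have hav := average (T := π / 2) (F := fun s t => log |(A s t).det|) (Ft := Ft)
    (Fts := fun s t => ((A s t)⁻¹ * ((A s t)⁻¹)ᵀ).trace)
    (fun s t => by rw [h.per_diag]) c1 c2 c3 d1 d2
  have h7 : (Fintype.card (κ ⊕ ν) : ℝ) = Fintype.card κ + Fintype.card ν := by
    rw [Fintype.card_sum]
    push_cast
    rfl
  have e0 : ∀ r ∈ Ioo 0 (π / 2), (∫ s in (0 : ℝ)..π, log |(A s (s + r)).det|) =
      modelLog (Fintype.card κ) (Fintype.card ν) r := by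
    intro r hr
    obtain ⟨hs, hc⟩ := sin_cos_pos hr
    have h8 : ∀ s : ℝ, log |(A s (s + r)).det| =
        Fintype.card κ * log (cos r) + (Fintype.card κ + Fintype.card ν) * log (sin r) := by
      intro s
      rw [hdet s (s + r) (by linarith only [hr.1]) (by linarith only [hr.2]),
        show s + r - s = r by ring,
        Real.log_mul (pow_ne_zero _ hc.ne') (pow_ne_zero _ hs.ne'), Real.log_pow, Real.log_pow, h7]
    simp only [h8]
    rw [intervalIntegral.integral_const, sub_zero, smul_eq_mul]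
    rfl
  have hnhds : ∀ r ∈ Ioo 0 (π / 2), Ioo 0 (π / 2) ∈ 𝓝 r := fun r hr =>
    isOpen_Ioo.mem_nhds hr
  have e1 : ∀ r ∈ Ioo 0 (π / 2), (∫ s in (0 : ℝ)..π, Ft s (s + r)) =
      modelLog' (Fintype.card κ) (Fintype.card ν) r := by
    intro r hr
    have h8 := (hav r hr).1
    have h9 : HasDerivAt (fun r => ∫ s in (0 : ℝ)..π, log |(A s (s + r)).det|)
        (modelLog' (Fintype.card κ) (Fintype.card ν) r) r := by
      refine (hasDerivAt_modelLog hr).congr_of_eventuallyEq ?_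
      filter_upwards [hnhds r hr] with y hy
      exact e0 y hy
    exact h8.unique h9
  have e2 : (∫ s in (0 : ℝ)..π, ((A s (s + r))⁻¹ * ((A s (s + r))⁻¹)ᵀ).trace) =
      π * (Fintype.card κ / (cos r) ^ 2 + (Fintype.card κ + Fintype.card ν) / (sin r) ^ 2) := by
    have h8 := (hav r hr).2
    have h9 : HasDerivAt (fun r => ∫ s in (0 : ℝ)..π, Ft s (s + r))
        (-(π * (Fintype.card κ / (cos r) ^ 2 + (Fintype.card κ + Fintype.card ν) / (sin r) ^ 2)))
        r := by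
      refine (hasDerivAt_modelLog' hr).congr_of_eventuallyEq ?_
      filter_upwards [hnhds r hr] with y hy
      exact e1 y hy
    exact neg_injective (h8.unique h9)
  obtain ⟨hb, hab⟩ := alpha_beta hr
  have h3 := integrated_ineq h hC hr
  rw [e2, e0 r hr] at h3
  unfold modelLog at h3
  have h4 : ∫ s in (0 : ℝ)..π,
      defect A C C' (1 / (sin r * cos r) ^ 2) (1 / (sin r) ^ 2) r s ≤ 0 := by linarith only [h3]
  by_contra hne
  have h5 : 0 < defect A C C' (1 / (sin r * cos r) ^ 2) (1 / (sin r) ^ 2) r s :=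
    lt_of_le_of_ne (defect_nonneg h hC hL hr hb hab.le s) (Ne.symm hne)
  have h6 := intervalIntegral.integral_pos Real.pi_pos (defect_cont h hC hr).continuousOn
    (fun x _ => defect_nonneg h hC hL hr hb hab.le x) ⟨s, hs, h5⟩
  (clear * - h3 h6; linarith)

/-- the block form of the equality case -/
theorem core_rigid_block (h : JData (π / 2) A) (ha : Adapted A)
    (hdet : ∀ s t, s < t → t < s + π / 2 →
      |(A s t).det| = cos (t - s) ^ Fintype.card κ * sin (t - s) ^ Fintype.card (κ ⊕ ν))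
    {s t : ℝ} (h1 : s < t) (h2 : t < s + π / 2) (h3 : sin (2 * s) ≠ 0) (h4 : sin (2 * t) ≠ 0) :
    A s t * (A s t)ᵀ = (sin (t - s)) ^ 2 • (1 : Matrix (κ ⊕ ν) (κ ⊕ ν) ℝ)
      - (sin (t - s)) ^ 4 • (1 - (A 0 t) * (Gm A 0 t)⁻¹ *
        Matrix.fromBlocks 0 0 0 (((Gm A 0 t)⁻¹).toBlocks₂₂)⁻¹ * (Gm A 0 t)⁻¹ * (A 0 t)ᵀ) := by
  obtain ⟨C, C', hC, hL⟩ := h.exists_CData ha
  obtain ⟨r, hr⟩ : ∃ r, r = t - s := ⟨_, rfl⟩
  have ht : t = s + r := by rw [hr]; ring
  have hr1 : r ∈ Ioo 0 (π / 2) := ⟨by rw [hr]; linarith only [h1], by rw [hr]; linarith only [h2]⟩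
  have hp : Function.Periodic (fun s : ℝ => (A s (s + r), A 0 (s + r),
      sin (2 * s), sin (2 * (s + r)))) π := by
    intro s
    have e1 : A (s + π) (s + π + r) = A s (s + r) := by
      rw [show s + π + r = (s + r) + π by ring, h.per_diag]
    have e2 : A 0 (s + π + r) = A 0 (s + r) := by
      rw [show s + π + r = (s + r) + π by ring, h.per_pi]
    have e3 : sin (2 * (s + π)) = sin (2 * s) := by
      rw [show 2 * (s + π) = 2 * s + 2 * π by ring, Real.sin_add_two_pi]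
    have e4 : sin (2 * (s + π + r)) = sin (2 * (s + r)) := by
      rw [show 2 * (s + π + r) = 2 * (s + r) + 2 * π by ring, Real.sin_add_two_pi]
    simp only [e1, e2, e3, e4]
  obtain ⟨y, hy, hy2⟩ := hp.exists_mem_Ico₀ Real.pi_pos s
  simp only [Prod.mk.injEq] at hy2
  obtain ⟨f1, f2, f3, f4⟩ := hy2
  rw [ht] at h4 ⊢
  rw [f3] at h3
  rw [f4] at h4
  have hg : Gm A 0 (s + r) = Gm A 0 (y + r) := by
    unfold Gm
    rw [f2]
  rw [f1, f2, hg, show s + r - s = r by ring]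
  obtain ⟨hb, hab⟩ := alpha_beta hr1
  obtain ⟨hs, hc⟩ := sin_cos_pos hr1
  have h5 := defect_eq_zero h hC hL hdet hr1 ⟨hy.1, hy.2.le⟩
  have h6 := pointwise_eq h hC hL (s := y) (t := y + r) (by linarith only [h1, hr])
    (by linarith only [h2, hr]) h3 h4 hb hab (by unfold defect at h5; (clear * - h5; linarith))
  rw [h6]
  have h8 : (sin r) ^ 2 + (cos r) ^ 2 = 1 := Real.sin_sq_add_cos_sq r
  have h9 : (1 / (sin r * cos r) ^ 2)⁻¹ = sin r ^ 2 - sin r ^ 4 := by
    rw [one_div, inv_inv, mul_pow]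
    have : cos r ^ 2 = 1 - sin r ^ 2 := by linarith only [h8]
    rw [this]
    ring
  have h10 : (1 / (sin r) ^ 2)⁻¹ = sin r ^ 2 := by rw [one_div, inv_inv]
  rw [h9, h10]
  module

end Reduced

end

end Vale.Agent.P231
end
end
end

section

section

section

open Matrix Real Set Filter Topology MeasureTheory
open scoped ContDiff

namespace Vale.Agent.P231

noncomputable section

variable {ι : Type*} [Fintype ι] [DecidableEq ι] {A : ℝ → ℝ → Matrix ι ι ℝ}

theorem core_ineq (h : JData (π / 2) A) {l : ℕ}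
    (hl : Module.finrank ℝ (LinearMap.ker (A 0 (π / 2)).mulVecLin) ≤ l) {r : ℝ}
    (hr : r ∈ Ioo 0 (π / 2)) :
    π * (l * log (cos r) + Fintype.card ι * log (sin r)) ≤
      ∫ s in (0 : ℝ)..π, log |(A s (s + r)).det| := by
  obtain ⟨O, h1, h2, h3, h4⟩ := h.exists_adapted rfl
  have h5 := core_block h3 h4 hr
  simp only [det_conj_orth h1 h2] at h5
  refine le_trans ?_ h5
  rw [card_adapted (LinearMap.ker (A 0 (π / 2)).mulVecLin) rfl, Fintype.card_fin]
  have hc0 : 0 < cos r := Real.cos_pos_of_mem_Ioo ⟨by linarith only [Real.pi_pos, hr.1], hr.2⟩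
  have hc1 : cos r ≤ 1 := Real.cos_le_one r
  have hlog : log (cos r) ≤ 0 := Real.log_nonpos hc0.le hc1
  have hl' : (Module.finrank ℝ (LinearMap.ker (A 0 (π / 2)).mulVecLin) : ℝ) ≤ l := by
    exact_mod_cast hl
  have := mul_le_mul_of_nonpos_right hl' hlog
  exact mul_le_mul_of_nonneg_left (by linarith only [this]) Real.pi_pos.le


end

end Vale.Agent.P231
end
end
end

section

section

section

open Matrix Real Set Filter Topology MeasureTheory
open scoped ContDiff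

namespace Vale.Agent.P231

noncomputable section

variable {ι : Type*} [Fintype ι] [DecidableEq ι] {D : ℝ} {A : ℝ → ℝ → Matrix ι ι ℝ}

theorem core_rigid (h : JData (π / 2) A) {l : ℕ}
    (hl : ∀ s, Module.finrank ℝ (LinearMap.ker (A s (s + π / 2)).mulVecLin) ≤ l)
    (hdet : ∀ s t, s < t → t < s + π / 2 →
      |(A s t).det| = cos (t - s) ^ l * sin (t - s) ^ Fintype.card ι) :
    ∃ P : Matrix ι ι ℝ, Pᵀ = P ∧ P * P = P ∧
      (∀ v, A 0 (π / 2) *ᵥ v = 0 ↔ P *ᵥ v = v) ∧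
      ∀ t ∈ Ioo 0 (π / 2), Gm A 0 t = (sin t) ^ 2 • (1 - (sin t) ^ 2 • P) := by
  have hpi := Real.pi_pos
  obtain ⟨c, hc⟩ : ∃ c : ℝ, c = -(π / 8) := ⟨_, rfl⟩
  -- the reversed and shifted data
  obtain ⟨A₁, hA₁⟩ : ∃ A₁ : ℝ → ℝ → Matrix ι ι ℝ,
      A₁ = fun s t => -A (-(c + s)) (-(c + t)) := ⟨_, rfl⟩
  have h₁ : JData (π / 2) A₁ := by
    rw [hA₁]
    exact h.reverse.shift c
  have hdet₁ : ∀ s t, s < t → t < s + π / 2 →
      |(A₁ s t).det| = cos (t - s) ^ l * sin (t - s) ^ Fintype.card ι := by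
    intro s t h1 h2
    have e : A₁ s t = (A (-(c + t)) (-(c + s)))ᵀ := by
      rw [hA₁]
      show -A (-(c + s)) (-(c + t)) = _
      rw [h.anti (-(c + t)) (-(c + s)), neg_neg]
    rw [e, Matrix.det_transpose, hdet _ _ (by linarith only [h1]) (by linarith only [h2])]
    congr 2 <;> ring_nf
  -- dimension of the kernel
  obtain ⟨k, hk⟩ : ∃ k, Module.finrank ℝ (LinearMap.ker (A₁ 0 (π / 2)).mulVecLin) = k := ⟨_, rfl⟩
  have hkl : k ≤ l := by
    rw [← hk]
    have e : A₁ 0 (π / 2) = -A (-c) (-c + π / 2) := by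
      rw [hA₁]
      show -A (-(c + 0)) (-(c + π / 2)) = _
      have := h.per (-c) (-(c + π / 2))
      rw [add_zero, ← this]
      congr 2
      ring
    refine le_trans (le_of_eq ?_) (hl (-c))
    have : LinearMap.ker (A₁ 0 (π / 2)).mulVecLin =
        LinearMap.ker (A (-c) (-c + π / 2)).mulVecLin := by
      ext v
      rw [LinearMap.mem_ker, LinearMap.mem_ker, Matrix.mulVecLin_apply, Matrix.mulVecLin_apply, e,
        Matrix.neg_mulVec, neg_eq_zero]
    rw [this]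
  have hlk : l ≤ k := by
    have hr : π / 4 ∈ Ioo 0 (π / 2) := ⟨by linarith only [hpi], by linarith only [hpi]⟩
    have h1 := core_ineq h₁ hk.le hr
    have hcos : 0 < cos (π / 4) := Real.cos_pos_of_mem_Ioo ⟨by linarith only [hpi], by linarith only [hpi]⟩
    have hsin : 0 < sin (π / 4) := Real.sin_pos_of_pos_of_lt_pi (by linarith only [hpi]) (by linarith only [hpi])
    have h2 : ∫ s in (0 : ℝ)..π, log |(A₁ s (s + π / 4)).det| =
        ∫ s in (0 : ℝ)..π, (l * log (cos (π / 4)) + Fintype.card ι * log (sin (π / 4))) := by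
      refine intervalIntegral.integral_congr fun s _ => ?_
      show log |(A₁ s (s + π / 4)).det| = _
      rw [hdet₁ s (s + π / 4) (by linarith only [hpi]) (by linarith only [hpi]), add_sub_cancel_left,
        Real.log_mul (by positivity) (by positivity), Real.log_pow, Real.log_pow]
    rw [h2, intervalIntegral.integral_const, sub_zero, smul_eq_mul] at h1
    have h3 : (k : ℝ) * log (cos (π / 4)) ≤ l * log (cos (π / 4)) := by
      have := le_of_mul_le_mul_left h1 hpi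
      linarith only [this]
    have h4 : log (cos (π / 4)) < 0 := by
      refine Real.log_neg hcos ?_
      rw [Real.cos_pi_div_four]
      have : sqrt 2 < 2 := by
        rw [Real.sqrt_lt' (by norm_num)]; norm_num
      linarith only [this]
    have h5 : (l : ℝ) ≤ k := by
      by_contra hcon
      push Not at hcon
      linarith only [mul_pos (sub_pos.2 h4) (sub_pos.2 hcon), h3]
    exact_mod_cast h5
  have hkl' : k = l := le_antisymm hkl hlk
  subst hkl'
  obtain ⟨O, hO1, hO2, h₂, ha⟩ := h₁.exists_adapted hk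
  have hcard := card_adapted (LinearMap.ker (A₁ 0 (π / 2)).mulVecLin) hk
  have hdet₂ : ∀ s t, s < t → t < s + π / 2 →
      |(Oᵀ * A₁ s t * O).det| = cos (t - s) ^ Fintype.card (Fin k) *
        sin (t - s) ^ Fintype.card (Fin k ⊕ Fin (Fintype.card ι - k)) := by
    intro s t h1 h2
    rw [det_conj_orth hO1 hO2, hdet₁ s t h1 h2, hcard, Fintype.card_fin]
  -- the projection
  obtain ⟨M, hM⟩ : ∃ M, M = Oᵀ * A₁ 0 (-c) * O := ⟨_, rfl⟩
  have hMu : IsUnit M := by
    rw [hM]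
    exact h₂.unit 0 (-c) (by rw [hc]; linarith only [hpi]) (by rw [hc]; linarith only [hpi])
  have hMpos : (Mᵀ * M).PosDef := by
    rw [hM] at hMu ⊢
    exact h₂.Gm_posDef hMu
  have hQ := block_projection hMpos
  obtain ⟨Q, hQdef⟩ : ∃ Q, Q = M * (Mᵀ * M)⁻¹ *
      Matrix.fromBlocks 0 0 0 (((Mᵀ * M)⁻¹).toBlocks₂₂)⁻¹ * (Mᵀ * M)⁻¹ * Mᵀ := ⟨_, rfl⟩
  simp only at hQ
  rw [← hQdef] at hQ
  obtain ⟨hQ1, hQ2⟩ := hQ
  obtain ⟨P, hP⟩ : ∃ P, P = O * (1 - Q) * Oᵀ := ⟨_, rfl⟩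
  have hP1 : Pᵀ = P := by
    rw [hP]
    simp only [Matrix.transpose_mul, Matrix.transpose_transpose, Matrix.transpose_sub,
      Matrix.transpose_one, hQ1, Matrix.mul_assoc]
  have hP2 : P * P = P := by
    have e : (1 - Q) * (1 - Q) = 1 - Q := by
      rw [Matrix.mul_sub, Matrix.sub_mul, Matrix.sub_mul, hQ2]
      simp
    calc P * P = O * ((1 - Q) * (Oᵀ * O) * (1 - Q)) * Oᵀ := by
          rw [hP]; simp only [Matrix.mul_assoc]
      _ = P := by rw [hO1, Matrix.mul_one, e, hP]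
  -- the formula at regular times
  have hreg : ∀ t ∈ Ioo 0 (π / 2), t ≠ π / 8 →
      Gm A 0 t = (sin t) ^ 2 • (1 - (sin t) ^ 2 • P) := by
    intro t ht ht8
    have h3 : sin (2 * (-c - t)) ≠ 0 := by
      rw [hc]
      intro h0
      have h1 := (Real.sin_eq_zero_iff_of_lt_of_lt (by linarith only [hpi, ht.2]) (by linarith only [hpi, ht.1])).1 h0
      exact ht8 (by linarith only [h1])
    have h4 : sin (2 * (-c)) ≠ 0 := by
      rw [hc]
      have : 0 < sin (2 * -(-(π / 8))) := Real.sin_pos_of_pos_of_lt_pi (by linarith only [hpi]) (by linarith only [hpi])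
      exact this.ne'
    have h5 := core_rigid_block h₂ ha hdet₂ (s := -c - t) (t := -c) (by linarith only [ht.1])
      (by linarith only [ht.2]) h3 h4
    have h6 : -c - (-c - t) = t := by ring
    rw [h6] at h5
    have h7 : A₁ (-c - t) (-c) = (A 0 t)ᵀ := by
      rw [hA₁]
      show -A (-(c + (-c - t))) (-(c + -c)) = _
      have e1 : -(c + (-c - t)) = t := by ring
      have e2 : -(c + -c) = 0 := by ring
      rw [e1, e2, h.anti 0 t, neg_neg]
    simp only [Gm] at h5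
    rw [← hM, ← hQdef, h7] at h5
    have h8 : Gm A 0 t = O * ((Oᵀ * (A 0 t)ᵀ * O) * (Oᵀ * (A 0 t)ᵀ * O)ᵀ) * Oᵀ := by
      have e : O * ((Oᵀ * (A 0 t)ᵀ * O) * (Oᵀ * (A 0 t)ᵀ * O)ᵀ) * Oᵀ =
          (O * Oᵀ) * (A 0 t)ᵀ * (O * Oᵀ) * (A 0 t) * (O * Oᵀ) := by
        simp only [Matrix.transpose_mul, Matrix.transpose_transpose, Matrix.mul_assoc]
      rw [e, hO2, Gm]
      simp only [Matrix.one_mul, Matrix.mul_one]
    rw [h8, h5, hP, Matrix.mul_sub, Matrix.sub_mul, Matrix.mul_smul, Matrix.smul_mul,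
      Matrix.mul_smul, Matrix.smul_mul, Matrix.mul_one, hO2, smul_sub, smul_smul]
    congr 2
    ring
  -- continuity
  have hcont : ∀ i j, Continuous fun t => Gm A 0 t i j -
      ((sin t) ^ 2 • (1 - (sin t) ^ 2 • P) : Matrix ι ι ℝ) i j := by
    intro i j
    refine (h.Gm_contDiff 0 i j).continuous.sub ?_
    simp only [Matrix.smul_apply, Matrix.sub_apply, smul_eq_mul]
    fun_prop
  have hall : ∀ x, 0 < x → x ≤ π / 2 → Gm A 0 x = (sin x) ^ 2 • (1 - (sin x) ^ 2 • P) := by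
    intro x hx0 hx1
    ext i j
    rw [← sub_eq_zero]
    refine eq_zero_of_eventually_left (f := fun t => Gm A 0 t i j -
      ((sin t) ^ 2 • (1 - (sin t) ^ 2 • P) : Matrix ι ι ℝ) i j) (x := x) (hcont i j) ?_
    by_cases hx8 : x ≤ π / 8
    · filter_upwards [Ioo_mem_nhdsLT hx0] with t ht
      rw [hreg t ⟨ht.1, by linarith only [hx0, hx8, ht.2]⟩ (by have := ht.2; intro hh; linarith only [hx8, this, hh]), sub_self]
    · push Not at hx8
      filter_upwards [Ioo_mem_nhdsLT hx8] with t ht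
      rw [hreg t ⟨by linarith only [hx0, hx1, ht.1], by linarith only [hx1, ht.2]⟩ (by have := ht.1; intro hh; linarith only [this, hh]),
        sub_self]
  refine ⟨P, hP1, hP2, fun v => ?_, fun t ht => hall t ht.1 ht.2.le⟩
  have h9 := hall (π / 2) (by linarith only [hpi]) le_rfl
  rw [Real.sin_pi_div_two, one_pow, one_smul, one_smul, Gm] at h9
  have h10 := Matrix.conjTranspose_mul_self_mulVec_eq_zero (A 0 (π / 2)) v
  rw [Matrix.conjTranspose_eq_transpose_of_trivial, h9, Matrix.sub_mulVec, Matrix.one_mulVec,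
    sub_eq_zero] at h10
  rw [← h10]
  exact eq_comm

end

end Vale.Agent.P231
end
end
end

section

section

section

/-! P231 measure part, section MF: fibre integrals. -/

set_option maxSynthPendingDepth 3

open Bundle Manifold Set Filter MeasureTheory Module
open scoped ContDiff Manifold Topology ENNReal

namespace Vale.Agent.P231

noncomputable section

open Vale.Agent.P234

/-- Fubini for an interval integral -/
theorem fiber_swap {α : Type*} [MeasurableSpace α] (μ : Measure α) [SFinite μ] (H : ℝ → α → ℝ)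
    (S T : ℝ) (hH : Integrable (Function.uncurry H) ((volume.restrict (uIoc S T)).prod μ)) :
    ∫ s in S..T, (∫ a, H s a ∂μ) = ∫ a, (∫ s in S..T, H s a) ∂μ := by
  simp only [intervalIntegral.intervalIntegral_eq_integral_uIoc, smul_eq_mul]
  rw [integral_const_mul]
  congr 1
  exact integral_integral_swap hH

theorem fiber_integrable {V : Type*} [NormedAddCommGroup V] [NormedSpace ℝ V]
    [FiniteDimensional ℝ V] [MeasurableSpace V] [BorelSpace V] {μ : Measure V}
    [IsFiniteMeasureOnCompacts μ] {H : V → ℝ} (hc : Continuous H) {b : ℝ}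
    (hs : ∀ ξ, b < ‖ξ‖ → H ξ = 0) : Integrable H μ := by
  have : ProperSpace V := FiniteDimensional.proper ℝ V
  refine hc.integrable_of_hasCompactSupport ?_
  refine HasCompactSupport.of_support_subset_isCompact (isCompact_closedBall (0 : V) b) ?_
  intro ξ hξ
  rw [Metric.mem_closedBall, dist_zero_right]
  by_contra h
  exact hξ (hs ξ (not_le.mp h))

variable {E : Type*} [NormedAddCommGroup E] [NormedSpace ℝ E] [FiniteDimensional ℝ E]
  {M : Type*} [MetricSpace M] [ChartedSpace E M]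
  [RiemannianBundle (fun x : M => TangentSpace 𝓘(ℝ, E) x)]
  [IsManifold 𝓘(ℝ, E) ∞ M]
  [IsContMDiffRiemannianBundle 𝓘(ℝ, E) ∞ E (fun x : M => TangentSpace 𝓘(ℝ, E) x)]
  {e : ∀ x : M, TangentSpace 𝓘(ℝ, E) x → M}

/-- expansion in the chosen frame -/
theorem fiber_fr_eq_sum (x : M) (ξ : Eu E) :
    fr x ξ = ∑ j, ξ j • fr x (EuclideanSpace.single j (1 : ℝ)) := by
  have h : ξ = ∑ j, ξ j • (EuclideanSpace.single j (1 : ℝ) : Eu E) := by
    have h0 := (EuclideanSpace.basisFun (Fin (finrank ℝ E)) ℝ).sum_repr ξ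
    simpa only [EuclideanSpace.basisFun_repr, EuclideanSpace.basisFun_apply] using h0.symm
  conv_lhs => rw [h]
  rw [map_sum]
  simp only [map_smul]

theorem fiber_cont_mk {P : Type*} [TopologicalSpace P] {G : P → M → E → ℝ}
    (hG : Continuous fun q : P × TangentBundle 𝓘(ℝ, E) M => G q.1 q.2.proj q.2.snd) (x : M) :
    Continuous fun q : P × Eu E => G q.1 x (fr x q.2) := by
  have h1 : Continuous fun ξ : Eu E =>
      (⟨x, fr (E := E) (M := M) x ξ⟩ : TangentBundle 𝓘(ℝ, E) M) :=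
    (FiberBundle.continuous_totalSpaceMk E (TangentSpace 𝓘(ℝ, E)) x).comp
      (fr (E := E) (M := M) x).continuous
  exact hG.comp (continuous_fst.prodMk (h1.comp continuous_snd))

/-- uniform boundedness along convergent sequences of parameters -/
theorem fiber_bdd [CompactSpace M] {P : Type*} [TopologicalSpace P] {G : P → M → E → ℝ}
    (hG : Continuous fun q : P × TangentBundle 𝓘(ℝ, E) M => G q.1 q.2.proj q.2.snd)
    {b : ℝ} (hs : ∀ p x v, b < nm x v → G p x v = 0) (p : ℕ → P) (p₀ : P)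
    (hp : Tendsto p atTop (𝓝 p₀)) :
    ∃ C : ℝ, 0 ≤ C ∧ ∀ᶠ k in atTop, ∀ x v, |G (p k) x v| ≤ C := by
  by_contra hcon
  push Not at hcon
  have h1 : ∀ n : ℕ, ∃ᶠ k in atTop, ∃ x v, (n : ℝ) < |G (p k) x v| := fun n => by
    have := hcon n (Nat.cast_nonneg n)
    exact this
  obtain ⟨φ, hφ, h2⟩ := extraction_forall_of_frequently h1
  choose x v hxv using h2
  have h3 : ∀ n, nm (x n) (v n) ≤ b := by
    intro n
    by_contra h
    have h0 := hs (p (φ n)) (x n) (v n) (not_le.mp h)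
    have h4 := hxv n
    rw [h0, abs_zero] at h4
    exact absurd h4 (not_lt.mpr (Nat.cast_nonneg n))
  obtain ⟨z₀, v₀, ψ, hψ, hlim⟩ := exists_tendstoTB (E := E) (M := M) x (fun n => (v n : E)) b h3
  have h5 : Tendsto (fun n => G (p (φ (ψ n))) (x (ψ n)) (v (ψ n))) atTop (𝓝 (G p₀ z₀ v₀)) := by
    have h6 : Tendsto (fun n => (p (φ (ψ n)), (⟨x (ψ n), (v (ψ n) : E)⟩ :
        TangentBundle 𝓘(ℝ, E) M))) atTop (𝓝 (p₀, (⟨z₀, v₀⟩ : TangentBundle 𝓘(ℝ, E) M))) :=
      ((hp.comp hφ.tendsto_atTop).comp hψ.tendsto_atTop).prodMk_nhds hlim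
    exact (hG.tendsto (p₀, (⟨z₀, v₀⟩ : TangentBundle 𝓘(ℝ, E) M))).comp h6
  have h7 : Tendsto (fun n => |G (p (φ (ψ n))) (x (ψ n)) (v (ψ n))|) atTop atTop := by
    refine tendsto_atTop_mono (fun n => (hxv (ψ n)).le) ?_
    exact tendsto_natCast_atTop_atTop.comp hψ.tendsto_atTop
  exact not_tendsto_atTop_of_tendsto_nhds h5.abs h7

theorem fiber_iso_integral {f g : Eu E → E} (x : M) (hg : ∀ ξ, g ξ = fr x ξ)
    (hf : ∃ L : Eu E →ₗ[ℝ] E, ∀ ξ, f ξ = L ξ) (hn : ∀ ξ, nm x (f ξ) = ‖ξ‖) (H : E → ℝ) :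
    ∫ ξ : Eu E, H (f ξ) = ∫ ξ : Eu E, H (g ξ) := by
  obtain ⟨L, hL⟩ := hf
  let A : Eu E →ₗ[ℝ] Eu E := ((fr x).symm.toLinearMap).comp L
  have hA : ∀ ξ, ‖A ξ‖ = ‖ξ‖ := by
    intro ξ
    rw [← nm_fr x (A ξ)]
    have : fr x (A ξ) = f ξ := by
      rw [hL]
      exact (fr x).apply_symm_apply (L ξ)
    rw [this, hn]
  let I : Eu E →ₗᵢ[ℝ] Eu E := ⟨A, hA⟩
  let J : Eu E ≃ₗᵢ[ℝ] Eu E := I.toLinearIsometryEquiv rfl
  have hJ : ∀ ξ, f ξ = g (J ξ) := by
    intro ξ
    rw [hg]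
    have : fr x (A ξ) = f ξ := by
      rw [hL]
      exact (fr x).apply_symm_apply (L ξ)
    exact this.symm
  simp_rw [hJ]
  exact J.measurePreserving.integral_comp J.toHomeomorph.measurableEmbedding (fun ξ => H (g ξ))

/-- fibre integrals of a jointly continuous function, uniformly compactly supported along the
fibres, depend continuously on the parameter and the base point -/
theorem continuous_fint [CompactSpace M] {P : Type*} [TopologicalSpace P]
    [FirstCountableTopology P] {G : P → M → E → ℝ}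
    (hG : Continuous fun q : P × TangentBundle 𝓘(ℝ, E) M => G q.1 q.2.proj q.2.snd)
    {b : ℝ} (hs : ∀ p x v, b < nm x v → G p x v = 0) :
    Continuous fun q : P × M => fint (G q.1) q.2 := by
  rw [continuous_iff_seqContinuous]
  intro q q₀ hq
  have hp : Tendsto (fun k => (q k).1) atTop (𝓝 q₀.1) := (continuous_fst.tendsto q₀).comp hq
  have hx : Tendsto (fun k => (q k).2) atTop (𝓝 q₀.2) := (continuous_snd.tendsto q₀).comp hq
  refine tendsto_of_subseq_tendsto fun ns hns => ?_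
  obtain ⟨z₀, v₀, φ, hφ, hz, hlim⟩ := exists_tendstoTB_fin (E := E) (M := M)
    (ι := Fin (finrank ℝ E)) (fun k => (q (ns k)).2)
    (fun k j => (fr (q (ns k)).2 (EuclideanSpace.single j (1 : ℝ)) : E)) 1 (by
      intro k j
      have h := nm_fr (q (ns k)).2 (EuclideanSpace.single j (1 : ℝ) : Eu E)
      have h2 : ‖(EuclideanSpace.single j (1 : ℝ) : Eu E)‖ = 1 := by simp
      rw [h2] at h
      exact h.le)
  have hz0 : z₀ = q₀.2 := by
    have h1 : Tendsto (fun k => (q (ns (φ k))).2) atTop (𝓝 q₀.2) :=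
      (hx.comp hns).comp hφ.tendsto_atTop
    exact tendsto_nhds_unique hz h1
  subst hz0
  have hpφ : Tendsto (fun k => (q (ns (φ k))).1) atTop (𝓝 q₀.1) :=
    (hp.comp hns).comp hφ.tendsto_atTop
  let f : Eu E → E := fun ξ => ∑ j, ξ j • (v₀ j : E)
  have hfTB : ∀ ξ : Eu E, TendstoTB (E := E) (M := M) (z := fun k => (q (ns (φ k))).2)
      (fun k => (fr (q (ns (φ k))).2 ξ : E)) (z₀ := q₀.2) (f ξ : E) := by
    intro ξ
    have h1 := TendstoTB.sum (E := E) (M := M) (ι := Fin (finrank ℝ E))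
      (z := fun k => (q (ns (φ k))).2) (z₀ := q₀.2)
      (w := fun k j => (fr (q (ns (φ k))).2 (EuclideanSpace.single j (1 : ℝ)) : E))
      (w₀ := v₀) (c := fun _ j => ξ j) (c₀ := fun j => ξ j) hz hlim
      (fun j => tendsto_const_nhds)
    have h2 : (fun k => (fr (q (ns (φ k))).2 ξ : E)) =
        fun k => ∑ j, ξ j • (fr (q (ns (φ k))).2 (EuclideanSpace.single j (1 : ℝ)) : E) :=
      funext fun k => fiber_fr_eq_sum _ _
    rw [h2]
    exact h1
  have hfn : ∀ ξ, nm q₀.2 (f ξ) = ‖ξ‖ := by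
    intro ξ
    have h1 := (hfTB ξ).norm
    have h2 : Tendsto (fun k => nm (q (ns (φ k))).2 (fr (q (ns (φ k))).2 ξ)) atTop
        (𝓝 (nm q₀.2 (f ξ))) := h1
    simp only [nm_fr] at h2
    exact (tendsto_nhds_unique h2 tendsto_const_nhds)
  have hint : fint (G q₀.1) q₀.2 = ∫ ξ : Eu E, G q₀.1 q₀.2 (f ξ) := by
    symm
    refine fiber_iso_integral (E := E) (M := M) (f := f) (g := fun ξ => fr q₀.2 ξ) q₀.2
      (fun _ => rfl) ⟨∑ j, (LinearMap.toSpanSingleton ℝ E (v₀ j)).comp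
        (EuclideanSpace.proj j : Eu E →L[ℝ] ℝ).toLinearMap, fun ξ => ?_⟩ hfn (G q₀.1 q₀.2)
    rw [LinearMap.sum_apply]
    rfl
  refine ⟨φ, ?_⟩
  show Tendsto (fun k => fint (G (q (ns (φ k))).1) (q (ns (φ k))).2) atTop
    (𝓝 (fint (G q₀.1) q₀.2))
  rw [hint]
  obtain ⟨C, hC, hbd⟩ := fiber_bdd hG hs (fun k => (q (ns (φ k))).1) q₀.1 hpφ
  unfold fint
  refine tendsto_integral_filter_of_dominated_convergence
    ((Metric.closedBall (0 : Eu E) b).indicator fun _ => C) ?_ ?_ ?_ ?_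
  · refine Eventually.of_forall fun k => ?_
    exact ((fiber_cont_mk hG (q (ns (φ k))).2).comp
      (Continuous.prodMk_right (q (ns (φ k))).1)).aestronglyMeasurable
  · filter_upwards [hbd] with k hk
    refine Eventually.of_forall fun ξ => ?_
    by_cases hξ : ξ ∈ Metric.closedBall (0 : Eu E) b
    · rw [indicator_of_mem hξ]
      exact hk _ _
    · rw [indicator_of_notMem hξ]
      rw [Metric.mem_closedBall, dist_zero_right, not_le] at hξ
      rw [hs _ _ _ (by rw [nm_fr]; exact hξ), norm_zero]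
  · exact (integrable_indicator_iff Metric.isClosed_closedBall.measurableSet).2
      (integrableOn_const (hs := (isCompact_closedBall (0 : Eu E) b).measure_lt_top.ne))
  · refine Eventually.of_forall fun ξ => ?_
    have h6 : Tendsto (fun k => ((q (ns (φ k))).1,
        (⟨(q (ns (φ k))).2, (fr (q (ns (φ k))).2 ξ : E)⟩ : TangentBundle 𝓘(ℝ, E) M))) atTop
        (𝓝 (q₀.1, (⟨q₀.2, (f ξ : E)⟩ : TangentBundle 𝓘(ℝ, E) M))) :=
      hpφ.prodMk_nhds (hfTB ξ)
    exact (hG.tendsto (q₀.1, (⟨q₀.2, (f ξ : E)⟩ : TangentBundle 𝓘(ℝ, E) M))).comp h6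

theorem ContTB.cont_fr {G : M → E → ℝ} (hG : ContTB G) (x : M) :
    Continuous fun ξ : Eu E => G x (fr x ξ) := by
  have h1 : Continuous fun ξ : Eu E =>
      (⟨x, fr (E := E) (M := M) x ξ⟩ : TangentBundle 𝓘(ℝ, E) M) :=
    (FiberBundle.continuous_totalSpaceMk E (TangentSpace 𝓘(ℝ, E)) x).comp
      (fr (E := E) (M := M) x).continuous
  exact Continuous.comp (g := fun p : TangentBundle 𝓘(ℝ, E) M => G p.proj p.snd) hG h1

theorem ContTB.bdd [CompactSpace M] {G : M → E → ℝ} (hG : ContTB G) {b : ℝ}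
    (hs : ∀ x v, b < nm x v → G x v = 0) : ∃ C : ℝ, ∀ x v, |G x v| ≤ C := by
  have hG' : Continuous fun q : Unit × TangentBundle 𝓘(ℝ, E) M =>
      (fun (_ : Unit) => G) q.1 q.2.proj q.2.snd :=
    Continuous.comp (g := fun p : TangentBundle 𝓘(ℝ, E) M => G p.proj p.snd) hG continuous_snd
  obtain ⟨C, -, h⟩ := fiber_bdd (P := Unit) (G := fun _ => G) hG' (fun _ => hs)
    (fun _ => ()) () tendsto_const_nhds
  obtain ⟨k, hk⟩ := h.exists
  exact ⟨C, hk⟩

theorem ContTB.integrable [CompactSpace M] {G : M → E → ℝ} (hG : ContTB G) {b : ℝ}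
    (hs : ∀ x v, b < nm x v → G x v = 0) (x : M) :
    Integrable fun ξ : Eu E => G x (fr x ξ) :=
  fiber_integrable (hG.cont_fr x) (fun ξ hξ => hs x _ (by rw [nm_fr]; exact hξ))

/-- Fubini for a compact interval of parameters -/
theorem liou_interval [CompactSpace M] [MeasurableSpace M] [BorelSpace M]
    [IsFiniteMeasure (riemVol (finrank ℝ E) M)] {G : ℝ → M → E → ℝ}
    (hG : Continuous fun q : ℝ × TangentBundle 𝓘(ℝ, E) M => G q.1 q.2.proj q.2.snd)
    {b : ℝ} (hs : ∀ p x v, b < nm x v → G p x v = 0) (S T : ℝ) :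
    ∫ s in S..T, liou (G s) = liou fun x v => ∫ s in S..T, G s x v := by
  -- the fibre direction
  have h1 : ∀ x : M, fint (fun x v => ∫ s in S..T, G s x v) x = ∫ s in S..T, fint (G s) x := by
    intro x
    unfold fint
    symm
    refine fiber_swap (volume : Measure (Eu E)) (fun s ξ => G s x (fr x ξ)) S T ?_
    have hc := fiber_cont_mk hG x
    have hK : IsCompact (uIcc S T ×ˢ Metric.closedBall (0 : Eu E) b) :=
      isCompact_uIcc.prod (isCompact_closedBall _ _)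
    have h2 : IntegrableOn (fun q : ℝ × Eu E => G q.1 x (fr x q.2))
        (uIcc S T ×ˢ Metric.closedBall (0 : Eu E) b) (volume.prod volume) :=
      hc.continuousOn.integrableOn_compact hK
    have h3 : IntegrableOn (fun q : ℝ × Eu E => G q.1 x (fr x q.2))
        (uIcc S T ×ˢ (univ : Set (Eu E))) (volume.prod volume) := by
      refine h2.of_forall_diff_eq_zero
        (measurableSet_uIcc.prod MeasurableSet.univ) ?_
      rintro ⟨s, ξ⟩ ⟨hq1, hq2⟩
      have hξ : ξ ∉ Metric.closedBall (0 : Eu E) b := fun h => hq2 ⟨hq1.1, h⟩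
      rw [Metric.mem_closedBall, dist_zero_right, not_le] at hξ
      exact hs _ _ _ (by rw [nm_fr]; exact hξ)
    have h4 : IntegrableOn (fun q : ℝ × Eu E => G q.1 x (fr x q.2))
        (uIoc S T ×ˢ (univ : Set (Eu E))) (volume.prod volume) :=
      h3.mono_set (Set.prod_mono uIoc_subset_uIcc le_rfl)
    rw [IntegrableOn, ← Measure.prod_restrict, Measure.restrict_univ] at h4
    exact h4
  unfold liou
  simp_rw [h1]
  refine fiber_swap (riemVol (finrank ℝ E) M) (fun s x => fint (G s) x) S T ?_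
  have hc := continuous_fint hG hs
  have hK : IsCompact (uIcc S T ×ˢ (univ : Set M)) := isCompact_uIcc.prod isCompact_univ
  have h2 : IntegrableOn (fun q : ℝ × M => fint (G q.1) q.2) (uIcc S T ×ˢ (univ : Set M))
      (volume.prod (riemVol (finrank ℝ E) M)) :=
    hc.continuousOn.integrableOn_compact hK
  have h4 : IntegrableOn (fun q : ℝ × M => fint (G q.1) q.2) (uIoc S T ×ˢ (univ : Set M))
      (volume.prod (riemVol (finrank ℝ E) M)) :=
    h2.mono_set (Set.prod_mono uIoc_subset_uIcc le_rfl)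
  rw [IntegrableOn, ← Measure.prod_restrict, Measure.restrict_univ] at h4
  exact h4

end

end Vale.Agent.P231
end
end
end

section

section

section

namespace Vale.Agent.P231

theorem per_la_surj {X Y : Type*} [NormedAddCommGroup X] [InnerProductSpace ℝ X]
    [FiniteDimensional ℝ X] [NormedAddCommGroup Y] [InnerProductSpace ℝ Y]
    [FiniteDimensional ℝ Y] (hXY : Module.finrank ℝ X = Module.finrank ℝ Y)
    {v : X} (hv : ‖v‖ = 1) {b : Y} (hb : ‖b‖ = 1) {B : X →L[ℝ] Y}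
    (hB : ∀ ζ, inner ℝ v ζ = 0 → inner ℝ b (B ζ) = 0)
    (hinj : ∀ ζ, B ζ = 0 → ζ = 0) (w : Y) (hw : inner ℝ b w = 0) :
    ∃ ζ, inner ℝ v ζ = 0 ∧ B ζ = w := by
  have hv0 : v ≠ 0 := by
    rintro rfl
    simp at hv
  have hb0 : b ≠ 0 := by
    rintro rfl
    simp only [norm_zero, zero_ne_one] at hb
  have h1 : Module.finrank ℝ (ℝ ∙ v)ᗮ = Module.finrank ℝ (ℝ ∙ b)ᗮ := by
    have h2 := Submodule.finrank_add_finrank_orthogonal (ℝ ∙ v)
    have h3 := Submodule.finrank_add_finrank_orthogonal (ℝ ∙ b)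
    rw [finrank_span_singleton hv0] at h2
    rw [finrank_span_singleton hb0] at h3
    omega
  let f : (ℝ ∙ v)ᗮ →ₗ[ℝ] (ℝ ∙ b)ᗮ :=
    (B.toLinearMap.domRestrict (ℝ ∙ v)ᗮ).codRestrict (ℝ ∙ b)ᗮ (by
      intro c
      rw [Submodule.mem_orthogonal_singleton_iff_inner_right]
      exact hB _ (Submodule.mem_orthogonal_singleton_iff_inner_right.1 c.2))
  have hf : Function.Injective f := by
    rw [injective_iff_map_eq_zero]
    intro a ha
    have h4 : B (a : X) = 0 := congrArg Subtype.val ha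
    exact Subtype.ext (hinj _ h4)
  have hs : Function.Surjective f :=
    (LinearMap.injective_iff_surjective_of_finrank_eq_finrank h1).1 hf
  obtain ⟨z, hz⟩ := hs ⟨w, Submodule.mem_orthogonal_singleton_iff_inner_right.2 hw⟩
  exact ⟨z, Submodule.mem_orthogonal_singleton_iff_inner_right.1 z.2, congrArg Subtype.val hz⟩

theorem lin_alg {X Y : Type*} [NormedAddCommGroup X] [InnerProductSpace ℝ X]
    [FiniteDimensional ℝ X] [NormedAddCommGroup Y] [InnerProductSpace ℝ Y]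
    [FiniteDimensional ℝ Y] (hXY : Module.finrank ℝ X = Module.finrank ℝ Y)
    {v : X} (hv : ‖v‖ = 1) {b : Y} (hb : ‖b‖ = 1) {A B : X →L[ℝ] Y}
    (hsym : ∀ ζ η : X, inner ℝ v ζ = 0 → inner ℝ v η = 0 →
      inner ℝ (B ζ) (A η) = inner ℝ (B η) (A ζ))
    (hB : ∀ ζ, inner ℝ v ζ = 0 → inner ℝ b (B ζ) = 0)
    (hA : ∀ ζ, inner ℝ v ζ = 0 → inner ℝ b (A ζ) = 0)
    (hinj : ∀ ζ, B ζ = 0 → ζ = 0) {u : Y} (hu : ∀ ζ, inner ℝ v ζ = 0 → inner ℝ u (A ζ) = 0) :
    ∃ ζ, inner ℝ v ζ = 0 ∧ A ζ = 0 ∧ u = (inner ℝ u b : ℝ) • b + B ζ := by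
  have hbb : inner ℝ b b = (1 : ℝ) := by
    rw [real_inner_self_eq_norm_sq, hb]
    norm_num
  obtain ⟨z, hz1, hz2⟩ := per_la_surj hXY hv hb hB hinj (u - (inner ℝ u b : ℝ) • b) (by
    rw [inner_sub_right, inner_smul_right, hbb, real_inner_comm]
    ring)
  obtain ⟨y, hy1, hy2⟩ := per_la_surj hXY hv hb hB hinj (A z) (hA z hz1)
  refine ⟨z, hz1, ?_, ?_⟩
  · have h1 : inner ℝ (A z) (A z) = (0 : ℝ) := by
      calc inner ℝ (A z) (A z) = inner ℝ (B y) (A z) := by rw [hy2]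
        _ = inner ℝ (B z) (A y) := hsym y z hy1 hz1
        _ = 0 := by
          rw [hz2, inner_sub_left, inner_smul_left, hu y hy1, hA y hy1]
          simp
    exact inner_self_eq_zero.1 h1
  · rw [hz2]
    abel

/-- abstract version of the existence of an antipodal pair -/
theorem exists_antipodal_abs {Y : Type*} [NormedAddCommGroup Y] [InnerProductSpace ℝ Y]
    [FiniteDimensional ℝ Y] {L T : Set Y} (hL : ∀ u ∈ L, ‖u‖ = 1)
    (h1 : ∀ u ∈ L, ∀ τ ∈ T, inner ℝ u τ ≤ 0)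
    (h2 : ∀ w : Y, ∃ ρ : ℝ, 0 ≤ ρ ∧ ∃ u ∈ L, ∃ τ ∈ T, w = ρ • u + τ ∧ ρ = inner ℝ u w) :
    ∃ b ∈ L, -b ∈ L := by
  obtain ⟨f, hf1, hf2, -⟩ := Submodule.exists_fun_fin_finrank_span_eq ℝ {w : Y | ∀ u ∈ L, 0 ≤ inner ℝ u w}
  obtain ⟨ρ, hρ, u0, hu0, -, -, -, hρ'⟩ := h2 (-(∑ i, f i))
  have h3 : ∀ i, inner ℝ u0 (f i) = (0 : ℝ) := by
    have h4 : ∑ i, inner ℝ u0 (f i) ≤ (0 : ℝ) := by
      rw [← inner_sum]
      rw [hρ', inner_neg_right] at hρ
      linarith only [hρ]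
    have h5 : ∀ i, (0 : ℝ) ≤ inner ℝ u0 (f i) := fun i => hf1 i u0 hu0
    intro i
    refine le_antisymm ((Finset.single_le_sum (fun j _ => h5 j) (Finset.mem_univ i)).trans h4)
      (h5 i)
  have h6 : ∀ w ∈ Submodule.span ℝ {w : Y | ∀ u ∈ L, 0 ≤ inner ℝ u w}, inner ℝ u0 w = (0 : ℝ) := by
    rw [← hf2]
    intro w hw
    induction hw using Submodule.span_induction with
    | mem x hx =>
      obtain ⟨i, rfl⟩ := hx
      exact h3 i
    | zero => simp
    | add x y _ _ hx hy => rw [inner_add_right, hx, hy, add_zero]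
    | smul a x _ hx => rw [inner_smul_right, hx, mul_zero]
  obtain ⟨ρ1, hρ1, u1, hu1, τ, hτ, heq, hρ1'⟩ := h2 (-u0)
  have h7 : inner ℝ u0 τ = (0 : ℝ) := by
    have h8 : -τ ∈ Submodule.span ℝ {w : Y | ∀ u ∈ L, 0 ≤ inner ℝ u w} := by
      apply Submodule.subset_span
      intro u hu
      rw [inner_neg_right]
      linarith only [h1 u hu τ hτ]
    have := h6 _ h8
    rw [inner_neg_right] at this
    linarith only [this]
  have h9 : inner ℝ u0 u0 = (1 : ℝ) := by
    rw [real_inner_self_eq_norm_sq, hL u0 hu0]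
    norm_num
  have h10 : (-1 : ℝ) = ρ1 * inner ℝ u0 u1 := by
    have := congrArg (fun z => (inner ℝ u0 z : ℝ)) heq
    simp only [inner_neg_right, inner_add_right, inner_smul_right, h9, h7] at this
    linarith only [this]
  have h11 : ρ1 = -inner ℝ u0 u1 := by
    rw [hρ1', inner_neg_right, real_inner_comm]
  have h12 : inner ℝ u0 u1 = (-1 : ℝ) := by
    rw [h11] at h10
    rw [h11] at hρ1
    nlinarith only [h10, hρ1]
  refine ⟨u0, hu0, ?_⟩
  have h13 : u1 = -u0 := by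
    have h14 : ‖u1 + u0‖ ^ 2 = 0 := by
      rw [← real_inner_self_eq_norm_sq, inner_add_left, inner_add_right, inner_add_right, h9,
        real_inner_comm u0 u1, h12, real_inner_self_eq_norm_sq, hL u1 hu1]
      norm_num
    have h15 : u1 + u0 = 0 := by
      simpa only [ne_eq, OfNat.ofNat_ne_zero, not_false_eq_true, pow_eq_zero_iff, norm_eq_zero] using h14
    exact eq_neg_of_add_eq_zero_left h15
  rw [← h13]
  exact hu1

end Vale.Agent.P231
end
end
end

section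

section

section

open Matrix Finset Real
open scoped ContDiff

namespace Vale.Agent.P231.Ode

open Kazdan

variable {N : ℕ} (X : JSys N)

end Vale.Agent.P231.Ode
end
end
end
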