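import Vale.Agent.P231.MathlibUsed
import Vale.Agent.P231.Bd3.B3
import Vale.Agent.P231.Bd3.B4
import Vale.Agent.P231.Bd3.B2
import Vale.Agent.P231.Bd3.B1
import Vale.Agent.P231.Final.Defs
attribute [-instance] IsTopologicalTorsor.toContinuousSMul IdemSemiring.toCanonicallyOrderedAdd IdemSemiring.toMulLeftMono IdemSemiring.toMulRightMono FiniteDimensional.rclike_to_real IsScalarTower.complexToReal FiniteDimensional.complexToReal

set_option linter.all false

namespace AFast6e3aacx9a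
@[reducible] def a0.{u1} {x1 : Type u1} [x2 : NormedAddCommGroup x1] [x3 : NormedSpace ℝ x1] : AddCommMonoid (Vale.Agent.P231.Eu x1) := inferInstance
@[reducible] noncomputable def a1.{u1, u2} {x1 : Type u1} [x2 : NormedAddCommGroup x1] [x3 : NormedSpace ℝ x1] {x4 : Type u2} [x5 : MetricSpace x4] [x6 : ChartedSpace x1 x4] {x7 : x4} : SMulZeroClass ℝ (TangentSpace (modelWithCornersSelf ℝ x1) x7) := inferInstance
@[reducible] noncomputable def a2.{u1} {x1 : Type u1} [x2 : NormedAddCommGroup x1] [x3 : NormedSpace ℝ x1] : MeasureTheory.MeasureSpace (Vale.Agent.P231.Eu x1) := inferInstance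
@[reducible] noncomputable def a3.{u1, u2} {x1 : Type u1} [x2 : NormedAddCommGroup x1] [x3 : NormedSpace ℝ x1] {x4 : Type u2} [x5 : MetricSpace x4] [x6 : ChartedSpace x1 x4] {x7 : x4} : SMul ℝ (TangentSpace (modelWithCornersSelf ℝ x1) x7) := inferInstance
@[reducible] def a4.{u1} {x1 : Type u1} [x2 : NormedAddCommGroup x1] [x3 : InnerProductSpace ℝ x1] : Module ℝ (x1 →ₗ[ℝ] x1 →ₗ[ℝ] x1 →ₗ[ℝ] ℝ) := inferInstance
theorem a5 : CovariantClass ℝ ℝ (Function.swap fun x1 x2 => x1 + x2) fun x1 x2 => x1 ≤ x2 := inferInstance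
@[reducible] noncomputable def a6.{u1, u2} {x1 : Type u1} [x2 : NormedAddCommGroup x1] [x3 : NormedSpace ℝ x1] {x4 : Type u2} [x5 : MetricSpace x4] [x6 : ChartedSpace x1 x4] {x7 : x4} : DistribSMul ℝ (TangentSpace (modelWithCornersSelf ℝ x1) x7) := inferInstance
@[reducible] noncomputable def a7 {x1 : ℕ} : MeasureTheory.MeasureSpace (EuclideanSpace ℝ (Fin (x1 + 1))) := inferInstance
@[reducible] noncomputable def a8.{u1, u2} {x1 : Type u1} [x2 : NormedAddCommGroup x1] [x3 : NormedSpace ℝ x1] {x4 : Type u2} [x5 : MetricSpace x4] [x6 : ChartedSpace x1 x4] {x7 : x4} : DistribMulAction ℝ (TangentSpace (modelWithCornersSelf ℝ x1) x7) := inferInstance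
theorem a9.{u1} {x1 : Type u1} [x2 : NormedAddCommGroup x1] [x3 : NormedSpace ℝ x1] : FiniteDimensional ℝ (Fin (Module.finrank ℝ x1) → ℝ) := inferInstance
theorem a10 : CharZero ℝ := inferInstance
@[reducible] def a11.{u1} {x1 : Type u1} [x2 : NormedAddCommGroup x1] [x3 : InnerProductSpace ℝ x1] : Module ℝ (x1 →ₗ[ℝ] x1 →ₗ[ℝ] ℝ) := inferInstance
theorem a12 : AddRightReflectLE ℝ := inferInstance
theorem a13 : AddLeftMono ℝ := inferInstance
theorem a14.{u1} {x1 : Type u1} [x2 : NormedAddCommGroup x1] [x3 : InnerProductSpace ℝ x1] : AddMonoidHomClass (x1 →ₗ[ℝ] x1) x1 x1 := inferInstance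
@[reducible] def a15.{u1} {x1 : Type u1} [x2 : NormedAddCommGroup x1] [x3 : InnerProductSpace ℝ x1] : DistribSMul ℝ (x1 →ₗ[ℝ] ℝ) := inferInstance
theorem a16.{u1} {x1 : Type u1} [x2 : NormedAddCommGroup x1] [x3 : NormedSpace ℝ x1] : DistribMulActionSemiHomClass (x1 →ₗ[ℝ] x1) (⇑(RingHom.id ℝ)) x1 x1 := inferInstance
theorem a17 : AddRightStrictMono ℝ := inferInstance
theorem a18.{u1} {x1 : Type u1} [x2 : NormedAddCommGroup x1] [x3 : InnerProductSpace ℝ x1] : SMulCommClass ℝ ℝ (x1 →ₗ[ℝ] x1 →ₗ[ℝ] ℝ) := inferInstance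
theorem a19 : IsRightCancelAdd ℝ := inferInstance
@[reducible] noncomputable def a20 : NormedSpace ℝ ℝ := inferInstance
@[reducible] def a21.{u1} {x1 : Type u1} [x2 : NormedAddCommGroup x1] [x3 : NormedSpace ℝ x1] : Module ℝ (Vale.Agent.P231.Eu x1 →L[ℝ] ℝ) := inferInstance
@[reducible] def a22 : AddMonoidWithOne ENNReal := inferInstance
theorem a23 : PosMulReflectLT ℝ := inferInstance
theorem a24 : PosMulReflectLE ℝ := inferInstance
@[reducible] def a25.{u1} {x1 : Type u1} [x2 : NormedAddCommGroup x1] [x3 : NormedSpace ℝ x1] : SMulZeroClass ℝ (Vale.Agent.P231.Eu x1) := inferInstance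
theorem a26 : AddLeftReflectLE ℝ := inferInstance
@[reducible] def a27.{u1} {x1 : Type u1} [x2 : NormedAddCommGroup x1] [x3 : InnerProductSpace ℝ x1] : DistribMulAction ℝ (x1 →ₗ[ℝ] ℝ) := inferInstance
@[reducible] def a28.{u1} {x1 : Type u1} [x2 : NormedAddCommGroup x1] [x3 : InnerProductSpace ℝ x1] : Module ℝ (x1 →ₗ[ℝ] ℝ) := inferInstance
@[reducible] def a29 : SMulZeroClass ℝ ℝ := inferInstance
theorem a30.{u1} {x1 : Type u1} [x2 : NormedAddCommGroup x1] [x3 : InnerProductSpace ℝ x1] : SMulCommClass ℝ ℝ (x1 →ₗ[ℝ] ℝ) := inferInstance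
theorem a31 : ContravariantClass ℝ ℝ (fun x1 x2 => x1 + x2) fun x1 x2 => x1 < x2 := inferInstance
theorem a32 : PosMulStrictMono ℝ := inferInstance
@[reducible] def a33.{u1} {x1 : Type u1} [x2 : NormedAddCommGroup x1] [x3 : NormedSpace ℝ x1] : DistribSMul ℝ (Vale.Agent.P231.Eu x1) := inferInstance
theorem a34 {x1 : ℕ} : FiniteDimensional ℝ (Fin (x1 + 1) → ℝ) := inferInstance
theorem a35 : IsLeftCancelAdd ℝ := inferInstance
@[reducible] noncomputable def a36.{u1, u2} {x1 : Type u1} [x2 : NormedAddCommGroup x1] [x3 : NormedSpace ℝ x1] {x4 : Type u2} [x5 : MetricSpace x4] [x6 : ChartedSpace x1 x4] {x7 : x4} : Zero (TangentSpace (modelWithCornersSelf ℝ x1) x7) := inferInstance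
theorem a37 : ContravariantClass ℝ ℝ (Function.swap fun x1 x2 => x1 + x2) fun x1 x2 => x1 < x2 := inferInstance
@[reducible] noncomputable def a38.{u1} {x1 : Type u1} [x2 : NormedAddCommGroup x1] [x3 : @NormedSpace Real x1 Real.normedField (@NormedAddCommGroup.toSeminormedAddCommGroup x1 x2)] : @InnerProductSpace Real (@PiLp (@OfNat.ofNat ENNReal (nat_lit 2) (@instOfNatAtLeastTwo ENNReal (nat_lit 2) (@AddMonoidWithOne.toNatCast ENNReal (@AddCommMonoidWithOne.toAddMonoidWithOne ENNReal ENNReal.instAddCommMonoidWithOne)) ⋯)) (Fin (@Module.finrank Real x1 Real.semiring (@AddCommGroup.toAddCommMonoid x1 (@NormedAddCommGroup.toAddCommGroup x1 x2)) (@NormedSpace.toModule Real x1 Real.normedField (@NormedAddCommGroup.toSeminormedAddCommGroup x1 x2) x3))) fun x => Real) Real.instRCLike (@PiLp.seminormedAddCommGroup (@OfNat.ofNat ENNReal (nat_lit 2) (@instOfNatAtLeastTwo ENNReal (nat_lit 2) (@AddMonoidWithOne.toNatCast ENNReal (@AddCommMonoidWithOne.toAddMonoidWithOne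 ENNReal ENNReal.instAddCommMonoidWithOne)) ⋯)) (Fin (@Module.finrank Real x1 Real.semiring (@AddCommGroup.toAddCommMonoid x1 (@NormedAddCommGroup.toAddCommGroup x1 x2)) (@NormedSpace.toModule Real x1 Real.normedField (@NormedAddCommGroup.toSeminormedAddCommGroup x1 x2) x3))) (fun x => Real) fact_one_le_two_ennreal (Fin.fintype (@Module.finrank Real x1 Real.semiring (@AddCommGroup.toAddCommMonoid x1 (@NormedAddCommGroup.toAddCommGroup x1 x2)) (@NormedSpace.toModule Real x1 Real.normedField (@NormedAddCommGroup.toSeminormedAddCommGroup x1 x2) x3))) fun i => @NormedAddCommGroup.toSeminormedAddCommGroup Real Real.normedAddCommGroup) := inferInstance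
@[reducible] noncomputable def a39.{u1, u2} {x1 : Type u1} [x2 : NormedAddCommGroup x1] [x3 : NormedSpace ℝ x1] {x4 : Type u2} [x5 : MetricSpace x4] [x6 : ChartedSpace x1 x4] {x7 : x4} : AddCommMonoid (TangentSpace (modelWithCornersSelf ℝ x1) x7) := inferInstance
@[reducible] noncomputable def a40.{u1} {x1 : Type u1} [x2 : NormedAddCommGroup x1] [x3 : NormedSpace ℝ x1] : TopologicalSpace (Vale.Agent.P231.Eu x1 →L[ℝ] ℝ) := inferInstance
@[reducible] def a41.{u1} {x1 : Type u1} [x2 : NormedAddCommGroup x1] [x3 : NormedSpace ℝ x1] : Add (Vale.Agent.P231.Eu x1) := inferInstance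
@[reducible] def a42.{u1} {x1 : Type u1} [x2 : NormedAddCommGroup x1] [x3 : NormedSpace ℝ x1] : Zero (Vale.Agent.P231.Eu x1) := inferInstance
@[reducible] def a43.{u1} {x1 : Type u1} [x2 : NormedAddCommGroup x1] [x3 : NormedSpace ℝ x1] : AddCommMagma (Vale.Agent.P231.Eu x1) := inferInstance
@[reducible] noncomputable def a44.{u1} {x1 : Type u1} [x2 : NormedAddCommGroup x1] [x3 : NormedSpace ℝ x1] : NormedSpace ℝ (Vale.Agent.P231.Eu x1 →L[ℝ] ℝ) := inferInstance
@[reducible] def a45.{u1} {x1 : Type u1} [x2 : NormedAddCommGroup x1] [x3 : NormedSpace ℝ x1] : AddCommSemigroup (Vale.Agent.P231.Eu x1) := inferInstance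
@[reducible] noncomputable def a46.{u1} {x1 : Type u1} [x2 : NormedAddCommGroup x1] [x3 : NormedSpace ℝ x1] : SMul ℝ (Vale.Agent.P231.Eu x1 →L[ℝ] Vale.Agent.P231.Eu x1 →L[ℝ] ℝ) := inferInstance
@[reducible] def a47.{u1} {x1 : Type u1} [x2 : NormedAddCommGroup x1] [x3 : NormedSpace ℝ x1] : AddMonoid (Vale.Agent.P231.Eu x1) := inferInstance
@[reducible] def a48.{u1} {x1 : Type u1} [x2 : NormedAddCommGroup x1] [x3 : NormedSpace ℝ x1] : AddCommMonoid (Vale.Agent.P231.Eu x1 →L[ℝ] ℝ) := inferInstance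
@[reducible] noncomputable def a49.{u1, u2} {x1 : Type u1} [x2 : NormedAddCommGroup x1] [x3 : NormedSpace ℝ x1] {x4 : Type u2} [x5 : MetricSpace x4] [x6 : ChartedSpace x1 x4] [x7 : IsManifold (modelWithCornersSelf ℝ x1) (↑⊤) x4] : ChartedSpace (ModelProd ℝ (ModelProd x1 x1)) (ℝ × TangentBundle (modelWithCornersSelf ℝ x1) x4) := inferInstance
@[reducible] def a50.{u1} {x1 : Type u1} [x2 : NormedAddCommGroup x1] [x3 : NormedSpace ℝ x1] : Module ℝ (Vale.Agent.P231.Eu x1 →ₗ[ℝ] Vale.Agent.P231.Eu x1 →ₗ[ℝ] ℝ) := inferInstance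
theorem a51 : ContinuousSMul ℝ ℝ := inferInstance
theorem a52 : ContinuousAdd ℝ := inferInstance
@[reducible] noncomputable def a53.{u1, u2} {x1 : Type u1} [x2 : NormedAddCommGroup x1] [x3 : NormedSpace ℝ x1] {x4 : Type u2} [x5 : MetricSpace x4] [x6 : ChartedSpace x1 x4] {x7 : x4} : AddZero (TangentSpace (modelWithCornersSelf ℝ x1) x7) := inferInstance
@[reducible] noncomputable def a54.{u1, u2} {x1 : Type u1} [x2 : NormedAddCommGroup x1] [x3 : NormedSpace ℝ x1] {x4 : Type u2} [x5 : MetricSpace x4] [x6 : ChartedSpace x1 x4] {x7 : x4} : AddZeroClass (TangentSpace (modelWithCornersSelf ℝ x1) x7) := inferInstance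
@[reducible] noncomputable def a55.{u1, u2} {x1 : Type u1} [x2 : NormedAddCommGroup x1] [x3 : NormedSpace ℝ x1] {x4 : Type u2} [x5 : MetricSpace x4] [x6 : ChartedSpace x1 x4] {x7 : x4} : AddMonoid (TangentSpace (modelWithCornersSelf ℝ x1) x7) := inferInstance
@[reducible] def a56.{u1} {x1 : Type u1} [x2 : NormedAddCommGroup x1] [x3 : NormedSpace ℝ x1] : AddZeroClass (Vale.Agent.P231.Eu x1) := inferInstance
@[reducible] noncomputable def a57.{u1, u2} {x1 : Type u1} [x2 : NormedAddCommGroup x1] [x3 : NormedSpace ℝ x1] {x4 : Type u2} [x5 : MetricSpace x4] [x6 : ChartedSpace x1 x4] {x7 : x4} : AddGroup (TangentSpace (modelWithCornersSelf ℝ x1) x7) := inferInstance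
@[reducible] def a58 {x1 : ℕ} : Zero (EuclideanSpace ℝ (Fin (x1 + 1))) := inferInstance
@[reducible] noncomputable def a59.{u1, u2} {x1 : Type u1} [x2 : NormedAddCommGroup x1] [x3 : NormedSpace ℝ x1] {x4 : Type u2} [x5 : MetricSpace x4] [x6 : ChartedSpace x1 x4] {x7 : x4} : MulAction ℝ (TangentSpace (modelWithCornersSelf ℝ x1) x7) := inferInstance
theorem a60 : ContinuousConstSMul ℝ ℝ := inferInstance
@[reducible] def a61.{u1} {x1 : Type u1} [x2 : NormedAddCommGroup x1] [x3 : NormedSpace ℝ x1] : Module ℝ (Vale.Agent.P231.Eu x1 →ₗ[ℝ] Vale.Agent.P231.Eu x1 →ₗ[ℝ] Vale.Agent.P231.Eu x1 →ₗ[ℝ] ℝ) := inferInstance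
end AFast6e3aacx9a
attribute [local instance] AFast6e3aacx9a.a0 AFast6e3aacx9a.a1 AFast6e3aacx9a.a2 AFast6e3aacx9a.a3
  AFast6e3aacx9a.a4 AFast6e3aacx9a.a5 AFast6e3aacx9a.a6 AFast6e3aacx9a.a7 AFast6e3aacx9a.a8
  AFast6e3aacx9a.a9 AFast6e3aacx9a.a10 AFast6e3aacx9a.a11 AFast6e3aacx9a.a12 AFast6e3aacx9a.a13
  AFast6e3aacx9a.a14 AFast6e3aacx9a.a15 AFast6e3aacx9a.a16 AFast6e3aacx9a.a17 AFast6e3aacx9a.a18
  AFast6e3aacx9a.a19 AFast6e3aacx9a.a20 AFast6e3aacx9a.a21 AFast6e3aacx9a.a22 AFast6e3aacx9a.a23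
  AFast6e3aacx9a.a24 AFast6e3aacx9a.a25 AFast6e3aacx9a.a26 AFast6e3aacx9a.a27 AFast6e3aacx9a.a28
  AFast6e3aacx9a.a29 AFast6e3aacx9a.a30 AFast6e3aacx9a.a31 AFast6e3aacx9a.a32 AFast6e3aacx9a.a33
  AFast6e3aacx9a.a34 AFast6e3aacx9a.a35 AFast6e3aacx9a.a36 AFast6e3aacx9a.a37 AFast6e3aacx9a.a38
  AFast6e3aacx9a.a39 AFast6e3aacx9a.a40 AFast6e3aacx9a.a41 AFast6e3aacx9a.a42 AFast6e3aacx9a.a43
  AFast6e3aacx9a.a44 AFast6e3aacx9a.a45 AFast6e3aacx9a.a46 AFast6e3aacx9a.a47 AFast6e3aacx9a.a48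
  AFast6e3aacx9a.a49 AFast6e3aacx9a.a50 AFast6e3aacx9a.a51 AFast6e3aacx9a.a52 AFast6e3aacx9a.a53
  AFast6e3aacx9a.a54 AFast6e3aacx9a.a55 AFast6e3aacx9a.a56 AFast6e3aacx9a.a57 AFast6e3aacx9a.a58
  AFast6e3aacx9a.a59 AFast6e3aacx9a.a60 AFast6e3aacx9a.a61
namespace AFast6e3aacx9b
@[reducible] noncomputable def a0.{u1, u2} {x1 : Type u1} [x2 : NormedAddCommGroup x1] [x3 : NormedSpace ℝ x1] {x4 : Type u2} [x5 : MetricSpace x4] [x6 : ChartedSpace x1 x4] [x7 : IsManifold (modelWithCornersSelf ℝ x1) (↑⊤) x4] : TopologicalSpace (TangentBundle (modelWithCornersSelf ℝ x1) x4) := inferInstance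
theorem a1.{u1, u2} {x1 : Type u1} [x2 : NormedAddCommGroup x1] [x3 : NormedSpace ℝ x1] {x4 : Type u2} [x5 : MetricSpace x4] [x6 : ChartedSpace x1 x4] [x7 : IsManifold (modelWithCornersSelf ℝ x1) (↑⊤) x4] : IsManifold (modelWithCornersSelf ℝ x1) 1 x4 := inferInstance
theorem a2.{u1, u2} {x1 : Type u1} [x2 : NormedAddCommGroup x1] [x3 : NormedSpace ℝ x1] {x4 : Type u2} [x5 : MetricSpace x4] [x6 : ChartedSpace x1 x4] [x7 : IsManifold (modelWithCornersSelf ℝ x1) (↑⊤) x4] : IsManifold (modelWithCornersSelf ℝ x1) 2 x4 := inferInstance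
theorem a3.{u1, u2} {x1 : Type u1} [x2 : NormedAddCommGroup x1] [x3 : NormedSpace ℝ x1] {x4 : Type u2} [x5 : MetricSpace x4] [x6 : ChartedSpace x1 x4] [x7 : IsManifold (modelWithCornersSelf ℝ x1) (↑⊤) x4] : IsManifold (modelWithCornersSelf ℝ x1) 3 x4 := inferInstance
theorem a4.{u1} {x1 : Type u1} [x2 : NormedAddCommGroup x1] [x3 : NormedSpace ℝ x1] : Module.IsTorsionFree ℝ (Vale.Agent.P231.Eu x1) := inferInstance
theorem a5.{u1} {x1 : Type u1} [x2 : NormedAddCommGroup x1] [x3 : NormedSpace ℝ x1] : SemilinearMapClass (Vale.Agent.P231.Eu x1 ≃L[ℝ] x1) (RingHom.id ℝ) (Vale.Agent.P231.Eu x1) x1 := inferInstance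
@[reducible] noncomputable def a6.{u1, u2} {x1 : Type u1} [x2 : NormedAddCommGroup x1] [x3 : NormedSpace ℝ x1] {x4 : Type u2} [x5 : MetricSpace x4] [x6 : ChartedSpace x1 x4] [x7 : IsManifold (modelWithCornersSelf ℝ x1) (↑⊤) x4] : TopologicalSpace (ℝ × TangentBundle (modelWithCornersSelf ℝ x1) x4) := inferInstance
theorem a7.{u1} {x1 : Type u1} [x2 : NormedAddCommGroup x1] [x3 : NormedSpace ℝ x1] : Module.Flat ℝ (Vale.Agent.P231.Eu x1) := inferInstance
theorem a8.{u1} {x1 : Type u1} [x2 : NormedAddCommGroup x1] [x3 : NormedSpace ℝ x1] : MulActionSemiHomClass (Vale.Agent.P231.Eu x1 ≃L[ℝ] x1) (⇑(RingHom.id ℝ)) (Vale.Agent.P231.Eu x1) x1 := inferInstance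
theorem a9.{u1} {x1 : Type u1} [x2 : NormedAddCommGroup x1] [x3 : NormedSpace ℝ x1] : ContinuousSemilinearMapClass (Vale.Agent.P231.Eu x1 ≃L[ℝ] x1) (RingHom.id ℝ) (Vale.Agent.P231.Eu x1) x1 := inferInstance
theorem a10.{u1} {x1 : Type u1} [x2 : NormedAddCommGroup x1] [x3 : NormedSpace ℝ x1] : AddMonoidHomClass (Vale.Agent.P231.Eu x1 ≃L[ℝ] x1) (Vale.Agent.P231.Eu x1) x1 := inferInstance
theorem a11.{u1} {x1 : Type u1} [x2 : NormedAddCommGroup x1] [x3 : NormedSpace ℝ x1] : DistribMulActionSemiHomClass (Vale.Agent.P231.Eu x1 ≃L[ℝ] x1) (⇑(RingHom.id ℝ)) (Vale.Agent.P231.Eu x1) x1 := inferInstance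
@[reducible] noncomputable def a12.{u1} {x1 : Type u1} [x2 : NormedAddCommGroup x1] [x3 : NormedSpace ℝ x1] : Add (Vale.Agent.P231.Eu x1 →L[ℝ] Vale.Agent.P231.Eu x1 →L[ℝ] ℝ) := inferInstance
theorem a13.{u1} {x1 : Type u1} [x2 : NormedAddCommGroup x1] [x3 : NormedSpace ℝ x1] : AddHomClass (Vale.Agent.P231.Eu x1 ≃L[ℝ] x1) (Vale.Agent.P231.Eu x1) x1 := inferInstance
theorem a14.{u1} {x1 : Type u1} [x2 : NormedAddCommGroup x1] [x3 : NormedSpace ℝ x1] : ContinuousAdd (Vale.Agent.P231.Eu x1 →L[ℝ] ℝ) := inferInstance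
theorem a15.{u1} {x1 : Type u1} [x2 : NormedAddCommGroup x1] [x3 : NormedSpace ℝ x1] : ZeroHomClass (Vale.Agent.P231.Eu x1 ≃L[ℝ] x1) (Vale.Agent.P231.Eu x1) x1 := inferInstance
theorem a16.{u1} {x1 : Type u1} [x2 : NormedAddCommGroup x1] [x3 : NormedSpace ℝ x1] : ZeroHomClass (x1 →ₗ[ℝ] x1) x1 x1 := inferInstance
end AFast6e3aacx9b
attribute [local instance] AFast6e3aacx9b.a0 AFast6e3aacx9b.a1 AFast6e3aacx9b.a2 AFast6e3aacx9b.a3
  AFast6e3aacx9b.a4 AFast6e3aacx9b.a5 AFast6e3aacx9b.a6 AFast6e3aacx9b.a7 AFast6e3aacx9b.a8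
  AFast6e3aacx9b.a9 AFast6e3aacx9b.a10 AFast6e3aacx9b.a11 AFast6e3aacx9b.a12 AFast6e3aacx9b.a13
  AFast6e3aacx9b.a14 AFast6e3aacx9b.a15 AFast6e3aacx9b.a16
section

section

section

/-! P231 measure part MC: the Jacobian of the exponential map and the Jacobi data. -/

set_option maxSynthPendingDepth 3
set_option linter.unusedSectionVars false

open Bundle Manifold Set Filter MeasureTheory Module
open scoped ContDiff Manifold Topology ENNReal

namespace Vale.Agent.P231

noncomputable section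

open Vale.Agent.P234

variable {E : Type*} [NormedAddCommGroup E] [NormedSpace ℝ E] [FiniteDimensional ℝ E]
  {M : Type*} [MetricSpace M] [ChartedSpace E M]
  [RiemannianBundle (fun x : M => TangentSpace 𝓘(ℝ, E) x)]
  [IsManifold 𝓘(ℝ, E) ∞ M]
  [IsContMDiffRiemannianBundle 𝓘(ℝ, E) ∞ E (fun x : M => TangentSpace 𝓘(ℝ, E) x)]
  {e : ∀ x : M, TangentSpace 𝓘(ℝ, E) x → M}

lemma absDet_point (F : Facts e) (x : M) (u : E) (s t : ℝ) :
    e (gam e x u s) ((t - s) • vel e x u s : E) = gam e x u t := by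
  have h := gam_flow F x u s (t - s)
  rw [add_sub_cancel] at h
  exact h

lemma absDet_vel (F : Facts e) (x : M) (u : E) (s t : ℝ) :
    dE e (gam e x u s) ((t - s) • vel e x u s) (vel e x u s) = vel e x u t := by
  have h := vel_flow F x u s (t - s)
  rw [add_sub_cancel] at h
  exact h

theorem abs_det_jf [CompactSpace M] (F : Facts e) {N : ℕ} (hN : finrank ℝ E = N + 1) (x : M)
    (u : E) (hu : nm x u = 1) {b : ℝ → Fin N → E} {A : ℝ → ℝ → Matrix (Fin N) (Fin N) ℝ}
    (h1 : ∀ t i j, ip (gam e x u t) (b t i) (b t j) = if i = j then 1 else 0)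
    (h2 : ∀ t i, ip (gam e x u t) (b t i) (vel e x u t) = 0)
    (h3 : ∀ s t j, jf e x u s t (b s j) = ∑ i, A s t i j • b t i) (s t : ℝ) :
    |(A s t).det| = |t - s| ^ N * jac e (gam e x u s) ((t - s) • vel e x u s) := by
  classical
  have hpt := absDet_point F x u s t
  have hvt := absDet_vel F x u s t
  have hself : ∀ τ, ip (gam e x u τ) (vel e x u τ) (vel e x u τ) = 1 := fun τ => by
    rw [asm_ip_self, nm_vel F, hu, one_pow]
  have hframe : ∀ τ, ∀ i j : Fin N ⊕ Unit,
      ip (gam e x u τ) (Sum.elim (b τ) (fun _ => vel e x u τ) i)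
        (Sum.elim (b τ) (fun _ => vel e x u τ) j) = if i = j then 1 else 0 := by
    intro τ i j
    rcases i with i | i <;> rcases j with j | j
    · simpa using h1 τ i j
    · simpa using h2 τ i
    · have := h2 τ j
      rw [asm_ip_comm] at this
      simpa using this
    · simpa using hself τ
  have hcard : Fintype.card (Fin N ⊕ Unit) = finrank ℝ E := by simp only [Fintype.card_sum, Fintype.card_fin, Fintype.card_unique, hN, Nat.add_left_cancel_iff]
  have hq : ∀ i j : Fin N ⊕ Unit,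
      ip (e (gam e x u s) ((t - s) • vel e x u s : E))
        (Sum.elim (b t) (fun _ => vel e x u t) i)
        (Sum.elim (b t) (fun _ => vel e x u t) j) = if i = j then 1 else 0 := by
    rw [hpt]
    exact hframe t
  have hj := jac_eq (e := e) hcard (gam e x u s) ((t - s) • vel e x u s) (hframe s) hq
  set M11 : Matrix (Fin N) (Fin N) ℝ := Matrix.of fun i j =>
    ip (gam e x u t) (b t i) (dE e (gam e x u s) ((t - s) • vel e x u s) (b s j)) with hM11
  have hA : A s t = (t - s) • M11 := by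
    ext i j
    have h4 := congrArg (fun z => ip (gam e x u t) (b t i) z) (h3 s t j)
    simp only [jf, asm_ip_smul_right, asm_ip_sum_right, h1] at h4
    rw [Matrix.smul_apply, hM11, Matrix.of_apply, smul_eq_mul, h4]
    simp only [mul_ite, mul_one, mul_zero, Finset.sum_ite_eq, Finset.mem_univ, ↓reduceIte]
  have h21 : ∀ j, ip (gam e x u t) (vel e x u t)
      (dE e (gam e x u s) ((t - s) • vel e x u s) (b s j)) = 0 := by
    intro j
    by_cases hst : t - s = 0
    · have hts : t = s := sub_eq_zero.1 hst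
      subst hts
      rw [sub_self, zero_smul, dE_zero_base F.isExp, asm_ip_comm]
      exact h2 t j
    · have h4 := congrArg (fun z => ip (gam e x u t) (vel e x u t) z) (h3 s t j)
      simp only [jf, asm_ip_smul_right, asm_ip_sum_right] at h4
      have h5 : ∑ i, A s t i j * ip (gam e x u t) (vel e x u t) (b t i) = 0 := by
        refine Finset.sum_eq_zero fun i _ => ?_
        rw [asm_ip_comm, h2, mul_zero]
      rw [h5] at h4
      exact (mul_eq_zero.1 h4).resolve_left hst
  have hM : (Matrix.of fun i j : Fin N ⊕ Unit =>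
      ip (e (gam e x u s) ((t - s) • vel e x u s : E))
        (Sum.elim (b t) (fun _ => vel e x u t) i)
        (dE e (gam e x u s) ((t - s) • vel e x u s)
          (Sum.elim (b s) (fun _ => vel e x u s) j))) = Matrix.fromBlocks M11 0 0 1 := by
    rw [hpt]
    ext i j
    rcases i with i | i <;> rcases j with j | j
    · simp [hM11]
    · simp [hvt, h2]
    · simp [h21]
    · simp [hvt, hself]
  rw [hj, hM, Matrix.det_fromBlocks_zero₂₁, Matrix.det_one, mul_one, hA, Matrix.det_smul,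
    Fintype.card_fin, abs_mul, abs_pow]

theorem finrank_ker_le [CompactSpace M] (F : Facts e) {D : ℝ} {l : ℕ}
    (hl : ∀ (x : M) (v : E), nm x v = D → finrank ℝ (LinearMap.ker (dEl e x v)) ≤ l)
    (hD : 0 < D) {N : ℕ} (x : M) (u : E) (hu : nm x u = 1) {b : ℝ → Fin N → E}
    {A : ℝ → ℝ → Matrix (Fin N) (Fin N) ℝ}
    (h1 : ∀ t i j, ip (gam e x u t) (b t i) (b t j) = if i = j then 1 else 0)
    (h3 : ∀ s t j, jf e x u s t (b s j) = ∑ i, A s t i j • b t i) (s : ℝ) :
    finrank ℝ (LinearMap.ker (A s (s + D)).mulVecLin) ≤ l := by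
  classical
  have hl' := hl (gam e x u s) (D • vel e x u s)
    (by rw [asm_nm_smul, nm_vel F, hu, mul_one, abs_of_pos hD])
  refine le_trans ?_ hl'
  let Φ : (Fin N → ℝ) →ₗ[ℝ] E := Fintype.linearCombination ℝ (b s)
  have hΦ : ∀ c, Φ c = ∑ j, c j • b s j := fun c => Fintype.linearCombination_apply ℝ (b s) c
  have hker : ∀ c ∈ LinearMap.ker (A s (s + D)).mulVecLin,
      Φ c ∈ LinearMap.ker (dEl e (gam e x u s) (D • vel e x u s)) := by
    intro c hc
    have hc' : ∀ i, ∑ j, A s (s + D) i j * c j = 0 := fun i => congrFun hc i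
    have h4 : jf e x u s (s + D) (Φ c) = 0 := by
      rw [hΦ, asm_jf_sum]
      calc ∑ j, jf e x u s (s + D) (c j • b s j)
          = ∑ j, ∑ i, (c j * A s (s + D) i j) • b (s + D) i := by
            refine Finset.sum_congr rfl fun j _ => ?_
            rw [asm_jf_smul, h3, Finset.smul_sum]
            refine Finset.sum_congr rfl fun i _ => ?_
            rw [smul_smul]
        _ = ∑ i, (∑ j, A s (s + D) i j * c j) • b (s + D) i := by
            rw [Finset.sum_comm]
            refine Finset.sum_congr rfl fun i _ => ?_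
            rw [Finset.sum_smul]
            refine Finset.sum_congr rfl fun j _ => ?_
            rw [mul_comm]
        _ = 0 := by simp only [hc', zero_smul, Finset.sum_const_zero]
    rw [jf, add_sub_cancel_left] at h4
    exact (smul_eq_zero.1 h4).resolve_left hD.ne'
  refine LinearMap.finrank_le_finrank_of_injective
    (f := (Φ.restrict hker)) ?_
  intro c c' hcc
  have h5 : Φ c = Φ c' := congrArg Subtype.val hcc
  apply Subtype.ext
  funext k
  have h6 := congrArg (fun z => ip (gam e x u s) (b s k) z) h5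
  simpa only [hΦ, asm_ip_sum_right, asm_ip_smul_right, h1, mul_ite, mul_one, mul_zero, Finset.sum_ite_eq,     Finset.mem_univ, ↓reduceIte] using h6

/-- symmetry of the Jacobian under reversal of the geodesic -/
theorem jac_symm [CompactSpace M] [ConnectedSpace M] [IsRiemannianManifold 𝓘(ℝ, E) M]
    (F : Facts e) {D : ℝ} (hD : 0 < D) (hB : InjGE e D)
    (hcl : ∀ (x : M) (v : E), nm x v = 2 * D → e x v = x) (x : M) (v : E) :
    jac e (gam e x v 1) (-vel e x v 1) = jac e x v := by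
  by_cases hv : v = 0
  · subst hv
    have h1 : gam e x (0 : E) 1 = x := by
      have := gam_smul (e := e) x (0 : E) 0 1
      rw [zero_smul, zero_mul] at this
      rw [this]
      exact gam_zero F.isExp x 0
    have h2 : vel e x (0 : E) 1 = 0 := by
      have := vel_smul (e := e) x (0 : E) 0 1
      rw [zero_smul, zero_smul] at this
      exact this
    rw [h1, h2, neg_zero]
  · have hr : 0 < nm x v := by
      have h0 : 0 ≤ nm x v := nm_nonneg x v
      refine lt_of_le_of_ne h0 fun h => hv ?_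
      exact (norm_eq_zero (E := TangentSpace 𝓘(ℝ, E) x) (a := v)).1 h.symm
    set r := nm x v with hrdef
    set u : E := r⁻¹ • v with hudef
    have hu : nm x u = 1 := by
      rw [hudef, asm_nm_smul, abs_of_pos (inv_pos.2 hr), ← hrdef, inv_mul_cancel₀ hr.ne']
    have hvu : v = r • u := by rw [hudef, smul_smul, mul_inv_cancel₀ hr.ne', one_smul]
    have hpos : 0 < finrank ℝ E := by
      have : Nontrivial E := ⟨⟨v, 0, hv⟩⟩
      exact finrank_pos
    obtain ⟨N, hN⟩ : ∃ N, finrank ℝ E = N + 1 := ⟨finrank ℝ E - 1, by omega⟩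
    obtain ⟨b, A, hJ, h1, h2, h3⟩ := exists_jdata F hD hB hcl hN x u hu
    have e1 := abs_det_jf F hN x u hu h1 h2 h3 0 r
    have e2 := abs_det_jf F hN x u hu h1 h2 h3 r 0
    rw [hJ.anti 0 r, Matrix.det_neg, Matrix.det_transpose, abs_mul, abs_pow, abs_neg, abs_one,
      one_pow, one_mul, e1] at e2
    rw [gam_zero F.isExp, vel_zero F.isExp, sub_zero, ← hvu, zero_sub, abs_neg,
      abs_of_pos hr] at e2
    have h5 := mul_left_cancel₀ (pow_pos hr N).ne' e2
    rw [h5]
    have h6 : gam e x v 1 = gam e x u r := by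
      rw [hvu, gam_smul, mul_one]
    have h7 : vel e x v 1 = r • vel e x u r := by
      rw [hvu, vel_smul, mul_one]
    rw [h6, h7, neg_smul]

end

end Vale.Agent.P231
end
end
end

section

section

section

/-! P231 measure part, MG: symmetries of the Liouville integral and Liouville's theorem. -/

set_option maxSynthPendingDepth 3
set_option linter.unusedSectionVars false

open Bundle Manifold Set Filter MeasureTheory Module
open scoped ContDiff Manifold Topology ENNReal

namespace Vale.Agent.P231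

noncomputable section

open Vale.Agent.P234

variable {E : Type*} [NormedAddCommGroup E] [NormedSpace ℝ E] [FiniteDimensional ℝ E]
  {M : Type*} [MetricSpace M] [ChartedSpace E M]
  [RiemannianBundle (fun x : M => TangentSpace 𝓘(ℝ, E) x)]
  [IsManifold 𝓘(ℝ, E) ∞ M]
  [IsContMDiffRiemannianBundle 𝓘(ℝ, E) ∞ E (fun x : M => TangentSpace 𝓘(ℝ, E) x)]
  {e : ∀ x : M, TangentSpace 𝓘(ℝ, E) x → M}

/-- continuity of the Riemannian norm -/
theorem invar_contTB_nm : ContTB (E := E) (M := M) nm :=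
  continuous_norm_tangent (E := E) (M := M)

theorem invar_nm_smul (x : M) (c : ℝ) (v : E) : nm x (c • v) = |c| * nm x v :=
  norm_smul (β := TangentSpace 𝓘(ℝ, E) x) c v

theorem invar_nm_neg (x : M) (v : E) : nm x (-v) = nm x v :=
  norm_neg (E := TangentSpace 𝓘(ℝ, E) x) v

theorem invar_contTB_smul {G : M → E → ℝ} (hG : ContTB G) (c : ℝ) :
    ContTB fun x v => G x (c • v) := by
  have h1 : Continuous fun p : TangentBundle 𝓘(ℝ, E) M =>
      (⟨p.proj, c • p.snd⟩ : TangentBundle 𝓘(ℝ, E) M) :=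
    (contMDiff_tb_smul (E := E) (M := M)).continuous.comp
      ((continuous_const (y := c)).prodMk continuous_id)
  exact hG.comp h1

theorem invar_contTB_neg {G : M → E → ℝ} (hG : ContTB G) :
    ContTB fun x v => G x (-v) := by
  have h := invar_contTB_smul hG (-1)
  refine h.congr fun p => ?_
  exact congrArg (G p.proj) (neg_one_smul ℝ (p.snd : E))

theorem invar_contTB_flow (F : Facts e) {G : M → E → ℝ} (hG : ContTB G) (s : ℝ) :
    ContTB fun x v => G (gam e x v s) (vel e x v s) := by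
  have h1 := (contMDiff_flow F).continuous.comp
    ((continuous_const (y := s)).prodMk (continuous_id (X := TangentBundle 𝓘(ℝ, E) M)))
  exact hG.comp h1

theorem liou_neg [MeasurableSpace M] [BorelSpace M] (G : M → E → ℝ) :
    liou (fun x v => G x (-v)) = liou G := by
  unfold liou
  congr 1
  funext x
  unfold fint
  have h1 : ∀ ξ : Eu E, G x (-(fr x ξ)) = (fun ζ : Eu E => G x (fr x ζ)) (-ξ) := by
    intro ξ
    simp only [map_neg]
  simp_rw [h1]
  exact integral_neg_eq_self (fun ζ : Eu E => G x (fr x ζ)) volume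

/-- division of a function supported inside the injectivity radius by the Jacobian -/
theorem invar_contTB_div [CompactSpace M] [ConnectedSpace M] [IsRiemannianManifold 𝓘(ℝ, E) M]
    (F : Facts e) {D : ℝ} (hB : InjGE e D) {G : M → E → ℝ} (hG : ContTB G) {b : ℝ} (hb : b < D)
    (hs : ∀ x v, b < nm x v → G x v = 0) : ContTB fun x v => G x v / jac e x v := by
  have hnm := invar_contTB_nm (E := E) (M := M)
  refine continuous_iff_continuousAt.2 fun p => ?_
  by_cases hp : nm (E := E) p.proj p.snd < D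
  · have h1 : ContinuousAt (fun q : TangentBundle 𝓘(ℝ, E) M => G q.proj q.snd) p :=
      hG.continuousAt
    have h2 : ContinuousAt (fun q : TangentBundle 𝓘(ℝ, E) M => jac e q.proj q.snd) p :=
      (contTB_jac F.isExp).continuousAt
    exact h1.div h2 (jac_pos F hB hp).ne'
  · have h1 : ∀ᶠ q : TangentBundle 𝓘(ℝ, E) M in 𝓝 p, b < nm (E := E) q.proj q.snd :=
      hnm.continuousAt.eventually (lt_mem_nhds (lt_of_lt_of_le hb (not_lt.1 hp)))
    have h2 : (fun q : TangentBundle 𝓘(ℝ, E) M => G q.proj (q.snd : E) / jac e q.proj (q.snd : E))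
        =ᶠ[𝓝 p] fun _ => (0 : ℝ) := by
      filter_upwards [h1] with q hq
      have h3 := hs q.proj (q.snd : E) hq
      rw [h3, zero_div]
    exact continuousAt_const.congr h2.symm

theorem invar_mul_div [CompactSpace M] [ConnectedSpace M] [IsRiemannianManifold 𝓘(ℝ, E) M]
    (F : Facts e) {D : ℝ} (hB : InjGE e D) {b : ℝ} (hb : b < D) {x : M} {v : E} {g : ℝ}
    (hg : b < nm x v → g = 0) : g / jac e x v * jac e x v = g := by
  by_cases hp : nm x v < D
  · exact div_mul_cancel₀ _ (jac_pos F hB hp).ne'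
  · rw [hg (lt_of_lt_of_le hb (not_lt.1 hp))]
    simp

theorem liou_swap [CompactSpace M] [ConnectedSpace M] [IsRiemannianManifold 𝓘(ℝ, E) M]
    [MeasurableSpace M] [BorelSpace M] (F : Facts e) {D : ℝ} (hD : 0 < D) (hB : InjGE e D)
    (hcl : ∀ (x : M) (v : E), nm x v = 2 * D → e x v = x)
    {G : M → E → ℝ} (hG : ContTB G) {b : ℝ} (hb : b < D) (hs : ∀ x v, b < nm x v → G x v = 0) :
    liou (fun x v => G (gam e x v 1) (-vel e x v 1)) = liou G := by
  have hfin := riemVol_finite F hD hB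
  set H : M → E → ℝ := fun x v => G x v / jac e x v with hH
  have hHc : ContTB H := invar_contTB_div F hB hG hb hs
  have hHs : ∀ x v, b < nm x v → H x v = 0 := by
    intro x v hv
    rw [hH]
    simp only
    rw [hs x v hv, zero_div]
  set K : M → E → ℝ := fun x v => H (gam e x v 1) (-vel e x v 1) with hK
  have hKc : ContTB K := invar_contTB_flow F (invar_contTB_neg hHc) 1
  have hKs : ∀ x v, b < nm x v → K x v = 0 := by
    intro x v hv
    apply hHs
    rw [invar_nm_neg, nm_vel F]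
    exact hv
  -- the two change of variables
  have h1 : liou G = ∫ x, ∫ y, H x (lg e x y) ∂(riemVol (finrank ℝ E) M)
      ∂(riemVol (finrank ℝ E) M) := by
    unfold liou
    congr 1
    funext x
    rw [integral_lg F hD hB hHc hb hHs x]
    unfold fint
    congr 1
    funext ξ
    exact (invar_mul_div F hB hb (fun h => hs x (fr x ξ) h)).symm
  have h2 : liou (fun x v => G (gam e x v 1) (-vel e x v 1))
      = ∫ x, ∫ y, K x (lg e x y) ∂(riemVol (finrank ℝ E) M) ∂(riemVol (finrank ℝ E) M) := by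
    unfold liou
    congr 1
    funext x
    rw [integral_lg F hD hB hKc hb hKs x]
    unfold fint
    congr 1
    funext ξ
    have h3 := jac_symm F hD hB hcl x (fr x ξ)
    have h4 : K x (fr x ξ) * jac e x (fr x ξ) =
        G (gam e x (fr x ξ) 1) (-vel e x (fr x ξ) 1) := by
      rw [hK, hH]
      simp only
      rw [h3]
      refine invar_mul_div F hB hb fun h => ?_
      apply hs
      rw [invar_nm_neg, nm_vel F]
      exact h
    exact h4.symm
  -- symmetry
  have h3 : ∀ x y : M, K x (lg e x y) = H y (lg e y x) := by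
    intro x y
    have hsx := lg_spec F x y
    have hsy := lg_spec F y x
    by_cases hd : dist x y < D
    · have e1 := lg_swap F hB hd
      have e2 : gam e x (lg e x y) 1 = y := by
        unfold gam
        rw [one_smul]
        exact hsx.2
      rw [hK]
      simp only
      rw [e2, e1]
    · have hd' : b < dist x y := lt_of_lt_of_le hb (not_lt.1 hd)
      rw [hKs x _ (by rw [hsx.1]; exact hd'), hHs y _ (by rw [hsy.1, dist_comm]; exact hd')]
  rw [h1, h2]
  simp_rw [h3]
  have hcont := continuous_lg F hB hHc hb hHs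
  have hint : Integrable (fun p : M × M => H p.1 (lg e p.1 p.2))
      ((riemVol (finrank ℝ E) M).prod (riemVol (finrank ℝ E) M)) :=
    hcont.integrable_of_hasCompactSupport (HasCompactSupport.of_compactSpace _)
  exact (integral_integral_swap (f := fun x y => H x (lg e x y)) hint).symm

theorem invar_flow_one [CompactSpace M] [ConnectedSpace M] [IsRiemannianManifold 𝓘(ℝ, E) M]
    [MeasurableSpace M] [BorelSpace M] (F : Facts e) {D : ℝ} (hD : 0 < D) (hB : InjGE e D)
    (hcl : ∀ (x : M) (v : E), nm x v = 2 * D → e x v = x)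
    {G : M → E → ℝ} (hG : ContTB G) {b : ℝ} (hb : b < D) (hs : ∀ x v, b < nm x v → G x v = 0) :
    liou (fun x v => G (gam e x v 1) (vel e x v 1)) = liou G := by
  have h := liou_swap F hD hB hcl (invar_contTB_neg hG) hb
    (fun x v hv => hs x (-v) (by rw [invar_nm_neg]; exact hv))
  simp only [neg_neg] at h
  rw [h]
  exact liou_neg G

theorem invar_scale [MeasurableSpace M] [BorelSpace M] (G : M → E → ℝ) (c : ℝ) :
    liou (fun x v => G x (c • v)) = |(c ^ (finrank ℝ (Eu E)))⁻¹| * liou G := by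
  unfold liou
  rw [← integral_const_mul]
  congr 1
  funext x
  unfold fint
  have h1 : ∀ ξ : Eu E, G x (c • (fr x ξ)) = (fun ζ : Eu E => G x (fr x ζ)) (c • ξ) := by
    intro ξ
    simp only [map_smul]
  simp_rw [h1]
  rw [Measure.integral_comp_smul volume (fun ζ : Eu E => G x (fr x ζ)) c, smul_eq_mul]

theorem invar_flow_small [CompactSpace M] [ConnectedSpace M] [IsRiemannianManifold 𝓘(ℝ, E) M]
    [MeasurableSpace M] [BorelSpace M] (F : Facts e) {D : ℝ} (hD : 0 < D) (hB : InjGE e D)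
    (hcl : ∀ (x : M) (v : E), nm x v = 2 * D → e x v = x)
    {G : M → E → ℝ} (hG : ContTB G) {b : ℝ} (hb : b < D) (hs : ∀ x v, b < nm x v → G x v = 0)
    {s : ℝ} (hs0 : 0 < s) (hs1 : s ≤ 1) :
    liou (fun x v => G (gam e x v s) (vel e x v s)) = liou G := by
  set Gs : M → E → ℝ := fun x w => G x (s⁻¹ • w) with hGs
  have hGc : ContTB Gs := invar_contTB_smul hG s⁻¹
  have hbs : s * b < D := by
    rcases le_total 0 b with h | h
    · exact lt_of_le_of_lt (mul_le_of_le_one_left h hs1) hb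
    · exact lt_of_le_of_lt (mul_nonpos_of_nonneg_of_nonpos hs0.le h) hD
  have hGss : ∀ x v, s * b < nm x v → Gs x v = 0 := by
    intro x v hv
    apply hs
    rw [invar_nm_smul, abs_of_pos (inv_pos.2 hs0), lt_inv_mul_iff₀ hs0]
    exact hv
  have h1 := invar_flow_one F hD hB hcl hGc hbs hGss
  have h2 := invar_scale (fun x v => Gs (gam e x v 1) (vel e x v 1)) s
  have h3 := invar_scale Gs s
  have e1 : ∀ (x : M) (v : E), Gs (gam e x (s • v) 1) (vel e x (s • v) 1) =
      G (gam e x v s) (vel e x v s) := by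
    intro x v
    rw [hGs]
    simp only
    rw [gam_smul, vel_smul, mul_one, smul_smul, inv_mul_cancel₀ hs0.ne', one_smul]
  have e2 : ∀ (x : M) (v : E), Gs x (s • v) = G x v := by
    intro x v
    rw [hGs]
    simp only
    rw [smul_smul, inv_mul_cancel₀ hs0.ne', one_smul]
  simp_rw [e1] at h2
  simp_rw [e2] at h3
  rw [h2, h1]
  exact h3.symm

/-- Liouville's theorem -/
theorem liou_flow [CompactSpace M] [ConnectedSpace M] [IsRiemannianManifold 𝓘(ℝ, E) M]
    [MeasurableSpace M] [BorelSpace M] (F : Facts e) {D : ℝ} (hD : 0 < D) (hB : InjGE e D)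
    (hcl : ∀ (x : M) (v : E), nm x v = 2 * D → e x v = x)
    {G : M → E → ℝ} (hG : ContTB G) {b : ℝ} (hb : b < D) (hs : ∀ x v, b < nm x v → G x v = 0)
    {s : ℝ} (hs0 : 0 ≤ s) :
    liou (fun x v => G (gam e x v s) (vel e x v s)) = liou G := by
  rcases hs0.eq_or_lt with h0 | h0
  · have e1 : ∀ (x : M) (v : E), G (gam e x v s) (vel e x v s) = G x v := by
      intro x v
      rw [← h0, vel_zero F.isExp, gam_zero F.isExp]
    simp_rw [e1]
  · obtain ⟨k, hk⟩ := exists_nat_ge s
    have hk0 : (0 : ℝ) < k := lt_of_lt_of_le h0 hk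
    set s' : ℝ := s / k with hs'
    have hs'0 : 0 < s' := div_pos h0 hk0
    have hs'1 : s' ≤ 1 := (div_le_one hk0).2 hk
    have key : ∀ j : ℕ, liou (fun x v => G (gam e x v (j * s')) (vel e x v (j * s'))) = liou G := by
      intro j
      induction j with
      | zero =>
        have e1 : ∀ (x : M) (v : E), G (gam e x v (((0 : ℕ) : ℝ) * s'))
            (vel e x v (((0 : ℕ) : ℝ) * s')) = G x v := by
          intro x v
          rw [Nat.cast_zero, zero_mul, vel_zero F.isExp, gam_zero F.isExp]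
        simp_rw [e1]
      | succ j ih =>
        have h1 := invar_flow_small F hD hB hcl
          (invar_contTB_flow F hG ((j : ℝ) * s')) hb
          (fun x v hv => hs _ _ (by rw [nm_vel F]; exact hv)) hs'0 hs'1
        rw [ih] at h1
        rw [← h1]
        congr 1
        funext x v
        have e1 : (((j + 1 : ℕ) : ℝ)) * s' = s' + j * s' := by push_cast; ring
        rw [e1, ← gam_flow F x v s' (j * s'), ← vel_flow F x v s' (j * s')]
    have h1 := key k
    have e1 : (k : ℝ) * s' = s := by rw [hs']; field_simp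
    rw [e1] at h1
    exact h1

end

end Vale.Agent.P231
end
end
end

section

section

section

/-! P231 measure part, MH: the core inequality and rigidity along closed geodesics. -/

set_option maxSynthPendingDepth 3

open Bundle Manifold Set Filter MeasureTheory Module
open scoped ContDiff Manifold Topology ENNReal Matrix

namespace Vale.Agent.P231

noncomputable section

open Vale.Agent.P234

/-! ### linear algebra -/

section LA

variable {N : ℕ}

theorem geoAvg_ker_smul (A : Matrix (Fin N) (Fin N) ℝ) {c : ℝ} (hc : c ≠ 0) :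
    LinearMap.ker (c • A).mulVecLin = LinearMap.ker A.mulVecLin := by
  ext v
  rw [LinearMap.mem_ker, LinearMap.mem_ker, Matrix.mulVecLin_apply, Matrix.mulVecLin_apply,
    Matrix.smul_mulVec]
  exact smul_eq_zero_iff_right hc

theorem geoAvg_det_smul (A : Matrix (Fin N) (Fin N) ℝ) {c : ℝ} (hc : 0 ≤ c) :
    |(c • A).det| = c ^ N * |A.det| := by
  rw [Matrix.det_smul, Fintype.card_fin, abs_mul, abs_of_nonneg (pow_nonneg hc N)]

/-- expansion in an adapted orthonormal family -/
theorem geoAvg_expand {T : Type*} [NormedAddCommGroup T] [InnerProductSpace ℝ T]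
    [FiniteDimensional ℝ T] (hT : finrank ℝ T = N + 1) (b : Fin N → T) (u : T)
    (hb : ∀ i j, inner ℝ (b i) (b j) = if i = j then (1 : ℝ) else 0)
    (hbu : ∀ i, inner ℝ (b i) u = (0 : ℝ)) (hu : ‖u‖ = 1) (w : T)
    (hw : inner ℝ w u = (0 : ℝ)) : w = ∑ j, (inner ℝ (b j) w : ℝ) • b j := by
  classical
  set v : Option (Fin N) → T := fun o => o.elim u b with hv
  have hon : Orthonormal ℝ v := by
    rw [orthonormal_iff_ite]
    rintro (_ | i) (_ | j)
    · simp [hv, hu]
    · simp only [hv, Option.elim_none, Option.elim_some]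
      rw [real_inner_comm, hbu]
      simp
    · simp only [hv, Option.elim_none, Option.elim_some]
      rw [hbu]
      simp
    · simp only [hv, Option.elim_some]
      rw [hb]
      simp
  have hcard : Fintype.card (Option (Fin N)) = finrank ℝ T := by
    rw [Fintype.card_option, Fintype.card_fin, hT]
  set B := basisOfOrthonormalOfCardEqFinrank hon hcard with hB
  have hBv : ⇑B = v := coe_basisOfOrthonormalOfCardEqFinrank hon hcard
  have h1 := B.sum_repr w
  rw [hBv] at h1
  have h2 : ∀ o, B.repr w o = inner ℝ (v o) w := by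
    intro o
    conv_rhs => rw [← h1]
    rw [inner_sum]
    simp only [inner_smul_right, orthonormal_iff_ite.mp hon, mul_ite, mul_one, mul_zero]
    simp only [Finset.sum_ite_eq, Finset.mem_univ, ↓reduceIte]
  conv_lhs => rw [← h1]
  rw [Fintype.sum_option]
  simp only [h2, hv, Option.elim_none, Option.elim_some]
  rw [real_inner_comm, hw, zero_smul, zero_add]

theorem geoAvg_proj_min (P : Matrix (Fin N) (Fin N) ℝ) (h1 : Pᵀ = P) (h2 : P * P = P)
    (c d : Fin N → ℝ) (hd : P.mulVec d = d) :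
    (c - P.mulVec c) ⬝ᵥ (c - P.mulVec c) ≤ (c - d) ⬝ᵥ (c - d) := by
  have hPP : ∀ a, P.mulVec (P.mulVec a) = P.mulVec a := fun a => by
    rw [Matrix.mulVec_mulVec, h2]
  have hsym : ∀ a b, (P.mulVec a) ⬝ᵥ b = a ⬝ᵥ (P.mulVec b) := fun a b => by
    rw [Matrix.dotProduct_mulVec, ← Matrix.mulVec_transpose, h1]
  have e : c - d = (c - P.mulVec c) + (P.mulVec c - d) := by abel
  have horth : (c - P.mulVec c) ⬝ᵥ (P.mulVec c - d) = 0 := by
    have e2 : P.mulVec c - d = P.mulVec (c - d) := by rw [Matrix.mulVec_sub, hd]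
    rw [e2, ← hsym, Matrix.mulVec_sub, hPP, sub_self, zero_dotProduct]
  rw [e, add_dotProduct, dotProduct_add, dotProduct_add, horth, dotProduct_comm (P.mulVec c - d),
    horth, add_zero, zero_add]
  have : 0 ≤ (P.mulVec c - d) ⬝ᵥ (P.mulVec c - d) := by
    unfold dotProduct
    exact Finset.sum_nonneg fun i _ => mul_self_nonneg _
  linarith

theorem geoAvg_proj_quad (P : Matrix (Fin N) (Fin N) ℝ) (h1 : Pᵀ = P) (h2 : P * P = P)
    (c : Fin N → ℝ) : c ⬝ᵥ P.mulVec c = c ⬝ᵥ c - (c - P.mulVec c) ⬝ᵥ (c - P.mulVec c) := by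
  have hPP : P.mulVec (P.mulVec c) = P.mulVec c := by
    rw [Matrix.mulVec_mulVec, h2]
  have hsym : ∀ a b, (P.mulVec a) ⬝ᵥ b = a ⬝ᵥ (P.mulVec b) := fun a b => by
    rw [Matrix.dotProduct_mulVec, ← Matrix.mulVec_transpose, h1]
  rw [sub_dotProduct, dotProduct_sub, dotProduct_sub, hsym c c, hsym, hPP]
  ring

end LA

variable {E : Type*} [NormedAddCommGroup E] [NormedSpace ℝ E] [FiniteDimensional ℝ E]
  {M : Type*} [MetricSpace M] [ChartedSpace E M]
  [RiemannianBundle (fun x : M => TangentSpace 𝓘(ℝ, E) x)]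
  [IsManifold 𝓘(ℝ, E) ∞ M]
  [IsContMDiffRiemannianBundle 𝓘(ℝ, E) ∞ E (fun x : M => TangentSpace 𝓘(ℝ, E) x)]
  {e : ∀ x : M, TangentSpace 𝓘(ℝ, E) x → M}

omit [FiniteDimensional ℝ E] [IsManifold 𝓘(ℝ, E) ∞ M]
  [IsContMDiffRiemannianBundle 𝓘(ℝ, E) ∞ E (fun x : M => TangentSpace 𝓘(ℝ, E) x)] in
theorem geoAvg_nm_sum {N : ℕ} (y : M) (β : Fin N → E)
    (hβ : ∀ i j, ip y (β i) (β j) = if i = j then 1 else 0) (c : Fin N → ℝ) :
    nm y (∑ i, c i • β i) ^ 2 = c ⬝ᵥ c := by
  rw [← ip_self, asm_ip_sum_left]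
  unfold dotProduct
  refine Finset.sum_congr rfl fun i _ => ?_
  rw [asm_ip_smul_left, asm_ip_sum_right]
  simp only [asm_ip_smul_right, hβ, mul_ite, mul_one, mul_zero, Finset.sum_ite_eq,
    Finset.mem_univ, if_true]

omit [IsManifold 𝓘(ℝ, E) ∞ M]
  [IsContMDiffRiemannianBundle 𝓘(ℝ, E) ∞ E (fun x : M => TangentSpace 𝓘(ℝ, E) x)] in
theorem geoAvg_frame {N : ℕ} (hN : finrank ℝ E = N + 1) (y : M) (u : E) (hu : nm y u = 1)
    (β : Fin N → E) (hβ : ∀ i j, ip y (β i) (β j) = if i = j then 1 else 0)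
    (hβu : ∀ i, ip y (β i) u = 0) (w : E) (hw : ip y w u = 0) :
    w = ∑ i, ip y (β i) w • β i := by
  have hfd : FiniteDimensional ℝ (TangentSpace 𝓘(ℝ, E) y) := finDimTangent y
  have hT : Module.finrank ℝ (TangentSpace 𝓘(ℝ, E) y) = N + 1 := hN
  exact geoAvg_expand (T := TangentSpace 𝓘(ℝ, E) y) hT β u hβ hβu hu w hw

theorem geoAvg_jf {N : ℕ} (x : M) (u : E) {b : ℝ → Fin N → E}
    {A : ℝ → ℝ → Matrix (Fin N) (Fin N) ℝ}
    (h3 : ∀ s t j, jf e x u s t (b s j) = ∑ i, A s t i j • b t i) (s t : ℝ) (c : Fin N → ℝ) :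
    jf e x u s t (∑ j, c j • b s j) = ∑ i, ((A s t) *ᵥ c) i • b t i := by
  rw [asm_jf_sum]
  simp only [asm_jf_smul, h3, Finset.smul_sum, smul_smul]
  rw [Finset.sum_comm]
  refine Finset.sum_congr rfl fun i _ => ?_
  rw [← Finset.sum_smul]
  congr 1
  unfold Matrix.mulVec dotProduct
  exact Finset.sum_congr rfl fun j _ => mul_comm _ _

/-- logarithmic form of the model Jacobian -/
theorem geoAvg_log_mj {D : ℝ} (hD : 0 < D) (N l : ℕ) {r : ℝ} (hr : r ∈ Ioo 0 D) :
    Real.log (mj D N l r) = N * (Real.log (Real.sin (Real.pi / (2 * D) * r)) -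
      Real.log (Real.pi / (2 * D) * r)) + l * Real.log (Real.cos (Real.pi / (2 * D) * r)) := by
  have hπ := Real.pi_pos
  have h0 : 0 < Real.pi / (2 * D) * r := by have := hr.1; positivity
  have h1 : Real.pi / (2 * D) * r < Real.pi / 2 := by
    rw [div_mul_eq_mul_div, div_lt_div_iff₀ (by positivity) (by norm_num)]
    nlinarith only [hπ, hr.2]
  have hs : 0 < Real.sin (Real.pi / (2 * D) * r) := Real.sin_pos_of_pos_of_lt_pi h0 (by linarith only [h0, h1])
  have hc : 0 < Real.cos (Real.pi / (2 * D) * r) :=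
    Real.cos_pos_of_mem_Ioo ⟨by linarith only [h0, h1], h1⟩
  have e1 : Real.pi * r / (2 * D) = Real.pi / (2 * D) * r := by ring
  unfold mj
  rw [e1, Real.log_mul (pow_ne_zero _ (div_pos hs h0).ne') (pow_ne_zero _ hc.ne'), Real.log_pow,
    Real.log_pow, Real.log_div hs.ne' h0.ne']

theorem geoAvg_continuous [CompactSpace M] (F : Facts e) (x : M) (u : E) {r : ℝ} (hr : r ≠ 0) :
    Continuous fun s : ℝ => jac e (gam e x u s) (r • vel e x u s) := by
  have h := contTB_jac F.isExp
  have hflow := (contMDiff_flow F).continuous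
  have hg : Continuous fun s : ℝ => (r⁻¹ * s, tb x (r • u)) :=
    (continuous_const.mul continuous_id).prodMk continuous_const
  have hcomp := h.comp (hflow.comp hg)
  refine hcomp.congr fun s => ?_
  show jac e (gam e x (r • u) (r⁻¹ * s)) (vel e x (r • u) (r⁻¹ * s)) = _
  rw [gam_smul, vel_smul, mul_inv_cancel_left₀ hr]

/-- the sharp inequality along one closed geodesic -/
theorem geo_avg [CompactSpace M] [ConnectedSpace M] [IsRiemannianManifold 𝓘(ℝ, E) M]
    (F : Facts e) {D : ℝ} (hD : 0 < D) (hB : InjGE e D)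
    (hcl : ∀ (x : M) (v : E), nm x v = 2 * D → e x v = x)
    {N : ℕ} (hN : finrank ℝ E = N + 1) {l : ℕ}
    (hl : ∀ (x : M) (v : E), nm x v = D → finrank ℝ (LinearMap.ker (dEl e x v)) ≤ l)
    (x : M) (u : E) (hu : nm x u = 1) {r : ℝ} (hr : r ∈ Ioo 0 D) :
    2 * D * Real.log (mj D N l r) ≤
      ∫ s in (0 : ℝ)..(2 * D), Real.log (jac e (gam e x u s) (r • vel e x u s)) := by
  obtain ⟨b, A, hJ, h1, h2, h3⟩ := exists_jdata F hD hB hcl hN x u hu
  have hπ := Real.pi_pos
  have hJ' := hJ.scale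
  rw [geoAvg_log_mj hD N l hr]
  set c := Real.pi / (2 * D) with hc
  set k := 2 * D / Real.pi with hk
  have hc0 : 0 < c := by positivity
  have hk0 : 0 < k := by positivity
  have hck : c * k = 1 := by rw [hc, hk]; field_simp
  have hkπ : Real.pi / 2 * k = D := by rw [hk]; field_simp
  have hπk : Real.pi * k = 2 * D := by rw [hk]; field_simp
  have hr0 := hr.1
  have hρ : c * r ∈ Ioo 0 (Real.pi / 2) := by
    refine ⟨by (clear * - hD hr0; positivity), ?_⟩
    have : c * r < c * D := mul_lt_mul_of_pos_left hr.2 hc0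
    have e : c * D = Real.pi / 2 := by rw [hc]; field_simp
    linarith only [this, e]
  have hker : finrank ℝ (LinearMap.ker
      ((fun s t => c • A (s * k) (t * k)) 0 (Real.pi / 2)).mulVecLin) ≤ l := by
    show finrank ℝ (LinearMap.ker (c • A (0 * k) (Real.pi / 2 * k)).mulVecLin) ≤ l
    have := finrank_ker_le F hl hD x u hu h1 h3 0
    rw [zero_add] at this
    rw [geoAvg_ker_smul _ hc0.ne', hkπ, zero_mul]
    exact this
  have key := core_ineq hJ' hker hρ
  rw [Fintype.card_fin] at key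
  have hnv : ∀ s, nm (gam e x u s) (r • vel e x u s) = r := fun s => by
    rw [nm_smul, nm_vel F, hu, mul_one, abs_of_pos hr0]
  have hjp : ∀ s, 0 < jac e (gam e x u s) (r • vel e x u s) := fun s =>
    jac_pos F hB (by rw [hnv]; exact hr.2)
  set f : ℝ → ℝ := fun s => Real.log (jac e (gam e x u s) (r • vel e x u s)) with hf
  have hfc : Continuous f := by
    have h := geoAvg_continuous F x u hr0.ne'
    exact h.log fun s => (hjp s).ne'
  have e1 : ∀ s, Real.log |((fun s t => c • A (s * k) (t * k)) s (s + c * r)).det|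
      = N * Real.log (c * r) + f (s * k) := by
    intro s
    have e2 : (s + c * r) * k = s * k + r := by
      have : c * r * k = r := by rw [mul_right_comm, hck, one_mul]
      rw [add_mul, this]
    show Real.log |(c • A (s * k) ((s + c * r) * k)).det| = _
    rw [geoAvg_det_smul _ hc0.le, abs_det_jf F hN x u hu h1 h2 h3, e2, add_sub_cancel_left,
      abs_of_pos hr0, ← mul_assoc, ← mul_pow, Real.log_mul (by (clear * - hD hr0; positivity)) (hjp _).ne',
      Real.log_pow]
  have e2 : (∫ s in (0 : ℝ)..Real.pi,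
      Real.log |((fun s t => c • A (s * k) (t * k)) s (s + c * r)).det|)
      = Real.pi * (N * Real.log (c * r)) + k⁻¹ * ∫ s in (0 : ℝ)..(2 * D), f s := by
    have hint : IntervalIntegrable (fun s => f (s * k)) volume 0 Real.pi := by
      have : Continuous fun s => f (s * k) := hfc.comp (continuous_id.mul continuous_const)
      exact this.intervalIntegrable _ _
    simp only [e1]
    rw [intervalIntegral.integral_add (by simp) hint,
      intervalIntegral.integral_comp_mul_right f hk0.ne', hπk, zero_mul,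
      intervalIntegral.integral_const, sub_zero, smul_eq_mul, smul_eq_mul]
  rw [e2] at key
  have hk1 : k⁻¹ = c := by
    rw [inv_eq_iff_eq_inv]
    exact eq_inv_of_mul_eq_one_right hck
  rw [hk1] at key
  have h5 : k * (Real.pi * (l * Real.log (Real.cos (c * r)) + N * Real.log (Real.sin (c * r)))) ≤
      k * (Real.pi * (N * Real.log (c * r)) + c * ∫ s in (0 : ℝ)..(2 * D), f s) :=
    mul_le_mul_of_nonneg_left key hk0.le
  have h6 : k * (Real.pi * (N * Real.log (c * r)) + c * ∫ s in (0 : ℝ)..(2 * D), f s)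
      = 2 * D * (N * Real.log (c * r)) + ∫ s in (0 : ℝ)..(2 * D), f s := by
    linear_combination (N * Real.log (c * r)) * hπk + (∫ s in (0 : ℝ)..(2 * D), f s) * hck
  have h7 : k * (Real.pi * (l * Real.log (Real.cos (c * r)) + N * Real.log (Real.sin (c * r))))
      = 2 * D * (l * Real.log (Real.cos (c * r)) + N * Real.log (Real.sin (c * r))) := by
    linear_combination (l * Real.log (Real.cos (c * r)) + N * Real.log (Real.sin (c * r))) * hπk
  rw [h6, h7] at h5
  linarith only [h5]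

/-- the norm of the differential of the exponential map in terms of the distance to the kernel
at distance `D` -/
theorem geoAvg_claim [CompactSpace M] [ConnectedSpace M] [IsRiemannianManifold 𝓘(ℝ, E) M]
    (F : Facts e) {D : ℝ} (hD : 0 < D) (hB : InjGE e D)
    (hcl : ∀ (x : M) (v : E), nm x v = 2 * D → e x v = x)
    {N : ℕ} (hN : finrank ℝ E = N + 1) {l : ℕ}
    (hl : ∀ (x : M) (v : E), nm x v = D → finrank ℝ (LinearMap.ker (dEl e x v)) ≤ l)
    (hj : ∀ (x : M) (v : E), 0 < nm x v → nm x v < D → jac e x v = mj D N l (nm x v))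
    (x : M) (u : E) (hu : nm x u = 1) :
    ∃ q : E → ℝ, ∀ w, ip x w u = 0 →
      (∀ z, ip x z u = 0 → jf e x u 0 D z = 0 → q w ≤ nm x (w - z) ^ 2) ∧
      (∃ z, ip x z u = 0 ∧ jf e x u 0 D z = 0 ∧ q w = nm x (w - z) ^ 2) ∧
      ∀ r ∈ Ioo 0 D, (Real.pi / (2 * D) * nm (gam e x u r) (jf e x u 0 r w)) ^ 2 =
        Real.sin (Real.pi / (2 * D) * r) ^ 2 *
          (nm x w ^ 2 - Real.sin (Real.pi / (2 * D) * r) ^ 2 * (nm x w ^ 2 - q w)) := by
  obtain ⟨b, A, hJ, h1, h2, h3⟩ := exists_jdata F hD hB hcl hN x u hu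
  have hπ := Real.pi_pos
  have hJ' := hJ.scale
  set c := Real.pi / (2 * D) with hc
  set k := 2 * D / Real.pi with hk
  have hc0 : 0 < c := by positivity
  have hk0 : 0 < k := by positivity
  have hck : c * k = 1 := by rw [hc, hk]; field_simp
  have hkπ : Real.pi / 2 * k = D := by rw [hk]; field_simp
  have hker : ∀ s, finrank ℝ (LinearMap.ker
      ((fun s t => c • A (s * k) (t * k)) s (s + Real.pi / 2)).mulVecLin) ≤ l := by
    intro s
    show finrank ℝ (LinearMap.ker (c • A (s * k) ((s + Real.pi / 2) * k)).mulVecLin) ≤ l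
    rw [geoAvg_ker_smul _ hc0.ne', add_mul, hkπ]
    exact finrank_ker_le F hl hD x u hu h1 h3 (s * k)
  have hdet : ∀ s t, s < t → t < s + Real.pi / 2 →
      |((fun s t => c • A (s * k) (t * k)) s t).det| =
        Real.cos (t - s) ^ l * Real.sin (t - s) ^ Fintype.card (Fin N) := by
    intro s t hst hts
    show |(c • A (s * k) (t * k)).det| = _
    have e1 : t * k - s * k = (t - s) * k := by ring
    have h0 : 0 < (t - s) * k := mul_pos (by linarith only [hst]) hk0
    have hn : nm (gam e x u (s * k)) (((t - s) * k) • vel e x u (s * k)) = (t - s) * k := by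
      rw [nm_smul, nm_vel F, hu, mul_one, abs_of_pos h0]
    have hlt : (t - s) * k < D := by
      rw [← hkπ]; exact mul_lt_mul_of_pos_right (by linarith only [hts]) hk0
    rw [geoAvg_det_smul _ hc0.le, abs_det_jf F hN x u hu h1 h2 h3, e1, abs_of_pos h0,
      hj _ _ (by rw [hn]; exact h0) (by rw [hn]; exact hlt), hn, Fintype.card_fin]
    have e2 : Real.pi * ((t - s) * k) / (2 * D) = t - s := by
      have : Real.pi * ((t - s) * k) / (2 * D) = (t - s) * (c * k) := by rw [hc]; ring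
      rw [this, hck, mul_one]
    have e3 : t - s ≠ 0 := by linarith only [hst]
    unfold mj
    rw [e2, ← mul_assoc, ← mul_assoc, ← mul_pow, ← mul_pow]
    have e4 : c * ((t - s) * k) * (Real.sin (t - s) / (t - s)) = Real.sin (t - s) := by
      have : c * ((t - s) * k) = t - s := by rw [mul_left_comm, hck, mul_one]
      rw [this]; (clear * - e3; field_simp)
    rw [e4, mul_comm]
  obtain ⟨P, hP1, hP2, hP3, hP4⟩ := core_rigid hJ' hker hdet
  have hgam0 : gam e x u 0 = x := gam_zero F.isExp x u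
  have hvel0 : vel e x u 0 = u := vel_zero F.isExp x u
  have hb0 : ∀ i j, ip x (b 0 i) (b 0 j) = if i = j then 1 else 0 := by
    intro i j; have := h1 0 i j; rwa [hgam0] at this
  have hbu : ∀ i, ip x (b 0 i) u = 0 := by
    intro i; have := h2 0 i; rwa [hgam0, hvel0] at this
  -- coordinates
  set co : E → Fin N → ℝ := fun w i => ip x (b 0 i) w with hco
  have hexp : ∀ w, ip x w u = 0 → w = ∑ i, co w i • b 0 i := fun w hw =>
    geoAvg_frame hN x u hu (b 0) hb0 hbu w hw
  have hcomb : ∀ c : Fin N → ℝ, ip x (∑ i, c i • b 0 i) u = 0 := by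
    intro c
    rw [asm_ip_sum_left]
    refine Finset.sum_eq_zero fun i _ => ?_
    rw [asm_ip_smul_left, hbu, mul_zero]
  have hsubexp : ∀ c d : Fin N → ℝ, (∑ i, c i • b 0 i) - (∑ i, d i • b 0 i)
      = ∑ i, (c - d) i • b 0 i := by
    intro c d
    rw [← Finset.sum_sub_distrib]
    exact Finset.sum_congr rfl fun i _ => by rw [Pi.sub_apply, sub_smul]
  have hjfn : ∀ (t : ℝ) (c : Fin N → ℝ), nm (gam e x u t) (jf e x u 0 t (∑ i, c i • b 0 i)) ^ 2
      = (A 0 t *ᵥ c) ⬝ᵥ (A 0 t *ᵥ c) := by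
    intro t c
    rw [geoAvg_jf x u h3 0 t c]
    exact geoAvg_nm_sum _ _ (h1 t) _
  have hP3' : ∀ v, A 0 D *ᵥ v = 0 ↔ P *ᵥ v = v := by
    intro v
    rw [← hP3 v]
    show _ ↔ (c • A (0 * k) (Real.pi / 2 * k)) *ᵥ v = 0
    rw [hkπ, zero_mul, Matrix.smul_mulVec]
    exact (smul_eq_zero_iff_right hc0.ne').symm
  have hK : ∀ c : Fin N → ℝ, jf e x u 0 D (∑ i, c i • b 0 i) = 0 ↔ P *ᵥ c = c := by
    intro c
    rw [← hP3']
    constructor
    · intro h
      have h5 := hjfn D c
      rw [h] at h5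
      have h6 : nm (gam e x u D) (0 : E) = 0 := norm_zero (E := TangentSpace 𝓘(ℝ, E) (gam e x u D))
      rw [h6] at h5
      have h7 : (A 0 D *ᵥ c) ⬝ᵥ (A 0 D *ᵥ c) = 0 := by rw [← h5]; ring
      exact dotProduct_self_eq_zero.mp h7
    · intro h
      rw [geoAvg_jf x u h3 0 D c, h]
      simp only [Pi.zero_apply, zero_smul, Finset.sum_const_zero]
  refine ⟨fun w => (co w - P *ᵥ co w) ⬝ᵥ (co w - P *ᵥ co w), fun w hw => ⟨?_, ?_, ?_⟩⟩
  · intro z hz hz0
    have h5 := hexp z hz
    have h6 : P *ᵥ co z = co z := by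
      rw [h5] at hz0
      exact (hK _).mp hz0
    have h7 := geoAvg_proj_min P hP1 hP2 (co w) (co z) h6
    have h8 : w - z = ∑ i, (co w - co z) i • b 0 i := by
      rw [← hsubexp, ← hexp w hw, ← h5]
    rw [h8, geoAvg_nm_sum _ _ hb0]
    exact h7
  · refine ⟨∑ i, (P *ᵥ co w) i • b 0 i, hcomb _, ?_, ?_⟩
    · rw [hK, Matrix.mulVec_mulVec, hP2]
    · have h8 : w - ∑ i, (P *ᵥ co w) i • b 0 i = ∑ i, (co w - P *ᵥ co w) i • b 0 i := by
        rw [← hsubexp, ← hexp w hw]
      rw [h8, geoAvg_nm_sum _ _ hb0]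
  · intro r hr
    have hr0 := hr.1
    have hρ : c * r ∈ Ioo 0 (Real.pi / 2) := by
      refine ⟨by (clear * - hD hr0; positivity), ?_⟩
      have : c * r < c * D := mul_lt_mul_of_pos_left hr.2 hc0
      have e : c * D = Real.pi / 2 := by rw [hc]; field_simp
      linarith only [this, e]
    have h5 := hP4 (c * r) hρ
    have e1 : c * r * k = r := by rw [mul_right_comm, hck, one_mul]
    have h6 : Gm (fun s t => c • A (s * k) (t * k)) 0 (c * r) = (c ^ 2) • ((A 0 r)ᵀ * A 0 r) := by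
      show (c • A (0 * k) (c * r * k))ᵀ * (c • A (0 * k) (c * r * k)) = _
      rw [zero_mul, e1, Matrix.transpose_smul, Matrix.smul_mul, Matrix.mul_smul, smul_smul, pow_two]
    rw [h6] at h5
    have hnw : nm x w ^ 2 = co w ⬝ᵥ co w := by
      conv_lhs => rw [hexp w hw]
      exact geoAvg_nm_sum _ _ hb0 _
    have h7 := hjfn r (co w)
    rw [← hexp w hw] at h7
    have h8 : (A 0 r *ᵥ co w) ⬝ᵥ (A 0 r *ᵥ co w) = co w ⬝ᵥ (((A 0 r)ᵀ * A 0 r) *ᵥ co w) := by
      rw [← Matrix.mulVec_mulVec, Matrix.dotProduct_mulVec (co w), Matrix.vecMul_transpose]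
    have h9 : c ^ 2 * (co w ⬝ᵥ (((A 0 r)ᵀ * A 0 r) *ᵥ co w))
        = Real.sin (c * r) ^ 2 * (co w ⬝ᵥ co w
          - Real.sin (c * r) ^ 2 * (co w ⬝ᵥ (P *ᵥ co w))) := by
      have h10 := congrArg (fun B => co w ⬝ᵥ (B *ᵥ co w)) h5
      simp only [Matrix.smul_mulVec, dotProduct_smul, Matrix.sub_mulVec, Matrix.one_mulVec,
        dotProduct_sub, smul_eq_mul] at h10
      exact h10
    rw [mul_pow, h7, h8, h9, hnw, geoAvg_proj_quad P hP1 hP2]

theorem geoAvg_jf_zero (F : Facts e) (x : M) (u : E) (r : ℝ) (w : E) :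
    jf e x u 0 r w = r • dE e x (r • u) w := by
  unfold jf
  rw [gam_zero F.isExp, vel_zero F.isExp, sub_zero]

theorem geoAvg_split [CompactSpace M] (F : Facts e) (x : M) (u : E) (hu : nm x u = 1) {r : ℝ}
    (hr : 0 < r) (a : ℝ) (w : E) (hw : ip x w u = 0) :
    nm (gam e x u r) (dE e x (r • u) (a • u + w)) ^ 2 =
      a ^ 2 + nm (gam e x u r) (dE e x (r • u) w) ^ 2 := by
  have hg := gauss F x u hu 0 r w
  rw [gam_zero F.isExp, vel_zero F.isExp, hw, mul_zero, geoAvg_jf_zero F, asm_ip_smul_left] at hg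
  have hg' : ip (gam e x u r) (dE e x (r • u) w) (vel e x u r) = 0 :=
    (mul_eq_zero.mp hg).resolve_left hr.ne'
  have e1 : dE e x (r • u) (a • u + w) = a • vel e x u r + dE e x (r • u) w := by
    rw [dE_add, dE_smul]
    rfl
  have hv : nm (gam e x u r) (vel e x u r) = 1 := (nm_vel F x u r).trans hu
  rw [e1, ← ip_self, asm_ip_add_left, asm_ip_add_right, asm_ip_add_right, asm_ip_smul_left,
    asm_ip_smul_right, ip_self, hv, asm_ip_smul_left, asm_ip_smul_right,
    asm_ip_comm _ (vel e x u r), hg', ip_self]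
  ring

/-- the kernel at distance `D` is the same for `u` and `-u` -/
theorem geoAvg_ker_neg (F : Facts e) {D : ℝ} (hD : 0 < D)
    (hcl : ∀ (x : M) (v : E), nm x v = 2 * D → e x v = x) (x : M) (u : E) (hu : nm x u = 1)
    (z : E) (hz : ip x z u = 0) : jf e x u 0 D z = - jf e x (-u) 0 D z := by
  have hw : ip (gam e x u 0) z (vel e x u 0) = 0 := by
    rw [gam_zero F.isExp, vel_zero F.isExp]; exact hz
  have h := jf_per F hD hcl x u hu 0 (-D) z hw
  rw [show -D + 2 * D = D by ring] at h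
  rw [h, geoAvg_jf_zero F, geoAvg_jf_zero F, neg_smul]
  have : ((-D) • u : E) = D • (-u) := by rw [neg_smul, smul_neg]
  rw [this]

/-- rigidity along geodesics: equality in the Jacobian determines the metric -/
theorem geo_rigid [CompactSpace M] [ConnectedSpace M] [IsRiemannianManifold 𝓘(ℝ, E) M]
    (F : Facts e) {D : ℝ} (hD : 0 < D) (hB : InjGE e D)
    (hcl : ∀ (x : M) (v : E), nm x v = 2 * D → e x v = x)
    {N : ℕ} (hN : finrank ℝ E = N + 1) {l : ℕ}
    (hl : ∀ (x : M) (v : E), nm x v = D → finrank ℝ (LinearMap.ker (dEl e x v)) ≤ l)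
    (hj : ∀ (x : M) (v : E), 0 < nm x v → nm x v < D → jac e x v = mj D N l (nm x v))
    (x : M) (v : E) (hv : nm x v < D) (w : E) :
    nm (e x (-v)) (dE e x (-v) w) = nm (e x v) (dE e x v w) := by
  have hφ : ∀ z z' : E, z = z' → nm (e x z) (dE e x z w) = nm (e x z') (dE e x z' w) := by
    rintro z z' rfl
    rfl
  by_cases h0 : nm x v = 0
  · have hv0 : v = 0 := norm_eq_zero (E := TangentSpace 𝓘(ℝ, E) x) |>.mp h0
    exact hφ (-v) v (by rw [hv0, neg_zero])
  have hr0 : 0 < nm x v := lt_of_le_of_ne (nm_nonneg x v) (Ne.symm h0)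
  set r := nm x v with hr
  set u : E := r⁻¹ • v with hu_def
  have hu : nm x u = 1 := by
    rw [hu_def, nm_smul, abs_of_pos (inv_pos.mpr hr0), ← hr]
    exact inv_mul_cancel₀ h0
  have hv1 : v = r • u := by rw [hu_def, smul_smul, mul_inv_cancel₀ h0, one_smul]
  have hv2 : -v = r • (-u) := by rw [smul_neg, ← hv1]
  have hnu : nm x (-u) = 1 := by
    have := nm_smul x u (-1)
    rw [neg_one_smul, abs_neg, abs_one, one_mul] at this
    rw [this, hu]
  have hipn : ∀ z, ip x z (-u) = - ip x z u := fun z => by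
    have := asm_ip_smul_right x (-1) z u
    rwa [neg_one_smul, neg_one_mul] at this
  have hπ := Real.pi_pos
  set c := Real.pi / (2 * D) with hc
  have hc0 : 0 < c := by positivity
  obtain ⟨q, hq⟩ := geoAvg_claim F hD hB hcl hN hl hj x u hu
  obtain ⟨q', hq'⟩ := geoAvg_claim F hD hB hcl hN hl hj x (-u) hnu
  -- decomposition
  set a := ip x w u with ha
  set w' : E := w - a • u with hw'
  have hw'u : ip x w' u = 0 := by
    have e1 : w = w' + a • u := by rw [hw']; abel
    have e2 : ip x w u = ip x w' u + ip x (a • u) u := by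
      conv_lhs => rw [e1]
      exact asm_ip_add_left x w' (a • u) u
    rw [asm_ip_smul_left, ip_self, hu, ← ha] at e2
    linarith only [e2]
  have hw'nu : ip x w' (-u) = 0 := by rw [hipn, hw'u, neg_zero]
  obtain ⟨p1, ⟨z1, z1u, z1K, z1q⟩, p3⟩ := hq w' hw'u
  obtain ⟨p1', ⟨z2, z2u, z2K, z2q⟩, p3'⟩ := hq' w' hw'nu
  have z2u' : ip x z2 u = 0 := by
    have := z2u
    rw [hipn] at this
    linarith only [this]
  have hqq : q w' = q' w' := by
    apply le_antisymm
    · rw [z2q]
      apply p1 z2 z2u'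
      rw [geoAvg_ker_neg F hD hcl x u hu z2 z2u', z2K, neg_zero]
    · rw [z1q]
      apply p1' z1 (by rw [hipn, z1u, neg_zero])
      have := geoAvg_ker_neg F hD hcl x u hu z1 z1u
      rw [z1K] at this
      exact neg_eq_zero.mp this.symm
  have k1 := p3 r ⟨hr0, hv⟩
  have k2 := p3' r ⟨hr0, hv⟩
  rw [← hqq, ← k1, geoAvg_jf_zero F, geoAvg_jf_zero F, nm_smul, nm_smul, abs_of_pos hr0] at k2
  have k3 : nm (gam e x (-u) r) (dE e x (r • (-u)) w') ^ 2
      = nm (gam e x u r) (dE e x (r • u) w') ^ 2 := by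
    have hcr : (c * r) ^ 2 ≠ 0 := by positivity
    apply mul_left_cancel₀ hcr
    linear_combination k2
  have s1 := geoAvg_split F x u hu hr0 a w' hw'u
  have s2 := geoAvg_split F x (-u) hnu hr0 (-a) w' hw'nu
  have e1 : a • u + w' = w := by rw [hw']; abel
  have e2 : (-a) • (-u) + w' = w := by rw [smul_neg, neg_smul, neg_neg, e1]
  rw [e1] at s1
  rw [e2] at s2
  have hfin : nm (gam e x (-u) r) (dE e x (r • (-u)) w) ^ 2
      = nm (gam e x u r) (dE e x (r • u) w) ^ 2 := by
    rw [s1, s2, k3]; ring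
  have hfin2 : nm (gam e x (-u) r) (dE e x (r • (-u)) w)
      = nm (gam e x u r) (dE e x (r • u) w) :=
    (sq_eq_sq₀ (nm_nonneg _ _) (nm_nonneg _ _)).1 hfin
  exact ((hφ _ _ hv2).trans hfin2).trans (hφ _ _ hv1).symm

end

end Vale.Agent.P231
end
end
end

section

section

section

/-! P231 measure part, section MI: the averaged inequality, the volume bound and its equality
case. -/

set_option maxSynthPendingDepth 3
set_option linter.unusedSectionVars false

open Bundle Manifold Set Filter MeasureTheory Module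
open scoped ContDiff Manifold Topology ENNReal

namespace Vale.Agent.P231

noncomputable section

open Vale.Agent.P234

/-! ### the model Jacobian -/

theorem mj_pos {D : ℝ} (N l : ℕ) {r : ℝ} (h0 : 0 < r) (h1 : r < D) : 0 < mj D N l r := by
  have hD : 0 < D := h0.trans h1
  have e1 : 0 < Real.pi * r / (2 * D) := by positivity
  have e2 : Real.pi * r / (2 * D) < Real.pi / 2 := by
    rw [div_lt_div_iff₀ (by positivity) (by positivity)]
    nlinarith only [h1, Real.pi_pos]
  have e3 := Real.sin_pos_of_pos_of_lt_pi e1 (by linarith only [e1, e2])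
  have e4 := Real.cos_pos_of_mem_Ioo ⟨by linarith [Real.pi_pos], e2⟩
  unfold mj
  positivity

theorem continuousOn_mj {D : ℝ} (hD : 0 < D) (N l : ℕ) : ContinuousOn (mj D N l) (Ioi 0) := by
  unfold mj
  have h1 : Continuous fun r : ℝ => Real.pi * r / (2 * D) := by fun_prop
  refine ContinuousOn.mul (ContinuousOn.pow (ContinuousOn.div
    (Real.continuous_sin.comp h1).continuousOn h1.continuousOn ?_) N)
    ((Real.continuous_cos.comp h1).pow l).continuousOn
  intro r hr
  have : 0 < Real.pi * r / (2 * D) := by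
    have : 0 < r := hr
    positivity
  exact this.ne'

/-- the model density -/
def mdens (D : ℝ) (N l : ℕ) (r : ℝ) : ℝ :=
  (2 * D / Real.pi * Real.sin (Real.pi * r / (2 * D))) ^ N * Real.cos (Real.pi * r / (2 * D)) ^ l

theorem continuous_mdens (D : ℝ) (N l : ℕ) : Continuous (mdens D N l) := by
  unfold mdens; fun_prop

theorem pow_mul_mj {D : ℝ} (hD : 0 < D) (N l : ℕ) {r : ℝ} (hr : 0 < r) :
    r ^ N * mj D N l r = mdens D N l r := by
  unfold mj mdens
  rw [← mul_assoc, ← mul_pow]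
  congr 2
  have := Real.pi_pos.ne'
  field_simp

/-- integral of the cut off model Jacobian -/
theorem integral_cut_mj {n N l : ℕ} (hn : n = N + 1) {D : ℝ} (hD : 0 < D) (k : ℕ) :
    ∫ ξ : EuclideanSpace ℝ (Fin n), cutk D k ‖ξ‖ * mj D N l ‖ξ‖ =
      (N + 1) * (volume (Metric.ball (0 : EuclideanSpace ℝ (Fin (N + 1))) 1)).toReal *
        ∫ r in (0 : ℝ)..D, cutk D k r * mdens D N l r := by
  have h1 := integral_radial hn hD (φ := fun r => cutk D k r * mj D N l r) (fun r hr => by
    by_cases h : cutk D k r = 0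
    · simp [h]
    · have := (cutk_supp h).2
      have h3 : (0 : ℝ) < 1 / (k + 1) := by (clear * -; positivity)
      linarith only [hr, this, h3])
  rw [h1]
  congr 1
  refine intervalIntegral.integral_congr_ae (Eventually.of_forall fun r hr => ?_)
  rw [uIoc_of_le hD.le] at hr
  rw [← pow_mul_mj hD N l hr.1]
  ring

variable {E : Type*} [NormedAddCommGroup E] [NormedSpace ℝ E] [FiniteDimensional ℝ E]
  {M : Type*} [MetricSpace M] [ChartedSpace E M]
  [RiemannianBundle (fun x : M => TangentSpace 𝓘(ℝ, E) x)]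
  [IsManifold 𝓘(ℝ, E) ∞ M]
  [IsContMDiffRiemannianBundle 𝓘(ℝ, E) ∞ E (fun x : M => TangentSpace 𝓘(ℝ, E) x)]
  {e : ∀ x : M, TangentSpace 𝓘(ℝ, E) x → M}

theorem continuous_nmTB :
    Continuous fun p : TangentBundle 𝓘(ℝ, E) M => nm (E := E) p.proj p.snd :=
  continuous_norm_tangent

/-- a function vanishing for small and large vectors, continuous in between -/
theorem contTB_of_ioo {G : M → E → ℝ} {a b D : ℝ} (ha : 0 < a) (hb : b < D)
    (hz : ∀ x v, (nm x v < a ∨ b < nm x v) → G x v = 0)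
    (hc : ContinuousOn (fun p : TangentBundle 𝓘(ℝ, E) M => G p.proj p.snd)
      {p | 0 < nm (E := E) p.proj p.snd ∧ nm (E := E) p.proj p.snd < D}) : ContTB G := by
  unfold ContTB
  rw [continuous_iff_continuousAt]
  intro p
  have hn := (continuous_nmTB (E := E) (M := M))
  by_cases h1 : nm (E := E) p.proj p.snd < a
  · have hev : ∀ᶠ q : TangentBundle 𝓘(ℝ, E) M in 𝓝 p, G q.proj q.snd = 0 := by
      filter_upwards [hn.continuousAt.eventually (gt_mem_nhds h1)] with q hq
      exact hz _ _ (Or.inl hq)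
    exact (continuousAt_const (y := (0 : ℝ))).congr (hev.mono fun q hq => hq.symm)
  · by_cases h2 : b < nm (E := E) p.proj p.snd
    · have hev : ∀ᶠ q : TangentBundle 𝓘(ℝ, E) M in 𝓝 p, G q.proj q.snd = 0 := by
        filter_upwards [hn.continuousAt.eventually (lt_mem_nhds h2)] with q hq
        exact hz _ _ (Or.inr hq)
      exact (continuousAt_const (y := (0 : ℝ))).congr (hev.mono fun q hq => hq.symm)
    · have ho : IsOpen {p : TangentBundle 𝓘(ℝ, E) M |
          0 < nm (E := E) p.proj p.snd ∧ nm (E := E) p.proj p.snd < D} :=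
        (isOpen_lt continuous_const hn).inter (isOpen_lt hn continuous_const)
      exact hc.continuousAt (ho.mem_nhds ⟨by linarith, by linarith only [hb, h2]⟩)

/-! ### linearity and monotonicity of `liou` -/

theorem continuous_fint' [CompactSpace M] {G : M → E → ℝ} (hG : ContTB G) {b : ℝ}
    (hs : ∀ x v, b < nm x v → G x v = 0) : Continuous (fint G) := by
  have h := continuous_fint (P := Unit) (G := fun _ => G)
    (hG.comp continuous_snd) (b := b) (fun _ => hs)
  exact h.comp (Continuous.prodMk continuous_const continuous_id : Continuous fun x : M => ((), x))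

theorem integrable_fint [CompactSpace M] [MeasurableSpace M] [BorelSpace M]
    [IsFiniteMeasure (riemVol (finrank ℝ E) M)] {G : M → E → ℝ} (hG : ContTB G) {b : ℝ}
    (hs : ∀ x v, b < nm x v → G x v = 0) :
    Integrable (fint G) (riemVol (finrank ℝ E) M) :=
  (continuous_fint' hG hs).integrable_of_hasCompactSupport (HasCompactSupport.of_compactSpace _)

theorem liou_add [CompactSpace M] [MeasurableSpace M] [BorelSpace M]
    [IsFiniteMeasure (riemVol (finrank ℝ E) M)] {G H : M → E → ℝ} (hG : ContTB G)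
    (hH : ContTB H) {b : ℝ} (hs : ∀ x v, b < nm x v → G x v = 0)
    (hs' : ∀ x v, b < nm x v → H x v = 0) :
    liou (fun x v => G x v + H x v) = liou G + liou H := by
  unfold liou
  rw [← integral_add (integrable_fint hG hs) (integrable_fint hH hs')]
  refine integral_congr_ae (Eventually.of_forall fun x => ?_)
  exact integral_add (hG.integrable hs x) (hH.integrable hs' x)

theorem liou_mono [CompactSpace M] [MeasurableSpace M] [BorelSpace M]
    [IsFiniteMeasure (riemVol (finrank ℝ E) M)] {G H : M → E → ℝ} (hG : ContTB G)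
    (hH : ContTB H) {b : ℝ} (hs : ∀ x v, b < nm x v → G x v = 0)
    (hs' : ∀ x v, b < nm x v → H x v = 0) (hle : ∀ x v, G x v ≤ H x v) :
    liou G ≤ liou H := by
  unfold liou
  refine integral_mono (integrable_fint hG hs) (integrable_fint hH hs') fun x => ?_
  exact integral_mono (hG.integrable hs x) (hH.integrable hs' x) fun ξ => hle _ _

theorem contTB_logterm [CompactSpace M] [ConnectedSpace M] [IsRiemannianManifold 𝓘(ℝ, E) M]
    (F : Facts e) {D : ℝ} (hD : 0 < D) (hB : InjGE e D) {N l : ℕ}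
    {χ : ℝ → ℝ} (hχ : Continuous χ) {a b : ℝ} (ha : 0 < a) (hb : b < D)
    (hs : ∀ r, χ r ≠ 0 → a ≤ r ∧ r ≤ b) {Φ : ℝ → ℝ → ℝ}
    (hΦ : ContinuousOn (Function.uncurry Φ) (Ioi 0 ×ˢ Ioi 0)) :
    ContTB (fun (x : M) (v : E) => χ (nm x v) * Φ (jac e x v) (mj D N l (nm x v))) := by
  have hn := (continuous_nmTB (E := E) (M := M))
  refine contTB_of_ioo ha hb ?_ ?_
  · intro x v h
    have : χ (nm x v) = 0 := by
      by_contra hcon
      obtain ⟨h1, h2⟩ := hs _ hcon
      rcases h with h | h <;> linarith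
    rw [this, zero_mul]
  · refine ContinuousOn.mul (hχ.comp hn).continuousOn ?_
    have h2 : ContinuousOn (fun p : TangentBundle 𝓘(ℝ, E) M =>
        (jac e p.proj p.snd, mj D N l (nm (E := E) p.proj p.snd)))
        {p | 0 < nm (E := E) p.proj p.snd ∧ nm (E := E) p.proj p.snd < D} := by
      refine ContinuousOn.prodMk (contTB_jac F.isExp).continuousOn ?_
      exact (continuousOn_mj hD N l).comp hn.continuousOn fun p hp => hp.1
    exact hΦ.comp h2 fun p hp => ⟨jac_pos F hB hp.2, mj_pos N l hp.1 hp.2⟩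

/-- lower bound of `liou` from a pointwise lower bound on a ball bundle -/
theorem liou_lower [CompactSpace M] [MeasurableSpace M] [BorelSpace M]
    [IsFiniteMeasure (riemVol (finrank ℝ E) M)] {G : M → E → ℝ} (hG : ContTB G) {b : ℝ}
    (hs : ∀ x v, b < nm x v → G x v = 0) {c : ℝ} (hc : ∀ x v, -c ≤ G x v) :
    -(c * ((volume (Metric.closedBall (0 : Eu E) b)).toReal *
      (riemVol (finrank ℝ E) M univ).toReal)) ≤ liou G := by
  have hfin : volume (Metric.closedBall (0 : Eu E) b) ≠ ⊤ := measure_closedBall_lt_top.ne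
  have h1 : ∀ x : M, -(c * (volume (Metric.closedBall (0 : Eu E) b)).toReal) ≤ fint G x := by
    intro x
    have h2 : ∫ ξ : Eu E, (Metric.closedBall (0 : Eu E) b).indicator (fun _ => -c) ξ =
        -(c * (volume (Metric.closedBall (0 : Eu E) b)).toReal) := by
      rw [integral_indicator Metric.isClosed_closedBall.measurableSet, setIntegral_const,
        measureReal_def, smul_eq_mul]
      ring
    rw [← h2]
    refine integral_mono ?_ (hG.integrable hs x) fun ξ => ?_
    · exact (integrable_indicator_iff Metric.isClosed_closedBall.measurableSet).2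
        (integrableOn_const hfin)
    · by_cases hξ : ξ ∈ Metric.closedBall (0 : Eu E) b
      · simp only [indicator_of_mem hξ]
        exact hc _ _
      · simp only [indicator_of_notMem hξ]
        rw [mem_closedBall_zero_iff, not_le] at hξ
        rw [hs x _ (by rw [nm_fr]; exact hξ)]
  have h3 : ∫ _ : M, -(c * (volume (Metric.closedBall (0 : Eu E) b)).toReal)
      ∂(riemVol (finrank ℝ E) M) = -(c * ((volume (Metric.closedBall (0 : Eu E) b)).toReal *
      (riemVol (finrank ℝ E) M univ).toReal)) := by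
    rw [integral_const, measureReal_def, smul_eq_mul]
    ring
  rw [← h3]
  exact integral_mono (integrable_const _) (integrable_fint hG hs) h1

/-- fibrewise time integral of a continuous family -/
theorem contTB_interval {G : ℝ → M → E → ℝ}
    (hG : Continuous fun q : ℝ × TangentBundle 𝓘(ℝ, E) M => G q.1 q.2.proj q.2.snd) (T : ℝ) :
    ContTB (fun x v => ∫ s in (0 : ℝ)..T, G s x v) := by
  have h1 : Continuous (Function.uncurry fun (p : TangentBundle 𝓘(ℝ, E) M) (s : ℝ) =>
      G s p.proj p.snd) := hG.comp continuous_swap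
  exact intervalIntegral.continuous_parametric_intervalIntegral_of_continuous' h1 0 T

/-- the continuity of the logarithmic excess -/
theorem contTB_log [CompactSpace M] [ConnectedSpace M] [IsRiemannianManifold 𝓘(ℝ, E) M]
    (F : Facts e) {D : ℝ} (hD : 0 < D) (hB : InjGE e D) {N l : ℕ}
    {χ : ℝ → ℝ} (hχ : Continuous χ) {a b : ℝ} (ha : 0 < a) (hb : b < D)
    (hs : ∀ r, χ r ≠ 0 → a ≤ r ∧ r ≤ b) :
    ContTB (fun (x : M) (v : E) =>
      χ (nm x v) * (Real.log (jac e x v) - Real.log (mj D N l (nm x v)))) := by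
  have hΦ : ContinuousOn (Function.uncurry fun x y : ℝ => Real.log x - Real.log y)
      (Ioi 0 ×ˢ Ioi 0) := by
    refine ContinuousOn.sub (Real.continuousOn_log.comp continuousOn_fst ?_)
      (Real.continuousOn_log.comp continuousOn_snd ?_)
    · rintro ⟨x, y⟩ ⟨hx, hy⟩
      exact (show (0 : ℝ) < x from hx).ne'
    · rintro ⟨x, y⟩ ⟨hx, hy⟩
      exact (show (0 : ℝ) < y from hy).ne'
  exact contTB_logterm F hD hB hχ ha hb hs hΦ

/-- the time average of the logarithmic excess is bounded below -/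
theorem time_lower [CompactSpace M] [ConnectedSpace M] [IsRiemannianManifold 𝓘(ℝ, E) M]
    (F : Facts e) {D : ℝ} (hD : 0 < D) (hB : InjGE e D)
    (hcl : ∀ (x : M) (v : E), nm x v = 2 * D → e x v = x)
    {N : ℕ} (hN : finrank ℝ E = N + 1) {l : ℕ}
    (hl : ∀ (x : M) (v : E), nm x v = D → finrank ℝ (LinearMap.ker (dEl e x v)) ≤ l)
    {χ : ℝ → ℝ} (hχ0 : ∀ r, 0 ≤ χ r) {a b : ℝ} (ha : 0 < a) (hb : b < D)
    (hs : ∀ r, χ r ≠ 0 → a ≤ r ∧ r ≤ b) {g : M → E → ℝ}
    (hg : g = fun x v => χ (nm x v) * (Real.log (jac e x v) - Real.log (mj D N l (nm x v))))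
    (hgc : ContTB g) {C : ℝ} (hC : ∀ x v, |g x v| ≤ C) {T : ℝ} (hT : 0 < T) (x : M) (v : E) :
    -(2 * D * C / a) ≤ ∫ s in (0 : ℝ)..T, g (gam e x v s) (vel e x v s) := by
  have hC0 : 0 ≤ C := (abs_nonneg _).trans (hC x v)
  by_cases h0 : χ (nm x v) = 0
  · have h1 : ∀ s, g (gam e x v s) (vel e x v s) = 0 := by
      intro s
      simp only [hg, nm_vel F, h0, zero_mul]
    simp only [h1, intervalIntegral.integral_zero]
    have : 0 ≤ 2 * D * C / a := by (clear * - hD hC0 ha; positivity)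
    linarith only [this]
  · obtain ⟨har, hrb⟩ := hs _ h0
    set r : ℝ := nm x v with hr
    have hr0 : 0 < r := ha.trans_le har
    obtain ⟨u, hu, hvu⟩ : ∃ u : E, nm x u = 1 ∧ v = r • u := by
      refine ⟨r⁻¹ • v, ?_, ?_⟩
      · rw [nm_smul, ← hr, abs_of_pos (inv_pos.2 hr0), inv_mul_cancel₀ hr0.ne']
      · rw [smul_smul, mul_inv_cancel₀ hr0.ne', one_smul]
    set h : ℝ → ℝ := fun t => g (gam e x u t) (r • vel e x u t) with hh
    have hGh : ∀ s, g (gam e x v s) (vel e x v s) = h (r * s) := by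
      intro s
      simp only [hh]
      rw [hvu, gam_smul, vel_smul]
    have hcont : Continuous h := by
      have h1 : Continuous fun t : ℝ => ((r⁻¹ * t, (⟨x, v⟩ : TangentBundle 𝓘(ℝ, E) M)) :
          ℝ × TangentBundle 𝓘(ℝ, E) M) := by fun_prop
      have h2 := (hgc.comp (contMDiff_flow F).continuous).comp h1
      have h3 : h = fun t => g (gam e x v (r⁻¹ * t)) (vel e x v (r⁻¹ * t)) := by
        funext t
        rw [hGh, ← mul_assoc, mul_inv_cancel₀ hr0.ne', one_mul]
      rw [h3]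
      exact h2
    have hper : Function.Periodic h (2 * D) := by
      intro t
      simp only [hh]
      rw [gam_per F hD.le hcl x u hu, vel_per F hD.le hcl x u hu]
    have hnmr : ∀ t, nm (gam e x u t) (r • vel e x u t) = r := by
      intro t
      rw [nm_smul, nm_vel F, hu, mul_one, abs_of_pos hr0]
    have hform : ∀ t, h t = χ r * (Real.log (jac e (gam e x u t) (r • vel e x u t)) -
        Real.log (mj D N l r)) := by
      intro t
      simp only [hh, hg, hnmr]
    have hL : ∀ t, Real.log (jac e (gam e x u t) (r • vel e x u t)) =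
        h t / χ r + Real.log (mj D N l r) := by
      intro t
      rw [hform]
      field_simp
      ring
    have hLc : Continuous fun t => Real.log (jac e (gam e x u t) (r • vel e x u t)) := by
      simp only [hL]
      fun_prop
    have hint : 0 ≤ ∫ t in (0 : ℝ)..(2 * D), h t := by
      have h1 := geo_avg F hD hB hcl hN hl x u hu (r := r) ⟨hr0, hrb.trans_lt hb⟩
      simp only [hform]
      rw [intervalIntegral.integral_const_mul, intervalIntegral.integral_sub
        (hLc.intervalIntegrable _ _) intervalIntegrable_const,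
        intervalIntegral.integral_const, sub_zero, smul_eq_mul]
      exact mul_nonneg (hχ0 r) (by (clear χ hχ0 hs g hg hgc C hC T hT hC0 h0 hr hvu h hh hGh hcont hper hnmr hform hL hLc; linarith))
    have hlow := ineqAux_periodic hcont (P := 2 * D) (C := C) (by positivity) hper
      (fun t => hC _ _) hint (R := r * T) (by (clear * - hr0 hT; positivity))
    have hcomp : ∫ s in (0 : ℝ)..T, g (gam e x v s) (vel e x v s) =
        r⁻¹ * ∫ t in (0 : ℝ)..(r * T), h t := by
      simp only [hGh]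
      rw [intervalIntegral.integral_comp_mul_left h hr0.ne', mul_zero, smul_eq_mul]
    rw [hcomp]
    have h2 : r⁻¹ * (-(2 * D * C)) ≤ r⁻¹ * ∫ t in (0 : ℝ)..(r * T), h t :=
      mul_le_mul_of_nonneg_left hlow (inv_nonneg.2 hr0.le)
    refine le_trans ?_ h2
    have h3 : r⁻¹ ≤ a⁻¹ := inv_anti₀ ha har
    have h4 : 0 ≤ 2 * D * C := by (clear * - hD hC0; positivity)
    have h5 : r⁻¹ * (2 * D * C) ≤ a⁻¹ * (2 * D * C) := mul_le_mul_of_nonneg_right h3 h4
    rw [div_eq_mul_inv]
    linarith only [h5]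

/-! ### MI (file Meas/Ineq.lean) -/

/-- the continuous function `G` below has nonnegative integral -/
theorem liou_log_nonneg [CompactSpace M] [ConnectedSpace M] [IsRiemannianManifold 𝓘(ℝ, E) M]
    [MeasurableSpace M] [BorelSpace M]
    (F : Facts e) {D : ℝ} (hD : 0 < D) (hB : InjGE e D)
    (hcl : ∀ (x : M) (v : E), nm x v = 2 * D → e x v = x)
    {N : ℕ} (hN : finrank ℝ E = N + 1) {l : ℕ}
    (hl : ∀ (x : M) (v : E), nm x v = D → finrank ℝ (LinearMap.ker (dEl e x v)) ≤ l)
    {χ : ℝ → ℝ} (hχ : Continuous χ) (hχ0 : ∀ r, 0 ≤ χ r) {a b : ℝ} (ha : 0 < a) (hb : b < D)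
    (hs : ∀ r, χ r ≠ 0 → a ≤ r ∧ r ≤ b) :
    0 ≤ liou (fun (x : M) (v : E) =>
      χ (nm x v) * (Real.log (jac e x v) - Real.log (mj D N l (nm x v)))) := by
  have := riemVol_finite F hD hB
  have hgc := contTB_log F hD hB (N := N) (l := l) hχ ha hb hs
  set g : M → E → ℝ := fun x v =>
    χ (nm x v) * (Real.log (jac e x v) - Real.log (mj D N l (nm x v))) with hg
  have hχz : ∀ r, b < r → χ r = 0 := by
    intro r hr
    by_contra hcon
    have := (hs r hcon).2
    linarith only [hr, this]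
  have hgs : ∀ x v, b < nm x v → g x v = 0 := by
    intro x v h
    simp only [hg, hχz _ h, zero_mul]
  obtain ⟨C, hC⟩ := hgc.bdd hgs
  -- the flow
  have hGc : Continuous fun q : ℝ × TangentBundle 𝓘(ℝ, E) M =>
      (fun (s : ℝ) (x : M) (v : E) => g (gam e x v s) (vel e x v s)) q.1 q.2.proj q.2.snd :=
    hgc.comp (contMDiff_flow F).continuous
  have hGs : ∀ (p : ℝ) (x : M) (v : E), b < nm x v →
      (fun (s : ℝ) (x : M) (v : E) => g (gam e x v s) (vel e x v s)) p x v = 0 := by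
    intro p x v h
    exact hgs _ _ (by rw [nm_vel F]; exact h)
  have key : ∀ T : ℝ, 0 < T →
      T * liou g = liou (fun x v => ∫ s in (0 : ℝ)..T, g (gam e x v s) (vel e x v s)) := by
    intro T hT
    have h2 := liou_interval hGc hGs 0 T
    rw [← h2]
    have h1 : ∀ s ∈ uIcc 0 T, liou (fun (x : M) (v : E) => g (gam e x v s) (vel e x v s)) =
        liou g := fun s hs' => by
      rw [uIcc_of_le hT.le] at hs'
      exact liou_flow F hD hB hcl hgc hb hgs hs'.1
    rw [intervalIntegral.integral_congr h1, intervalIntegral.integral_const, sub_zero,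
      smul_eq_mul]
  -- conclusion
  set K : ℝ := 2 * D * C / a * ((volume (Metric.closedBall (0 : Eu E) b)).toReal *
    (riemVol (finrank ℝ E) M univ).toReal) with hK
  have hlow : ∀ T : ℝ, 0 < T → -K ≤ T * liou g := by
    intro T hT
    rw [key T hT]
    refine liou_lower (contTB_interval hGc T) (b := b) ?_
      (time_lower F hD hB hcl hN hl hχ0 ha hb hs hg hgc hC hT)
    intro x v hv
    have h3 : ∀ s, g (gam e x v s) (vel e x v s) = 0 := fun s => hGs s x v hv
    simp only [h3, intervalIntegral.integral_zero]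
  by_contra hneg
  rw [not_le] at hneg
  have hK0 : 0 ≤ K := by
    obtain ⟨x⟩ : Nonempty M := inferInstance
    have hC0 : 0 ≤ C := (abs_nonneg _).trans (hC x 0)
    rw [hK]
    (clear hcl hN hl hχ hχ0 hb hs hgc hg hχz hgs hGc hGs key K hK hlow hneg; positivity)
  have h1 := hlow ((K + 1) / (-liou g)) (div_pos (by (clear hcl hN hl hχ hχ0 hb hs hgc hg hχz hgs hGc hGs key hlow hneg; linarith)) (by (clear hcl hN hl hχ hχ0 a b ha hb hs hgc hg hχz hgs C hC hGc hGs key K hK hlow hK0; linarith)))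
  have h2 : (K + 1) / (-liou g) * liou g = -(K + 1) := by
    have : liou g ≠ 0 := hneg.ne
    rw [div_neg, neg_mul, div_mul_cancel₀ _ this]
  linarith

/-- the excess of the Jacobian over its linearised model -/
def exc (e : ∀ x : M, TangentSpace 𝓘(ℝ, E) x → M) (D : ℝ) (N l : ℕ) (x : M) (v : E) : ℝ :=
  jac e x v - mj D N l (nm x v) *
    (1 + (Real.log (jac e x v) - Real.log (mj D N l (nm x v))))

theorem exc_nonneg [CompactSpace M] [ConnectedSpace M] [IsRiemannianManifold 𝓘(ℝ, E) M]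
    (F : Facts e) {D : ℝ} (hB : InjGE e D) {N l : ℕ} {x : M} {v : E} (h0 : 0 < nm x v)
    (h1 : nm x v < D) : 0 ≤ exc e D N l x v := by
  have hj := jac_pos F hB h1
  have hm := mj_pos N l h0 h1
  have h2 := Real.log_le_sub_one_of_pos (div_pos hj hm)
  rw [Real.log_div hj.ne' hm.ne'] at h2
  have h3 : mj D N l (nm x v) * (1 + (Real.log (jac e x v) - Real.log (mj D N l (nm x v)))) ≤
      mj D N l (nm x v) * (jac e x v / mj D N l (nm x v)) :=
    mul_le_mul_of_nonneg_left (by linarith) hm.le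
  rw [mul_div_cancel₀ _ hm.ne'] at h3
  unfold exc
  (clear F hB h0 h1 hj hm h2; linarith)

theorem exc_pos [CompactSpace M] [ConnectedSpace M] [IsRiemannianManifold 𝓘(ℝ, E) M]
    (F : Facts e) {D : ℝ} (hB : InjGE e D) {N l : ℕ} {x : M} {v : E} (h0 : 0 < nm x v)
    (h1 : nm x v < D) (hne : jac e x v ≠ mj D N l (nm x v)) : 0 < exc e D N l x v := by
  have hj := jac_pos F hB h1
  have hm := mj_pos N l h0 h1
  have hq : jac e x v / mj D N l (nm x v) ≠ 1 := by
    rw [Ne, div_eq_one_iff_eq hm.ne']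
    exact hne
  have h2 := Real.log_lt_sub_one_of_pos (div_pos hj hm) hq
  rw [Real.log_div hj.ne' hm.ne'] at h2
  have h3 : mj D N l (nm x v) * (1 + (Real.log (jac e x v) - Real.log (mj D N l (nm x v)))) <
      mj D N l (nm x v) * (jac e x v / mj D N l (nm x v)) :=
    mul_lt_mul_of_pos_left (by linarith) hm
  rw [mul_div_cancel₀ _ hm.ne'] at h3
  unfold exc
  (clear F hB h0 h1 hne hj hm hq h2; linarith)

theorem cutk_vanish {D : ℝ} (k : ℕ) {r : ℝ} (h : D - 1 / ((k : ℝ) + 1) < r) :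
    cutk D k r = 0 := by
  by_contra hcon
  have := (cutk_supp hcon).2
  linarith

theorem cut_lt {D : ℝ} (k : ℕ) : D - 1 / ((k : ℝ) + 1) < D := by
  have : (0 : ℝ) < 1 / ((k : ℝ) + 1) := by positivity
  linarith

theorem contTB_cut_exc [CompactSpace M] [ConnectedSpace M] [IsRiemannianManifold 𝓘(ℝ, E) M]
    (F : Facts e) {D : ℝ} (hD : 0 < D) (hB : InjGE e D) (N l k : ℕ) :
    ContTB (fun (x : M) (v : E) => cutk D k (nm x v) * exc e D N l x v) := by
  have hΦ : ContinuousOn (Function.uncurry fun x y : ℝ =>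
      x - y * (1 + (Real.log x - Real.log y))) (Ioi 0 ×ˢ Ioi 0) := by
    have h1 : ContinuousOn (fun p : ℝ × ℝ => Real.log p.1) (Ioi 0 ×ˢ Ioi 0) :=
      Real.continuousOn_log.comp continuousOn_fst fun p hp => (show (0 : ℝ) < p.1 from hp.1).ne'
    have h2 : ContinuousOn (fun p : ℝ × ℝ => Real.log p.2) (Ioi 0 ×ˢ Ioi 0) :=
      Real.continuousOn_log.comp continuousOn_snd fun p hp => (show (0 : ℝ) < p.2 from hp.2).ne'
    exact continuousOn_fst.sub (continuousOn_snd.mul (continuousOn_const.add (h1.sub h2)))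
  exact contTB_logterm F hD hB (continuous_cutk D k)
    (a := 1 / ((k : ℝ) + 1)) (by positivity) (cut_lt k) (fun r hr => cutk_supp hr) hΦ

theorem contTB_cut_jac [CompactSpace M] [ConnectedSpace M] [IsRiemannianManifold 𝓘(ℝ, E) M]
    (F : Facts e) {D : ℝ} (hD : 0 < D) (hB : InjGE e D) (k : ℕ) :
    ContTB (fun (x : M) (v : E) => cutk D k (nm x v) * jac e x v) :=
  contTB_logterm F hD hB (N := 0) (l := 0) (continuous_cutk D k)
    (a := 1 / ((k : ℝ) + 1)) (by positivity) (cut_lt k) (fun r hr => cutk_supp hr)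
    (Φ := fun x _ => x) continuousOn_fst

theorem contTB_cut_mj [CompactSpace M] [ConnectedSpace M] [IsRiemannianManifold 𝓘(ℝ, E) M]
    (F : Facts e) {D : ℝ} (hD : 0 < D) (hB : InjGE e D) (N l k : ℕ) :
    ContTB (fun (x : M) (v : E) => cutk D k (nm x v) * mj D N l (nm x v)) :=
  contTB_logterm F hD hB (continuous_cutk D k)
    (a := 1 / ((k : ℝ) + 1)) (by (clear * -; positivity)) (cut_lt k) (fun r hr => cutk_supp hr)
    (Φ := fun _ y => y) continuousOn_snd

/-- the integral of the cut off Jacobian over a fibre is at most the volume -/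
theorem fint_cut_jac_le [CompactSpace M] [ConnectedSpace M] [IsRiemannianManifold 𝓘(ℝ, E) M]
    [MeasurableSpace M] [BorelSpace M]
    (F : Facts e) {D : ℝ} (hD : 0 < D) (hB : InjGE e D) (k : ℕ) (x : M) :
    fint (fun (x : M) (v : E) => cutk D k (nm x v) * jac e x v) x ≤
      (riemVol (finrank ℝ E) M univ).toReal := by
  have := riemVol_finite F hD hB
  have hc := contTB_cut_jac F hD hB k
  have hz : ∀ (x : M) (v : E), D - 1 / ((k : ℝ) + 1) < nm x v →
      cutk D k (nm x v) * jac e x v = 0 := fun x v h => by rw [cutk_vanish k h, zero_mul]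
  have hi := hc.integrable hz x
  have hj0 : ∀ v : E, 0 ≤ jac e x v := fun v => abs_nonneg _
  unfold fint
  rw [integral_eq_lintegral_of_nonneg_ae
    (Eventually.of_forall fun ξ => mul_nonneg (cutk_nonneg _ _ _) (hj0 _))
    hi.aestronglyMeasurable]
  refine ENNReal.toReal_mono (measure_ne_top _ _) ?_
  have h1 : ∫⁻ ξ : Eu E, ENNReal.ofReal (cutk D k (nm x (fr x ξ)) * jac e x (fr x ξ)) ≤
      ∫⁻ ξ in Metric.ball (0 : Eu E) D, ENNReal.ofReal (jac e x (fr x ξ)) := by
    rw [← lintegral_indicator Metric.isOpen_ball.measurableSet]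
    refine lintegral_mono fun ξ => ?_
    by_cases hξ : ξ ∈ Metric.ball (0 : Eu E) D
    · rw [indicator_of_mem hξ]
      exact ENNReal.ofReal_le_ofReal
        (mul_le_of_le_one_left (hj0 _) (cutk_le_one _ _ _))
    · rw [mem_ball_zero_iff, not_lt] at hξ
      have h2 : cutk D k (nm x (fr x ξ)) = 0 := by
        rw [nm_fr]
        exact cutk_vanish k ((cut_lt k).trans_le hξ)
      rw [h2, zero_mul, ENNReal.ofReal_zero]
      exact zero_le
  refine h1.trans ?_
  rw [← area F hD hB x Metric.isOpen_ball.measurableSet le_rfl]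
  exact measure_mono (subset_univ _)

/-- the main inequality, for a cutoff -/
theorem main_cut [CompactSpace M] [ConnectedSpace M] [IsRiemannianManifold 𝓘(ℝ, E) M]
    [MeasurableSpace M] [BorelSpace M]
    (F : Facts e) {D : ℝ} (hD : 0 < D) (hB : InjGE e D)
    (hcl : ∀ (x : M) (v : E), nm x v = 2 * D → e x v = x)
    {N : ℕ} (hN : finrank ℝ E = N + 1) {l : ℕ}
    (hl : ∀ (x : M) (v : E), nm x v = D → finrank ℝ (LinearMap.ker (dEl e x v)) ≤ l) (k : ℕ) :
    liou (fun (x : M) (v : E) => cutk D k (nm x v) * exc e D N l x v) +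
      (riemVol (finrank ℝ E) M univ).toReal *
        ((N + 1) * (volume (Metric.ball (0 : EuclideanSpace ℝ (Fin (N + 1))) 1)).toReal *
        ∫ r in (0 : ℝ)..D, cutk D k r * mdens D N l r) ≤
    (riemVol (finrank ℝ E) M univ).toReal * (riemVol (finrank ℝ E) M univ).toReal := by
  have := riemVol_finite F hD hB
  have hzz : ∀ (Φ : M → E → ℝ) (x : M) (v : E), D - 1 / ((k : ℝ) + 1) < nm x v →
      cutk D k (nm x v) * Φ x v = 0 := fun Φ x v h => by rw [cutk_vanish k h, zero_mul]
  -- upper bound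
  have h1 : liou (fun (x : M) (v : E) => cutk D k (nm x v) * jac e x v) ≤
      (riemVol (finrank ℝ E) M univ).toReal * (riemVol (finrank ℝ E) M univ).toReal := by
    have h2 : ∫ _ : M, (riemVol (finrank ℝ E) M univ).toReal ∂(riemVol (finrank ℝ E) M) =
        (riemVol (finrank ℝ E) M univ).toReal * (riemVol (finrank ℝ E) M univ).toReal := by
      rw [integral_const, measureReal_def, smul_eq_mul]
    rw [← h2]
    exact integral_mono (integrable_fint (contTB_cut_jac F hD hB k) (hzz _)) (integrable_const _)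
      (fint_cut_jac_le F hD hB k)
  -- the model term
  have h3 : liou (fun (x : M) (v : E) => cutk D k (nm x v) * mj D N l (nm x v)) =
      (riemVol (finrank ℝ E) M univ).toReal *
        ((N + 1) * (volume (Metric.ball (0 : EuclideanSpace ℝ (Fin (N + 1))) 1)).toReal *
        ∫ r in (0 : ℝ)..D, cutk D k r * mdens D N l r) := by
    have h4 : ∀ x : M, fint (fun (x : M) (v : E) => cutk D k (nm x v) * mj D N l (nm x v)) x =
        (N + 1) * (volume (Metric.ball (0 : EuclideanSpace ℝ (Fin (N + 1))) 1)).toReal *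
        ∫ r in (0 : ℝ)..D, cutk D k r * mdens D N l r := by
      intro x
      rw [← integral_cut_mj hN hD k]
      unfold fint
      simp only [nm_fr]
    unfold liou
    simp only [h4]
    rw [integral_const, measureReal_def, smul_eq_mul]
  -- the logarithmic term
  have hψ : Continuous fun r => cutk D k r * mj D N l r := by
    rw [continuous_iff_continuousAt]
    intro r
    by_cases hr : r < 1 / ((k : ℝ) + 1)
    · have hev : ∀ᶠ q in 𝓝 r, cutk D k q * mj D N l q = 0 := by
        filter_upwards [gt_mem_nhds hr] with q hq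
        have : cutk D k q = 0 := by
          by_contra hcon
          have := (cutk_supp hcon).1
          linarith only [hq, this]
        rw [this, zero_mul]
      exact (continuousAt_const (y := (0 : ℝ))).congr (hev.mono fun q hq => hq.symm)
    · have hr0 : 0 < r := lt_of_lt_of_le (by (clear * -; positivity)) (not_lt.1 hr)
      exact (continuous_cutk D k).continuousAt.mul
        ((continuousOn_mj hD N l).continuousAt (Ioi_mem_nhds hr0))
  have hψ0 : ∀ r, 0 ≤ cutk D k r * mj D N l r := by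
    intro r
    by_cases h : cutk D k r = 0
    · rw [h, zero_mul]
    · have h5 := cutk_supp h
      have h6 : (0 : ℝ) < 1 / (k + 1) := by (clear * -; positivity)
      exact mul_nonneg (cutk_nonneg _ _ _) (mj_pos N l (by linarith only [h5, h6]) (by linarith only [h5, h6])).le
  have hψs : ∀ r, cutk D k r * mj D N l r ≠ 0 →
      1 / ((k : ℝ) + 1) ≤ r ∧ r ≤ D - 1 / ((k : ℝ) + 1) := fun r hr =>
    cutk_supp (left_ne_zero_of_mul hr)
  have h7 := liou_log_nonneg F hD hB hcl hN hl hψ hψ0 (by positivity) (cut_lt k) hψs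
  have h7c := contTB_log F hD hB (N := N) (l := l) hψ (by positivity) (cut_lt k) hψs
  -- assemble
  have h8 : liou (fun (x : M) (v : E) => cutk D k (nm x v) * jac e x v) =
      liou (fun (x : M) (v : E) => cutk D k (nm x v) * exc e D N l x v) +
      liou (fun (x : M) (v : E) => cutk D k (nm x v) * mj D N l (nm x v)) +
      liou (fun (x : M) (v : E) => cutk D k (nm x v) * mj D N l (nm x v) *
        (Real.log (jac e x v) - Real.log (mj D N l (nm x v)))) := by
    have hz3 : ∀ (x : M) (v : E), D - 1 / ((k : ℝ) + 1) < nm x v →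
        cutk D k (nm x v) * mj D N l (nm x v) *
        (Real.log (jac e x v) - Real.log (mj D N l (nm x v))) = 0 := fun x v h => by
      rw [cutk_vanish k h, zero_mul, zero_mul]
    rw [← liou_add (contTB_cut_exc F hD hB N l k) (contTB_cut_mj F hD hB N l k) (hzz _) (hzz _),
      ← liou_add (b := D - 1 / ((k : ℝ) + 1)) ?_ h7c ?_ hz3]
    · congr 1
      funext x v
      unfold exc
      ring
    · exact (contTB_cut_exc F hD hB N l k).add (contTB_cut_mj F hD hB N l k)
    · intro x v h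
      rw [cutk_vanish k h, zero_mul, zero_mul, add_zero]
  linarith

theorem tendsto_cut_mvol {D : ℝ} (hD : 0 < D) (N l : ℕ) :
    Tendsto (fun k : ℕ => (N + 1) *
      (volume (Metric.ball (0 : EuclideanSpace ℝ (Fin (N + 1))) 1)).toReal *
        ∫ r in (0 : ℝ)..D, cutk D k r * mdens D N l r) atTop (𝓝 (mvol D N l)) :=
  (cutk_tendsto_integral hD (continuous_mdens D N l)).const_mul _

theorem cut_exc_nonneg [CompactSpace M] [ConnectedSpace M] [IsRiemannianManifold 𝓘(ℝ, E) M]
    (F : Facts e) {D : ℝ} (hB : InjGE e D) (N l k : ℕ) (x : M) (v : E) :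
    0 ≤ cutk D k (nm x v) * exc e D N l x v := by
  by_cases h : cutk D k (nm x v) = 0
  · rw [h, zero_mul]
  · have h5 := cutk_supp h
    have h6 : (0 : ℝ) < 1 / (k + 1) := by positivity
    exact mul_nonneg (cutk_nonneg _ _ _) (exc_nonneg F hB (by linarith) (by linarith only [h5, h6]))

theorem riemVol_toReal_pos [CompactSpace M] [ConnectedSpace M]
    [IsRiemannianManifold 𝓘(ℝ, E) M] [MeasurableSpace M] [BorelSpace M]
    (F : Facts e) {D : ℝ} (hD : 0 < D) (hB : InjGE e D) :
    0 < (riemVol (finrank ℝ E) M univ).toReal := by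
  have := riemVol_finite F hD hB
  exact ENNReal.toReal_pos (riemVol_pos F hD hB isOpen_univ univ_nonempty).ne' (measure_ne_top _ _)

theorem mvol_le_toReal [CompactSpace M] [ConnectedSpace M] [IsRiemannianManifold 𝓘(ℝ, E) M]
    [MeasurableSpace M] [BorelSpace M]
    (F : Facts e) {D : ℝ} (hD : 0 < D) (hB : InjGE e D)
    (hcl : ∀ (x : M) (v : E), nm x v = 2 * D → e x v = x)
    {N : ℕ} (hN : finrank ℝ E = N + 1) {l : ℕ}
    (hl : ∀ (x : M) (v : E), nm x v = D → finrank ℝ (LinearMap.ker (dEl e x v)) ≤ l) :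
    mvol D N l ≤ (riemVol (finrank ℝ E) M univ).toReal := by
  have hV := riemVol_toReal_pos (M := M) F hD hB
  refine le_of_tendsto (tendsto_cut_mvol hD N l) (Eventually.of_forall fun k => ?_)
  have h1 := main_cut F hD hB hcl hN hl k
  have h2 : 0 ≤ liou (fun (x : M) (v : E) => cutk D k (nm x v) * exc e D N l x v) :=
    integral_nonneg fun x => integral_nonneg fun ξ => cut_exc_nonneg F hB N l k x _
  refine le_of_mul_le_mul_left ?_ hV
  linarith

theorem vol_ineq [CompactSpace M] [ConnectedSpace M] [IsRiemannianManifold 𝓘(ℝ, E) M]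
    [MeasurableSpace M] [BorelSpace M]
    (F : Facts e) {D : ℝ} (hD : 0 < D) (hB : InjGE e D)
    (hcl : ∀ (x : M) (v : E), nm x v = 2 * D → e x v = x)
    {N : ℕ} (hN : finrank ℝ E = N + 1) {l : ℕ}
    (hl : ∀ (x : M) (v : E), nm x v = D → finrank ℝ (LinearMap.ker (dEl e x v)) ≤ l) :
    ENNReal.ofReal (mvol D N l) ≤ riemVol (finrank ℝ E) M univ := by
  have := riemVol_finite F hD hB
  rw [ENNReal.ofReal_le_iff_le_toReal (measure_ne_top _ _)]
  exact mvol_le_toReal F hD hB hcl hN hl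

theorem vol_rigid [CompactSpace M] [ConnectedSpace M] [IsRiemannianManifold 𝓘(ℝ, E) M]
    [MeasurableSpace M] [BorelSpace M]
    (F : Facts e) {D : ℝ} (hD : 0 < D) (hB : InjGE e D)
    (hcl : ∀ (x : M) (v : E), nm x v = 2 * D → e x v = x)
    {N : ℕ} (hN : finrank ℝ E = N + 1) {l : ℕ}
    (hl : ∀ (x : M) (v : E), nm x v = D → finrank ℝ (LinearMap.ker (dEl e x v)) ≤ l)
    (hV : riemVol (finrank ℝ E) M univ ≤ ENNReal.ofReal (mvol D N l))
    (x : M) (v : E) (h0 : 0 < nm x v) (h1 : nm x v < D) : jac e x v = mj D N l (nm x v) := by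
  have := riemVol_finite F hD hB
  by_contra hne
  have hVpos := riemVol_toReal_pos (M := M) F hD hB
  have hVle : (riemVol (finrank ℝ E) M univ).toReal ≤ mvol D N l := by
    have h2 : 0 ≤ mvol D N l := by
      by_contra hcon
      rw [ENNReal.ofReal_of_nonpos (not_le.1 hcon).le] at hV
      have h3 : riemVol (finrank ℝ E) M univ = 0 := le_antisymm hV (zero_le)
      rw [h3] at hVpos
      simp at hVpos
    calc (riemVol (finrank ℝ E) M univ).toReal
        ≤ (ENNReal.ofReal (mvol D N l)).toReal := ENNReal.toReal_mono ENNReal.ofReal_ne_top hV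
      _ = mvol D N l := ENNReal.toReal_ofReal h2
  have hexc := exc_pos F hB h0 h1 hne
  obtain ⟨k, hk⟩ := (cutk_eventually h0 h1).exists
  -- the integral of the excess is positive
  have hcT := contTB_cut_exc F hD hB N l k
  have hz : ∀ (x : M) (v : E), D - 1 / ((k : ℝ) + 1) < nm x v →
      cutk D k (nm x v) * exc e D N l x v = 0 := fun x v h => by rw [cutk_vanish k h, zero_mul]
  have hfx : 0 < fint (fun (x : M) (v : E) => cutk D k (nm x v) * exc e D N l x v) x := by
    refine (integral_pos_iff_support_of_nonneg (fun ξ => cut_exc_nonneg F hB N l k x _)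
      (hcT.integrable hz x)).2 ?_
    have hopen : IsOpen (Function.support fun ξ : Eu E =>
        cutk D k (nm x (fr x ξ)) * exc e D N l x (fr x ξ)) := (hcT.cont_fr x).isOpen_support
    refine hopen.measure_pos _ ⟨(fr x).symm v, ?_⟩
    rw [Function.mem_support, ContinuousLinearEquiv.apply_symm_apply, hk, one_mul]
    exact hexc.ne'
  have hlp : 0 < liou (fun (x : M) (v : E) => cutk D k (nm x v) * exc e D N l x v) := by
    refine (integral_pos_iff_support_of_nonneg
      (fun y => integral_nonneg fun ξ => cut_exc_nonneg F hB N l k y _)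
      (integrable_fint hcT hz)).2 ?_
    exact riemVol_pos F hD hB (continuous_fint' hcT hz).isOpen_support ⟨x, hfx.ne'⟩
  set c := liou (fun (x : M) (v : E) => cutk D k (nm x v) * exc e D N l x v) with hc
  have hlim : c + (riemVol (finrank ℝ E) M univ).toReal * mvol D N l ≤
      (riemVol (finrank ℝ E) M univ).toReal * (riemVol (finrank ℝ E) M univ).toReal := by
    have ht := ((tendsto_cut_mvol hD N l).const_mul
      (riemVol (finrank ℝ E) M univ).toReal).const_add c
    refine le_of_tendsto ht ?_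
    filter_upwards [eventually_ge_atTop k] with m hm
    have h2 := main_cut F hD hB hcl hN hl m
    have hzm : ∀ (x : M) (v : E), D - 1 / ((m : ℝ) + 1) < nm x v →
        cutk D m (nm x v) * exc e D N l x v = 0 := fun x v h => by rw [cutk_vanish m h, zero_mul]
    have hkm : D - 1 / ((k : ℝ) + 1) ≤ D - 1 / ((m : ℝ) + 1) := by
      have : (1 : ℝ) / (m + 1) ≤ 1 / (k + 1) := by
        apply one_div_le_one_div_of_le (by (clear * -; positivity))
        have : (k : ℝ) ≤ m := by exact_mod_cast hm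
        linarith only [this]
      linarith only [this]
    have h3 : c ≤ liou (fun (x : M) (v : E) => cutk D m (nm x v) * exc e D N l x v) := by
      refine liou_mono hcT (contTB_cut_exc F hD hB N l m) (b := D - 1 / ((m : ℝ) + 1))
        (fun x v h => hz x v (hkm.trans_lt h)) hzm fun y w => ?_
      by_cases h : cutk D k (nm y w) = 0
      · rw [h, zero_mul]
        exact cut_exc_nonneg F hB N l m y w
      · have h5 := cutk_supp h
        have h6 : (0 : ℝ) < 1 / (k + 1) := by (clear * -; positivity)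
        exact mul_le_mul_of_nonneg_right (cutk_mono hm _)
          (exc_nonneg F hB (by linarith only [h5, h6]) (by linarith only [h5, h6]))
    (clear hV x v h0 h1 hne hVpos hVle hexc hk hfx hlp hc ht; linarith)
  (clear x v h0 h1 hne hexc hk hfx hc; nlinarith)

end

end Vale.Agent.P231
end
end
end

section

section

section

/-! P231, from rigidity to two-point homogeneity: definitions. -/

set_option maxSynthPendingDepth 3

open Bundle Manifold Set Filter MeasureTheory Module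
open scoped ContDiff Manifold Topology ENNReal

namespace Vale.Agent.P231

noncomputable section

open Vale.Agent.P234

/-! ### abstract algebraic data on a Euclidean space -/

section Abstract

variable {V : Type*} [NormedAddCommGroup V] [InnerProductSpace ℝ V]

/-- For unit `u`, `P u` is an orthogonal projection onto a subspace of the orthogonal complement
of `u`, and `‖w‖² + 3 ‖P u w‖²` (for `w` orthogonal to `u`) is the restriction of a 4-linear form
with the symmetries of a curvature tensor in normal coordinates. -/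
structure QData (P : V → V →ₗ[ℝ] V) (B : V →ₗ[ℝ] V →ₗ[ℝ] V →ₗ[ℝ] V →ₗ[ℝ] ℝ) : Prop where
  idem : ∀ u w, ‖u‖ = 1 → P u (P u w) = P u w
  symm : ∀ u a b, ‖u‖ = 1 → inner ℝ (P u a) b = inner ℝ a (P u b)
  perp : ∀ u w, ‖u‖ = 1 → inner ℝ (P u w) u = 0
  sym1 : ∀ a b c d, B a b c d = B b a c d
  sym2 : ∀ a b c d, B a b c d = B a b d c
  gauss : ∀ v b, B v v v b = 0
  val : ∀ u w, ‖u‖ = 1 → inner ℝ u w = 0 → B u u w w = ‖w‖ ^ 2 + 3 * ‖P u w‖ ^ 2

/-- the reflection `v ↦ -v + 2 (⟨u, v⟩ u + P u v)` -/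
def Srefl (P : V → V →ₗ[ℝ] V) (u : V) : V →ₗ[ℝ] V :=
  -LinearMap.id + (2 : ℝ) • (LinearMap.toSpanSingleton ℝ V u ∘ₗ innerₛₗ ℝ u + P u)

end Abstract

variable {E : Type*} [NormedAddCommGroup E] [NormedSpace ℝ E]
  {M : Type*} [MetricSpace M] [ChartedSpace E M]
  [RiemannianBundle (fun x : M => TangentSpace 𝓘(ℝ, E) x)]

/-- For unit `u ∈ T_x M`, `P u` is the orthogonal projection onto the kernel of the differential of
the exponential map at `D u`, it has rank `l`, and the metric in normal coordinates at `x` is given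
by the model formula. -/
structure PData (e : ∀ x : M, TangentSpace 𝓘(ℝ, E) x → M) (D : ℝ) (l : ℕ) (x : M)
    (P : E → E →ₗ[ℝ] E) : Prop where
  idem : ∀ u w : E, nm x u = 1 → P u (P u w) = P u w
  symm : ∀ u a b : E, nm x u = 1 → ip x (P u a) b = ip x a (P u b)
  perp : ∀ u w : E, nm x u = 1 → ip x (P u w) u = 0
  ker : ∀ u w : E, nm x u = 1 → (dE e x (D • u) w = 0 ↔ P u w = w)
  rank : ∀ u : E, nm x u = 1 → finrank ℝ (LinearMap.range (P u)) = l
  gram : ∀ u w : E, nm x u = 1 → ip x u w = 0 → ∀ r ∈ Ioo 0 D,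
    nm (e x (r • u : E)) (dE e x (r • u) w) ^ 2 =
      (Real.sin (Real.pi * r / (2 * D)) / (Real.pi * r / (2 * D))) ^ 2 *
        (nm x w ^ 2 - Real.sin (Real.pi * r / (2 * D)) ^ 2 * nm x (P u w) ^ 2)

variable [FiniteDimensional ℝ E]

/-- `P` in the orthonormal coordinates `fr x` -/
def trP (x : M) (P : E → E →ₗ[ℝ] E) (a : Eu E) : Eu E →ₗ[ℝ] Eu E :=
  (fr x : Eu E ≃L[ℝ] E).symm.toLinearEquiv.toLinearMap ∘ₗ P (fr x a) ∘ₗ
    (fr x : Eu E ≃L[ℝ] E).toLinearEquiv.toLinearMap

end

end Vale.Agent.P231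
end
end
end

section

section

section

/-! P231 homogeneity part, HA: the projections `P u` and the metric in normal coordinates. -/

set_option maxSynthPendingDepth 3

open Bundle Manifold Set Filter MeasureTheory Module
open scoped ContDiff Manifold Topology ENNReal Matrix

namespace Vale.Agent.P231

noncomputable section

open Vale.Agent.P234

/-- in the equality case the kernel has dimension exactly `l` -/
theorem gram_core_rank {ι : Type*} [Fintype ι] [DecidableEq ι] {A : ℝ → ℝ → Matrix ι ι ℝ}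
    (h : JData (Real.pi / 2) A) {l : ℕ}
    (hl : Module.finrank ℝ (LinearMap.ker (A 0 (Real.pi / 2)).mulVecLin) ≤ l)
    (hdet : ∀ s t, s < t → t < s + Real.pi / 2 →
      |(A s t).det| = Real.cos (t - s) ^ l * Real.sin (t - s) ^ Fintype.card ι) :
    Module.finrank ℝ (LinearMap.ker (A 0 (Real.pi / 2)).mulVecLin) = l := by
  refine le_antisymm hl ?_
  have hpi := Real.pi_pos
  obtain ⟨k, hk⟩ : ∃ k, Module.finrank ℝ (LinearMap.ker (A 0 (Real.pi / 2)).mulVecLin) = k :=
    ⟨_, rfl⟩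
  rw [hk]
  have hr : Real.pi / 4 ∈ Ioo 0 (Real.pi / 2) := ⟨by linarith only [hpi], by linarith only [hpi]⟩
  have h1 := core_ineq h hk.le hr
  have hcos : 0 < Real.cos (Real.pi / 4) := Real.cos_pos_of_mem_Ioo ⟨by linarith only [hpi], by linarith only [hpi]⟩
  have hsin : 0 < Real.sin (Real.pi / 4) := Real.sin_pos_of_pos_of_lt_pi (by linarith only [hpi]) (by linarith only [hpi])
  have h2 : ∫ s in (0 : ℝ)..Real.pi, Real.log |(A s (s + Real.pi / 4)).det| =
      ∫ s in (0 : ℝ)..Real.pi, (l * Real.log (Real.cos (Real.pi / 4)) +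
        Fintype.card ι * Real.log (Real.sin (Real.pi / 4))) := by
    refine intervalIntegral.integral_congr fun s _ => ?_
    show Real.log |(A s (s + Real.pi / 4)).det| = _
    rw [hdet s (s + Real.pi / 4) (by linarith only [hpi]) (by linarith only [hpi]), add_sub_cancel_left,
      Real.log_mul (by (clear * - hcos; positivity)) (by positivity), Real.log_pow, Real.log_pow]
  rw [h2, intervalIntegral.integral_const, sub_zero, smul_eq_mul] at h1
  have h3 : (k : ℝ) * Real.log (Real.cos (Real.pi / 4)) ≤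
      l * Real.log (Real.cos (Real.pi / 4)) := by
    have := le_of_mul_le_mul_left h1 hpi
    linarith only [this]
  have h4 : Real.log (Real.cos (Real.pi / 4)) < 0 := by
    refine Real.log_neg hcos ?_
    rw [Real.cos_pi_div_four]
    have : Real.sqrt 2 < 2 := by
      rw [Real.sqrt_lt' (by norm_num)]; norm_num
    linarith only [this]
  have h5 : (l : ℝ) ≤ k := by
    by_contra hcon
    push Not at hcon
    nlinarith only [h3, h4, hcon]
  exact_mod_cast h5

variable {E : Type*} [NormedAddCommGroup E] [NormedSpace ℝ E] [FiniteDimensional ℝ E]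
  {M : Type*} [MetricSpace M] [ChartedSpace E M]
  [RiemannianBundle (fun x : M => TangentSpace 𝓘(ℝ, E) x)]
  [IsManifold 𝓘(ℝ, E) ∞ M]
  [IsContMDiffRiemannianBundle 𝓘(ℝ, E) ∞ E (fun x : M => TangentSpace 𝓘(ℝ, E) x)]
  {e : ∀ x : M, TangentSpace 𝓘(ℝ, E) x → M}

/-- the metric in normal coordinates along one geodesic, in terms of a projection matrix -/
theorem gram_claim [CompactSpace M] [ConnectedSpace M] [IsRiemannianManifold 𝓘(ℝ, E) M]
    (F : Facts e) {D : ℝ} (hD : 0 < D) (hB : InjGE e D)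
    (hcl : ∀ (x : M) (v : E), nm x v = 2 * D → e x v = x)
    {N : ℕ} (hN : finrank ℝ E = N + 1) {l : ℕ}
    (hl : ∀ (x : M) (v : E), nm x v = D → finrank ℝ (LinearMap.ker (dEl e x v)) ≤ l)
    (hj : ∀ (x : M) (v : E), 0 < nm x v → nm x v < D → jac e x v = mj D N l (nm x v))
    (x : M) (u : E) (hu : nm x u = 1) :
    ∃ (β : Fin N → E) (P : Matrix (Fin N) (Fin N) ℝ),
      (∀ i j, ip x (β i) (β j) = if i = j then 1 else 0) ∧ (∀ i, ip x (β i) u = 0) ∧
      Pᵀ = P ∧ P * P = P ∧
      (∀ c : Fin N → ℝ, jf e x u 0 D (∑ i, c i • β i) = 0 ↔ P *ᵥ c = c) ∧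
      (∃ K : Submodule ℝ (Fin N → ℝ), finrank ℝ K = l ∧ ∀ c, c ∈ K ↔ P *ᵥ c = c) ∧
      ∀ r ∈ Ioo 0 D, ∀ c : Fin N → ℝ,
        (Real.pi / (2 * D) * nm (gam e x u r) (jf e x u 0 r (∑ i, c i • β i))) ^ 2 =
        Real.sin (Real.pi / (2 * D) * r) ^ 2 *
          (c ⬝ᵥ c - Real.sin (Real.pi / (2 * D) * r) ^ 2 * (c ⬝ᵥ (P *ᵥ c))) := by
  obtain ⟨b, A, hJ, h1, h2, h3⟩ := exists_jdata F hD hB hcl hN x u hu
  have hπ := Real.pi_pos
  have hJ' := hJ.scale
  set c := Real.pi / (2 * D) with hc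
  set k := 2 * D / Real.pi with hk
  have hc0 : 0 < c := by positivity
  have hk0 : 0 < k := by positivity
  have hck : c * k = 1 := by rw [hc, hk]; field_simp
  have hkπ : Real.pi / 2 * k = D := by rw [hk]; field_simp
  have hker : ∀ s, finrank ℝ (LinearMap.ker
      ((fun s t => c • A (s * k) (t * k)) s (s + Real.pi / 2)).mulVecLin) ≤ l := by
    intro s
    show finrank ℝ (LinearMap.ker (c • A (s * k) ((s + Real.pi / 2) * k)).mulVecLin) ≤ l
    rw [geoAvg_ker_smul _ hc0.ne', add_mul, hkπ]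
    exact finrank_ker_le F hl hD x u hu h1 h3 (s * k)
  have hdet : ∀ s t, s < t → t < s + Real.pi / 2 →
      |((fun s t => c • A (s * k) (t * k)) s t).det| =
        Real.cos (t - s) ^ l * Real.sin (t - s) ^ Fintype.card (Fin N) := by
    intro s t hst hts
    show |(c • A (s * k) (t * k)).det| = _
    have e1 : t * k - s * k = (t - s) * k := by ring
    have h0 : 0 < (t - s) * k := mul_pos (by linarith only [hst]) hk0
    have hn : nm (gam e x u (s * k)) (((t - s) * k) • vel e x u (s * k)) = (t - s) * k := by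
      rw [nm_smul, nm_vel F, hu, mul_one, abs_of_pos h0]
    have hlt : (t - s) * k < D := by
      rw [← hkπ]; exact mul_lt_mul_of_pos_right (by linarith only [hts]) hk0
    rw [geoAvg_det_smul _ hc0.le, abs_det_jf F hN x u hu h1 h2 h3, e1, abs_of_pos h0,
      hj _ _ (by rw [hn]; exact h0) (by rw [hn]; exact hlt), hn, Fintype.card_fin]
    have e2 : Real.pi * ((t - s) * k) / (2 * D) = t - s := by
      have : Real.pi * ((t - s) * k) / (2 * D) = (t - s) * (c * k) := by rw [hc]; ring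
      rw [this, hck, mul_one]
    have e3 : t - s ≠ 0 := by linarith only [hst]
    unfold mj
    rw [e2, ← mul_assoc, ← mul_assoc, ← mul_pow, ← mul_pow]
    have e4 : c * ((t - s) * k) * (Real.sin (t - s) / (t - s)) = Real.sin (t - s) := by
      have : c * ((t - s) * k) = t - s := by rw [mul_left_comm, hck, mul_one]
      rw [this]; (clear * - e3; field_simp)
    rw [e4, mul_comm]
  obtain ⟨P, hP1, hP2, hP3, hP4⟩ := core_rigid hJ' hker hdet
  have hrank := gram_core_rank hJ' (by have := hker 0; rwa [zero_add] at this) hdet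
  have hgam0 : gam e x u 0 = x := gam_zero F.isExp x u
  have hvel0 : vel e x u 0 = u := vel_zero F.isExp x u
  have hb0 : ∀ i j, ip x (b 0 i) (b 0 j) = if i = j then 1 else 0 := by
    intro i j; have := h1 0 i j; rwa [hgam0] at this
  have hbu : ∀ i, ip x (b 0 i) u = 0 := by
    intro i; have := h2 0 i; rwa [hgam0, hvel0] at this
  have hjfn : ∀ (t : ℝ) (c : Fin N → ℝ), nm (gam e x u t) (jf e x u 0 t (∑ i, c i • b 0 i)) ^ 2
      = (A 0 t *ᵥ c) ⬝ᵥ (A 0 t *ᵥ c) := by
    intro t c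
    rw [geoAvg_jf x u h3 0 t c]
    exact geoAvg_nm_sum _ _ (h1 t) _
  have hP3' : ∀ v, A 0 D *ᵥ v = 0 ↔ P *ᵥ v = v := by
    intro v
    rw [← hP3 v]
    show _ ↔ (c • A (0 * k) (Real.pi / 2 * k)) *ᵥ v = 0
    rw [hkπ, zero_mul, Matrix.smul_mulVec]
    exact (smul_eq_zero_iff_right hc0.ne').symm
  have hK : ∀ c : Fin N → ℝ, jf e x u 0 D (∑ i, c i • b 0 i) = 0 ↔ P *ᵥ c = c := by
    intro c
    rw [← hP3']
    constructor
    · intro h
      have h5 := hjfn D c
      rw [h] at h5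
      have h6 : nm (gam e x u D) (0 : E) = 0 := norm_zero (E := TangentSpace 𝓘(ℝ, E) (gam e x u D))
      rw [h6] at h5
      have h7 : (A 0 D *ᵥ c) ⬝ᵥ (A 0 D *ᵥ c) = 0 := by rw [← h5]; ring
      exact dotProduct_self_eq_zero.mp h7
    · intro h
      rw [geoAvg_jf x u h3 0 D c, h]
      simp only [Pi.zero_apply, zero_smul, Finset.sum_const_zero]
  refine ⟨b 0, P, hb0, hbu, hP1, hP2, hK, ⟨_, hrank, fun v => ?_⟩, ?_⟩
  · rw [LinearMap.mem_ker, Matrix.mulVecLin_apply]
    exact hP3 v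
  · intro r hr v
    have hr0 := hr.1
    have hρ : c * r ∈ Ioo 0 (Real.pi / 2) := by
      refine ⟨by (clear * - hD hr0; positivity), ?_⟩
      have : c * r < c * D := mul_lt_mul_of_pos_left hr.2 hc0
      have e : c * D = Real.pi / 2 := by rw [hc]; field_simp
      linarith only [this, e]
    have h5 := hP4 (c * r) hρ
    have e1 : c * r * k = r := by rw [mul_right_comm, hck, one_mul]
    have h6 : Gm (fun s t => c • A (s * k) (t * k)) 0 (c * r) = (c ^ 2) • ((A 0 r)ᵀ * A 0 r) := by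
      show (c • A (0 * k) (c * r * k))ᵀ * (c • A (0 * k) (c * r * k)) = _
      rw [zero_mul, e1, Matrix.transpose_smul, Matrix.smul_mul, Matrix.mul_smul, smul_smul, pow_two]
    rw [h6] at h5
    have h7 := hjfn r v
    have h8 : (A 0 r *ᵥ v) ⬝ᵥ (A 0 r *ᵥ v) = v ⬝ᵥ (((A 0 r)ᵀ * A 0 r) *ᵥ v) := by
      rw [← Matrix.mulVec_mulVec, Matrix.dotProduct_mulVec v, Matrix.vecMul_transpose]
    have h9 : c ^ 2 * (v ⬝ᵥ (((A 0 r)ᵀ * A 0 r) *ᵥ v))
        = Real.sin (c * r) ^ 2 * (v ⬝ᵥ v
          - Real.sin (c * r) ^ 2 * (v ⬝ᵥ (P *ᵥ v))) := by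
      have h10 := congrArg (fun B => v ⬝ᵥ (B *ᵥ v)) h5
      simp only [Matrix.smul_mulVec, dotProduct_smul, Matrix.sub_mulVec, Matrix.one_mulVec,
        dotProduct_sub, smul_eq_mul] at h10
      exact h10
    rw [mul_pow, h7, h8, h9]

/-- the linear map version at one unit vector -/
theorem gram_one [CompactSpace M] [ConnectedSpace M] [IsRiemannianManifold 𝓘(ℝ, E) M]
    (F : Facts e) {D : ℝ} (hD : 0 < D) (hB : InjGE e D)
    (hcl : ∀ (x : M) (v : E), nm x v = 2 * D → e x v = x)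
    {N : ℕ} (hN : finrank ℝ E = N + 1) {l : ℕ}
    (hl : ∀ (x : M) (v : E), nm x v = D → finrank ℝ (LinearMap.ker (dEl e x v)) ≤ l)
    (hj : ∀ (x : M) (v : E), 0 < nm x v → nm x v < D → jac e x v = mj D N l (nm x v))
    (x : M) (u : E) (hu : nm x u = 1) :
    ∃ P : E →ₗ[ℝ] E, (∀ w, P (P w) = P w) ∧ (∀ a b, ip x (P a) b = ip x a (P b)) ∧
      (∀ w, ip x (P w) u = 0) ∧ (∀ w, dE e x (D • u) w = 0 ↔ P w = w) ∧
      finrank ℝ (LinearMap.range P) = l ∧
      ∀ w, ip x u w = 0 → ∀ r ∈ Ioo 0 D,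
        nm (e x (r • u : E)) (dE e x (r • u) w) ^ 2 =
          (Real.sin (Real.pi * r / (2 * D)) / (Real.pi * r / (2 * D))) ^ 2 *
            (nm x w ^ 2 - Real.sin (Real.pi * r / (2 * D)) ^ 2 * nm x (P w) ^ 2) := by
  obtain ⟨β, Q, hβ, hβu, hQ1, hQ2, hK, ⟨K, hKr, hKm⟩, hG⟩ :=
    gram_claim F hD hB hcl hN hl hj x u hu
  let co : E →ₗ[ℝ] (Fin N → ℝ) :=
    { toFun := fun w i => ip x (β i) w
      map_add' := fun a b => by funext i; exact asm_ip_add_right x _ _ _
      map_smul' := fun r a => by funext i; exact asm_ip_smul_right x r _ _ }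
  let Φ : (Fin N → ℝ) →ₗ[ℝ] E := Fintype.linearCombination ℝ β
  have hΦ : ∀ c, Φ c = ∑ j, c j • β j := fun c => Fintype.linearCombination_apply ℝ β c
  have hcoΦ : ∀ c, co (Φ c) = c := by
    intro c
    funext i
    show ip x (β i) (Φ c) = c i
    rw [hΦ, asm_ip_sum_right]
    simp only [asm_ip_smul_right, hβ]
    simp only [mul_ite, mul_one, mul_zero, Finset.sum_ite_eq, Finset.mem_univ, ↓reduceIte]
  have hΦco : ∀ w, ip x w u = 0 → Φ (co w) = w := by
    intro w hw
    rw [hΦ]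
    exact (geoAvg_frame hN x u hu β hβ hβu w hw).symm
  have hΦu : ∀ c, ip x (Φ c) u = 0 := by
    intro c
    rw [hΦ, asm_ip_sum_left]
    refine Finset.sum_eq_zero fun i _ => ?_
    rw [asm_ip_smul_left, hβu, mul_zero]
  have hipΦ : ∀ c w, ip x (Φ c) w = c ⬝ᵥ co w := by
    intro c w
    rw [hΦ, asm_ip_sum_left]
    refine Finset.sum_congr rfl fun i _ => ?_
    rw [asm_ip_smul_left]
    rfl
  have hnmΦ : ∀ c, nm x (Φ c) ^ 2 = c ⬝ᵥ c := by
    intro c
    rw [← ip_self, hipΦ, hcoΦ]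
  have hQQ : ∀ c, Q *ᵥ (Q *ᵥ c) = Q *ᵥ c := fun c => by rw [Matrix.mulVec_mulVec, hQ2]
  have hQs : ∀ a b, (Q *ᵥ a) ⬝ᵥ b = a ⬝ᵥ (Q *ᵥ b) := fun a b => by
    rw [Matrix.dotProduct_mulVec, ← Matrix.mulVec_transpose, hQ1]
  have hinj : Function.Injective Φ := fun a b hab => by
    rw [← hcoΦ a, hab, hcoΦ]
  refine ⟨Φ ∘ₗ Q.mulVecLin ∘ₗ co, ?_, ?_, ?_, ?_, ?_, ?_⟩
  · intro w
    simp only [LinearMap.comp_apply, Matrix.mulVecLin_apply, hcoΦ, hQQ]
  · intro a b
    simp only [LinearMap.comp_apply, Matrix.mulVecLin_apply]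
    rw [hipΦ, asm_ip_comm x a, hipΦ, hQs, dotProduct_comm (Q *ᵥ co b)]
  · intro w
    exact hΦu _
  · intro w
    simp only [LinearMap.comp_apply, Matrix.mulVecLin_apply]
    constructor
    · intro hw
      set a := ip x w u with ha
      set w' : E := w - a • u with hw'
      have hw'u : ip x w' u = 0 := by
        have e1 : w = w' + a • u := by rw [hw']; abel
        have e2 : ip x w u = ip x w' u + ip x (a • u) u := by
          conv_lhs => rw [e1]
          exact asm_ip_add_left x w' (a • u) u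
        rw [asm_ip_smul_left, ip_self, hu, ← ha] at e2
        linarith only [e2]
      have s1 := geoAvg_split F x u hu hD a w' hw'u
      have e1 : a • u + w' = w := by rw [hw']; abel
      rw [e1, hw] at s1
      have h6 : nm (gam e x u D) (0 : E) = 0 :=
        norm_zero (E := TangentSpace 𝓘(ℝ, E) (gam e x u D))
      rw [h6] at s1
      have ha0 : a = 0 := by
        have := sq_nonneg (nm (gam e x u D) (dE e x (D • u) w'))
        have h7 : a ^ 2 = 0 := le_antisymm (by linarith only [s1, this]) (sq_nonneg a)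
        exact pow_eq_zero_iff (two_ne_zero) |>.1 h7
      have hwu : ip x w u = 0 := ha.symm.trans ha0
      have h8 := hΦco w hwu
      have h9 : jf e x u 0 D (∑ i, co w i • β i) = 0 := by
        rw [← hΦ, h8, geoAvg_jf_zero F, hw, smul_zero]
      rw [(hK _).1 h9, h8]
    · intro hw
      have h8 : co w = Q *ᵥ co w := by
        conv_lhs => rw [← hw, hcoΦ]
      have h9 := (hK (co w)).2 h8.symm
      rw [← hΦ] at h9
      have h10 : Φ (co w) = w := by
        rw [← hw, hcoΦ]
      rw [h10, geoAvg_jf_zero F] at h9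
      exact (smul_eq_zero.1 h9).resolve_left hD.ne'
  · have hr : LinearMap.range (Φ ∘ₗ Q.mulVecLin ∘ₗ co) = K.map Φ := by
      ext z
      rw [LinearMap.mem_range, Submodule.mem_map]
      constructor
      · rintro ⟨w, rfl⟩
        exact ⟨Q *ᵥ co w, (hKm _).2 (hQQ _), rfl⟩
      · rintro ⟨c, hc, rfl⟩
        refine ⟨Φ c, ?_⟩
        simp only [LinearMap.comp_apply, Matrix.mulVecLin_apply, hcoΦ]
        rw [(hKm c).1 hc]
    rw [hr, ← hKr]
    exact (LinearEquiv.finrank_eq (Submodule.equivMapOfInjective Φ hinj K)).symm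
  · intro w hw r hr
    have hwu : ip x w u = 0 := by rw [asm_ip_comm]; exact hw
    have h8 := hΦco w hwu
    have h9 := hG r hr (co w)
    rw [← hΦ, h8, geoAvg_jf_zero F, nm_smul, abs_of_pos hr.1] at h9
    have h10 : nm x w ^ 2 = co w ⬝ᵥ co w := by
      conv_lhs => rw [← h8]
      exact hnmΦ _
    have h11 : nm x ((Φ ∘ₗ Q.mulVecLin ∘ₗ co) w) ^ 2 = co w ⬝ᵥ (Q *ᵥ co w) := by
      simp only [LinearMap.comp_apply, Matrix.mulVecLin_apply]
      rw [hnmΦ, hQs, hQQ]
    rw [h10, h11]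
    have hπ := Real.pi_pos
    have e1 : Real.pi * r / (2 * D) = Real.pi / (2 * D) * r := by ring
    rw [e1]
    have hr0 := hr.1
    have hcr : (Real.pi / (2 * D) * r) ^ 2 ≠ 0 := by (clear * - hD hr0; positivity)
    have hcr' : Real.pi / (2 * D) * r ≠ 0 := by (clear * - hD hr0; positivity)
    apply mul_left_cancel₀ hcr
    have h12 : (Real.pi / (2 * D) * r) ^ 2 * ((Real.sin (Real.pi / (2 * D) * r) /
        (Real.pi / (2 * D) * r)) ^ 2) = Real.sin (Real.pi / (2 * D) * r) ^ 2 := by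
      rw [← mul_pow]
      congr 1
      (clear * - hD hr0; field_simp)
    rw [← mul_assoc, h12, ← h9]
    show (Real.pi / (2 * D) * r) ^ 2 * nm (gam e x u r) (dE e x (r • u) w) ^ 2 = _
    ring

theorem exists_PData [CompactSpace M] [ConnectedSpace M] [IsRiemannianManifold 𝓘(ℝ, E) M]
    (F : Facts e) {D : ℝ} (hD : 0 < D) (hB : InjGE e D)
    (hcl : ∀ (x : M) (v : E), nm x v = 2 * D → e x v = x)
    {N : ℕ} (hN : finrank ℝ E = N + 1) {l : ℕ}
    (hl : ∀ (x : M) (v : E), nm x v = D → finrank ℝ (LinearMap.ker (dEl e x v)) ≤ l)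
    (hj : ∀ (x : M) (v : E), 0 < nm x v → nm x v < D → jac e x v = mj D N l (nm x v))
    (x : M) : ∃ P : E → E →ₗ[ℝ] E, PData e D l x P := by
  classical
  have h := gram_one F hD hB hcl hN hl hj x
  refine ⟨fun u => if hu : nm x u = 1 then (h u hu).choose else 0, ?_⟩
  refine ⟨fun u w hu => ?_, fun u a b hu => ?_, fun u w hu => ?_, fun u w hu => ?_,
    fun u hu => ?_, fun u w hu hw r hr => ?_⟩
  · simp only [dif_pos hu]
    exact (h u hu).choose_spec.1 w
  · simp only [dif_pos hu]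
    exact (h u hu).choose_spec.2.1 a b
  · simp only [dif_pos hu]
    exact (h u hu).choose_spec.2.2.1 w
  · simp only [dif_pos hu]
    exact (h u hu).choose_spec.2.2.2.1 w
  · rw [dif_pos hu]
    exact (h u hu).choose_spec.2.2.2.2.1
  · simp only [dif_pos hu]
    exact (h u hu).choose_spec.2.2.2.2.2 w hw r hr

end

end Vale.Agent.P231
end
end
end

section

section

section

/-! P231, homogeneity part, file HC: pure linear algebra. -/

set_option maxSynthPendingDepth 3

open Bundle Manifold Set Filter MeasureTheory Module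
open scoped ContDiff Manifold Topology ENNReal

namespace Vale.Agent.P231

noncomputable section

open Vale.Agent.P234

section Abstract

variable {V : Type*} [NormedAddCommGroup V] [InnerProductSpace ℝ V]
  {P : V → V →ₗ[ℝ] V} {B : V →ₗ[ℝ] V →ₗ[ℝ] V →ₗ[ℝ] V →ₗ[ℝ] ℝ}

theorem Srefl_apply (P : V → V →ₗ[ℝ] V) (u v : V) :
    Srefl P u v = -v + (2 : ℝ) • (inner ℝ u v • u + P u v) := by
  simp only [Srefl, smul_add, LinearMap.add_apply, LinearMap.neg_apply, LinearMap.id_coe, id_eq, LinearMap.smul_apply, LinearMap.coe_comp, coe_innerₛₗ_apply, Function.comp_apply, LinearMap.toSpanSingleton_apply]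

theorem Alg_polar (h : QData P B) (v w b : V) : B w w v b + 2 * B v w w b = 0 := by
  have h1 := h.gauss (v + w) b
  have h2 := h.gauss (v - w) b
  have h3 := h.gauss v b
  have h4 := h.sym1 w v w b
  simp only [map_add, map_sub, LinearMap.add_apply, LinearMap.sub_apply] at h1 h2
  linarith

theorem Alg_three (h : QData P B) (v w : V) : B v w w w = 0 := by
  have h1 := Alg_polar h v w w
  have h2 := h.sym2 w w v w
  have h3 := h.gauss w v
  linarith

theorem Alg_mixed (h : QData P B) (v w : V) : B v w v w = -B v v w w / 2 := by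
  have h1 := Alg_polar h w v w
  have h2 := h.sym1 v w v w
  linarith

theorem QData.pair (h : QData P B) (v w : V) : B v v w w = B w w v v := by
  have h1 := Alg_polar h v w v
  have h2 := Alg_polar h w v w
  have h3 := h.sym1 v w w v
  have h4 := h.sym2 w v w v
  linarith

theorem QData.rot (h : QData P B) (u k : V) {c s : ℝ} (hcs : c ^ 2 + s ^ 2 = 1) :
    B (c • u + s • k) (c • u + s • k) (-s • u + c • k) (-s • u + c • k) = B u u k k := by
  have a1 := h.gauss u u
  have a2 := h.gauss k k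
  have a3 := h.gauss u k
  have a4 : B u u k u = 0 := by rw [h.sym2, a3]
  have a5 := h.gauss k u
  have a6 : B k k u k = 0 := by rw [h.sym2, a5]
  have a7 := Alg_three h u k
  have a8 : B k u k k = 0 := by rw [h.sym1, a7]
  have a9 := Alg_three h k u
  have a10 : B u k u u = 0 := by rw [h.sym1, a9]
  have b1 := Alg_mixed h u k
  have b2 : B u k k u = -B u u k k / 2 := by rw [h.sym2, b1]
  have b3 : B k u u k = -B u u k k / 2 := by rw [h.sym1, b1]
  have b4 : B k u k u = -B u u k k / 2 := by rw [h.sym1, b2]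
  have b5 := h.pair k u
  have e : B (c • u + s • k) (c • u + s • k) (-s • u + c • k) (-s • u + c • k) =
      (c ^ 2 + s ^ 2) ^ 2 * B u u k k := by
    simp only [map_add, map_smul, LinearMap.add_apply, LinearMap.smul_apply, smul_eq_mul]
    simp only [a1, a2, a3, a4, a5, a6, a7, a8, a9, a10, b1, b2, b3, b4, b5]
    ring
  rw [e, hcs]
  ring

theorem Alg_norm {u k : V} (hu : ‖u‖ = 1) (hk : ‖k‖ = 1)
    (huk : inner ℝ u k = 0) {c s : ℝ} (hcs : c ^ 2 + s ^ 2 = 1) :
    ‖c • u + s • k‖ = 1 := by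
  have huu : inner ℝ u u = (1 : ℝ) := by rw [real_inner_self_eq_norm_sq, hu]; norm_num
  have hkk : inner ℝ k k = (1 : ℝ) := by rw [real_inner_self_eq_norm_sq, hk]; norm_num
  have hku : inner ℝ k u = (0 : ℝ) := by rw [real_inner_comm]; exact huk
  have h : ‖c • u + s • k‖ ^ 2 = 1 := by
    rw [← real_inner_self_eq_norm_sq]
    simp only [inner_add_left, inner_add_right, inner_smul_left, inner_smul_right,
      huu, hkk, huk, hku, RCLike.conj_to_real]
    linear_combination hcs
  have h0 := norm_nonneg (c • u + s • k)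
  nlinarith only [h, h0]

theorem Alg_orth {u k : V} (hu : ‖u‖ = 1) (hk : ‖k‖ = 1)
    (huk : inner ℝ u k = 0) (c s : ℝ) :
    inner ℝ (c • u + s • k) (-s • u + c • k) = (0 : ℝ) := by
  have huu : inner ℝ u u = (1 : ℝ) := by rw [real_inner_self_eq_norm_sq, hu]; norm_num
  have hkk : inner ℝ k k = (1 : ℝ) := by rw [real_inner_self_eq_norm_sq, hk]; norm_num
  have hku : inner ℝ k u = (0 : ℝ) := by rw [real_inner_comm]; exact huk
  simp only [inner_add_left, inner_add_right, inner_smul_left, inner_smul_right,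
      huu, hkk, huk, hku, RCLike.conj_to_real]
  ring

theorem Alg_norm' {u k : V} (hu : ‖u‖ = 1) (hk : ‖k‖ = 1)
    (huk : inner ℝ u k = 0) {c s : ℝ} (hcs : c ^ 2 + s ^ 2 = 1) :
    ‖-s • u + c • k‖ = 1 :=
  Alg_norm hu hk huk (c := -s) (s := c) (by linarith [neg_sq s, hcs])

theorem Alg_proj (h : QData P B) {w : V} (hw : ‖w‖ = 1) (a : V) :
    inner ℝ (P w a) a = ‖P w a‖ ^ 2 := by
  rw [← real_inner_self_eq_norm_sq, ← h.idem w a hw, h.symm w (P w a) a hw, h.idem w a hw]

theorem QData.rot_one (h : QData P B) {u k : V} (hu : ‖u‖ = 1) (hk : ‖k‖ = 1)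
    (huk : inner ℝ u k = 0) (hP : P u k = k) {c s : ℝ} (hcs : c ^ 2 + s ^ 2 = 1) :
    P (c • u + s • k) (-s • u + c • k) = -s • u + c • k := by
  have hw := Alg_norm hu hk huk hcs
  have hw' := Alg_norm' hu hk huk hcs
  have ho := Alg_orth hu hk huk c s
  have h1 := h.val _ _ hw ho
  have h2 := h.val u k hu huk
  rw [h.rot u k hcs, h2, hP, hk, hw'] at h1
  have h3 := Alg_proj h hw (-s • u + c • k)
  have h4 : ‖P (c • u + s • k) (-s • u + c • k) - (-s • u + c • k)‖ ^ 2 = 0 := by
    rw [norm_sub_sq_real, h3, hw']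
    linarith only [h1]
  have h5 := pow_eq_zero_iff (two_ne_zero) |>.1 h4
  exact sub_eq_zero.1 (norm_eq_zero.1 h5)

theorem QData.rot_zero (h : QData P B) {u k : V} (hu : ‖u‖ = 1) (hk : ‖k‖ = 1)
    (huk : inner ℝ u k = 0) (hP : P u k = 0) {c s : ℝ} (hcs : c ^ 2 + s ^ 2 = 1) :
    P (c • u + s • k) (-s • u + c • k) = 0 := by
  have hw := Alg_norm hu hk huk hcs
  have hw' := Alg_norm' hu hk huk hcs
  have ho := Alg_orth hu hk huk c s
  have h1 := h.val _ _ hw ho
  have h2 := h.val u k hu huk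
  rw [h.rot u k hcs, h2, hP, hk, hw', norm_zero] at h1
  have h4 : ‖P (c • u + s • k) (-s • u + c • k)‖ ^ 2 = 0 := by linarith only [h1]
  exact norm_eq_zero.1 (pow_eq_zero_iff (two_ne_zero) |>.1 h4)

theorem Alg_P_self (h : QData P B) {w : V} (hw : ‖w‖ = 1) : P w w = 0 := by
  have h1 : inner ℝ (P w w) (P w w) = (0 : ℝ) := by
    rw [h.symm w w (P w w) hw, real_inner_comm, h.perp w _ hw]
  exact inner_self_eq_zero.1 h1

/-- the reflection rotates -/
theorem Alg_S (h : QData P B) {u z : V} (hu : ‖u‖ = 1) (hz : ‖z‖ = 1)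
    (huz : inner ℝ u z = 0) (hP : P u z = 0) {c s : ℝ} (hcs : c ^ 2 + s ^ 2 = 1) :
    Srefl P (c • u + s • z) u = (c ^ 2 - s ^ 2) • u + (2 * c * s) • z ∧
    Srefl P (c • u + s • z) z = (2 * c * s) • u + (s ^ 2 - c ^ 2) • z := by
  have hw := Alg_norm hu hz huz hcs
  have ho := Alg_orth hu hz huz c s
  have h0 := h.rot_zero hu hz huz hP hcs
  have h1 := Alg_P_self h hw
  have s1 : Srefl P (c • u + s • z) (c • u + s • z) = c • u + s • z := by
    rw [Srefl_apply, h1, real_inner_self_eq_norm_sq, hw]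
    rw [one_pow, one_smul, add_zero, two_smul]
    abel
  have s2 : Srefl P (c • u + s • z) (-s • u + c • z) = -(-s • u + c • z) := by
    rw [Srefl_apply, h0, ho]
    rw [zero_smul, add_zero, smul_zero, add_zero]
  have eu : u = c • (c • u + s • z) - s • (-s • u + c • z) := by
    have : c • (c • u + s • z) - s • (-s • u + c • z) = (c ^ 2 + s ^ 2) • u := by module
    rw [this, hcs, one_smul]
  have ez : z = s • (c • u + s • z) + c • (-s • u + c • z) := by
    have : s • (c • u + s • z) + c • (-s • u + c • z) = (c ^ 2 + s ^ 2) • z := by module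
    rw [this, hcs, one_smul]
  constructor
  · calc Srefl P (c • u + s • z) u
        = Srefl P (c • u + s • z) (c • (c • u + s • z) - s • (-s • u + c • z)) := by rw [← eu]
      _ = c • (c • u + s • z) - s • (-(-s • u + c • z)) := by
          rw [map_sub, map_smul, map_smul, s1, s2]
      _ = _ := by module
  · calc Srefl P (c • u + s • z) z
        = Srefl P (c • u + s • z) (s • (c • u + s • z) + c • (-s • u + c • z)) := by rw [← ez]
      _ = s • (c • u + s • z) + c • (-(-s • u + c • z)) := by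
          rw [map_add, map_smul, map_smul, s1, s2]
      _ = _ := by module

theorem Alg_swap (h : QData P B) {G : Set (V →ₗ[ℝ] V)} (hG : ∀ w, ‖w‖ = 1 → Srefl P w ∈ G)
    {u z : V} (hu : ‖u‖ = 1) (hz : ‖z‖ = 1)
    (huz : inner ℝ u z = 0) (hP : P u z = 0) : ∃ A ∈ G, A u = z ∧ A z = u := by
  have h2 : (Real.sqrt 2 / 2) ^ 2 = 1 / 2 := by
    rw [div_pow, Real.sq_sqrt (by norm_num)]; norm_num
  have hcs : (Real.sqrt 2 / 2) ^ 2 + (Real.sqrt 2 / 2) ^ 2 = 1 := by rw [h2]; norm_num
  obtain ⟨a, b⟩ := Alg_S h hu hz huz hP hcs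
  have h3 : 2 * (Real.sqrt 2 / 2) * (Real.sqrt 2 / 2) = 1 := by nlinarith only [h2]
  rw [sub_self, h3, zero_smul, one_smul] at a b
  rw [zero_add] at a
  rw [add_zero] at b
  exact ⟨_, hG _ (Alg_norm hu hz huz hcs), a, b⟩

theorem Alg_rotate (h : QData P B) {G : Set (V →ₗ[ℝ] V)} (hG : ∀ w, ‖w‖ = 1 → Srefl P w ∈ G)
    {u z : V} (hu : ‖u‖ = 1) (hz : ‖z‖ = 1)
    (huz : inner ℝ u z = 0) (hP : P u z = 0) {α β : ℝ} (hα : 0 ≤ α) (hβ : 0 ≤ β)
    (hαβ : α ^ 2 + β ^ 2 = 1) : ∃ A ∈ G, A u = α • u + β • z := by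
  have hα1 : α ≤ 1 := by nlinarith only [hαβ]
  set c := Real.sqrt ((1 + α) / 2) with hc
  set s := Real.sqrt ((1 - α) / 2) with hs
  have hc2 : c ^ 2 = (1 + α) / 2 := Real.sq_sqrt (by linarith only [hα])
  have hs2 : s ^ 2 = (1 - α) / 2 := Real.sq_sqrt (by linarith only [hα1])
  have hcs : c ^ 2 + s ^ 2 = 1 := by rw [hc2, hs2]; ring
  have hc0 : 0 ≤ c := Real.sqrt_nonneg _
  have hs0 : 0 ≤ s := Real.sqrt_nonneg _
  have h2 : 2 * c * s = β := by
    have h3 : (2 * c * s) ^ 2 = β ^ 2 := by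
      rw [mul_pow, mul_pow, hc2, hs2]
      linear_combination -hαβ
    exact (sq_eq_sq₀ (by (clear * - hα; positivity)) hβ).1 h3
  obtain ⟨a, b⟩ := Alg_S h hu hz huz hP hcs
  refine ⟨_, hG _ (Alg_norm hu hz huz hcs), ?_⟩
  rw [a, h2]
  congr 2
  rw [hc2, hs2]; ring

theorem QData.transitive (h : QData P B)
    (hV : ∀ u u' z : V, ‖u‖ = 1 → ‖u'‖ = 1 → u' = inner ℝ u u' • u + P u u' →
      inner ℝ u z = 0 → P u z = 0 → inner ℝ u' z = 0 ∧ P u' z = 0)
    (hz : ∀ u : V, ‖u‖ = 1 → ∃ z, ‖z‖ = 1 ∧ inner ℝ u z = 0 ∧ P u z = 0)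
    {G : Set (V →ₗ[ℝ] V)} (hG : ∀ w, ‖w‖ = 1 → Srefl P w ∈ G)
    (hG2 : ∀ A ∈ G, ∀ A' ∈ G, A ∘ₗ A' ∈ G) {u u' : V} (hu : ‖u‖ = 1) (hu' : ‖u'‖ = 1) :
    ∃ A ∈ G, A u = u' := by
  -- step (ii)
  have step2 : ∀ u₁ : V, ‖u₁‖ = 1 → u₁ = inner ℝ u u₁ • u + P u u₁ → ∃ A ∈ G, A u = u₁ := by
    intro u₁ hu₁ hmem
    obtain ⟨z, hz1, hz2, hz3⟩ := hz u hu
    obtain ⟨hz4, hz5⟩ := hV u u₁ z hu hu₁ hmem hz2 hz3
    obtain ⟨A, hA, hA1, _⟩ := Alg_swap h hG hu hz1 hz2 hz3
    obtain ⟨A', hA', _, hA2⟩ := Alg_swap h hG hu₁ hz1 hz4 hz5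
    exact ⟨A' ∘ₗ A, hG2 _ hA' _ hA, by rw [LinearMap.comp_apply, hA1, hA2]⟩
  set p : V := inner ℝ u u' • u + P u u' with hp
  set q : V := u' - p with hq
  have huu : inner ℝ u u = (1 : ℝ) := by rw [real_inner_self_eq_norm_sq, hu]; norm_num
  have hPu : P u u = 0 := Alg_P_self h hu
  have hPuu : inner ℝ u (P u u') = (0 : ℝ) := by rw [real_inner_comm]; exact h.perp u u' hu
  have hup : inner ℝ u p = inner ℝ u u' := by
    rw [hp, inner_add_right, inner_smul_right, huu, hPuu]; ring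
  have hPp : P u p = P u u' := by
    rw [hp, map_add, map_smul, hPu, smul_zero, zero_add, h.idem u u' hu]
  have hpV : p = inner ℝ u p • u + P u p := by rw [hup, hPp]
  have huq : inner ℝ u q = (0 : ℝ) := by rw [hq, inner_sub_right, hup, sub_self]
  have hPq : P u q = 0 := by rw [hq, map_sub, hPp, sub_self]
  have hpq : inner ℝ p q = (0 : ℝ) := by
    rw [hp, inner_add_left, real_inner_smul_left, huq, h.symm u u' q hu, hPq, inner_zero_right]
    ring
  have hu'pq : u' = p + q := by rw [hq]; abel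
  have hnorm : ‖p‖ ^ 2 + ‖q‖ ^ 2 = 1 := by
    have : ‖p + q‖ ^ 2 = 1 := by rw [← hu'pq, hu']; norm_num
    rw [norm_add_sq_real, hpq] at this
    linarith only [this]
  by_cases hq0 : q = 0
  · refine step2 u' hu' ?_
    have : u' = p := by rw [hu'pq, hq0, add_zero]
    exact this
  by_cases hp0 : p = 0
  · have hqu : q = u' := by rw [hq, hp0, sub_zero]
    rw [hqu] at huq hPq
    obtain ⟨A, hA, hA1, _⟩ := Alg_swap h hG hu hu' huq hPq
    exact ⟨A, hA, hA1⟩
  have hpn : ‖p‖ ≠ 0 := norm_ne_zero_iff.2 hp0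
  have hqn : ‖q‖ ≠ 0 := norm_ne_zero_iff.2 hq0
  set p₁ : V := ‖p‖⁻¹ • p with hp₁
  set q₁ : V := ‖q‖⁻¹ • q with hq₁
  have hp₁n : ‖p₁‖ = 1 := by
    rw [hp₁, norm_smul, norm_inv, norm_norm, inv_mul_cancel₀ hpn]
  have hq₁n : ‖q₁‖ = 1 := by
    rw [hq₁, norm_smul, norm_inv, norm_norm, inv_mul_cancel₀ hqn]
  have hp₁V : p₁ = inner ℝ u p₁ • u + P u p₁ := by
    rw [hp₁, inner_smul_right, map_smul, mul_smul, ← smul_add, ← hpV]
  obtain ⟨A, hA, hA1⟩ := step2 p₁ hp₁n hp₁V
  have hq1 : inner ℝ u q₁ = (0 : ℝ) := by rw [hq₁, inner_smul_right, huq, mul_zero]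
  have hq2 : P u q₁ = 0 := by rw [hq₁, map_smul, hPq, smul_zero]
  obtain ⟨hq3, hq4⟩ := hV u p₁ q₁ hu hp₁n hp₁V hq1 hq2
  obtain ⟨A', hA', hA2⟩ := Alg_rotate h hG hp₁n hq₁n hq3 hq4 (norm_nonneg p) (norm_nonneg q) hnorm
  refine ⟨A' ∘ₗ A, hG2 _ hA' _ hA, ?_⟩
  rw [LinearMap.comp_apply, hA1, hA2, hp₁, hq₁, smul_smul, smul_smul, mul_inv_cancel₀ hpn,
    mul_inv_cancel₀ hqn, one_smul, one_smul, ← hu'pq]

end Abstract

end

end Vale.Agent.P231
end
end
end

section

section

section

/-! P231 homogeneity part HB: second order Taylor expansion of the metric in normal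
coordinates. -/

set_option maxSynthPendingDepth 3
set_option linter.unusedSectionVars false

open Bundle Manifold Set Filter MeasureTheory Module
open scoped ContDiff Manifold Topology ENNReal

namespace Vale.Agent.P231

noncomputable section

open Vale.Agent.P234

/-! ### one variable calculus -/

theorem taylor_deriv2_zero {g : ℝ → ℝ} (hg : ContDiff ℝ 2 g) {K δ : ℝ} (hδ : 0 < δ)
    (h : ∀ r ∈ Ioo 0 δ, |g r| ≤ K * r ^ 3) : deriv (deriv g) 0 = 0 := by
  have hev : ∀ᶠ r in 𝓝[>] (0 : ℝ), r ∈ Ioo 0 δ := Ioo_mem_nhdsGT hδ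
  have hg1 : ContDiff ℝ 1 (deriv g) := by
    have := hg
    rw [show (2 : WithTop ℕ∞) = 1 + 1 by norm_num, contDiff_succ_iff_deriv] at this
    exact this.2.2
  have hd : ∀ r, HasDerivAt g (deriv g r) r := fun r =>
    (hg.differentiable (by norm_num) r).hasDerivAt
  have hd2 : ∀ r, HasDerivAt (deriv g) (deriv (deriv g) r) r := fun r =>
    (hg1.differentiable (by norm_num) r).hasDerivAt
  have hle : 𝓝[>] (0 : ℝ) ≤ 𝓝 0 := nhdsWithin_le_nhds
  -- `g 0 = 0`
  have t0 : Tendsto g (𝓝[>] 0) (𝓝 0) := by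
    rw [tendsto_zero_iff_abs_tendsto_zero]
    refine tendsto_of_tendsto_of_tendsto_of_le_of_le' tendsto_const_nhds
      (?_ : Tendsto (fun r : ℝ => K * r ^ 3) (𝓝[>] 0) (𝓝 0))
      (Eventually.of_forall fun r => abs_nonneg _) ?_
    · have : Tendsto (fun r : ℝ => K * r ^ 3) (𝓝 0) (𝓝 (K * 0 ^ 3)) :=
        (continuous_const.mul (continuous_id.pow 3)).tendsto 0
      simpa only [ne_eq, OfNat.ofNat_ne_zero, not_false_eq_true, zero_pow, mul_zero] using this.mono_left hle
    · filter_upwards [hev] with r hr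
      exact h r hr
  have g0 : g 0 = 0 :=
    tendsto_nhds_unique ((hg.continuous.tendsto 0).mono_left hle) t0
  -- `g' 0 = 0`
  have t1 : Tendsto (fun r => g r / r) (𝓝[>] 0) (𝓝 0) := by
    rw [tendsto_zero_iff_abs_tendsto_zero]
    refine tendsto_of_tendsto_of_tendsto_of_le_of_le' tendsto_const_nhds
      (?_ : Tendsto (fun r : ℝ => K * r ^ 2) (𝓝[>] 0) (𝓝 0))
      (Eventually.of_forall fun r => abs_nonneg _) ?_
    · have : Tendsto (fun r : ℝ => K * r ^ 2) (𝓝 0) (𝓝 (K * 0 ^ 2)) :=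
        (continuous_const.mul (continuous_id.pow 2)).tendsto 0
      simpa only [ne_eq, OfNat.ofNat_ne_zero, not_false_eq_true, zero_pow, mul_zero] using this.mono_left hle
    · filter_upwards [hev] with r hr
      have hr0 : 0 < r := hr.1
      show |g r / r| ≤ K * r ^ 2
      rw [abs_div, abs_of_pos hr0, div_le_iff₀ hr0]
      calc |g r| ≤ K * r ^ 3 := h r hr
        _ = K * r ^ 2 * r := by ring
  have g1 : deriv g 0 = 0 := by
    have h1 := (hasDerivAt_iff_tendsto_slope.1 (hd 0)).mono_left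
      (nhdsWithin_mono 0 (show Ioi (0 : ℝ) ⊆ {0}ᶜ from fun r hr => ne_of_gt hr))
    refine tendsto_nhds_unique h1 (t1.congr fun r => ?_)
    rw [slope_def_field, g0, sub_zero, sub_zero]
  -- `g'' 0 = 0`
  have t2 : Tendsto (fun r => g r / r ^ 2) (𝓝[>] 0) (𝓝 0) := by
    rw [tendsto_zero_iff_abs_tendsto_zero]
    refine tendsto_of_tendsto_of_tendsto_of_le_of_le' tendsto_const_nhds
      (?_ : Tendsto (fun r : ℝ => K * r) (𝓝[>] 0) (𝓝 0))
      (Eventually.of_forall fun r => abs_nonneg _) ?_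
    · have : Tendsto (fun r : ℝ => K * r) (𝓝 0) (𝓝 (K * 0)) :=
        (continuous_const.mul continuous_id).tendsto 0
      simpa using this.mono_left hle
    · filter_upwards [hev] with r hr
      have hr0 : 0 < r := hr.1
      show |g r / r ^ 2| ≤ K * r
      rw [abs_div, abs_of_pos (by (clear * - hr0; positivity) : (0:ℝ) < r ^ 2), div_le_iff₀ (by positivity)]
      calc |g r| ≤ K * r ^ 3 := h r hr
        _ = K * r * r ^ 2 := by ring
  have t3 : Tendsto (fun r => g r / r ^ 2) (𝓝[>] 0) (𝓝 (deriv (deriv g) 0 / 2)) := by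
    refine HasDerivAt.lhopital_zero_nhdsGT (f' := deriv g) (g' := fun r => 2 * r)
      (Eventually.of_forall hd) (Eventually.of_forall fun r => ?_) ?_ t0 ?_ ?_
    · simpa only [Nat.cast_ofNat, Nat.add_one_sub_one, pow_one] using hasDerivAt_pow 2 r
    · filter_upwards [hev] with r hr
      exact mul_ne_zero two_ne_zero hr.1.ne'
    · have : Tendsto (fun r : ℝ => r ^ 2) (𝓝 0) (𝓝 (0 ^ 2)) :=
        (continuous_id.pow 2).tendsto 0
      simpa only [ne_eq, OfNat.ofNat_ne_zero, not_false_eq_true, zero_pow] using this.mono_left hle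
    · have h1 := (hasDerivAt_iff_tendsto_slope.1 (hd2 0)).mono_left
        (nhdsWithin_mono 0 (show Ioi (0 : ℝ) ⊆ {0}ᶜ from fun r hr => ne_of_gt hr))
      refine (h1.div_const 2).congr fun r => ?_
      rw [slope_def_field, g1, sub_zero, sub_zero]
      (clear * -; field_simp)
  have := tendsto_nhds_unique t3 t2
  linarith only [this]

theorem taylor_sinc_bound {ρ : ℝ} (h0 : 0 < ρ) (h1 : ρ ≤ 1) (a b : ℝ) :
    |(Real.sin ρ / ρ) ^ 2 * (a - Real.sin ρ ^ 2 * b) - (a - ρ ^ 2 * (a / 3 + b))| ≤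
      (|a| + |b|) * ρ ^ 3 := by
  have hb := Real.sin_bound (x := ρ) (by rw [abs_of_pos h0]; exact h1)
  rw [abs_of_pos h0] at hb
  set s : ℝ := Real.sin ρ / ρ with hs
  have hsin : Real.sin ρ = s * ρ := by rw [hs, div_mul_cancel₀ _ h0.ne']
  have hε : |s - (1 - ρ ^ 2 / 6)| ≤ ρ ^ 3 * (5 / 96) := by
    have h2 : Real.sin ρ - (ρ - ρ ^ 3 / 6) = (s - (1 - ρ ^ 2 / 6)) * ρ := by rw [hsin]; ring
    rw [h2, abs_mul, abs_of_pos h0] at hb
    have h3 : |s - (1 - ρ ^ 2 / 6)| * ρ ≤ (ρ ^ 3 * (5 / 96)) * ρ := by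
      refine hb.trans ?_
      have h4 : ρ ^ 5 ≤ ρ ^ 4 := pow_le_pow_of_le_one h0.le h1 (by norm_num)
      have h5 : 0 ≤ ρ ^ 4 := by positivity
      nlinarith only [h4, h5]
    exact le_of_mul_le_mul_right h3 h0
  have hε' := abs_le.1 hε
  set ε := s - (1 - ρ ^ 2 / 6) with hεd
  have hse : s = 1 - ρ ^ 2 / 6 + ε := by rw [hεd]; ring
  have hρ2 : ρ ^ 2 ≤ 1 := by nlinarith only [h1, h0]
  have hρ3 : ρ ^ 3 ≤ ρ ^ 2 := by nlinarith only [h1]
  have hρ30 : 0 < ρ ^ 3 := by positivity
  have hρ4 : ρ ^ 4 ≤ ρ ^ 3 := by nlinarith only [h0, hρ3]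
  have hs0 : 0 ≤ s := by nlinarith only [hε', hεd, hρ2, hρ3]
  have hs1 : s ≤ 1 := by nlinarith only [hε', hεd, hρ3]
  have e1 : |s ^ 2 - (1 - ρ ^ 2 / 3)| ≤ ρ ^ 3 := by
    have h2 : s ^ 2 - (1 - ρ ^ 2 / 3) = ρ ^ 4 / 36 + 2 * ε * (1 - ρ ^ 2 / 6) + ε ^ 2 := by
      rw [hse]; ring
    have h3 : ε ^ 2 ≤ ρ ^ 3 / 10 := by
      have h4 : ε ^ 2 ≤ (ρ ^ 3 * (5 / 96)) ^ 2 := sq_le_sq' hε'.1 hε'.2
      have h5 : (ρ ^ 3) ^ 2 ≤ ρ ^ 3 := by nlinarith only [hρ4, hρ3]
      nlinarith only [h4, h5]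
    have h4 : |2 * ε * (1 - ρ ^ 2 / 6)| ≤ ρ ^ 3 * (10 / 96) := by
      rw [abs_mul, abs_mul, abs_two]
      have h5 : |1 - ρ ^ 2 / 6| ≤ 1 := by
        rw [abs_le]
        constructor <;> nlinarith only [hρ2]
      calc 2 * |ε| * |1 - ρ ^ 2 / 6| ≤ 2 * |ε| * 1 :=
            mul_le_mul_of_nonneg_left h5 (by (clear * -; positivity))
        _ ≤ ρ ^ 3 * (10 / 96) := by linarith only [hε]
    rw [h2]
    have h5 := abs_le.1 h4
    rw [abs_le]
    constructor
    · nlinarith only [h5]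
    · nlinarith only [hρ4, h3, h5]
  have e2 : |s ^ 4 - 1| ≤ ρ ^ 2 := by
    have h2 : 1 - s ≤ ρ ^ 2 * (1 / 6 + 5 / 96) := by nlinarith only [hε', hεd, hρ3]
    have h3 : 1 - s ^ 4 = (1 - s) * ((1 + s) * (1 + s ^ 2)) := by ring
    have h4 : (1 + s) * (1 + s ^ 2) ≤ 4 := by nlinarith only [hε', hεd, hρ3, hρ4]
    have h5 : 0 ≤ (1 + s) * (1 + s ^ 2) := by (clear * - hs0; positivity)
    rw [abs_le]
    constructor
    · nlinarith only [hε', hεd, hρ3, h4]
    · nlinarith only [pow_le_one₀ hs0 hs1 (n := 4)]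
  have h2 : s ^ 2 * (a - Real.sin ρ ^ 2 * b) - (a - ρ ^ 2 * (a / 3 + b)) =
      a * (s ^ 2 - (1 - ρ ^ 2 / 3)) - b * (ρ ^ 2 * (s ^ 4 - 1)) := by
    rw [hsin]; ring
  rw [h2]
  calc |a * (s ^ 2 - (1 - ρ ^ 2 / 3)) - b * (ρ ^ 2 * (s ^ 4 - 1))|
      ≤ |a * (s ^ 2 - (1 - ρ ^ 2 / 3))| + |b * (ρ ^ 2 * (s ^ 4 - 1))| := abs_sub _ _
    _ = |a| * |s ^ 2 - (1 - ρ ^ 2 / 3)| + |b| * (ρ ^ 2 * |s ^ 4 - 1|) := by
        rw [abs_mul, abs_mul, abs_mul, abs_of_nonneg (sq_nonneg ρ)]
    _ ≤ |a| * ρ ^ 3 + |b| * (ρ ^ 2 * ρ ^ 2) := by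
        (clear * - e1 e2 h0; gcongr)
    _ ≤ |a| * ρ ^ 3 + |b| * ρ ^ 3 := by
        gcongr
        calc ρ ^ 2 * ρ ^ 2 = ρ ^ 4 := by ring
          _ ≤ ρ ^ 3 := hρ4
    _ = (|a| + |b|) * ρ ^ 3 := by ring

theorem taylor_deriv2_line {V : Type*} [NormedAddCommGroup V] [NormedSpace ℝ V] {G : V → ℝ}
    (hG : ContDiff ℝ 2 G) (v : V) :
    deriv (deriv fun t : ℝ => G (t • v)) 0 = fderiv ℝ (fderiv ℝ G) 0 v v := by
  have hl : ∀ t : ℝ, HasDerivAt (fun t : ℝ => t • v) v t := fun t => by
    simpa using (hasDerivAt_id t).smul_const v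
  have h1 : (deriv fun t : ℝ => G (t • v)) = fun t => fderiv ℝ G (t • v) v := by
    funext t
    have := ((hG.differentiable (by norm_num)) (t • v)).hasFDerivAt
    exact (this.comp_hasDerivAt t (hl t)).deriv
  have hG1 : ContDiff ℝ 1 (fderiv ℝ G) := hG.fderiv_right (by norm_num)
  rw [h1]
  have h2 := ((hG1.differentiable (by norm_num)) ((0 : ℝ) • v)).hasFDerivAt
  have h3 := h2.comp_hasDerivAt (0 : ℝ) (hl 0)
  have h4 : HasDerivAt (fun t : ℝ => fderiv ℝ G (t • v) v)
      (fderiv ℝ (fderiv ℝ G) ((0 : ℝ) • v) v v) 0 := by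
    have := (ContinuousLinearMap.apply ℝ ℝ v).hasFDerivAt.comp_hasDerivAt (0 : ℝ) h3
    exact this
  rw [h4.deriv, zero_smul]

/-! ### the metric in normal coordinates -/

section

variable {E : Type*} [NormedAddCommGroup E] [NormedSpace ℝ E] [FiniteDimensional ℝ E]
  {M : Type*} [MetricSpace M] [ChartedSpace E M]
  [RiemannianBundle (fun x : M => TangentSpace 𝓘(ℝ, E) x)]
  [IsManifold 𝓘(ℝ, E) ∞ M]
  [IsContMDiffRiemannianBundle 𝓘(ℝ, E) ∞ E (fun x : M => TangentSpace 𝓘(ℝ, E) x)]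
  {e : ∀ x : M, TangentSpace 𝓘(ℝ, E) x → M}

theorem taylor_contMDiff_const {V : Type*} [NormedAddCommGroup V] [NormedSpace ℝ V] (a : V) :
    ContMDiff 𝓘(ℝ, V) 𝓘(ℝ, V).tangent ∞ (fun v : V => (⟨v, a⟩ : TangentBundle 𝓘(ℝ, V) V)) := by
  have h2 : ContDiff ℝ ∞ (fun _ : V => a) := contDiff_const
  exact contMDiff_vectorSpace_iff_contDiff.2 h2

theorem taylor_contMDiff_dE (he : IsExp e) (y : M) (a : TangentSpace 𝓘(ℝ, E) y) :
    ContMDiff 𝓘(ℝ, TangentSpace 𝓘(ℝ, E) y) 𝓘(ℝ, E).tangent ∞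
      (fun v : TangentSpace 𝓘(ℝ, E) y => tb (e y v) (dE (E := E) e y v a)) := by
  have h1 := taylor_contMDiff_const a
  have h2 : ContMDiff 𝓘(ℝ, TangentSpace 𝓘(ℝ, E) y).tangent 𝓘(ℝ, E).tangent ∞
      (tangentMap 𝓘(ℝ, TangentSpace 𝓘(ℝ, E) y) 𝓘(ℝ, E) (e y)) :=
    (contMDiff_exp_fiber he y).contMDiff_tangentMap (by simp)
  exact h2.comp h1

theorem taylor_ip_smooth (he : IsExp e) (y : M) (a b : TangentSpace 𝓘(ℝ, E) y) :
    ContDiff ℝ ∞ (fun v : TangentSpace 𝓘(ℝ, E) y =>
      ip (E := E) (e y v) (dE (E := E) e y v a) (dE (E := E) e y v b)) := by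
  have h := ContMDiff.inner_bundle (E := fun x : M => TangentSpace 𝓘(ℝ, E) x)
    (b := fun v : TangentSpace 𝓘(ℝ, E) y => e y v)
    (v := fun v : TangentSpace 𝓘(ℝ, E) y => dE (E := E) e y v a)
    (w := fun v : TangentSpace 𝓘(ℝ, E) y => dE (E := E) e y v b)
    (taylor_contMDiff_dE he y a) (taylor_contMDiff_dE he y b)
  exact h.contDiff

/-- `fr x` as a linear isometry -/
def frI (x : M) : Eu E →ₗᵢ[ℝ] TangentSpace 𝓘(ℝ, E) x where
  toFun := fun a => (fr x a : E)
  map_add' a b := (fr x).map_add a b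
  map_smul' c a := (fr x).map_smul c a
  norm_map' a := nm_fr x a

/-- metric coefficients in normal coordinates -/
def GG (e : ∀ x : M, TangentSpace 𝓘(ℝ, E) x → M) (x : M) (a b v : Eu E) : ℝ :=
  ip (e x (fr x v : E)) (dE e x (fr x v) (fr x a)) (dE e x (fr x v) (fr x b))

theorem contDiff_GG (he : IsExp e) (x : M) (a b : Eu E) : ContDiff ℝ ∞ (GG e x a b) :=
  (taylor_ip_smooth he x (fr x a : E) (fr x b : E)).comp (frI x).contDiff

theorem GG_comm (x : M) (a b : Eu E) : GG e x a b = GG e x b a := by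
  funext v
  exact asm_ip_comm _ _ _

theorem GG_add (x : M) (a a' b : Eu E) :
    GG e x (a + a') b = fun v => GG e x a b v + GG e x a' b v := by
  funext v
  unfold GG
  rw [map_add, dE_add, asm_ip_add_left]

theorem GG_smul (x : M) (c : ℝ) (a b : Eu E) :
    GG e x (c • a) b = fun v => c * GG e x a b v := by
  funext v
  unfold GG
  rw [map_smul, dE_smul, asm_ip_smul_left]

/-- second derivative at the origin -/
def QQ (e : ∀ x : M, TangentSpace 𝓘(ℝ, E) x → M) (x : M) (a b : Eu E) :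
    Eu E →L[ℝ] Eu E →L[ℝ] ℝ :=
  fderiv ℝ (fderiv ℝ (GG e x a b)) 0

theorem QQ_comm (x : M) (a b : Eu E) : QQ e x a b = QQ e x b a := by
  unfold QQ
  rw [GG_comm]

theorem QQ_add (he : IsExp e) (x : M) (a a' b : Eu E) :
    QQ e x (a + a') b = QQ e x a b + QQ e x a' b := by
  unfold QQ
  rw [GG_add]
  have hs := contDiff_GG he x a b
  have hs' := contDiff_GG he x a' b
  have h1 : fderiv ℝ (fun v => GG e x a b v + GG e x a' b v) =
      fun v => fderiv ℝ (GG e x a b) v + fderiv ℝ (GG e x a' b) v := by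
    funext v
    exact fderiv_fun_add (hs.differentiable (by simp) v) (hs'.differentiable (by simp) v)
  rw [h1]
  exact fderiv_fun_add (((hs.fderiv_right (m := ∞) (by simp)).differentiable (by simp)) 0)
    (((hs'.fderiv_right (m := ∞) (by simp)).differentiable (by simp)) 0)

theorem QQ_smul (he : IsExp e) (x : M) (c : ℝ) (a b : Eu E) :
    QQ e x (c • a) b = c • QQ e x a b := by
  unfold QQ
  rw [GG_smul]
  have hs := contDiff_GG he x a b
  have h1 : fderiv ℝ (fun v => c * GG e x a b v) = fun v => c • fderiv ℝ (GG e x a b) v := by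
    funext v
    exact fderiv_const_mul (hs.differentiable (by simp) v) c
  rw [h1]
  exact fderiv_fun_const_smul (((hs.fderiv_right (m := ∞) (by simp)).differentiable (by simp)) 0) c

theorem QQ_symm (he : IsExp e) (x : M) (a b v w : Eu E) :
    QQ e x a b v w = QQ e x a b w v := by
  have hs := contDiff_GG he x a b
  have h1 : IsSymmSndFDerivAt ℝ (GG e x a b) 0 :=
    (hs.contDiffAt).isSymmSndFDerivAt (by
      rw [minSmoothness_of_isRCLikeNormedField]
      exact ENat.LEInfty.out)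
  exact h1.eq v w

theorem QQ_line (he : IsExp e) (x : M) (a b v : Eu E) :
    QQ e x a b v v = deriv (deriv fun t : ℝ => GG e x a b (t • v)) 0 :=
  (taylor_deriv2_line (contDiff_infty.1 (contDiff_GG he x a b) 2) v).symm

/-- the four linear form -/
def formB (he : IsExp e) (x : M) (κ : ℝ) :
    Eu E →ₗ[ℝ] Eu E →ₗ[ℝ] Eu E →ₗ[ℝ] Eu E →ₗ[ℝ] ℝ :=
  LinearMap.mk₂ ℝ (fun v v' => LinearMap.mk₂ ℝ (fun a b => κ * QQ e x a b v v')
      (fun a a' b => by
        rw [QQ_add he]
        simp only [_root_.add_apply]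
        ring)
      (fun c a b => by
        rw [QQ_smul he]
        simp only [_root_.smul_apply, smul_eq_mul]
        ring)
      (fun a b b' => by
        rw [QQ_comm x a (b + b'), QQ_add he, QQ_comm x b a, QQ_comm x b' a]
        simp only [_root_.add_apply]
        ring)
      (fun c a b => by
        rw [QQ_comm x a (c • b), QQ_smul he, QQ_comm x b a]
        simp only [_root_.smul_apply, smul_eq_mul]
        ring))
    (fun v v' w => by
      ext a b
      simp only [LinearMap.mk₂_apply, LinearMap.add_apply, map_add,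
        _root_.add_apply]
      ring)
    (fun c v w => by
      ext a b
      simp only [LinearMap.mk₂_apply, LinearMap.smul_apply, map_smul,
        _root_.smul_apply, smul_eq_mul]
      ring)
    (fun v w w' => by
      ext a b
      simp only [LinearMap.mk₂_apply, LinearMap.add_apply, map_add]
      ring)
    (fun c v w => by
      ext a b
      simp only [LinearMap.mk₂_apply, LinearMap.smul_apply, map_smul, smul_eq_mul]
      ring)

theorem formB_apply (he : IsExp e) (x : M) (κ : ℝ) (v v' a b : Eu E) :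
    formB he x κ v v' a b = κ * QQ e x a b v v' := rfl

/-- Gauss lemma in product form -/
theorem taylor_gauss [CompactSpace M] (F : Facts e) (x : M) (u : E) (hu : nm x u = 1) (w : E)
    (τ : ℝ) :
    ip (e x (τ • u : E)) (dE e x (τ • u) w) (dE e x (τ • u) u) = ip x w u := by
  by_cases hτ : τ = 0
  · subst hτ
    have h0 : e x ((0 : ℝ) • u : E) = x := gam_zero F.isExp x u
    rw [h0, zero_smul, dE_zero_base F.isExp, dE_zero_base F.isExp]
  · have h1 := gauss F x u hu 0 τ w
    rw [gam_zero F.isExp, vel_zero F.isExp, sub_zero] at h1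
    have h2 : jf e x u 0 τ w = τ • dE e x (τ • u) w := by
      unfold jf
      rw [gam_zero F.isExp, vel_zero F.isExp, sub_zero]
    rw [h2, asm_ip_smul_left] at h1
    exact mul_left_cancel₀ hτ h1

theorem taylor_GG_radial [CompactSpace M] (F : Facts e) (x : M) (v b : Eu E) (t : ℝ) :
    GG e x v b (t • v) = ip x (fr x v) (fr x b) := by
  by_cases hv : v = 0
  · subst hv
    have h0 : ∀ y (z : E), dE e y z 0 = 0 := fun y z => by
      have := dE_smul e y z (0 : E) 0
      simpa using this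
    unfold GG
    rw [map_zero, h0, asm_ip_comm, asm_ip_zero_right, asm_ip_comm, asm_ip_zero_right]
  · set r := nm x (fr x v) with hr
    have hr0 : 0 < r := by
      rw [hr, nm_fr]
      exact norm_pos_iff.2 hv
    set U : E := r⁻¹ • fr x v with hU
    have hU1 : nm x U = 1 := by
      rw [hU, nm_smul, ← hr, abs_of_pos (inv_pos.2 hr0), inv_mul_cancel₀ hr0.ne']
    have hV : fr x v = r • U := by
      rw [hU, smul_smul, mul_inv_cancel₀ hr0.ne', one_smul]
    have h1 := taylor_gauss F x U hU1 (fr x b) (t * r)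
    have h2 : fr x (t • v) = (t * r) • U := by
      rw [map_smul, hV, smul_smul]
    have h3 : GG e x v b (t • v) = ip (e x ((t * r) • U : E)) (dE e x ((t * r) • U) (r • U))
        (dE e x ((t * r) • U) (fr x b)) := by
      unfold GG
      rw [h2, ← hV]
    rw [h3, dE_smul, asm_ip_smul_left, asm_ip_comm, h1, hV, asm_ip_smul_left, asm_ip_comm]

theorem taylor_trP_apply (x : M) (P : E → E →ₗ[ℝ] E) (u w : Eu E) :
    fr x (trP x P u w) = P (fr x u) (fr x w) := by
  show fr x ((fr x).symm (P (fr x u) (fr x w))) = _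
  exact (fr x).apply_symm_apply _

theorem exists_form [CompactSpace M] (F : Facts e) {D : ℝ} (hD : 0 < D) {l : ℕ} {x : M}
    {P : E → E →ₗ[ℝ] E} (hP : PData e D l x P) :
    ∃ B : Eu E →ₗ[ℝ] Eu E →ₗ[ℝ] Eu E →ₗ[ℝ] Eu E →ₗ[ℝ] ℝ, QData (trP x P) B := by
  have hpi := Real.pi_pos
  set k : ℝ := Real.pi / (2 * D) with hk
  have hk0 : 0 < k := by positivity
  refine ⟨formB F.isExp x (-(3 / (2 * k ^ 2))), ?_, ?_, ?_, ?_, ?_, ?_, ?_⟩
  · intro u w hu
    apply (fr x).injective
    rw [taylor_trP_apply, taylor_trP_apply]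
    exact hP.idem _ _ (by rw [nm_fr, hu])
  · intro u a b hu
    rw [← ip_fr x, ← ip_fr x, taylor_trP_apply, taylor_trP_apply]
    exact hP.symm _ _ _ (by rw [nm_fr, hu])
  · intro u w hu
    rw [← ip_fr x, taylor_trP_apply]
    exact hP.perp _ _ (by rw [nm_fr, hu])
  · intro a b c d
    rw [formB_apply, formB_apply, QQ_symm F.isExp]
  · intro a b c d
    rw [formB_apply, formB_apply, QQ_comm]
  · intro v b
    rw [formB_apply, QQ_line F.isExp]
    have h1 : (fun t : ℝ => GG e x v b (t • v)) = fun _ => ip x (fr x v) (fr x b) :=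
      funext fun t => taylor_GG_radial F x v b t
    rw [h1]
    simp
  · intro u w hu huw
    rw [formB_apply, QQ_line F.isExp]
    set f : ℝ → ℝ := fun t : ℝ => GG e x w w (t • u) with hf
    set a : ℝ := ‖w‖ ^ 2 with ha
    set b : ℝ := ‖trP x P u w‖ ^ 2 with hb
    have hU1 : nm x (fr x u) = 1 := by rw [nm_fr, hu]
    have hUW : ip x (fr x u) (fr x w) = 0 := by rw [ip_fr, huw]
    have hfs : ContDiff ℝ 2 f := by
      have h1 : ContDiff ℝ 2 (GG e x w w) := contDiff_infty.1 (contDiff_GG F.isExp x w w) 2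
      exact h1.comp (contDiff_id.smul contDiff_const)
    set c : ℝ := k ^ 2 * (a / 3 + b) with hc
    set q : ℝ → ℝ := fun t => a - c * t ^ 2 with hq
    have hqs : ContDiff ℝ 2 q := contDiff_const.sub (contDiff_const.mul (contDiff_id.pow 2))
    have hgs : ContDiff ℝ 2 fun t => f t - q t := hfs.sub hqs
    have hbound : ∀ r ∈ Ioo 0 (min D k⁻¹), |f r - q r| ≤ ((|a| + |b|) * k ^ 3) * r ^ 3 := by
      intro r hr
      have hr0 : 0 < r := hr.1
      have hrD : r < D := hr.2.trans_le (min_le_left _ _)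
      have hrk : r < k⁻¹ := hr.2.trans_le (min_le_right _ _)
      have hρ : Real.pi * r / (2 * D) = k * r := by rw [hk]; ring
      have hρ1 : k * r ≤ 1 := by
        have := mul_le_mul_of_nonneg_left hrk.le hk0.le
        rwa [mul_inv_cancel₀ hk0.ne'] at this
      have h1 : f r = (Real.sin (k * r) / (k * r)) ^ 2 * (a - Real.sin (k * r) ^ 2 * b) := by
        have h2 := hP.gram (fr x u) (fr x w) hU1 hUW r ⟨hr0, hrD⟩
        have h3 : f r = nm (e x (r • fr x u : E)) (dE e x (r • fr x u) (fr x w)) ^ 2 := by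
          rw [hf]
          simp only [GG]
          rw [asm_ip_self, map_smul]
        rw [h3, h2, hρ, nm_fr, ← taylor_trP_apply, nm_fr]
      have h2 := taylor_sinc_bound (mul_pos hk0 hr0) hρ1 a b
      rw [h1]
      have h3 : q r = a - (k * r) ^ 2 * (a / 3 + b) := by
        rw [hq]
        simp only [hc]
        ring
      rw [h3]
      refine h2.trans (le_of_eq ?_)
      ring
    have h1 := taylor_deriv2_zero hgs (lt_min hD (inv_pos.2 hk0)) hbound
    have hfd : ∀ t, DifferentiableAt ℝ f t := fun t => hfs.differentiable (by norm_num) t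
    have hqd : ∀ t, HasDerivAt q (-(c * (2 * t))) t := by
      intro t
      have h2 := (((hasDerivAt_pow 2 t).const_mul c).const_sub a)
      simpa only [Nat.cast_ofNat, Nat.add_one_sub_one, pow_one] using h2
    have h2 : deriv (fun t => f t - q t) = fun t => deriv f t + c * (2 * t) := by
      funext t
      refine ((hfd t).hasDerivAt.sub (hqd t)).deriv.trans ?_
      ring
    have hf1 : ContDiff ℝ 1 (deriv f) := by
      have := hfs
      rw [show (2 : WithTop ℕ∞) = 1 + 1 by norm_num, contDiff_succ_iff_deriv] at this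
      exact this.2.2
    have h3 : HasDerivAt (fun t : ℝ => c * (2 * t)) (c * 2) 0 := by
      have := ((hasDerivAt_id (0 : ℝ)).const_mul 2).const_mul c
      simpa using this
    have h4 : deriv (fun t => deriv f t + c * (2 * t)) 0 = deriv (deriv f) 0 + c * 2 :=
      ((hf1.differentiable (by norm_num) 0).hasDerivAt.add h3).deriv
    rw [h2, h4] at h1
    have h5 : deriv (deriv f) 0 = -(2 * c) := by (clear F hD l hP hpi hk hk0 hu huw hf ha hb hU1 hUW hfs hc q hq hqs hgs hbound hfd hqd h2 hf1 h3 h4; linarith)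
    rw [h5, hc]
    (clear * - hk0; field_simp)

end

end

end Vale.Agent.P231
end
end
end

section

section

section

/-! P231, homogeneity part, file HE: reflections. -/

set_option maxSynthPendingDepth 3
set_option linter.unusedSectionVars false
set_option linter.unusedVariables false

open Bundle Manifold Set Filter MeasureTheory Module
open scoped ContDiff Manifold Topology ENNReal

namespace Vale.Agent.P231

noncomputable section

open Vale.Agent.P234

/-! ### linear algebra -/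

section Abstract

variable {V : Type*} [NormedAddCommGroup V] [InnerProductSpace ℝ V] [FiniteDimensional ℝ V]

theorem refl_alg (u : V) (P L : V →ₗ[ℝ] V) (hu : ‖u‖ = 1)
    (hid : ∀ w, P (P w) = P w) (hsy : ∀ a b, inner ℝ (P a) b = inner ℝ a (P b))
    (hpe : ∀ w, inner ℝ (P w) u = (0 : ℝ))
    (hL : ∀ v w, inner ℝ (L v) (L w) = (inner ℝ v w : ℝ))
    (hLu : L u = -u) (hLP : ∀ k, P k = k → L k = -k)
    (Z : Submodule ℝ V) (hZ : ∀ z ∈ Z, L z = z) {l : ℕ}
    (hl : finrank ℝ (LinearMap.range P) = l)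
    (hZd : finrank ℝ V ≤ finrank ℝ Z + (l + 1)) (v : V) :
    L v = v - (2 : ℝ) • (inner ℝ u v • u + P v) := by
  have huu : inner ℝ u u = (1 : ℝ) := by rw [real_inner_self_eq_norm_sq, hu]; norm_num
  have hPu : P u = 0 := by
    have h1 : inner ℝ (P u) (P u) = (0 : ℝ) := by
      rw [hsy, hid, real_inner_comm, hpe]
    exact inner_self_eq_zero.1 h1
  set Q : V →ₗ[ℝ] V := LinearMap.toSpanSingleton ℝ V u ∘ₗ innerₛₗ ℝ u + P with hQ
  have hQv : ∀ v, Q v = inner ℝ u v • u + P v := fun v => by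
    simp only [hQ, LinearMap.add_apply, LinearMap.coe_comp, coe_innerₛₗ_apply, Function.comp_apply, LinearMap.toSpanSingleton_apply]
  have huP : ∀ w, inner ℝ u (P w) = (0 : ℝ) := fun w => by rw [real_inner_comm, hpe]
  have hQQ : ∀ v, Q (Q v) = Q v := fun v => by
    rw [hQv (Q v), hQv v, inner_add_right, inner_smul_right, huu, huP, map_add, map_smul, hPu,
      hid, smul_zero, zero_add, mul_one, add_zero]
  have hLQ : ∀ v, L (Q v) = -Q v := fun v => by
    rw [hQv, map_add, map_smul, hLu, hLP (P v) (hid v), smul_neg, neg_add]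
  -- `Z ≤ ker Q`
  have hZQ : Z ≤ LinearMap.ker Q := by
    intro z hz
    have h1 : ∀ a, L a = -a → inner ℝ z a = (0 : ℝ) := by
      intro a ha
      have h2 := hL z a
      rw [hZ z hz, ha, inner_neg_right] at h2
      linarith only [h2]
    have h3 : inner ℝ u z = (0 : ℝ) := by rw [real_inner_comm]; exact h1 u hLu
    have h4 : P z = 0 := by
      have h5 : inner ℝ (P z) (P z) = (0 : ℝ) := by
        rw [hsy, hid]
        exact h1 _ (hLP _ (hid z))
      exact inner_self_eq_zero.1 h5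
    rw [LinearMap.mem_ker, hQv, h3, h4, zero_smul, add_zero]
  -- rank of `Q`
  have hrk : l + 1 ≤ finrank ℝ (LinearMap.range Q) := by
    have h1 : Submodule.span ℝ {u} ⊓ LinearMap.range P = ⊥ := by
      rw [Submodule.eq_bot_iff]
      rintro a ⟨ha1, b, hb⟩
      obtain ⟨c, rfl⟩ := Submodule.mem_span_singleton.1 ha1
      have h2 : inner ℝ (P b) u = (0 : ℝ) := hpe b
      rw [hb, real_inner_smul_left, huu, mul_one] at h2
      rw [h2, zero_smul]
    have h2 : Submodule.span ℝ {u} ⊔ LinearMap.range P ≤ LinearMap.range Q := by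
      refine sup_le ?_ ?_
      · rw [Submodule.span_singleton_le_iff_mem]
        refine ⟨u, ?_⟩
        rw [hQv, huu, hPu, one_smul, add_zero]
      · rintro _ ⟨b, rfl⟩
        refine ⟨P b, ?_⟩
        rw [hQv, huP, hid, zero_smul, zero_add]
    have h3 := Submodule.finrank_sup_add_finrank_inf_eq (Submodule.span ℝ {u}) (LinearMap.range P)
    have hu0 : u ≠ 0 := by
      rintro rfl
      simp at hu
    rw [h1, finrank_bot, add_zero, finrank_span_singleton hu0, hl] at h3
    have h4 := Submodule.finrank_mono h2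
    (clear * - h3 h4; omega)
  have hker : Z = LinearMap.ker Q := by
    refine Submodule.eq_of_le_of_finrank_le hZQ ?_
    have h1 := LinearMap.finrank_range_add_finrank_ker Q
    omega
  have h5 : v - Q v ∈ Z := by
    rw [hker, LinearMap.mem_ker, map_sub, hQQ, sub_self]
  have h6 := hZ _ h5
  rw [map_sub, hLQ] at h6
  rw [← hQv]
  have h7 : L v = v - Q v + -Q v := by rw [← h6]; abel
  rw [h7]
  module

end Abstract

variable {E : Type*} [NormedAddCommGroup E] [NormedSpace ℝ E] [FiniteDimensional ℝ E]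
  {M : Type*} [MetricSpace M] [ChartedSpace E M]
  [RiemannianBundle (fun x : M => TangentSpace 𝓘(ℝ, E) x)]
  [IsManifold 𝓘(ℝ, E) ∞ M]
  [IsContMDiffRiemannianBundle 𝓘(ℝ, E) ∞ E (fun x : M => TangentSpace 𝓘(ℝ, E) x)]
  {e : ∀ x : M, TangentSpace 𝓘(ℝ, E) x → M}

/-- a curve with zero velocity is constant -/
theorem refl_const {c : ℝ → M} (hc : MDifferentiable 𝓘(ℝ, ℝ) 𝓘(ℝ, E) c)
    (h0 : ∀ t, (mfderiv 𝓘(ℝ, ℝ) 𝓘(ℝ, E) c t (1 : ℝ) : E) = 0) (s t : ℝ) : c s = c t := by
  have hloc : IsLocallyConstant c := by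
    rw [IsLocallyConstant.iff_eventually_eq]
    intro s
    have h1 : ∀ᶠ t in 𝓝 s, c t ∈ (chartAt E (c s)).source :=
      hc.continuous.continuousAt (
        (chartAt E (c s)).open_source.mem_nhds (mem_chart_source E (c s)))
    obtain ⟨ε, hε, hball⟩ := Metric.eventually_nhds_iff_ball.1 h1
    set f : ℝ → E := fun t => extChartAt 𝓘(ℝ, E) (c s) (c t) with hf
    have hfd : ∀ t ∈ Metric.ball s ε, HasDerivAt f 0 t := by
      intro t ht
      have h2 : MDifferentiableAt 𝓘(ℝ, E) 𝓘(ℝ, E) (extChartAt 𝓘(ℝ, E) (c s)) (c t) :=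
        mdifferentiableAt_extChartAt (hball t ht)
      have h3 := mfderiv_comp_apply t h2 (hc t) (1 : ℝ)
      have h4 : MDifferentiableAt 𝓘(ℝ, ℝ) 𝓘(ℝ, E) f t := h2.comp t (hc t)
      have h5 : DifferentiableAt ℝ f t := mdifferentiableAt_iff_differentiableAt.1 h4
      have h6 : fderiv ℝ f t 1 = 0 := by
        have h7 : (mfderiv 𝓘(ℝ, ℝ) 𝓘(ℝ, E) f t (1 : ℝ) : E) = 0 := by
          refine Eq.trans h3 ?_
          have h8 : (mfderiv 𝓘(ℝ, ℝ) 𝓘(ℝ, E) c t) (1 : ℝ) = 0 := h0 t
          rw [h8]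
          exact map_zero _
        rw [mfderiv_eq_fderiv] at h7
        exact h7
      have h9 := h5.hasDerivAt
      have h10 : deriv f t = 0 := by
        rw [← h6]
        exact (fderiv_apply_one_eq_deriv).symm
      rwa [h10] at h9
    filter_upwards [Metric.ball_mem_nhds s hε] with t ht
    have h2 : f t = f s := by
      have h3 : DifferentiableOn ℝ f (Metric.ball s ε) := fun t ht =>
        (hfd t ht).differentiableAt.differentiableWithinAt
      have h4 := (convex_ball s ε).is_const_of_fderivWithin_eq_zero h3 (𝕜 := ℝ) (fun t ht => by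
        rw [fderivWithin_of_isOpen Metric.isOpen_ball ht]
        ext
        have := (hfd t ht).deriv
        simpa only [fderiv_eq_smul_deriv, one_smul, zero_apply] using this) ht (Metric.mem_ball_self hε)
      exact h4
    have h5 := (extChartAt 𝓘(ℝ, E) (c s)).injOn
    refine h5 ?_ ?_ h2
    · rw [extChartAt_source]; exact hball t ht
    · rw [extChartAt_source]; exact mem_chart_source E (c s)
  exact hloc.apply_eq_of_isPreconnected isPreconnected_univ (mem_univ s) (mem_univ t)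

/-! ### raw inner products -/

theorem refl_ip_comm (x : M) (a b : E) : ip x a b = ip x b a :=
  real_inner_comm (F := TangentSpace 𝓘(ℝ, E) x) _ _

theorem refl_ip_smul_left (x : M) (c : ℝ) (a b : E) : ip x (c • a) b = c * ip x a b :=
  real_inner_smul_left (F := TangentSpace 𝓘(ℝ, E) x) _ _ _

theorem refl_ip_add_right (x : M) (a b c : E) : ip x a (b + c) = ip x a b + ip x a c := by
  rw [refl_ip_comm, ip_add_left, refl_ip_comm x b, refl_ip_comm x c]

theorem refl_ip_eq_zero (x : M) {a : E} (h : ip x a a = 0) : a = 0 :=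
  (inner_self_eq_zero (𝕜 := ℝ) (E := TangentSpace 𝓘(ℝ, E) x)).1 h

theorem refl_nm_one (x : M) {a : E} (h : ip x a a = 1) : nm x a = 1 := by
  rw [ip_self] at h
  have h0 := nm_nonneg x a
  nlinarith

theorem refl_dE_zero (x : M) (v : E) : dE e x v 0 = 0 := by
  have h2 := dE_smul e x v 0 (0 : ℝ)
  rwa [zero_smul, zero_smul] at h2

/-- a circle in the tangent space -/
theorem refl_circle (x : M) {u k : E} (hu : nm x u = 1) (hk : nm x k = 1)
    (huk : ip x u k = 0) (θ : ℝ) : nm x (Real.cos θ • u + Real.sin θ • k) = 1 := by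
  have huu : ip x u u = 1 := by rw [ip_self, hu]; norm_num
  have hkk : ip x k k = 1 := by rw [ip_self, hk]; norm_num
  have hku : ip x k u = 0 := by rw [refl_ip_comm, huk]
  refine refl_nm_one x ?_
  simp only [ip_add_left, refl_ip_add_right, refl_ip_smul_left, ip_smul_right, huu, hkk, huk, hku]
  linear_combination Real.cos_sq_add_sin_sq θ

theorem refl_circle_deriv (x : M) (u k : E) (θ R : ℝ) :
    HasDerivAt (fun θ => R • (Real.cos θ • (u : TangentSpace 𝓘(ℝ, E) x) + Real.sin θ • k))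
      (R • (-Real.sin θ • (u : TangentSpace 𝓘(ℝ, E) x) + Real.cos θ • k)) θ :=
  (((Real.hasDerivAt_cos θ).smul_const _).add ((Real.hasDerivAt_sin θ).smul_const _)).const_smul R

theorem refl_exp_curve_mdiff (he : IsExp e) (y : M) {c : ℝ → TangentSpace 𝓘(ℝ, E) y}
    {c' : TangentSpace 𝓘(ℝ, E) y} {ε : ℝ} (hc : HasDerivAt c c' ε) :
    MDifferentiableAt 𝓘(ℝ, ℝ) 𝓘(ℝ, E) (fun s => e y (c s)) ε := by
  have hEd : MDifferentiableAt 𝓘(ℝ, TangentSpace 𝓘(ℝ, E) y) 𝓘(ℝ, E) (e y) (c ε) :=
    (contMDiff_exp_fiber he y).mdifferentiableAt (by simp)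
  have hcd : MDifferentiableAt 𝓘(ℝ, ℝ) 𝓘(ℝ, TangentSpace 𝓘(ℝ, E) y) c ε :=
    hc.differentiableAt.mdifferentiableAt
  exact hEd.comp ε hcd

/-- all of `V u ∩ sphere` is sent to the same point -/
theorem PData.exp_const [CompactSpace M] (F : Facts e) {D : ℝ} (hD : 0 < D) {l : ℕ} {x : M}
    {P : E → E →ₗ[ℝ] E} (hP : PData e D l x P) {u k : E} (hu : nm x u = 1) (hk : nm x k = 1)
    (huk : ip x u k = 0) (hPk : P u k = k) (θ : ℝ) :
    e x (D • (Real.cos θ • u + Real.sin θ • k) : E) = e x (D • u : E) := by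
  obtain ⟨B, hB⟩ := exists_form F hD hP
  have hfs : ∀ a : E, fr x ((fr x).symm a) = a := fun a => (fr x).apply_symm_apply a
  have hsf : ∀ a, (fr x).symm (fr (E := E) x a) = a := fun a => (fr x).symm_apply_apply a
  have htr : ∀ a b : Eu E, trP x P a b = (fr x).symm (P (fr x a) (fr x b)) := fun a b => rfl
  -- derivative
  have hrot : ∀ θ : ℝ, P (Real.cos θ • u + Real.sin θ • k) (-Real.sin θ • u + Real.cos θ • k) =
      -Real.sin θ • u + Real.cos θ • k := by
    intro θ
    have h1 := hB.rot_one (u := (fr x).symm u) (k := (fr x).symm k)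
      (by rw [← nm_fr x, hfs, hu]) (by rw [← nm_fr x, hfs, hk])
      (by rw [← ip_fr x, hfs, hfs, huk]) (by rw [htr, hfs, hfs, hPk])
      (Real.cos_sq_add_sin_sq θ)
    rw [htr] at h1
    have h2 := congrArg (fr x) h1
    rw [hfs] at h2
    simpa only [map_add, map_smul, hfs] using h2
  have hder : ∀ t, dE e x (D • (Real.cos t • u + Real.sin t • k))
      (D • (-Real.sin t • u + Real.cos t • k)) = 0 := by
    intro t
    rw [dE_smul, (hP.ker _ _ (refl_circle x hu hk huk t)).2 (hrot t), smul_zero]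
  have hc : ∀ t, MDifferentiableAt 𝓘(ℝ, ℝ) 𝓘(ℝ, E)
      (fun θ : ℝ => e x (D • (Real.cos θ • u + Real.sin θ • k) : E)) t := fun t =>
    refl_exp_curve_mdiff F.isExp x (refl_circle_deriv x u k t D)
  have h := refl_const hc (fun t => by
    refine Eq.trans (mfderiv_exp_curve F.isExp x (refl_circle_deriv x u k t D)) ?_
    exact hder t) θ 0
  refine h.trans ?_
  have h2 : (D • (Real.cos 0 • u + Real.sin 0 • k) : E) = D • u := by simp
  exact congrArg (e x) h2

/-- if a map given in normal coordinates by `L` fixes a curve through `x` pointwise, `L` fixes the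
velocity of the curve -/
theorem refl_fix (F : Facts e) {x : M} {τ : M → M} {L : E →ₗ[ℝ] E}
    (hL : ∀ v : E, τ (e x v) = e x (L v : E)) {c : ℝ → M}
    (hc : MDifferentiableAt 𝓘(ℝ, ℝ) 𝓘(ℝ, E) c 0) (hc0 : c 0 = x) (hτ : ∀ s, τ (c s) = c s) :
    L (mfderiv 𝓘(ℝ, ℝ) 𝓘(ℝ, E) c 0 (1 : ℝ) : E) = (mfderiv 𝓘(ℝ, ℝ) 𝓘(ℝ, E) c 0 (1 : ℝ) : E) := by
  have he := F.isExp
  have : FiniteDimensional ℝ (TangentSpace 𝓘(ℝ, E) x) := inferInstanceAs (FiniteDimensional ℝ E)
  have h0I : (0 : TangentSpace 𝓘(ℝ, E) x) ∈ injDomain e x :=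
    ⟨2, one_lt_two, by simp [he.map_zero]⟩
  obtain ⟨Lg, hLs, hL0, hL1, hL2⟩ := F.smoothLog h0I
  rw [he.map_zero] at hL0 hL1 hLs
  have hLs' : ContMDiffAt 𝓘(ℝ, E) 𝓘(ℝ, TangentSpace 𝓘(ℝ, E) x) ∞ Lg (c 0) := by
    rw [hc0]
    exact hLs
  set η : ℝ → TangentSpace 𝓘(ℝ, E) x := fun s => Lg (c s) with hη
  have hη0 : η 0 = 0 := by rw [hη]; simp only; rw [hc0, hL0]
  have hηd : DifferentiableAt ℝ η 0 := by
    have h1 : MDifferentiableAt 𝓘(ℝ, E) 𝓘(ℝ, TangentSpace 𝓘(ℝ, E) x) Lg (c 0) :=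
      hLs'.mdifferentiableAt (by simp)
    exact (h1.comp 0 hc).differentiableAt
  have hηc : ContinuousAt η 0 := hηd.continuousAt
  have hd := hηd.hasDerivAt
  set η' := deriv η 0 with hη'
  let L' : TangentSpace 𝓘(ℝ, E) x →ₗ[ℝ] TangentSpace 𝓘(ℝ, E) x := L
  let Lc : TangentSpace 𝓘(ℝ, E) x →L[ℝ] TangentSpace 𝓘(ℝ, E) x := LinearMap.toContinuousLinearMap L'
  have hcc : Tendsto c (𝓝 0) (𝓝 x) := by
    have := hc.continuousAt
    rwa [ContinuousAt, hc0] at this
  have ev1 : ∀ᶠ s in 𝓝 (0 : ℝ), c s = e x (η s) := by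
    filter_upwards [hcc.eventually hL1] with s hs
    exact hs.2.symm
  have hLη : Tendsto (fun s => Lc (η s)) (𝓝 0) (𝓝 0) := by
    have h1 : ContinuousAt (fun s => Lc (η s)) 0 := Lc.continuous.continuousAt.comp hηc
    rw [ContinuousAt, hη0, map_zero] at h1
    exact h1
  have ev2 : ∀ᶠ s in 𝓝 (0 : ℝ), Lc (η s) = η s := by
    filter_upwards [ev1, hLη.eventually hL2] with s hs1 hs2
    have h1 : e x (Lc (η s)) = c s := by
      have h2 := hL (η s)
      rw [← hs1, hτ] at h2
      exact h2.symm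
    rw [h1] at hs2
    exact hs2.symm
  have h3 : HasDerivAt (fun s => Lc (η s)) (Lc η') 0 := Lc.hasFDerivAt.comp_hasDerivAt 0 hd
  have h4 : HasDerivAt η (Lc η') 0 := h3.congr_of_eventuallyEq (by
    filter_upwards [ev2] with s hs
    exact hs.symm)
  have h5 : Lc η' = η' := h4.unique hd
  have h6 : (mfderiv 𝓘(ℝ, ℝ) 𝓘(ℝ, E) c 0 (1 : ℝ) : E) = η' := by
    have h7 := mfderiv_exp_curve he x hd
    rw [hη0] at h7
    have h8 : dE e x (0 : E) (η' : E) = η' := dE_zero_base he x η'
    have h9 : (mfderiv 𝓘(ℝ, ℝ) 𝓘(ℝ, E) c 0 : ℝ →L[ℝ] E) =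
        mfderiv 𝓘(ℝ, ℝ) 𝓘(ℝ, E) (fun s => e x (η s)) 0 := Filter.EventuallyEq.mfderiv_eq ev1
    exact (congrArg (fun T : ℝ →L[ℝ] E => T 1) h9).trans (h7.trans h8)
  rw [h6]
  exact h5

theorem refl_neg (F : Facts e) {D : ℝ} (hD : 0 < D)
    (hcl : ∀ (x : M) (v : E), nm x v = 2 * D → e x v = x) {x y : M} {u : E}
    (hu : nm x u = 1) (hy : e x (D • u : E) = y) {τ : M → M}
    (hτ : ∀ w : E, τ (e y w) = e y (-w : E)) {L : E →ₗ[ℝ] E}
    (hL : ∀ v : E, τ (e x v) = e x (L v : E)) : L u = -u := by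
  have he := F.isExp
  have h : ∀ t, gam e x (L u) t = gam e x (-u) t := by
    intro t
    have h1 : gam e x (L u) t = τ (gam e x u t) := by
      have h2 := hL (t • u)
      rw [map_smul] at h2
      exact h2.symm
    have h3 : gam e x u t = gam e y (vel e x u D) (t - D) := by
      have h4 := gam_flow F x u D (t - D)
      rw [add_sub_cancel] at h4
      rw [← h4]
      subst hy
      rfl
    have h5 : τ (gam e y (vel e x u D) (t - D)) = gam e y (vel e x u D) (D - t) := by
      refine (hτ _).trans ?_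
      have h6 : (-((t - D) • vel e x u D) : E) = (D - t) • vel e x u D := by
        rw [← neg_smul, neg_sub]
      exact congrArg (e y) h6
    have h7 : gam e y (vel e x u D) (D - t) = gam e x u (-t) := by
      have h8 := gam_flow F x u D (D - t)
      rw [show D + (D - t) = -t + 2 * D by ring, gam_per F hD.le hcl x u hu] at h8
      rw [← h8]
      subst hy
      rfl
    rw [h1, h3, h5, h7]
    have h9 : (-t • u : E) = t • (-u) := by rw [neg_smul, smul_neg]
    exact congrArg (e x) h9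
  have h2 := mfderiv_curve_congr (E := E) (funext h) 0 (1 : ℝ)
  have h3 := mfderiv_gam he x (L u) 0
  have h4 := mfderiv_gam he x (-u) 0
  rw [vel_zero he] at h3 h4
  exact (h3.symm.trans h2).trans h4

theorem refl_exp_neg (F : Facts e) {D : ℝ} (hD : 0 < D)
    (hcl : ∀ (x : M) (v : E), nm x v = 2 * D → e x v = x) {x : M} {u : E}
    (hu : nm x u = 1) : e x (-(D • u) : E) = e x (D • u : E) := by
  have h := gam_per F hD.le hcl x u hu (-D)
  rw [show -D + 2 * D = D by ring] at h
  have h2 : (-(D • u) : E) = -D • u := by rw [neg_smul]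
  exact (congrArg (e x) h2).trans h.symm

theorem refl_pos (F : Facts e) {D : ℝ} (hD : 0 < D)
    (hcl : ∀ (x : M) (v : E), nm x v = 2 * D → e x v = x) {x y : M} {w₀ : E}
    (hw₀ : nm y w₀ = 1) (hx : e y (D • w₀ : E) = x) {τ : M → M}
    (hτ : ∀ w : E, τ (e y w) = e y (-w : E)) {L : E →ₗ[ℝ] E}
    (hL : ∀ v : E, τ (e x v) = e x (L v : E)) {a : E} (ha : ip y w₀ a = 0) :
    L (dE e y (D • w₀) a) = dE e y (D • w₀) a := by
  have he := F.isExp
  -- unit vectors
  have key : ∀ b : E, nm y b = 1 → ip y w₀ b = 0 →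
      L (dE e y (D • w₀) b) = dE e y (D • w₀) b := by
    intro b hb hb0
    have hcd := refl_circle_deriv y w₀ b 0 D
    have hc := refl_exp_curve_mdiff he y hcd
    have h1 := refl_fix F hL hc (by
      have h2 : (D • (Real.cos 0 • w₀ + Real.sin 0 • b) : E) = D • w₀ := by simp
      exact (congrArg (e y) h2).trans hx) (fun s => by
      refine (hτ _).trans ?_
      exact refl_exp_neg F hD hcl (refl_circle y hw₀ hb hb0 s))
    have h3 : (mfderiv 𝓘(ℝ, ℝ) 𝓘(ℝ, E) (fun θ : ℝ => e y (D • (Real.cos θ •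
        (w₀ : TangentSpace 𝓘(ℝ, E) y) + Real.sin θ • (b : TangentSpace 𝓘(ℝ, E) y)))) 0
        (1 : ℝ) : E) = D • dE e y (D • w₀) b := by
      refine (mfderiv_exp_curve he y hcd).trans ?_
      have h4 : (D • (-Real.sin 0 • w₀ + Real.cos 0 • b) : E) = D • b := by simp only [Real.sin_zero, neg_zero, zero_smul, Real.cos_zero, one_smul, zero_add]
      have h5 : (D • (Real.cos 0 • w₀ + Real.sin 0 • b) : E) = D • w₀ := by simp
      refine (congrArg₂ (dE e y) h5 h4).trans ?_
      exact dE_smul e y _ _ D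
    have h6 : L (D • dE e y (D • w₀) b) = D • dE e y (D • w₀) b := by
      rw [← h3]
      exact h1
    rw [map_smul] at h6
    exact smul_right_injective E hD.ne' h6
  rcases eq_or_ne (nm y a) 0 with h0 | h0
  · have : a = 0 := refl_ip_eq_zero y (by rw [ip_self, h0]; norm_num)
    rw [this, refl_dE_zero, map_zero]
  · have h1 := key ((nm y a)⁻¹ • a) (by
      rw [nm_smul, abs_of_nonneg (inv_nonneg.2 (nm_nonneg y a)), inv_mul_cancel₀ h0]) (by
      rw [ip_smul_right, ha, mul_zero])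
    rw [dE_smul, map_smul] at h1
    exact smul_right_injective E (inv_ne_zero h0) h1

/-- The linear part at `x` of the geodesic symmetry at `y = e x (D u)`. -/
theorem refl_core [CompactSpace M] (F : Facts e) {D : ℝ} (hD : 0 < D)
    (hcl : ∀ (x : M) (v : E), nm x v = 2 * D → e x v = x) {l : ℕ}
    {P : ∀ _ : M, E → E →ₗ[ℝ] E} (hP : ∀ x, PData e D l x (P x)) {x y : M} {u : E}
    (hu : nm x u = 1) (hy : e x (D • u : E) = y) {τ : M → M}
    (hτ : ∀ w : E, τ (e y w) = e y (-w : E)) {L : E →ₗ[ℝ] E}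
    (hL : ∀ v : E, τ (e x v) = e x (L v : E)) (hLi : ∀ v w, ip x (L v) (L w) = ip x v w) (v : E) :
    L v = v - (2 : ℝ) • (ip x u v • u + P x u v) := by
  have he := F.isExp
  have : FiniteDimensional ℝ (TangentSpace 𝓘(ℝ, E) x) := inferInstanceAs (FiniteDimensional ℝ E)
  have hLu : L u = -u := refl_neg F hD hcl hu hy hτ hL
  have hLk1 : ∀ k : E, nm x k = 1 → P x u k = k → L k = -k := by
    intro k hk hPk
    have huk : ip x u k = 0 := by
      rw [refl_ip_comm, ← hPk]
      exact (hP x).perp u k hu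
    refine refl_neg F hD hcl hk ?_ hτ hL
    have h := (hP x).exp_const F hD hu hk huk hPk (Real.pi / 2)
    have h2 : (D • (Real.cos (Real.pi / 2) • u + Real.sin (Real.pi / 2) • k) : E) = D • k := by
      simp
    rw [← hy, ← h]
    exact (congrArg (e x) h2).symm
  have hLk : ∀ k : E, P x u k = k → L k = -k := by
    intro k hPk
    rcases eq_or_ne (nm x k) 0 with h0 | h0
    · have : k = 0 := refl_ip_eq_zero x (by rw [ip_self, h0]; norm_num)
      rw [this, map_zero, neg_zero]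
    · have h1 := hLk1 ((nm x k)⁻¹ • k) (by
        rw [nm_smul, abs_of_nonneg (inv_nonneg.2 (nm_nonneg x k)), inv_mul_cancel₀ h0]) (by
        rw [map_smul, hPk])
      rw [map_smul, ← smul_neg] at h1
      exact smul_right_injective E (inv_ne_zero h0) h1
  -- the vector at `y`
  set w₀ : E := -vel e x u D with hw₀d
  have hw₀ : nm y w₀ = 1 := by
    have h1 := nm_vel F x u D
    have h2 : nm y (vel e x u D) = 1 := by
      rw [← hu, ← h1]
      subst hy
      rfl
    rw [hw₀d, ← neg_one_smul ℝ, nm_smul, h2]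
    norm_num
  have hx : e y (D • w₀ : E) = x := by
    have h1 := gam_flow F x u D (-D)
    rw [add_neg_cancel, gam_zero he] at h1
    have h2 : (D • w₀ : E) = -D • vel e x u D := by rw [hw₀d, smul_neg, neg_smul]
    refine (congrArg (e y) h2).trans ?_
    rw [← hy]
    exact h1
  have hww : ip y w₀ w₀ = 1 := by rw [ip_self, hw₀]; norm_num
  -- the fixed space
  let A : E →ₗ[ℝ] E :=
    { toFun := fun a => a - ip y w₀ a • w₀
      map_add' := fun a b => by rw [refl_ip_add_right, add_smul]; abel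
      map_smul' := fun c a => by
        rw [ip_smul_right, RingHom.id_apply, smul_sub, smul_smul] }
  have hA : ∀ a, A a = a - ip y w₀ a • w₀ := fun a => rfl
  have hAw : ∀ a, ip y w₀ (A a) = 0 := by
    intro a
    rw [hA, sub_eq_add_neg, ← neg_smul, refl_ip_add_right, ip_smul_right, hww]
    ring
  let T : E →ₗ[ℝ] E := dEl e y (D • w₀) ∘ₗ A
  have hT : ∀ a, T a = dE e y (D • w₀) (A a) := fun a => rfl
  have hTk : LinearMap.ker T ≤ Submodule.span ℝ {w₀} ⊔ LinearMap.range (P y w₀) := by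
    intro a ha
    rw [LinearMap.mem_ker, hT] at ha
    have h1 := ((hP y).ker w₀ (A a) hw₀).1 ha
    have h2 : a = ip y w₀ a • w₀ + P y w₀ (A a) := by rw [h1, hA]; abel
    rw [h2]
    exact Submodule.add_mem_sup (Submodule.smul_mem _ _ (Submodule.mem_span_singleton_self w₀))
      ⟨_, rfl⟩
  have hTd : finrank ℝ E ≤ finrank ℝ (LinearMap.range T) + (l + 1) := by
    have h1 := Submodule.finrank_mono hTk
    have h2 := Submodule.finrank_add_le_finrank_add_finrank (Submodule.span ℝ {w₀})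
      (LinearMap.range (P y w₀))
    have h3 := (hP y).rank w₀ hw₀
    have h4 := LinearMap.finrank_range_add_finrank_ker T
    have h5 : finrank ℝ (Submodule.span ℝ {w₀}) ≤ 1 := by
      have := finrank_span_le_card (R := ℝ) ({w₀} : Set E)
      simpa only [ge_iff_le, toFinset_singleton, Finset.card_singleton] using this
    omega
  exact refl_alg (V := TangentSpace 𝓘(ℝ, E) x) u (P x u) L hu (fun w => (hP x).idem u w hu)
    (fun a b => (hP x).symm u a b hu) (fun w => (hP x).perp u w hu) hLi hLu hLk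
    (LinearMap.range T) (by
      rintro z ⟨a, rfl⟩
      exact refl_pos F hD hcl hw₀ hx hτ hL (hAw a)) ((hP x).rank u hu) hTd v

theorem refl_same_point [CompactSpace M] (F : Facts e) {D : ℝ} (hD : 0 < D)
    (hcl : ∀ (x : M) (v : E), nm x v = 2 * D → e x v = x) {l : ℕ} {x : M}
    {P : E → E →ₗ[ℝ] E} (hP : PData e D l x P) {u u' : E} (hu : nm x u = 1) (hu' : nm x u' = 1)
    (huu' : u' = ip x u u' • u + P u u') : e x (D • u' : E) = e x (D • u : E) := by
  set α : ℝ := ip x u u' with hα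
  set k₀ : E := P u u' with hk₀
  have huu : ip x u u = 1 := by rw [ip_self, hu]; norm_num
  have huk₀ : ip x u k₀ = 0 := by rw [refl_ip_comm]; exact hP.perp u u' hu
  have hk₀u : ip x k₀ u = 0 := hP.perp u u' hu
  have hPk₀ : P u k₀ = k₀ := hP.idem u u' hu
  have hsq : α ^ 2 + nm x k₀ ^ 2 = 1 := by
    have h1 : ip x u' u' = 1 := by rw [ip_self, hu']; norm_num
    rw [huu'] at h1
    simp only [ip_add_left, refl_ip_add_right, refl_ip_smul_left, ip_smul_right, huu, huk₀, hk₀u,
      ip_self x k₀] at h1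
    linear_combination h1
  rcases eq_or_ne (nm x k₀) 0 with h0 | h0
  · have hk0 : k₀ = 0 := refl_ip_eq_zero x (by rw [ip_self, h0]; norm_num)
    rw [h0] at hsq
    have h1 : (α - 1) * (α + 1) = 0 := by linear_combination hsq
    rcases mul_eq_zero.1 h1 with h2 | h2
    · have h3 : u' = u := by
        rw [huu', hk0, sub_eq_zero.1 h2, one_smul, add_zero]
      rw [h3]
    · have h3 : u' = -u := by
        rw [huu', hk0, eq_neg_of_add_eq_zero_left h2, neg_smul, one_smul, add_zero]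
      rw [h3, smul_neg]
      exact refl_exp_neg F hD hcl hu
  · set k : E := (nm x k₀)⁻¹ • k₀ with hk
    have hkn : nm x k = 1 := by
      rw [hk, nm_smul, abs_of_nonneg (inv_nonneg.2 (nm_nonneg x k₀)), inv_mul_cancel₀ h0]
    have huk : ip x u k = 0 := by rw [hk, ip_smul_right, huk₀, mul_zero]
    have hPk : P u k = k := by rw [hk, map_smul, hPk₀]
    obtain ⟨θ, hθ1, hθ2⟩ : ∃ θ : ℝ, Real.cos θ = α ∧ Real.sin θ = nm x k₀ := by
      have h1 : ‖(⟨α, nm x k₀⟩ : ℂ)‖ = 1 := by
        have h2 : ‖(⟨α, nm x k₀⟩ : ℂ)‖ ^ 2 = 1 := by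
          rw [Complex.sq_norm, Complex.normSq_mk]
          linear_combination hsq
        have h3 := norm_nonneg (⟨α, nm x k₀⟩ : ℂ)
        nlinarith only [h2, h3]
      have h4 : (⟨α, nm x k₀⟩ : ℂ) ≠ 0 := by
        intro h5
        rw [h5] at h1
        simp at h1
      refine ⟨Complex.arg ⟨α, nm x k₀⟩, ?_, ?_⟩
      · rw [Complex.cos_arg h4, h1, div_one]
      · rw [Complex.sin_arg, h1, div_one]
    have h := hP.exp_const F hD hu hkn huk hPk θ
    rw [← h]
    have h2 : u' = Real.cos θ • u + Real.sin θ • k := by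
      rw [hθ1, hθ2, hk, smul_smul, mul_inv_cancel₀ h0, one_smul]
      exact huu'
    rw [← h2]

/-- the geodesic symmetry at `y = e x (D u)` and its linear part at `x` -/
theorem refl_exists [CompactSpace M] [ConnectedSpace M] [IsRiemannianManifold 𝓘(ℝ, E) M]
    (F : Facts e) {D : ℝ} (hD : 0 < D)
    (hcl : ∀ (x : M) (v : E), nm x v = 2 * D → e x v = x)
    (hσ : ∀ p : M, ∃ σ : M ≃ᵢ M, ∀ v : E, σ (e p v) = e p (-v : E)) (x : M) {u : E}
    (hu : nm x u = 1) :
    ∃ (τ : M ≃ᵢ M) (L : E ≃ₗ[ℝ] E), (∀ w : E, τ (e (e x (D • u : E)) w) =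
      e (e x (D • u : E)) (-w : E)) ∧ (∀ v w, ip x (L v) (L w) = ip x v w) ∧
      ∀ v : E, τ (e x v) = e x (L v : E) := by
  have he := F.isExp
  obtain ⟨τ, hτ⟩ := hσ (e x (D • u : E))
  have hx : τ x = x := by
    have h1 := gam_flow F x u D (-D)
    rw [add_neg_cancel, gam_zero he] at h1
    have h2 := gam_flow F x u D D
    have h3 : gam e x u (D + D) = x := by
      have h4 := gam_per F hD.le hcl x u hu 0
      rw [zero_add, gam_zero he] at h4
      rwa [← two_mul]
    rw [h3] at h2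
    have h5 := hτ (-D • vel e x u D)
    have h6 : (-(-D • vel e x u D) : E) = D • vel e x u D := by rw [neg_smul, neg_neg]
    have h7 : e (e x (D • u : E)) (-(-D • vel e x u D) : E) = x :=
      (congrArg (e (e x (D • u : E))) h6).trans h2
    have h8 : e (e x (D • u : E)) (-D • vel e x u D : E) = x := h1
    rw [h7, h8] at h5
    exact h5
  obtain ⟨L, hL1, hL2⟩ := isometry_linear F τ x
  refine ⟨τ, L, hτ, ?_, ?_⟩
  · intro v w
    have h1 := hL1 v w
    rwa [hx] at h1
  · intro v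
    have h1 := hL2 v
    rwa [hx] at h1

theorem PData.reflection [CompactSpace M] [ConnectedSpace M] [IsRiemannianManifold 𝓘(ℝ, E) M]
    (F : Facts e) {D : ℝ} (hD : 0 < D) (hB : InjGE e D)
    (hcl : ∀ (x : M) (v : E), nm x v = 2 * D → e x v = x) {N l : ℕ}
    (hN : finrank ℝ E = N + 1) {P : ∀ _ : M, E → E →ₗ[ℝ] E} (hP : ∀ x, PData e D l x (P x))
    (hσ : ∀ p : M, ∃ σ : M ≃ᵢ M, ∀ v : E, σ (e p v) = e p (-v)) (x : M) {u : E}
    (hu : nm x u = 1) :
    ∃ σ : M ≃ᵢ M, ∀ v : E, σ (e x v) = e x (-v + (2 : ℝ) • (ip x u v • u + P x u v) : E) := by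
  obtain ⟨τ, L, hτ, hLi, hL⟩ := refl_exists F hD hcl hσ x hu
  obtain ⟨s, hs⟩ := hσ x
  refine ⟨τ.trans s, fun v => ?_⟩
  have h1 := refl_core F hD hcl hP hu rfl (τ := τ) hτ (L := L.toLinearMap) hL hLi v
  have h2 : (τ.trans s) (e x v) = s (τ (e x v)) := rfl
  rw [h2, hL v, hs]
  have h3 : (-(L v) : E) = -v + (2 : ℝ) • (ip x u v • u + P x u v) := by
    have h4 : L v = v - (2 : ℝ) • (ip x u v • u + P x u v) := h1
    rw [h4]
    abel
  exact congrArg (e x) h3

theorem PData.same [CompactSpace M] [ConnectedSpace M] [IsRiemannianManifold 𝓘(ℝ, E) M]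
    (F : Facts e) {D : ℝ} (hD : 0 < D) (hB : InjGE e D)
    (hcl : ∀ (x : M) (v : E), nm x v = 2 * D → e x v = x) {N l : ℕ}
    (hN : finrank ℝ E = N + 1) {P : ∀ _ : M, E → E →ₗ[ℝ] E} (hP : ∀ x, PData e D l x (P x))
    (hσ : ∀ p : M, ∃ σ : M ≃ᵢ M, ∀ v : E, σ (e p v) = e p (-v)) (x : M) {u u' z : E}
    (hu : nm x u = 1) (hu' : nm x u' = 1) (huu' : u' = ip x u u' • u + P x u u')
    (hz : ip x u z = 0) (hz' : P x u z = 0) : ip x u' z = 0 ∧ P x u' z = 0 := by
  obtain ⟨τ, L, hτ, hLi, hL⟩ := refl_exists F hD hcl hσ x hu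
  have h1 := refl_core F hD hcl hP hu rfl (τ := τ) hτ (L := L.toLinearMap) hL hLi z
  have h2 := refl_core F hD hcl hP hu' (refl_same_point F hD hcl (hP x) hu hu' huu')
    (τ := τ) hτ (L := L.toLinearMap) hL hLi z
  rw [h1, hz, hz', zero_smul, add_zero, smul_zero, sub_zero] at h2
  have h3 : ip x u' z • u' + P x u' z = 0 := by
    have h4 : (2 : ℝ) • (ip x u' z • u' + P x u' z) = 0 := by
      have h5 := sub_eq_self.1 h2.symm
      exact h5
    exact (smul_eq_zero.1 h4).resolve_left (by norm_num)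
  have h6 : ip x u' z = 0 := by
    have h7 : ip x u' (ip x u' z • u' + P x u' z) = ip x u' z := by
      rw [refl_ip_add_right, ip_smul_right, ip_self, hu', refl_ip_comm x u' (P x u' z),
        (hP x).perp u' z hu']
      ring
    rw [h3] at h7
    have h8 : ip x u' (0 : E) = 0 := by
      have := ip_smul_right x 0 u' (0 : E)
      rwa [zero_smul, zero_mul] at this
    rw [← h7, h8]
  refine ⟨h6, ?_⟩
  rwa [h6, zero_smul, zero_add] at h3

end

end Vale.Agent.P231
end
end
end

section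

section

section

/-! P231, homogeneity: the case `l = N` (the isometry group is transitive on the unit spheres). -/

set_option maxSynthPendingDepth 3
set_option linter.unusedSectionVars false

open Bundle Manifold Set Filter MeasureTheory Module
open scoped ContDiff Manifold Topology ENNReal

namespace Vale.Agent.P231

noncomputable section

open Vale.Agent.P234

/-! ### abstract projections -/

section Abstract

variable {V : Type*} [NormedAddCommGroup V] [InnerProductSpace ℝ V] [FiniteDimensional ℝ V]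

theorem sph_rank_le {N : ℕ} (hV : finrank ℝ V = N + 1) {p : V →ₗ[ℝ] V} {u : V} (hu : ‖u‖ = 1)
    (hperp : ∀ w, inner ℝ (p w) u = 0) :
    LinearMap.range p ≤ (ℝ ∙ u)ᗮ ∧ finrank ℝ ((ℝ ∙ u)ᗮ : Submodule ℝ V) = N := by
  have : Fact (finrank ℝ V = N + 1) := ⟨hV⟩
  have hu0 : u ≠ 0 := by
    rintro rfl
    rw [norm_zero] at hu
    exact zero_ne_one hu
  refine ⟨?_, Submodule.finrank_orthogonal_span_singleton hu0⟩
  rintro _ ⟨w, rfl⟩
  rw [Submodule.mem_orthogonal_singleton_iff_inner_left]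
  exact hperp w

theorem sph_full {N : ℕ} (hV : finrank ℝ V = N + 1) {p : V →ₗ[ℝ] V} {u : V} (hu : ‖u‖ = 1)
    (hidem : ∀ w, p (p w) = p w) (hperp : ∀ w, inner ℝ (p w) u = 0)
    (hrank : finrank ℝ (LinearMap.range p) = N) {w : V} (hw : inner ℝ u w = 0) : p w = w := by
  obtain ⟨h1, h2⟩ := sph_rank_le hV hu hperp
  have h3 : LinearMap.range p = (ℝ ∙ u)ᗮ :=
    Submodule.eq_of_le_of_finrank_eq h1 (by rw [hrank, h2])
  have h4 : w ∈ LinearMap.range p := by
    rw [h3, Submodule.mem_orthogonal_singleton_iff_inner_right]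
    exact hw
  obtain ⟨z, rfl⟩ := h4
  exact hidem z

theorem sph_exists {N l : ℕ} (hV : finrank ℝ V = N + 1) {p : V →ₗ[ℝ] V} {u : V}
    (hidem : ∀ w, p (p w) = p w) (hsymm : ∀ a b, inner ℝ (p a) b = inner ℝ a (p b))
    (hrank : finrank ℝ (LinearMap.range p) = l) (hl : l < N) :
    ∃ z, ‖z‖ = 1 ∧ inner ℝ u z = 0 ∧ p z = 0 := by
  set W : Submodule ℝ V := (ℝ ∙ u) ⊔ LinearMap.range p with hW
  have h1 : finrank ℝ W ≤ 1 + l := by
    refine (Submodule.finrank_add_le_finrank_add_finrank _ _).trans ?_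
    rw [hrank]
    refine Nat.add_le_add_right ?_ l
    exact (finrank_span_le_card ({u} : Set V)).trans (by simp)
  have h2 : finrank ℝ W + finrank ℝ Wᗮ = finrank ℝ V := Submodule.finrank_add_finrank_orthogonal W
  have h3 : 0 < finrank ℝ Wᗮ := by omega
  obtain ⟨z, hz⟩ := Module.finrank_pos_iff_exists_ne_zero.1 h3
  have hz0 : (z : V) ≠ 0 := fun h => hz (Subtype.ext h)
  have hzW : ∀ w ∈ W, inner ℝ w (z : V) = 0 := fun w hw =>
    (Submodule.mem_orthogonal W (z : V)).1 z.2 w hw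
  have hu : inner ℝ u (z : V) = 0 :=
    hzW u (Submodule.mem_sup_left (Submodule.mem_span_singleton_self u))
  have hp : p (z : V) = 0 := by
    have h4 : inner ℝ (p (z : V)) (p (z : V)) = 0 := by
      rw [← hsymm, hidem]
      exact hzW _ (Submodule.mem_sup_right ⟨_, rfl⟩)
    exact inner_self_eq_zero.1 h4
  refine ⟨(‖(z : V)‖)⁻¹ • (z : V), ?_, ?_, ?_⟩
  · rw [norm_smul, norm_inv, norm_norm, inv_mul_cancel₀ (norm_ne_zero_iff.2 hz0)]
  · rw [inner_smul_right, hu, mul_zero]
  · rw [map_smul, hp, smul_zero]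

end Abstract

variable {E : Type*} [NormedAddCommGroup E] [NormedSpace ℝ E] [FiniteDimensional ℝ E]
  {M : Type*} [MetricSpace M] [ChartedSpace E M]
  [RiemannianBundle (fun x : M => TangentSpace 𝓘(ℝ, E) x)]
  [IsManifold 𝓘(ℝ, E) ∞ M]
  [IsContMDiffRiemannianBundle 𝓘(ℝ, E) ∞ E (fun x : M => TangentSpace 𝓘(ℝ, E) x)]
  {e : ∀ x : M, TangentSpace 𝓘(ℝ, E) x → M}

/-! ### transfer to Euclidean coordinates -/

omit [IsManifold 𝓘(ℝ, E) ∞ M]
  [IsContMDiffRiemannianBundle 𝓘(ℝ, E) ∞ E (fun x : M => TangentSpace 𝓘(ℝ, E) x)] in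
theorem sph_fr_trP (x : M) (P : E → E →ₗ[ℝ] E) (a b : Eu E) :
    fr x (trP x P a b) = P (fr x a) (fr x b) := by
  unfold trP
  simp only [ContinuousLinearEquiv.toLinearEquiv_symm, LinearMap.coe_comp, LinearEquiv.coe_coe, ContinuousLinearEquiv.coe_symm_toLinearEquiv, ContinuousLinearEquiv.coe_toLinearEquiv, Function.comp_apply, ContinuousLinearEquiv.apply_symm_apply]

omit [IsManifold 𝓘(ℝ, E) ∞ M]
  [IsContMDiffRiemannianBundle 𝓘(ℝ, E) ∞ E (fun x : M => TangentSpace 𝓘(ℝ, E) x)] in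
theorem sph_ip_symm (x : M) (v w : E) :
    ip x v w = inner ℝ ((fr x).symm v) ((fr x).symm w : Eu E) := by
  rw [← ip_fr x, ContinuousLinearEquiv.apply_symm_apply, ContinuousLinearEquiv.apply_symm_apply]

omit [IsManifold 𝓘(ℝ, E) ∞ M]
  [IsContMDiffRiemannianBundle 𝓘(ℝ, E) ∞ E (fun x : M => TangentSpace 𝓘(ℝ, E) x)] in
theorem sph_nm_symm (x : M) (v : E) : nm x v = ‖((fr x).symm v : Eu E)‖ := by
  rw [← nm_fr x, ContinuousLinearEquiv.apply_symm_apply]

omit [IsManifold 𝓘(ℝ, E) ∞ M]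
  [IsContMDiffRiemannianBundle 𝓘(ℝ, E) ∞ E (fun x : M => TangentSpace 𝓘(ℝ, E) x)] in
theorem sph_rank_trP (x : M) (P : E → E →ₗ[ℝ] E) (a : Eu E) :
    finrank ℝ (LinearMap.range (trP x P a)) = finrank ℝ (LinearMap.range (P (fr x a))) := by
  unfold trP
  rw [← LinearMap.comp_assoc, LinearMap.range_comp_of_range_eq_top _
    (LinearEquiv.range _), LinearMap.range_comp]
  exact LinearEquiv.finrank_map_eq _ _

section Data

variable {D : ℝ} {l : ℕ} {x : M} {P : E → E →ₗ[ℝ] E}

theorem PData.sph_idem (hP : PData e D l x P) {a : Eu E} (ha : ‖a‖ = 1) (b : Eu E) :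
    trP x P a (trP x P a b) = trP x P a b := by
  apply (fr x).injective
  rw [sph_fr_trP, sph_fr_trP]
  exact hP.idem _ _ (by rw [nm_fr, ha])

theorem PData.sph_symm (hP : PData e D l x P) {a : Eu E} (ha : ‖a‖ = 1) (b c : Eu E) :
    inner ℝ (trP x P a b) c = inner ℝ b (trP x P a c) := by
  rw [← ip_fr x, ← ip_fr x, sph_fr_trP, sph_fr_trP]
  exact hP.symm _ _ _ (by rw [nm_fr, ha])

theorem PData.sph_perp (hP : PData e D l x P) {a : Eu E} (ha : ‖a‖ = 1) (b : Eu E) :
    inner ℝ (trP x P a b) a = 0 := by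
  rw [← ip_fr x, sph_fr_trP]
  exact hP.perp _ _ (by rw [nm_fr, ha])

theorem PData.sph_rank (hP : PData e D l x P) {a : Eu E} (ha : ‖a‖ = 1) :
    finrank ℝ (LinearMap.range (trP x P a)) = l := by
  rw [sph_rank_trP]
  exact hP.rank _ (by rw [nm_fr, ha])

/-- if `l = N` the projections are the orthogonal projections along `u` -/
theorem PData.sph_full {N : ℕ} (hN : finrank ℝ E = N + 1) (hP : PData e D N x P) {u w : E}
    (hu : nm x u = 1) (huw : ip x u w = 0) : P u w = w := by
  have hV : finrank ℝ (Eu E) = N + 1 := by rw [finrank_euclideanSpace_fin, hN]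
  have ha : ‖((fr x).symm u : Eu E)‖ = 1 := by rw [← sph_nm_symm, hu]
  have h := Vale.Agent.P231.sph_full hV ha (fun w => hP.sph_idem ha w)
    (fun w => hP.sph_perp ha w) (hP.sph_rank ha) (w := (fr x).symm w)
    (by rw [← sph_ip_symm, huw])
  have h2 := congrArg (fr x) h
  rw [sph_fr_trP, ContinuousLinearEquiv.apply_symm_apply,
    ContinuousLinearEquiv.apply_symm_apply] at h2
  exact h2

end Data

/-! ### the metric in normal coordinates, `l = N` -/

section Metric

theorem sph_jf_zero (F : Facts e) (x : M) (u : E) (r : ℝ) (w : E) :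
    jf e x u 0 r w = r • dE e x (r • u) w := by
  unfold jf
  rw [gam_zero F.isExp, vel_zero F.isExp, sub_zero]

theorem sph_ip_smul_left (x : M) (r : ℝ) (a b : E) : ip x (r • a) b = r * ip x a b :=
  real_inner_smul_left (F := TangentSpace 𝓘(ℝ, E) x) a b r

theorem sph_ip_smul_right (x : M) (r : ℝ) (a b : E) : ip x a (r • b) = r * ip x a b :=
  real_inner_smul_right (F := TangentSpace 𝓘(ℝ, E) x) a b r

theorem sph_ip_add_left (x : M) (a b c : E) : ip x (a + b) c = ip x a c + ip x b c :=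
  inner_add_left (E := TangentSpace 𝓘(ℝ, E) x) (𝕜 := ℝ) a b c

theorem sph_ip_add_right (x : M) (a b c : E) : ip x a (b + c) = ip x a b + ip x a c :=
  inner_add_right (E := TangentSpace 𝓘(ℝ, E) x) (𝕜 := ℝ) a b c

theorem sph_ip_sub_right (x : M) (a b c : E) : ip x a (b - c) = ip x a b - ip x a c :=
  inner_sub_right (E := TangentSpace 𝓘(ℝ, E) x) (𝕜 := ℝ) a b c

theorem sph_ip_comm (x : M) (a b : E) : ip x a b = ip x b a :=
  real_inner_comm (F := TangentSpace 𝓘(ℝ, E) x) _ _

theorem sph_split [CompactSpace M] (F : Facts e) (x : M) (u : E) (hu : nm x u = 1) {r : ℝ}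
    (hr : 0 < r) (a : ℝ) (w : E) (hw : ip x w u = 0) :
    nm (gam e x u r) (dE e x (r • u) (a • u + w)) ^ 2 =
      a ^ 2 + nm (gam e x u r) (dE e x (r • u) w) ^ 2 := by
  have hg := gauss F x u hu 0 r w
  rw [gam_zero F.isExp, vel_zero F.isExp, hw, mul_zero, sph_jf_zero F, sph_ip_smul_left] at hg
  have hg' : ip (gam e x u r) (dE e x (r • u) w) (vel e x u r) = 0 :=
    (mul_eq_zero.mp hg).resolve_left hr.ne'
  have e1 : dE e x (r • u) (a • u + w) = a • vel e x u r + dE e x (r • u) w := by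
    rw [dE_add, dE_smul]
    rfl
  have hv : nm (gam e x u r) (vel e x u r) = 1 := (nm_vel F x u r).trans hu
  rw [e1, ← ip_self, sph_ip_add_left, sph_ip_add_right, sph_ip_add_right, sph_ip_smul_left,
    sph_ip_smul_right, ip_self, hv, sph_ip_smul_left, sph_ip_smul_right,
    sph_ip_comm _ (vel e x u r), hg', ip_self]
  ring

/-- the model formula -/
def sphG (D r a q : ℝ) : ℝ :=
  a ^ 2 + (Real.sin (Real.pi * r / (2 * D)) / (Real.pi * r / (2 * D))) ^ 2 *
    (1 - Real.sin (Real.pi * r / (2 * D)) ^ 2) * (q ^ 2 - a ^ 2)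

theorem sph_metric [CompactSpace M] (F : Facts e) {D : ℝ} {N : ℕ}
    (hN : finrank ℝ E = N + 1) {x : M} {P : E → E →ₗ[ℝ] E} (hP : PData e D N x P) {v : E}
    (hv0 : 0 < nm x v) (hvD : nm x v < D) (w : E) :
    nm (e x v) (dE e x v w) ^ 2 = sphG D (nm x v) ((nm x v)⁻¹ * ip x v w) (nm x w) := by
  set r := nm x v with hr
  set u : E := r⁻¹ • v with hu_def
  have hu : nm x u = 1 := by
    rw [hu_def, nm_smul, abs_of_pos (inv_pos.mpr hv0), ← hr]
    exact inv_mul_cancel₀ hv0.ne'
  have hv1 : r • u = v := by rw [hu_def, smul_smul, mul_inv_cancel₀ hv0.ne', one_smul]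
  set a := ip x u w with ha
  have ha' : r⁻¹ * ip x v w = a := by rw [ha, hu_def, sph_ip_smul_left]
  set w' : E := w - a • u with hw'
  have hw'u : ip x u w' = 0 := by
    rw [hw', sph_ip_sub_right, sph_ip_smul_right, ip_self, hu, ← ha]
    ring
  have hw : w = a • u + w' := by rw [hw']; abel
  have h1 := sph_split F x u hu hv0 a w' (by rw [sph_ip_comm, hw'u])
  rw [← hw] at h1
  have h2 := hP.gram u w' hu hw'u r ⟨hv0, hvD⟩
  rw [hP.sph_full hN hu hw'u] at h2
  have h3 : nm x w ^ 2 = a ^ 2 + nm x w' ^ 2 := by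
    rw [← ip_self, hw, sph_ip_add_left, sph_ip_add_right, sph_ip_add_right, sph_ip_smul_left,
      sph_ip_smul_right, ip_self, hu, sph_ip_smul_left, sph_ip_smul_right,
      sph_ip_comm x w' u, hw'u, ip_self]
    ring
  have h4 : gam e x u r = e x (r • u : E) := rfl
  rw [h4] at h1
  have hφ : ∀ z z' : E, z = z' → nm (e x z) (dE e x z w) = nm (e x z') (dE e x z' w) := by
    rintro z z' rfl
    rfl
  rw [← hφ _ _ hv1, h1, h2, ha']
  unfold sphG
  rw [h3]
  ring

/-- all unit vectors have the same endpoint at distance `D` -/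
theorem sph_const [CompactSpace M] [ConnectedSpace M] [IsRiemannianManifold 𝓘(ℝ, E) M]
    (F : Facts e) {D : ℝ} (hD : 0 < D)
    (hcl : ∀ (x : M) (v : E), nm x v = 2 * D → e x v = x) {N : ℕ}
    (hN : finrank ℝ E = N + 1) {x : M} {P : E → E →ₗ[ℝ] E} (hP : PData e D N x P)
    {u u' : E} (hu : nm x u = 1) (hu' : nm x u' = 1) :
    e x (D • u' : E) = e x (D • u : E) := by
  set c := ip x u u' with hc
  set w : E := u' - c • u with hw
  have hwu : ip x u w = 0 := by
    rw [hw, sph_ip_sub_right, sph_ip_smul_right, ip_self, hu, ← hc]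
    ring
  have hu'w : u' = c • u + w := by rw [hw]; abel
  have hnorm : c ^ 2 + nm x w ^ 2 = 1 := by
    have h1 : nm x u' ^ 2 = c ^ 2 + nm x w ^ 2 := by
      rw [← ip_self, hu'w, sph_ip_add_left, sph_ip_add_right, sph_ip_add_right, sph_ip_smul_left,
        sph_ip_smul_right, ip_self, hu, sph_ip_smul_left, sph_ip_smul_right,
        sph_ip_comm x w u, hwu, ip_self]
      ring
    rw [← h1, hu', one_pow]
  by_cases h0 : nm x w = 0
  · have hw0 : w = 0 := norm_eq_zero (E := TangentSpace 𝓘(ℝ, E) x) |>.mp h0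
    rw [h0, zero_pow two_ne_zero, add_zero] at hnorm
    rw [hw0, add_zero] at hu'w
    have hmul : (c - 1) * (c + 1) = 0 := by linarith
    rcases mul_eq_zero.1 hmul with h | h
    · have hc1 : c = 1 := by linarith only [h]
      rw [hc1, one_smul] at hu'w
      rw [hu'w]
    · have hc1 : c = -1 := by linarith only [h]
      rw [hc1, neg_one_smul] at hu'w
      have h1 : nm x (D • u) = D := by rw [nm_smul, hu, mul_one, abs_of_pos hD]
      have h2 := symm_antipode F hD hcl x (D • u) h1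
      rw [hu'w, smul_neg]
      exact h2
  · have hpos : 0 < nm x w := lt_of_le_of_ne (nm_nonneg x w) (Ne.symm h0)
    set k : E := (nm x w)⁻¹ • w with hk_def
    have hk : nm x k = 1 := by
      rw [hk_def, nm_smul, abs_of_pos (inv_pos.mpr hpos)]
      exact inv_mul_cancel₀ h0
    have huk : ip x u k = 0 := by rw [hk_def, sph_ip_smul_right, hwu, mul_zero]
    have hPk : P u k = k := hP.sph_full hN hu huk
    have hwk : w = nm x w • k := by rw [hk_def, smul_smul, mul_inv_cancel₀ h0, one_smul]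
    have hcos : Real.cos (Real.arccos c) = c :=
      Real.cos_arccos (by nlinarith only [hnorm]) (by nlinarith only [hnorm])
    have hsin : Real.sin (Real.arccos c) = nm x w := by
      rw [Real.sin_arccos]
      have : 1 - c ^ 2 = nm x w ^ 2 := by linarith only [hnorm]
      rw [this, Real.sqrt_sq hpos.le]
    have h := hP.exp_const F hD hu hk huk hPk (Real.arccos c)
    rw [hcos, hsin, ← hwk, ← hu'w] at h
    exact h

end Metric

/-! ### transitivity -/

/-- a linear map, given in orthonormal coordinates -/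
def sphL (x : M) (R : Eu E ≃ₗᵢ[ℝ] Eu E) : E →ₗ[ℝ] E :=
  (fr x : Eu E ≃L[ℝ] E).toLinearEquiv.toLinearMap ∘ₗ R.toLinearEquiv.toLinearMap ∘ₗ
    (fr x : Eu E ≃L[ℝ] E).symm.toLinearEquiv.toLinearMap

theorem sphL_apply (x : M) (R : Eu E ≃ₗᵢ[ℝ] Eu E) (v : E) :
    sphL x R v = fr x (R ((fr x).symm v)) := rfl

theorem sphL_ip (x : M) (R : Eu E ≃ₗᵢ[ℝ] Eu E) (v w : E) :
    ip x (sphL x R v) (sphL x R w) = ip x v w := by
  rw [sphL_apply, sphL_apply, ip_fr, LinearIsometryEquiv.inner_map_map, ← sph_ip_symm]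

theorem sphL_nm (x : M) (R : Eu E ≃ₗᵢ[ℝ] Eu E) (v : E) : nm x (sphL x R v) = nm x v := by
  rw [sphL_apply, nm_fr, LinearIsometryEquiv.norm_map, ← sph_nm_symm]

theorem sphere_transitive [CompactSpace M] [ConnectedSpace M] [IsRiemannianManifold 𝓘(ℝ, E) M]
    (F : Facts e) {D : ℝ} (hD : 0 < D) (hB : InjGE e D) (hd : ∀ x y : M, dist x y ≤ D)
    (hcl : ∀ (x : M) (v : E), nm x v = 2 * D → e x v = x) {N : ℕ}
    (hN : finrank ℝ E = N + 1) {x : M} {P : E → E →ₗ[ℝ] E} (hP : PData e D N x P)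
    {u u' : E} (hu : nm x u = 1) (hu' : nm x u' = 1) :
    ∃ σ : M ≃ᵢ M, ∀ r : ℝ, σ (e x (r • u : E)) = e x (r • u' : E) := by
  set a : Eu E := (fr x).symm u with ha
  set a' : Eu E := (fr x).symm u' with ha'
  have hna : ‖a‖ = ‖a'‖ := by rw [ha, ha', ← sph_nm_symm, ← sph_nm_symm, hu, hu']
  set R : Eu E ≃ₗᵢ[ℝ] Eu E := (ℝ ∙ (a - a'))ᗮ.reflection with hR
  have hRa : R a = a' := Submodule.reflection_sub hna
  have hRR : ∀ b, R (R b) = b := fun b => Submodule.reflection_reflection _ b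
  set L := sphL x R with hL
  have hLL : ∀ v, L (L v) = v := by
    intro v
    rw [hL, sphL_apply, sphL_apply, ContinuousLinearEquiv.symm_apply_apply, hRR,
      ContinuousLinearEquiv.apply_symm_apply]
  have hLu : L u = u' := by
    rw [hL, sphL_apply, ← ha, hRa, ha', ContinuousLinearEquiv.apply_symm_apply]
  have hconst : ∀ v v' : E, nm x v = D → nm x v' = D → e x v = e x v' := by
    intro v v' hv hv'
    have h1 : ∀ v : E, nm x v = D → nm x (D⁻¹ • v) = 1 ∧ D • (D⁻¹ • v) = v := fun v hv => by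
      refine ⟨?_, ?_⟩
      · rw [nm_smul, hv, abs_of_pos (inv_pos.2 hD), inv_mul_cancel₀ hD.ne']
      · rw [smul_smul, mul_inv_cancel₀ hD.ne', one_smul]
    have h2 := sph_const F hD hcl hN hP (h1 v' hv').1 (h1 v hv).1
    rw [(h1 v hv).2, (h1 v' hv').2] at h2
    exact h2
  obtain ⟨σ, h1, h2⟩ := exists_lipschitz_map F hD hB hd hcl x x L (fun v => sphL_nm x R v)
    (fun v hv w => by
      rcases (nm_nonneg x v).eq_or_lt with h0 | h0
      · have hv0 : v = 0 := norm_eq_zero (E := TangentSpace 𝓘(ℝ, E) x) |>.mp h0.symm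
        subst hv0
        have h3 : L 0 = 0 := map_zero L
        rw [h3, dE_zero_base F.isExp, dE_zero_base F.isExp]
        have h4 : e x (0 : E) = x := F.isExp.map_zero x
        have h5 : nm (e x (0 : E)) (L w) = nm x (L w) := by rw [h4]
        have h6 : nm (e x (0 : E)) w = nm x w := by rw [h4]
        rw [h5, h6]
        exact sphL_nm x R w
      · have h3 := sph_metric F hN hP h0 hv w
        have h4 := sph_metric F hN hP (v := L v) (by rw [hL, sphL_nm]; exact h0)
          (by rw [hL, sphL_nm]; exact hv) (L w)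
        rw [hL, sphL_nm, sphL_nm, sphL_ip, ← h3] at h4
        exact (sq_eq_sq₀ (nm_nonneg _ _) (nm_nonneg _ _)).1 h4)
    (fun v v' hv hv' => by
      have h3 : e x (L v) = e x (L v') := hconst _ _ ((sphL_nm x R v).trans hv)
        ((sphL_nm x R v').trans hv')
      have h4 : e x v = e x v' := hconst _ _ hv hv'
      rw [h3, h4, dist_self, dist_self])
  have h2' : ∀ v : TangentSpace 𝓘(ℝ, E) x, σ (e x v) = e x (L v) := fun v => h2 v
  have hinv : ∀ y, σ (σ y) = y := by
    intro y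
    obtain ⟨v, hv, -⟩ := F.hopfRinow x y
    have h3 : σ (e x (L v)) = e x (L (L v)) := h2 (L v)
    have h4 : e x (L (L v) : E) = e x (v : E) := congrArg (e x) (hLL v)
    rw [← hv, h2', h3, h4]
  refine ⟨IsometryEquiv.mk' σ σ hinv ?_, fun r => ?_⟩
  · refine Isometry.of_dist_eq fun y z => le_antisymm (h1 y z) ?_
    have h3 := h1 (σ y) (σ z)
    rwa [hinv, hinv] at h3
  · have h3 : σ (e x (r • u : E)) = e x (L (r • u)) := h2 (r • u)
    have h4 : L (r • u) = r • u' := by rw [map_smul, hLu]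
    rw [h4] at h3
    exact h3

end

end Vale.Agent.P231
end
end
end

section

section

section

/-! P231, homogeneity: two-point homogeneity. -/

set_option maxSynthPendingDepth 3
set_option linter.unusedSectionVars false

open Bundle Manifold Set Filter MeasureTheory Module
open scoped ContDiff Manifold Topology ENNReal

namespace Vale.Agent.P231

noncomputable section

open Vale.Agent.P234

variable {E : Type*} [NormedAddCommGroup E] [NormedSpace ℝ E] [FiniteDimensional ℝ E]
  {M : Type*} [MetricSpace M] [ChartedSpace E M]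
  [RiemannianBundle (fun x : M => TangentSpace 𝓘(ℝ, E) x)]
  [IsManifold 𝓘(ℝ, E) ∞ M]
  [IsContMDiffRiemannianBundle 𝓘(ℝ, E) ∞ E (fun x : M => TangentSpace 𝓘(ℝ, E) x)]
  {e : ∀ x : M, TangentSpace 𝓘(ℝ, E) x → M}

/-- Hopf-Rinow for raw vectors -/
theorem twoPoint_hopfRinow (F : Facts e) (x y : M) :
    ∃ v : E, gam e x v 1 = y ∧ nm x v = dist x y := by
  obtain ⟨v, hv, hd⟩ := F.hopfRinow x y
  refine ⟨(v : E), ?_, hd.symm⟩
  rw [← hv]
  exact congrArg (e x) (one_smul ℝ v)

/-- geodesic symmetries act transitively -/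
theorem twoPoint_transitive (F : Facts e)
    (hσ : ∀ p : M, ∃ σ : M ≃ᵢ M, ∀ v : E, σ (e p v) = e p (-v)) (x x' : M) :
    ∃ σ : M ≃ᵢ M, σ x = x' := by
  obtain ⟨v, hv, -⟩ := twoPoint_hopfRinow F x x'
  set y : M := gam e x v (1 / 2) with hy
  set w : E := vel e x v (1 / 2) with hw
  obtain ⟨σ, hσ'⟩ := hσ y
  refine ⟨σ, ?_⟩
  have h1 : gam e y w (-(1 / 2)) = x := by
    rw [hy, hw, gam_flow F, add_neg_cancel, gam_zero F.isExp]
  have h2 : gam e y w (1 / 2) = x' := by
    rw [hy, hw, gam_flow F]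
    have h3 : (1 / 2 + 1 / 2 : ℝ) = 1 := by norm_num
    rw [h3, hv]
  have h5 : σ (gam e y w (-(1 / 2))) = e y (-((-(1 / 2 : ℝ)) • w) : E) := hσ' _
  have h6 : (-((-(1 / 2 : ℝ)) • w) : E) = (1 / 2 : ℝ) • w := by rw [neg_smul, neg_neg]
  rw [h6, h1] at h5
  rw [h5]
  exact h2

/-- a unit vector in the direction of `v` -/
theorem twoPoint_unit {N : ℕ} (hN : finrank ℝ E = N + 1) (x : M) (v : E) :
    ∃ u : E, nm x u = 1 ∧ v = nm x v • u := by
  rcases (nm_nonneg x v).eq_or_lt with h0 | h0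
  · have hv0 : v = 0 := norm_eq_zero (E := TangentSpace 𝓘(ℝ, E) x) |>.mp h0.symm
    have h1 : 0 < finrank ℝ (Eu E) := by rw [finrank_euclideanSpace_fin, hN]; omega
    have : Nontrivial (Eu E) := Module.finrank_pos_iff.1 h1
    obtain ⟨a, ha⟩ := exists_norm_eq (Eu E) (zero_le_one (α := ℝ))
    refine ⟨fr x a, by rw [nm_fr, ha], ?_⟩
    rw [← h0, zero_smul, hv0]
  · refine ⟨(nm x v)⁻¹ • v, ?_, ?_⟩
    · rw [nm_smul, abs_of_pos (inv_pos.mpr h0), inv_mul_cancel₀ h0.ne']
    · rw [smul_smul, mul_inv_cancel₀ h0.ne', one_smul]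

/-- transitivity on unit vectors at a point -/
theorem twoPoint_sphere [CompactSpace M] [ConnectedSpace M] [IsRiemannianManifold 𝓘(ℝ, E) M]
    (F : Facts e) {D : ℝ} (hD : 0 < D) (hB : InjGE e D) (hd : ∀ x y : M, dist x y ≤ D)
    (hcl : ∀ (x : M) (v : E), nm x v = 2 * D → e x v = x) {N l : ℕ}
    (hN : finrank ℝ E = N + 1) {P : ∀ _ : M, E → E →ₗ[ℝ] E} (hP : ∀ x, PData e D l x (P x))
    (hσ : ∀ p : M, ∃ σ : M ≃ᵢ M, ∀ v : E, σ (e p v) = e p (-v)) (x : M)
    {u u' : E} (hu : nm x u = 1) (hu' : nm x u' = 1) :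
    ∃ σ : M ≃ᵢ M, ∀ r : ℝ, σ (e x (r • u : E)) = e x (r • u' : E) := by
  have hV : finrank ℝ (Eu E) = N + 1 := by rw [finrank_euclideanSpace_fin, hN]
  have ha : ‖((fr x).symm u : Eu E)‖ = 1 := by rw [← sph_nm_symm, hu]
  have ha' : ‖((fr x).symm u' : Eu E)‖ = 1 := by rw [← sph_nm_symm, hu']
  have hlN : l ≤ N := by
    obtain ⟨h1, h2⟩ := sph_rank_le hV ha (fun w => (hP x).sph_perp ha w)
    rw [← (hP x).sph_rank ha, ← h2]
    exact Submodule.finrank_mono h1
  rcases hlN.eq_or_lt with rfl | hlt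
  · exact sphere_transitive F hD hB hd hcl hN (hP x) hu hu'
  · obtain ⟨B, hQ⟩ := exists_form F hD (hP x)
    obtain ⟨A, ⟨σ, hA⟩, hAu⟩ := hQ.transitive
      (G := {A : Eu E →ₗ[ℝ] Eu E | ∃ σ : M ≃ᵢ M, ∀ v : Eu E,
        σ (e x (fr x v : E)) = e x (fr x (A v) : E)})
      (fun a b z h1 h2 h3 h4 h5 => by
        have h6 := PData.same F hD hB hcl hN hP hσ x (u := fr x a) (u' := fr x b)
          (z := fr x z) (by rw [nm_fr, h1]) (by rw [nm_fr, h2])
          (by
            rw [ip_fr, ← sph_fr_trP, ← map_smul, ← map_add, ← h3])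
          (by rw [ip_fr, h4]) (by rw [← sph_fr_trP, h5, map_zero])
        rw [ip_fr, ← sph_fr_trP] at h6
        refine ⟨h6.1, (fr x).injective ?_⟩
        rw [h6.2, map_zero])
      (fun a h1 => sph_exists hV (fun w => (hP x).sph_idem h1 w)
        (fun b c => (hP x).sph_symm h1 b c) ((hP x).sph_rank h1) hlt)
      (fun a h1 => by
        obtain ⟨σ, h2⟩ := PData.reflection F hD hB hcl hN hP hσ x (u := fr x a)
          (by rw [nm_fr, h1])
        refine ⟨σ, fun v => ?_⟩
        rw [h2 (fr x v), Srefl_apply, ip_fr, ← sph_fr_trP]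
        congr 1
        rw [map_add, map_neg, map_smul, map_add, map_smul])
      (fun A hA A' hA' => by
        obtain ⟨σ, h1⟩ := hA
        obtain ⟨σ', h2⟩ := hA'
        refine ⟨σ'.trans σ, fun v => ?_⟩
        rw [IsometryEquiv.trans_apply, h2, h1]
        rfl) ha ha'
    refine ⟨σ, fun r => ?_⟩
    have h1 := hA (r • (fr x).symm u)
    rw [map_smul, map_smul, map_smul, hAu, ContinuousLinearEquiv.apply_symm_apply,
      ContinuousLinearEquiv.apply_symm_apply] at h1
    exact h1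

/-- Two-point homogeneity. -/
theorem two_point_homogeneous [CompactSpace M] [ConnectedSpace M]
    [IsRiemannianManifold 𝓘(ℝ, E) M]
    (F : Facts e) {D : ℝ} (hD : 0 < D) (hB : InjGE e D) (hd : ∀ x y : M, dist x y ≤ D)
    (hcl : ∀ (x : M) (v : E), nm x v = 2 * D → e x v = x) {N l : ℕ}
    (hN : finrank ℝ E = N + 1) {P : ∀ _ : M, E → E →ₗ[ℝ] E} (hP : ∀ x, PData e D l x (P x))
    (hσ : ∀ p : M, ∃ σ : M ≃ᵢ M, ∀ v : E, σ (e p v) = e p (-v))
    {x y x' y' : M} (h : dist x y = dist x' y') :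
    ∃ σ : M ≃ᵢ M, σ x = x' ∧ σ y = y' := by
  obtain ⟨σ₁, h1⟩ := twoPoint_transitive F hσ x x'
  have h2 : dist x' (σ₁ y) = dist x' y' := by
    rw [← h, ← h1, σ₁.dist_eq]
  obtain ⟨v, hv1, hv2⟩ := twoPoint_hopfRinow F x' (σ₁ y)
  obtain ⟨v', hv1', hnv'⟩ := twoPoint_hopfRinow F x' y'
  have hnv : nm x' v = dist x' y' := by rw [← h2, hv2]
  obtain ⟨u, hu, hvu⟩ := twoPoint_unit hN x' v
  obtain ⟨u', hu', hvu'⟩ := twoPoint_unit hN x' v'
  obtain ⟨σ₂, hσ₂⟩ := twoPoint_sphere F hD hB hd hcl hN hP hσ x' hu hu'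
  refine ⟨σ₁.trans σ₂, ?_, ?_⟩
  · rw [IsometryEquiv.trans_apply, h1]
    have h3 := hσ₂ 0
    rw [zero_smul, zero_smul] at h3
    have h4 : e x' (0 : E) = x' := F.isExp.map_zero x'
    rw [h4] at h3
    exact h3
  · rw [IsometryEquiv.trans_apply]
    have h3 := hσ₂ (dist x' y')
    have h4 : e x' (dist x' y' • u : E) = σ₁ y := by
      rw [← hv1, ← hnv, ← hvu]
      exact (congrArg (e x') (one_smul ℝ v)).symm
    have h5 : e x' (dist x' y' • u' : E) = y' := by
      rw [← hnv', ← hvu']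
      exact (congrArg (e x') (one_smul ℝ v')).symm.trans hv1'
    rw [h4, h5] at h3
    exact h3

end

end Vale.Agent.P231
end
end
end

section

section

section

/-! P231: closedness of the geodesics of a Blaschke manifold. Final step: links are symmetric,
all geodesics close up at time `2 D`. -/

set_option maxSynthPendingDepth 3
set_option linter.unusedSectionVars false

open Bundle Manifold Set Filter
open scoped ContDiff Manifold Topology

namespace Vale.Agent.P231

noncomputable section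

open Vale.Agent.P234

variable {E : Type*} [NormedAddCommGroup E] [NormedSpace ℝ E] [FiniteDimensional ℝ E]
  {M : Type*} [MetricSpace M] [ChartedSpace E M]
  [RiemannianBundle (fun x : M => TangentSpace 𝓘(ℝ, E) x)]
  [IsManifold 𝓘(ℝ, E) ∞ M]
  [IsContMDiffRiemannianBundle 𝓘(ℝ, E) ∞ E (fun x : M => TangentSpace 𝓘(ℝ, E) x)]
  {e : ∀ x : M, TangentSpace 𝓘(ℝ, E) x → M}

theorem link_neg [CompactSpace M] [ConnectedSpace M] [IsRiemannianManifold 𝓘(ℝ, E) M]
    (F : Facts e) {D : ℝ} (hD : 0 < D) (hB : InjGE e D) (hdiam : ∀ p q : M, dist p q ≤ D)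
    {x y : M} {u : TangentSpace 𝓘(ℝ, E) y} (hu : u ∈ Lk e D x y) : -u ∈ Lk e D x y := by
  have : FiniteDimensional ℝ (TangentSpace 𝓘(ℝ, E) y) := inferInstanceAs (FiniteDimensional ℝ E)
  have : FiniteDimensional ℝ (TangentSpace 𝓘(ℝ, E) x) := inferInstanceAs (FiniteDimensional ℝ E)
  have hxy : dist x y = D := by
    have h1 := hB y (D • u) (by rw [norm_smul, hu.1, mul_one, Real.norm_of_nonneg hD.le])
    rw [hu.2, norm_smul, hu.1, mul_one, Real.norm_of_nonneg hD.le] at h1
    rw [dist_comm, h1]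
  obtain ⟨b, hb, hb'⟩ := exists_antipodal_abs (L := Lk e D x y) (T := Tn e D x y)
    (fun u hu => hu.1) (fun u hu τ hτ => link_tn_nonpos F hD hB hu hτ)
    (fun w => decomp F hD hB hdiam hxy w)
  obtain ⟨v, hv, hvb⟩ := link_reverse F hb
  have hδ : 0 < D / 2 := by linarith
  have hδD : D / 2 < D := by linarith
  have hfr : Module.finrank ℝ (TangentSpace 𝓘(ℝ, E) x) =
      Module.finrank ℝ (TangentSpace 𝓘(ℝ, E) y) := rfl
  obtain ⟨ζ, hζ, hAζ, huζ⟩ := lin_alg hfr hv hb.1
    (A := fderiv ℝ (kap e D x y) v) (B := fderiv ℝ (kap e (D - D / 2) x y) v)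
    (fun ζ η hζ hη => kap_sym F hδ hδD hB hv hb.1 hvb hζ hη)
    (fun ζ hζ => kap_orth F hδ hδD hB hv hb.1 hvb hζ)
    (fun ζ hζ => kap_orth_link F hD hB hv hb.1 hvb hb hζ)
    (fun ζ h0 => kap_inj F hδ hδD hB hv hb.1 hvb h0)
    (fun ζ hζ => kap_orth_link F hD hB hv hb.1 hvb hu hζ)
  have horth : ∀ τ ∈ Tn e D x y, (inner ℝ u τ : ℝ) = 0 := by
    intro τ hτ
    have h1 : (inner ℝ b τ : ℝ) = 0 := by
      have h2 := link_tn_nonpos F hD hB hb hτ
      have h3 := link_tn_nonpos F hD hB hb' hτ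
      rw [inner_neg_left] at h3
      linarith only [h3, h2]
    have h4 := tn_orth_ker F hδ hδD hB hb hb' hv hvb hτ hζ hAζ
    conv_lhs => rw [huζ]
    rw [inner_add_left, inner_smul_left, h1, h4]
    simp
  obtain ⟨ρ, hρ, u0, hu0, τ, hτ, hw, hρ'⟩ := decomp F hD hB hdiam hxy (-u)
  have h5 : (inner ℝ u (-u) : ℝ) = -1 := by
    rw [inner_neg_right, real_inner_self_eq_norm_sq, hu.1]
    norm_num
  have h6 : ρ = -(inner ℝ u0 u : ℝ) := by rw [hρ', inner_neg_right]
  have h7 : (-1 : ℝ) = ρ * inner ℝ u0 u := by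
    rw [← h5, hw, inner_add_right, inner_smul_right, horth τ hτ, real_inner_comm, add_zero]
  have h8 : ρ = 1 := by
    have : (inner ℝ u0 u : ℝ) = -ρ := by linarith only [h6]
    rw [this] at h7
    nlinarith only [h7, hρ]
  have h9 : (inner ℝ u0 u : ℝ) = -1 := by linarith only [h6, h8]
  have h10 : u0 = -u := by
    have h11 : ‖u0 + u‖ ^ 2 = 0 := by
      rw [norm_add_sq_real, hu0.1, hu.1, h9]
      norm_num
    have h12 : u0 + u = 0 := by
      rw [← norm_eq_zero]
      exact pow_eq_zero_iff (two_ne_zero) |>.mp h11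
    exact eq_neg_of_add_eq_zero_left h12
  rw [← h10]
  exact hu0

theorem closed_of_inj_diam [CompactSpace M] [ConnectedSpace M]
    [IsRiemannianManifold 𝓘(ℝ, E) M]
    (F : Facts e) {D : ℝ} (hD : 0 < D) (hB : InjGE e D) (hdiam : ∀ p q : M, dist p q ≤ D)
    (x : M) (v : E) (hv : nm x v = 2 * D) : e x v = x := by
  set v0 : TangentSpace 𝓘(ℝ, E) x := v with hv0
  have hn : ‖v0‖ = 2 * D := hv
  set v1 : TangentSpace 𝓘(ℝ, E) x := (2 * D)⁻¹ • v0 with hv1
  have hv1n : ‖v1‖ = 1 := by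
    rw [hv1, norm_smul, hn, Real.norm_of_nonneg (by positivity)]
    field_simp
  have hvv : (2 * D) • v1 = v0 := by
    rw [hv1, smul_smul, mul_inv_cancel₀ (by (clear * - hD; positivity)), one_smul]
  obtain ⟨u, hu, hs⟩ := link_of_dir F (D := D) (y := e x (D • v1)) hv1n rfl
  have h1 := link_neg F hD hB hdiam hu
  have h2 := hs (2 * D)
  rw [hvv] at h2
  have h3 : (D - 2 * D) • u = D • (-u) := by
    rw [smul_neg, ← neg_smul]
    congr 1
    ring
  rw [h3, h1.2] at h2
  exact h2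

end

end Vale.Agent.P231
end
end
end

section

section

section

/-! P231: assembly of the main theorem. -/

set_option maxSynthPendingDepth 3

open Bundle Manifold Set Filter MeasureTheory Module
open scoped ContDiff Manifold Topology ENNReal

namespace Vale.Agent.P231

noncomputable section

open Vale.Agent.P234

variable {E : Type*} [NormedAddCommGroup E] [NormedSpace ℝ E]
  {M : Type*} [MetricSpace M] [ChartedSpace E M]
  [RiemannianBundle (fun x : M => TangentSpace 𝓘(ℝ, E) x)]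

theorem isExpMap_iff [IsManifold 𝓘(ℝ, E) ∞ M] (e : ∀ x : M, TangentSpace 𝓘(ℝ, E) x → M) :
    Blaschke.IsExpMap e ↔ IsExp e :=
  ⟨fun h => ⟨h.smooth, h.map_zero, h.velocity, h.minimizing⟩,
    fun h => ⟨h.smooth, h.map_zero, h.velocity, h.minimizing⟩⟩

variable [FiniteDimensional ℝ E] [IsManifold 𝓘(ℝ, E) ∞ M]
  [IsContMDiffRiemannianBundle 𝓘(ℝ, E) ∞ E (fun x : M => TangentSpace 𝓘(ℝ, E) x)]
  {e : ∀ x : M, TangentSpace 𝓘(ℝ, E) x → M}

theorem injGE_of_injOn [CompactSpace M] (F : Facts e) {D : ℝ} (hD : 0 < D)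
    (h : ∀ x : M, InjOn (e x) (Metric.ball (0 : TangentSpace 𝓘(ℝ, E) x) D)) : InjGE e D := by
  have key : ∀ (x : M) (v : TangentSpace 𝓘(ℝ, E) x), ‖v‖ < D → dist x (e x v) = ‖v‖ := by
    intro x v hv
    obtain ⟨w, hw, hd⟩ := F.hopfRinow x (e x v)
    have h1 : dist x (e x v) ≤ ‖v‖ := dist_exp_le' F.isExp x v
    have h2 : w = v := h x (by rw [mem_ball_zero_iff]; linarith) (by rwa [mem_ball_zero_iff]) hw
    rw [hd, h2]
  intro x v hv
  rcases hv.lt_or_eq with hv | hv
  · exact key x v hv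
  · have hc : Continuous fun t : ℝ => dist x (e x (t • v)) - |t| * ‖v‖ := by
      have h1 : Continuous fun t : ℝ => e x (t • v) :=
        (contMDiff_exp_fiber F.isExp x).continuous.comp (continuous_id.smul continuous_const)
      exact (continuous_const.dist h1).sub (continuous_abs.mul continuous_const)
    have h0 : (fun t : ℝ => dist x (e x (t • v)) - |t| * ‖v‖) =ᶠ[nhdsWithin 1 (Iio 1)]
        fun _ => 0 := by
      filter_upwards [self_mem_nhdsWithin, nhdsWithin_le_nhds (lt_mem_nhds (zero_lt_one' ℝ))]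
        with t ht ht0
      have ht1 : t < 1 := ht
      have h3 : ‖t • v‖ = |t| * ‖v‖ := by rw [norm_smul, Real.norm_eq_abs]
      rw [key x (t • v) ?_, h3, sub_self]
      rw [h3, abs_of_pos ht0, hv]
      nlinarith only [hD, ht1]
    have h1 : Tendsto (fun t : ℝ => dist x (e x (t • v)) - |t| * ‖v‖) (nhdsWithin 1 (Iio 1))
        (𝓝 (dist x (e x ((1 : ℝ) • v)) - |(1 : ℝ)| * ‖v‖)) :=
      (hc.tendsto 1).mono_left nhdsWithin_le_nhds
    have h2 := tendsto_nhds_unique (h1.congr' h0) tendsto_const_nhds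
    rw [one_smul, abs_one, one_mul] at h2
    linarith only [h2]

omit [IsContMDiffRiemannianBundle 𝓘(ℝ, E) ∞ E (fun x : M => TangentSpace 𝓘(ℝ, E) x)] in
theorem diam_pos [CompactSpace M] (he : IsExp e) {N : ℕ} (hN : finrank ℝ E = N + 1) (x : M) :
    0 < Metric.diam (univ : Set M) := by
  obtain ⟨ρ, hρ, h⟩ := he.minimizing
  have : Nontrivial (Eu E) := by
    have : 0 < finrank ℝ (Eu E) := by rw [finrank_euclideanSpace, Fintype.card_fin, hN]; omega
    exact (finrank_pos_iff (R := ℝ)).1 this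
  obtain ⟨a, ha⟩ := exists_norm_eq (Eu E) hρ.le
  have h1 : nm x (fr x a) = ρ := by rw [nm_fr, ha]
  have h2 : dist (e x ((0 : ℝ) • (fr x a : E) : E)) (e x ((1 : ℝ) • (fr x a : E) : E)) = ρ := by
    have h3 := h x (fr x a : E) 0 1 (le_of_eq (by
      change nm x (fr x a) * |1 - 0| = ρ
      rw [h1]; norm_num))
    change dist (e x ((0 : ℝ) • (fr x a : E) : E)) (e x ((1 : ℝ) • (fr x a : E) : E)) =
      nm x (fr x a) * |1 - 0| at h3
    rw [h3, h1]; norm_num
  have h4 := Metric.dist_le_diam_of_mem (isCompact_univ.isBounded)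
    (mem_univ (e x ((0 : ℝ) • (fr x a : E) : E))) (mem_univ (e x ((1 : ℝ) • (fr x a : E) : E)))
  linarith

theorem sphere_const (N : ℕ) :
    ((N : ℝ) + 1) * (volume (Metric.ball (0 : EuclideanSpace ℝ (Fin (N + 1))) 1)).toReal =
      2 * √Real.pi ^ (N + 1) / Real.Gamma ((N + 1) / 2) := by
  rw [EuclideanSpace.volume_ball, Fintype.card_fin]
  have h1 : (0 : ℝ) < ((N + 1 : ℕ) : ℝ) / 2 := by positivity
  have h2 : Real.Gamma (((N + 1 : ℕ) : ℝ) / 2 + 1) =
      ((N + 1 : ℕ) : ℝ) / 2 * Real.Gamma (((N + 1 : ℕ) : ℝ) / 2) := Real.Gamma_add_one h1.ne'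
  have h3 : 0 < Real.Gamma (((N + 1 : ℕ) : ℝ) / 2) := Real.Gamma_pos_of_pos h1
  rw [ENNReal.ofReal_one, one_pow, one_mul, ENNReal.toReal_ofReal (by rw [h2]; (clear * -; positivity)), h2]
  push_cast at h3 ⊢
  field_simp

theorem mvol_eq (D : ℝ) (N l : ℕ) : mvol D N l = Blaschke.modelVolume N l D := by
  unfold mvol Blaschke.modelVolume
  rw [sphere_const]

theorem riemVol_eq (N : ℕ) (M : Type*) [MetricSpace M] [MeasurableSpace M] [BorelSpace M] :
    riemVol (N + 1) M = Blaschke.riemannianVolume (N + 1) M := by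
  unfold riemVol Blaschke.riemannianVolume
  rw [EuclideanSpace.volume_ball, Fintype.card_fin, ENNReal.ofReal_one, one_pow, one_mul]

theorem mfderiv_line (he : IsExp e) (x : M) (v w : TangentSpace 𝓘(ℝ, E) x) :
    mfderiv 𝓘(ℝ, ℝ) 𝓘(ℝ, E) (fun s : ℝ => e x (v + s • w)) 0 (1 : ℝ) =
      mfderiv 𝓘(ℝ, TangentSpace 𝓘(ℝ, E) x) 𝓘(ℝ, E) (e x) (v + (0 : ℝ) • w) w := by
  have h1 : MDifferentiableAt 𝓘(ℝ, TangentSpace 𝓘(ℝ, E) x) 𝓘(ℝ, E) (e x)
      (v + (0 : ℝ) • w) :=
    ((contMDiff_exp_fiber he x).contMDiffAt).mdifferentiableAt (by simp)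
  have h3 : MDifferentiableAt 𝓘(ℝ, ℝ) 𝓘(ℝ, TangentSpace 𝓘(ℝ, E) x)
      (fun t : ℝ => v + t • w) 0 := by
    have h6 : ContMDiff 𝓘(ℝ, ℝ) 𝓘(ℝ, TangentSpace 𝓘(ℝ, E) x) ∞
        (fun t : ℝ => v + t • w) :=
      (contDiff_const.add (contDiff_id.smul contDiff_const)).contMDiff
    exact h6.contMDiffAt.mdifferentiableAt (by simp)
  have h4 := mfderiv_comp_apply 0 (I'' := 𝓘(ℝ, E))
    (g := e x) (f := fun t : ℝ => v + t • w) h1 h3 (1 : ℝ)
  have h5 : mfderiv 𝓘(ℝ, ℝ) 𝓘(ℝ, TangentSpace 𝓘(ℝ, E) x)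
      (fun t : ℝ => v + t • w) 0 (1 : ℝ) = w := by
    rw [mfderiv_eq_fderiv]
    have h2 : HasFDerivAt (fun t : ℝ => v + t • w)
        ((ContinuousLinearMap.id ℝ ℝ).smulRight w) 0 :=
      ((hasFDerivAt_id 0).smul_const w).const_add v
    rw [h2.fderiv]
    exact one_smul ℝ w
  rw [h5] at h4
  exact h4

theorem mfderiv_line' (he : IsExp e) (x : M) (v w : E) :
    (mfderiv 𝓘(ℝ, ℝ) 𝓘(ℝ, E) (fun s : ℝ => e x ((v : TangentSpace 𝓘(ℝ, E) x) +
      s • (w : TangentSpace 𝓘(ℝ, E) x))) 0 (1 : ℝ) : E) = dE e x v w := by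
  have h := mfderiv_line he x v w
  have h2 : (v : TangentSpace 𝓘(ℝ, E) x) + (0 : ℝ) • (w : TangentSpace 𝓘(ℝ, E) x) = v := by
    rw [zero_smul, add_zero]
  have h3 : (mfderiv 𝓘(ℝ, ℝ) 𝓘(ℝ, E) (fun s : ℝ => e x ((v : TangentSpace 𝓘(ℝ, E) x) +
      s • (w : TangentSpace 𝓘(ℝ, E) x))) 0 (1 : ℝ) : E) =
      dE e x ((v : TangentSpace 𝓘(ℝ, E) x) + (0 : ℝ) • (w : TangentSpace 𝓘(ℝ, E) x)) w := h
  rw [h3, h2]

theorem finrank_le_of_mult (he : IsExp e) {l : ℕ}
    (hl : Blaschke.MultLE e l) (x : M) (v : E) (hv : nm x v = Metric.diam (univ : Set M)) :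
    finrank ℝ (LinearMap.ker (dEl e x v)) ≤ l := by
  by_contra hlt
  push Not at hlt
  obtain ⟨f, hf⟩ := exists_linearIndependent_of_le_finrank (R := ℝ)
    (M := LinearMap.ker (dEl e x v)) (n := l + 1) hlt
  have hg : LinearIndependent ℝ (fun i => (f i : E)) :=
    hf.map' (LinearMap.ker (dEl e x v)).subtype (Submodule.ker_subtype _)
  obtain ⟨i, hi⟩ := hl x v hv (fun i => (f i : E)) hg
  refine hi ?_
  have h1 : dE e x v (f i : E) = 0 := (f i).2
  exact (mfderiv_line' he x v (f i : E)).trans h1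

theorem main_theorem [CompactSpace M] [ConnectedSpace M] [IsRiemannianManifold 𝓘(ℝ, E) M]
    [MeasurableSpace M] [BorelSpace M] (he : IsExp e) (hinj : Blaschke.InjGeDiam e)
    {N l : ℕ} (hN : finrank ℝ E = N + 1) (hl : Blaschke.MultLE e l) :
    ENNReal.ofReal (Blaschke.modelVolume N l (Metric.diam (univ : Set M))) ≤
        Blaschke.riemannianVolume (N + 1) M univ ∧
      (Blaschke.riemannianVolume (N + 1) M univ ≤
          ENNReal.ofReal (Blaschke.modelVolume N l (Metric.diam (univ : Set M))) →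
        Blaschke.GeodesicSymmetric e ∧ Blaschke.TwoPointHomogeneous M) := by
  have F : Facts e := facts_of_isExp he
  obtain ⟨x₀⟩ : Nonempty M := inferInstance
  set D : ℝ := Metric.diam (univ : Set M) with hDdef
  have hD : 0 < D := diam_pos he hN x₀
  have hB : InjGE e D := injGE_of_injOn F hD hinj
  have hd : ∀ x y : M, dist x y ≤ D := fun x y =>
    Metric.dist_le_diam_of_mem (isCompact_univ.isBounded) (mem_univ x) (mem_univ y)
  have hcl : ∀ (x : M) (v : E), nm x v = 2 * D → e x v = x :=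
    fun x v hv => closed_of_inj_diam F hD hB hd x v hv
  have hl' : ∀ (x : M) (v : E), nm x v = D → finrank ℝ (LinearMap.ker (dEl e x v)) ≤ l :=
    fun x v hv => finrank_le_of_mult he hl x v hv
  have e2 : riemVol (finrank ℝ E) M = Blaschke.riemannianVolume (N + 1) M := by
    rw [hN, riemVol_eq]
  refine ⟨?_, fun hV => ?_⟩
  · rw [← mvol_eq, ← e2]
    exact vol_ineq F hD hB hcl hN hl'
  · rw [← mvol_eq, ← e2] at hV
    have hj := vol_rigid F hD hB hcl hN hl' hV
    have hσ : ∀ p : M, ∃ σ : M ≃ᵢ M, ∀ v : E, σ (e p v) = e p (-v) :=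
      exists_symmetry F hD hB hd hcl (geo_rigid F hD hB hcl hN hl' hj)
    refine ⟨hσ, fun x y x' y' h => ?_⟩
    choose P hP using exists_PData F hD hB hcl hN hl' hj
    exact two_point_homogeneous F hD hB hd hcl hN hP hσ h

end

end Vale.Agent.P231
end
end
end
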