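import Vale.Agent.P231.MathlibUsed
import Vale.Agent.P231.Bd3.B1
import Vale.Agent.P231.Bd3.B2
import Vale.Agent.P231.Bd3.B4
import Vale.Agent.P231.Bd3.B3
attribute [-instance] IsTopologicalTorsor.toContinuousSMul IdemSemiring.toCanonicallyOrderedAdd IdemSemiring.toMulLeftMono IdemSemiring.toMulRightMono FiniteDimensional.rclike_to_real IsScalarTower.complexToReal FiniteDimensional.complexToReal

set_option linter.all false

namespace AFast7770f4x8a
@[reducible] noncomputable def a0.{u1, u2} {x1 : Type u1} [x2 : NormedAddCommGroup x1] [x3 : NormedSpace ℝ x1] {x4 : Type u2} [x5 : MetricSpace x4] [x6 : ChartedSpace x1 x4] {x7 : x4} : SMul ℝ (TangentSpace (modelWithCornersSelf ℝ x1) x7) := inferInstance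
@[reducible] noncomputable def a1.{u1, u2} {x1 : Type u1} [x2 : NormedAddCommGroup x1] [x3 : NormedSpace ℝ x1] {x4 : Type u2} [x5 : MetricSpace x4] [x6 : ChartedSpace x1 x4] {x7 : x4} : SMulZeroClass ℝ (TangentSpace (modelWithCornersSelf ℝ x1) x7) := inferInstance
@[reducible] noncomputable def a2.{u1, u2} {x1 : Type u1} [x2 : NormedAddCommGroup x1] [x3 : NormedSpace ℝ x1] {x4 : Type u2} [x5 : MetricSpace x4] [x6 : ChartedSpace x1 x4] {x7 : x4} : DistribSMul ℝ (TangentSpace (modelWithCornersSelf ℝ x1) x7) := inferInstance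
@[reducible] noncomputable def a3.{u1, u2} {x1 : Type u1} [x2 : NormedAddCommGroup x1] [x3 : NormedSpace ℝ x1] {x4 : Type u2} [x5 : MetricSpace x4] [x6 : ChartedSpace x1 x4] {x7 : x4} : DistribMulAction ℝ (TangentSpace (modelWithCornersSelf ℝ x1) x7) := inferInstance
@[reducible] def a4.{u1, u2} {x1 : Type u1} {x2 : Type u2} [x3 : NormedAddCommGroup x1] [x4 : NormedAddCommGroup x2] [x5 : NormedSpace ℝ x1] [x6 : NormedSpace ℝ x2] : Module ℝ (x1 × x2) := inferInstance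
@[reducible] noncomputable def a5.{u1, u2} {x1 : Type u1} [x2 : NormedAddCommGroup x1] [x3 : NormedSpace ℝ x1] {x4 : Type u2} [x5 : MetricSpace x4] [x6 : ChartedSpace x1 x4] {x7 : x4} : AddCommMonoid (TangentSpace (modelWithCornersSelf ℝ x1) x7) := inferInstance
@[reducible] noncomputable def a6.{u1, u2} {x1 : Type u1} [x2 : NormedAddCommGroup x1] [x3 : NormedSpace ℝ x1] {x4 : Type u2} [x5 : MetricSpace x4] [x6 : ChartedSpace x1 x4] {x7 : x4} : Zero (TangentSpace (modelWithCornersSelf ℝ x1) x7) := inferInstance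
theorem a7 : T2Space ℝ := inferInstance
@[reducible] noncomputable def a8.{u1, u2} {x1 : Type u1} [x2 : NormedAddCommGroup x1] [x3 : NormedSpace ℝ x1] {x4 : Type u2} [x5 : MetricSpace x4] [x6 : ChartedSpace x1 x4] {x7 : x4} : AddZeroClass (TangentSpace (modelWithCornersSelf ℝ x1) x7) := inferInstance
@[reducible] noncomputable def a9.{u1, u2} {x1 : Type u1} [x2 : NormedAddCommGroup x1] [x3 : NormedSpace ℝ x1] {x4 : Type u2} [x5 : MetricSpace x4] [x6 : ChartedSpace x1 x4] {x7 : x4} : AddZero (TangentSpace (modelWithCornersSelf ℝ x1) x7) := inferInstance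
@[reducible] noncomputable def a10.{u1, u2} {x1 : Type u1} [x2 : NormedAddCommGroup x1] [x3 : NormedSpace ℝ x1] {x4 : Type u2} [x5 : MetricSpace x4] [x6 : ChartedSpace x1 x4] {x7 : x4} : AddMonoid (TangentSpace (modelWithCornersSelf ℝ x1) x7) := inferInstance
theorem a11 : ContinuousSMul ℝ ℝ := inferInstance
@[reducible] noncomputable def a12 : NormedSpace ℝ ℝ := inferInstance
theorem a13 : CharZero ℝ := inferInstance
@[reducible] noncomputable def a14.{u1, u2} {x1 : Type u1} [x2 : NormedAddCommGroup x1] [x3 : NormedSpace ℝ x1] {x4 : Type u2} [x5 : MetricSpace x4] [x6 : ChartedSpace x1 x4] {x7 : x4} : AddGroup (TangentSpace (modelWithCornersSelf ℝ x1) x7) := inferInstance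
@[reducible] noncomputable def a15.{u1, u2} {x1 : Type u1} [x2 : NormedAddCommGroup x1] [x3 : NormedSpace ℝ x1] {x4 : Type u2} [x5 : MetricSpace x4] [x6 : ChartedSpace x1 x4] {x7 : x4} : SubNegMonoid (TangentSpace (modelWithCornersSelf ℝ x1) x7) := inferInstance
@[reducible] noncomputable def a16.{u1, u2} {x1 : Type u1} [x2 : NormedAddCommGroup x1] [x3 : NormedSpace ℝ x1] {x4 : Type u2} [x5 : MetricSpace x4] [x6 : ChartedSpace x1 x4] {x7 : ℕ → x4} {x8 : ℕ} : SMulZeroClass ℝ (TangentSpace (modelWithCornersSelf ℝ x1) (x7 x8)) := inferInstance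
@[reducible] noncomputable def a17.{u1, u2} {x1 : Type u1} [x2 : NormedAddCommGroup x1] [x3 : NormedSpace ℝ x1] {x4 : Type u2} [x5 : MetricSpace x4] [x6 : ChartedSpace x1 x4] {x7 : ℕ → x4} {x8 : ℕ} : SMul ℝ (TangentSpace (modelWithCornersSelf ℝ x1) (x7 x8)) := inferInstance
theorem a18 : CovariantClass ℝ ℝ (Function.swap fun x1 x2 => x1 + x2) fun x1 x2 => x1 ≤ x2 := inferInstance
@[reducible] noncomputable def a19.{u1, u2} {x1 : Type u1} [x2 : NormedAddCommGroup x1] [x3 : NormedSpace ℝ x1] {x4 : Type u2} [x5 : MetricSpace x4] [x6 : ChartedSpace x1 x4] {x7 : x4} : MulAction ℝ (TangentSpace (modelWithCornersSelf ℝ x1) x7) := inferInstance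
@[reducible] def a20 : SMulZeroClass ℝ ℝ := inferInstance
@[reducible] noncomputable def a21.{u1, u2} {x1 : Type u1} [x2 : NormedAddCommGroup x1] [x3 : NormedSpace ℝ x1] {x4 : Type u2} [x5 : MetricSpace x4] [x6 : ChartedSpace x1 x4] {x7 : x4} : SemigroupAction ℝ (TangentSpace (modelWithCornersSelf ℝ x1) x7) := inferInstance
theorem a22 : AddRightStrictMono ℝ := inferInstance
@[reducible] noncomputable def a23.{u1, u2} {x1 : Type u1} [x2 : NormedAddCommGroup x1] [x3 : NormedSpace ℝ x1] {x4 : Type u2} [x5 : MetricSpace x4] [x6 : ChartedSpace x1 x4] {x7 : x4} : SMulWithZero ℝ (TangentSpace (modelWithCornersSelf ℝ x1) x7) := inferInstance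
theorem a24 : AddLeftMono ℝ := inferInstance
@[reducible] noncomputable def a25.{u1, u2} {x1 : Type u1} [x2 : NormedAddCommGroup x1] [x3 : NormedSpace ℝ x1] {x4 : Type u2} [x5 : MetricSpace x4] [x6 : ChartedSpace x1 x4] {x7 : x4} : MulActionWithZero ℝ (TangentSpace (modelWithCornersSelf ℝ x1) x7) := inferInstance
@[reducible] noncomputable def a26.{u1, u2} {x1 : Type u1} [x2 : NormedAddCommGroup x1] [x3 : NormedSpace ℝ x1] {x4 : Type u2} [x5 : MetricSpace x4] [x6 : ChartedSpace x1 x4] {x7 : x4} : Add (TangentSpace (modelWithCornersSelf ℝ x1) x7) := inferInstance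
theorem a27 : IsSemitopologicalRing ℝ := inferInstance
@[reducible] noncomputable def a28.{u1, u2} {x1 : Type u1} [x2 : NormedAddCommGroup x1] [x3 : NormedSpace ℝ x1] {x4 : Type u2} [x5 : MetricSpace x4] [x6 : ChartedSpace x1 x4] {x7 : x4} : AddCommMagma (TangentSpace (modelWithCornersSelf ℝ x1) x7) := inferInstance
@[reducible] noncomputable def a29.{u1, u2} {x1 : Type u1} [x2 : NormedAddCommGroup x1] [x3 : NormedSpace ℝ x1] {x4 : Type u2} [x5 : MetricSpace x4] [x6 : ChartedSpace x1 x4] {x7 : x4} : AddCommSemigroup (TangentSpace (modelWithCornersSelf ℝ x1) x7) := inferInstance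
theorem a30 : ContinuousConstSMul ℝ ℝ := inferInstance
@[reducible] noncomputable def a31.{u1, u2} {x1 : Type u1} [x2 : NormedAddCommGroup x1] [x3 : NormedSpace ℝ x1] {x4 : Type u2} [x5 : MetricSpace x4] [x6 : ChartedSpace x1 x4] {x7 : ℕ → x4} {x8 : ℕ} : DistribSMul ℝ (TangentSpace (modelWithCornersSelf ℝ x1) (x7 x8)) := inferInstance
@[reducible] def a32 : DistribMulAction ℝ ℝ := inferInstance
@[reducible] noncomputable def a33.{u1, u2} {x1 : Type u1} {x2 : Type u2} [x3 : NormedAddCommGroup x1] [x4 : NormedAddCommGroup x2] [x5 : NormedSpace ℝ x1] [x6 : NormedSpace ℝ x2] : TopologicalSpace (x1 × x2 →L[ℝ] ℝ) := inferInstance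
theorem a34 : ContinuousAdd ℝ := inferInstance
@[reducible] def a35.{u1} {x1 : Type u1} [x2 : NormedAddCommGroup x1] [x3 : NormedSpace ℝ x1] : Module ℝ (x1 →L[ℝ] ℝ) := inferInstance
@[reducible] noncomputable def a36.{u1, u2} {x1 : Type u1} [x2 : NormedAddCommGroup x1] [x3 : NormedSpace ℝ x1] {x4 : Type u2} [x5 : MetricSpace x4] [x6 : ChartedSpace x1 x4] {x7 : TangentBundle (modelWithCornersSelf ℝ x1) x4} : SMulZeroClass ℝ (TangentSpace (modelWithCornersSelf ℝ x1) x7.proj) := inferInstance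
@[reducible] noncomputable def a37.{u1, u2} {x1 : Type u1} [x2 : NormedAddCommGroup x1] [x3 : NormedSpace ℝ x1] {x4 : Type u2} [x5 : MetricSpace x4] [x6 : ChartedSpace x1 x4] {x7 : TangentBundle (modelWithCornersSelf ℝ x1) x4} : SMul ℝ (TangentSpace (modelWithCornersSelf ℝ x1) x7.proj) := inferInstance
@[reducible] noncomputable def a38.{u1, u2} {x1 : Type u1} [x2 : NormedAddCommGroup x1] [x3 : NormedSpace ℝ x1] {x4 : Type u2} [x5 : MetricSpace x4] [x6 : ChartedSpace x1 x4] {x7 : ℕ → x4} {x8 : ℕ} : DistribMulAction ℝ (TangentSpace (modelWithCornersSelf ℝ x1) (x7 x8)) := inferInstance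
@[reducible] noncomputable def a39.{u1} {x1 : Type u1} [x2 : NormedAddCommGroup x1] [x3 : NormedSpace ℝ x1] : TopologicalSpace (x1 →L[ℝ] ℝ) := inferInstance
theorem a40 : IsRightCancelAdd ℝ := inferInstance
theorem a41 : SeparatelyContinuousMul ℝ := inferInstance
theorem a42 : AddRightReflectLE ℝ := inferInstance
theorem a43 : PosMulReflectLT ℝ := inferInstance
@[reducible] def a44.{u1, u2} {x1 : Type u1} {x2 : Type u2} [x3 : NormedAddCommGroup x2] [x4 : NormedAddCommGroup x1] : AddCommMonoid (x1 × x2) := inferInstance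
theorem a45 : AddLeftReflectLE ℝ := inferInstance
@[reducible] noncomputable def a46.{u1, u2} {x1 : Type u1} [x2 : NormedAddCommGroup x1] [x3 : NormedSpace ℝ x1] {x4 : Type u2} [x5 : MetricSpace x4] [x6 : ChartedSpace x1 x4] {x7 : x4} : TopologicalSpace (TangentSpace (modelWithCornersSelf ℝ x1) x7 →L[ℝ] ℝ) := inferInstance
@[reducible] def a47.{u1} {x1 : Type u1} [x2 : MetricSpace x1] : TopologicalSpace (x1 × x1) := inferInstance
theorem a48 : PosMulReflectLE ℝ := inferInstance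
@[reducible] def a49.{u1} {x1 : Type u1} [x2 : NormedAddCommGroup x1] [x3 : InnerProductSpace ℝ x1] : Module ℝ (x1 × x1) := inferInstance
@[reducible] noncomputable def a50.{u1, u2} {x1 : Type u1} [x2 : NormedAddCommGroup x1] [x3 : @NormedSpace Real x1 Real.normedField (@NormedAddCommGroup.toSeminormedAddCommGroup x1 x2)] {x4 : Type u2} [x5 : MetricSpace x4] [x6 : @ChartedSpace x1 (@UniformSpace.toTopologicalSpace x1 (@PseudoMetricSpace.toUniformSpace x1 (@SeminormedAddCommGroup.toPseudoMetricSpace x1 (@NormedAddCommGroup.toSeminormedAddCommGroup x1 x2)))) x4 (@UniformSpace.toTopologicalSpace x4 (@PseudoMetricSpace.toUniformSpace x4 (@MetricSpace.toPseudoMetricSpace x4 x5)))] {x7 : @Bundle.TotalSpace x4 x1 (@TangentSpace Real (@DenselyNormedField.toNontriviallyNormedField Real Real.denselyNormedField) x1 x2 x3 x1 (@UniformSpace.toTopologicalSpace x1 (@PseudoMetricSpace.toUniformSpace x1 (@SeminormedAddCommGroup.toPseudoMetricSpace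 x1 (@NormedAddCommGroup.toSeminormedAddCommGroup x1 x2)))) (@modelWithCornersSelf Real (@DenselyNormedField.toNontriviallyNormedField Real Real.denselyNormedField) x1 x2 x3) x4 (@UniformSpace.toTopologicalSpace x4 (@PseudoMetricSpace.toUniformSpace x4 (@MetricSpace.toPseudoMetricSpace x4 x5))) x6)} : SMul Real (@TangentSpace Real (@DenselyNormedField.toNontriviallyNormedField Real Real.denselyNormedField) x1 x2 x3 x1 (@UniformSpace.toTopologicalSpace x1 (@PseudoMetricSpace.toUniformSpace x1 (@SeminormedAddCommGroup.toPseudoMetricSpace x1 (@NormedAddCommGroup.toSeminormedAddCommGroup x1 x2)))) (@modelWithCornersSelf Real (@DenselyNormedField.toNontriviallyNormedField Real Real.denselyNormedField) x1 x2 x3) x4 (@UniformSpace.toTopologicalSpace x4 (@PseudoMetricSpace.toUniformSpace x4 (@MetricSpace.toPseudoMetricSpace x4 x5))) x6 (@Bundle.TotalSpace.proj x4 x1 (@TangentSpace Real (@DenselyNormedField.toNontriviallyNormedField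 Real Real.denselyNormedField) x1 x2 x3 x1 (@UniformSpace.toTopologicalSpace x1 (@PseudoMetricSpace.toUniformSpace x1 (@SeminormedAddCommGroup.toPseudoMetricSpace x1 (@NormedAddCommGroup.toSeminormedAddCommGroup x1 x2)))) (@modelWithCornersSelf Real (@DenselyNormedField.toNontriviallyNormedField Real Real.denselyNormedField) x1 x2 x3) x4 (@UniformSpace.toTopologicalSpace x4 (@PseudoMetricSpace.toUniformSpace x4 (@MetricSpace.toPseudoMetricSpace x4 x5))) x6) x7)) := inferInstance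
@[reducible] noncomputable def a51.{u1, u2} {x1 : Type u1} [x2 : NormedAddCommGroup x1] [x3 : NormedSpace ℝ x1] {x4 : Type u2} [x5 : MetricSpace x4] [x6 : ChartedSpace x1 x4] {x7 : ℕ → x4} {x8 : ℕ → ℕ} {x9 : ℕ} : SMul ℝ (TangentSpace (modelWithCornersSelf ℝ x1) (x7 (x8 x9))) := inferInstance
@[reducible] def a52.{u1, u2} {x1 : Type u1} {x2 : Type u2} [x3 : NormedAddCommGroup x2] [x4 : NormedAddCommGroup x1] : AddCommGroup (x1 × x2) := inferInstance
@[reducible] def a53.{u1, u2} {x1 : Type u1} {x2 : Type u2} [x3 : NormedAddCommGroup x2] [x4 : NormedAddCommGroup x1] : TopologicalSpace (x1 × x2) := inferInstance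
@[reducible] noncomputable def a54.{u1, u2} {x1 : Type u1} [x2 : NormedAddCommGroup x1] [x3 : NormedSpace ℝ x1] {x4 : Type u2} [x5 : MetricSpace x4] [x6 : ChartedSpace x1 x4] {x7 : TangentBundle (modelWithCornersSelf ℝ x1) x4} : DistribSMul ℝ (TangentSpace (modelWithCornersSelf ℝ x1) x7.proj) := inferInstance
theorem a55 : IsCancelMulZero ℝ := inferInstance
@[reducible] noncomputable def a56.{u1, u2} {x1 : Type u1} [x2 : NormedAddCommGroup x1] [x3 : NormedSpace ℝ x1] {x4 : Type u2} [x5 : MetricSpace x4] [x6 : ChartedSpace x1 x4] {x7 : x4} : AddCommMonoid (TangentSpace (modelWithCornersSelf ℝ x1) x7 →L[ℝ] ℝ) := inferInstance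
theorem a57 : PosMulStrictMono ℝ := inferInstance
theorem a58 : OrderClosedTopology ℝ := inferInstance
theorem a59 : IsLeftCancelMulZero ℝ := inferInstance
@[reducible] noncomputable def a60 : MulAction ℚ≥0 ℝ := inferInstance
@[reducible] noncomputable def a61 : MulAction ℚ ℝ := inferInstance
theorem a62 : ContravariantClass ℝ ℝ (fun x1 x2 => x1 + x2) fun x1 x2 => x1 < x2 := inferInstance
theorem a63 : IsLeftCancelAdd ℝ := inferInstance
@[reducible] noncomputable def a64.{u1, u2} {x1 : Type u1} [x2 : NormedAddCommGroup x1] [x3 : @NormedSpace Real x1 Real.normedField (@NormedAddCommGroup.toSeminormedAddCommGroup x1 x2)] {x4 : Type u2} [x5 : MetricSpace x4] [x6 : @ChartedSpace x1 (@UniformSpace.toTopologicalSpace x1 (@PseudoMetricSpace.toUniformSpace x1 (@SeminormedAddCommGroup.toPseudoMetricSpace x1 (@NormedAddCommGroup.toSeminormedAddCommGroup x1 x2)))) x4 (@UniformSpace.toTopologicalSpace x4 (@PseudoMetricSpace.toUniformSpace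 x4 (@MetricSpace.toPseudoMetricSpace x4 x5)))] {x7 : @Bundle.TotalSpace x4 x1 (@TangentSpace Real (@DenselyNormedField.toNontriviallyNormedField Real Real.denselyNormedField) x1 x2 x3 x1 (@UniformSpace.toTopologicalSpace x1 (@PseudoMetricSpace.toUniformSpace x1 (@SeminormedAddCommGroup.toPseudoMetricSpace x1 (@NormedAddCommGroup.toSeminormedAddCommGroup x1 x2)))) (@modelWithCornersSelf Real (@DenselyNormedField.toNontriviallyNormedField Real Real.denselyNormedField) x1 x2 x3) x4 (@UniformSpace.toTopologicalSpace x4 (@PseudoMetricSpace.toUniformSpace x4 (@MetricSpace.toPseudoMetricSpace x4 x5))) x6)} : @SMulZeroClass Real (@TangentSpace Real (@DenselyNormedField.toNontriviallyNormedField Real Real.denselyNormedField) x1 x2 x3 x1 (@UniformSpace.toTopologicalSpace x1 (@PseudoMetricSpace.toUniformSpace x1 (@SeminormedAddCommGroup.toPseudoMetricSpace x1 (@NormedAddCommGroup.toSeminormedAddCommGroup x1 x2)))) (@modelWithCornersSelf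 Real (@DenselyNormedField.toNontriviallyNormedField Real Real.denselyNormedField) x1 x2 x3) x4 (@UniformSpace.toTopologicalSpace x4 (@PseudoMetricSpace.toUniformSpace x4 (@MetricSpace.toPseudoMetricSpace x4 x5))) x6 (@Bundle.TotalSpace.proj x4 x1 (@TangentSpace Real (@DenselyNormedField.toNontriviallyNormedField Real Real.denselyNormedField) x1 x2 x3 x1 (@UniformSpace.toTopologicalSpace x1 (@PseudoMetricSpace.toUniformSpace x1 (@SeminormedAddCommGroup.toPseudoMetricSpace x1 (@NormedAddCommGroup.toSeminormedAddCommGroup x1 x2)))) (@modelWithCornersSelf Real (@DenselyNormedField.toNontriviallyNormedField Real Real.denselyNormedField) x1 x2 x3) x4 (@UniformSpace.toTopologicalSpace x4 (@PseudoMetricSpace.toUniformSpace x4 (@MetricSpace.toPseudoMetricSpace x4 x5))) x6) x7)) (@AddZero.toZero (@TangentSpace Real (@DenselyNormedField.toNontriviallyNormedField Real Real.denselyNormedField) x1 x2 x3 x1 (@UniformSpace.toTopologicalSpace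 x1 (@PseudoMetricSpace.toUniformSpace x1 (@SeminormedAddCommGroup.toPseudoMetricSpace x1 (@NormedAddCommGroup.toSeminormedAddCommGroup x1 x2)))) (@modelWithCornersSelf Real (@DenselyNormedField.toNontriviallyNormedField Real Real.denselyNormedField) x1 x2 x3) x4 (@UniformSpace.toTopologicalSpace x4 (@PseudoMetricSpace.toUniformSpace x4 (@MetricSpace.toPseudoMetricSpace x4 x5))) x6 (@Bundle.TotalSpace.proj x4 x1 (@TangentSpace Real (@DenselyNormedField.toNontriviallyNormedField Real Real.denselyNormedField) x1 x2 x3 x1 (@UniformSpace.toTopologicalSpace x1 (@PseudoMetricSpace.toUniformSpace x1 (@SeminormedAddCommGroup.toPseudoMetricSpace x1 (@NormedAddCommGroup.toSeminormedAddCommGroup x1 x2)))) (@modelWithCornersSelf Real (@DenselyNormedField.toNontriviallyNormedField Real Real.denselyNormedField) x1 x2 x3) x4 (@UniformSpace.toTopologicalSpace x4 (@PseudoMetricSpace.toUniformSpace x4 (@MetricSpace.toPseudoMetricSpace x4 x5)))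 x6) x7)) (@AddZeroClass.toAddZero (@TangentSpace Real (@DenselyNormedField.toNontriviallyNormedField Real Real.denselyNormedField) x1 x2 x3 x1 (@UniformSpace.toTopologicalSpace x1 (@PseudoMetricSpace.toUniformSpace x1 (@SeminormedAddCommGroup.toPseudoMetricSpace x1 (@NormedAddCommGroup.toSeminormedAddCommGroup x1 x2)))) (@modelWithCornersSelf Real (@DenselyNormedField.toNontriviallyNormedField Real Real.denselyNormedField) x1 x2 x3) x4 (@UniformSpace.toTopologicalSpace x4 (@PseudoMetricSpace.toUniformSpace x4 (@MetricSpace.toPseudoMetricSpace x4 x5))) x6 (@Bundle.TotalSpace.proj x4 x1 (@TangentSpace Real (@DenselyNormedField.toNontriviallyNormedField Real Real.denselyNormedField) x1 x2 x3 x1 (@UniformSpace.toTopologicalSpace x1 (@PseudoMetricSpace.toUniformSpace x1 (@SeminormedAddCommGroup.toPseudoMetricSpace x1 (@NormedAddCommGroup.toSeminormedAddCommGroup x1 x2)))) (@modelWithCornersSelf Real (@DenselyNormedField.toNontriviallyNormedField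 Real Real.denselyNormedField) x1 x2 x3) x4 (@UniformSpace.toTopologicalSpace x4 (@PseudoMetricSpace.toUniformSpace x4 (@MetricSpace.toPseudoMetricSpace x4 x5))) x6) x7)) (@AddMonoid.toAddZeroClass (@TangentSpace Real (@DenselyNormedField.toNontriviallyNormedField Real Real.denselyNormedField) x1 x2 x3 x1 (@UniformSpace.toTopologicalSpace x1 (@PseudoMetricSpace.toUniformSpace x1 (@SeminormedAddCommGroup.toPseudoMetricSpace x1 (@NormedAddCommGroup.toSeminormedAddCommGroup x1 x2)))) (@modelWithCornersSelf Real (@DenselyNormedField.toNontriviallyNormedField Real Real.denselyNormedField) x1 x2 x3) x4 (@UniformSpace.toTopologicalSpace x4 (@PseudoMetricSpace.toUniformSpace x4 (@MetricSpace.toPseudoMetricSpace x4 x5))) x6 (@Bundle.TotalSpace.proj x4 x1 (@TangentSpace Real (@DenselyNormedField.toNontriviallyNormedField Real Real.denselyNormedField) x1 x2 x3 x1 (@UniformSpace.toTopologicalSpace x1 (@PseudoMetricSpace.toUniformSpace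 x1 (@SeminormedAddCommGroup.toPseudoMetricSpace x1 (@NormedAddCommGroup.toSeminormedAddCommGroup x1 x2)))) (@modelWithCornersSelf Real (@DenselyNormedField.toNontriviallyNormedField Real Real.denselyNormedField) x1 x2 x3) x4 (@UniformSpace.toTopologicalSpace x4 (@PseudoMetricSpace.toUniformSpace x4 (@MetricSpace.toPseudoMetricSpace x4 x5))) x6) x7)) (@SubNegMonoid.toAddMonoid (@TangentSpace Real (@DenselyNormedField.toNontriviallyNormedField Real Real.denselyNormedField) x1 x2 x3 x1 (@UniformSpace.toTopologicalSpace x1 (@PseudoMetricSpace.toUniformSpace x1 (@SeminormedAddCommGroup.toPseudoMetricSpace x1 (@NormedAddCommGroup.toSeminormedAddCommGroup x1 x2)))) (@modelWithCornersSelf Real (@DenselyNormedField.toNontriviallyNormedField Real Real.denselyNormedField) x1 x2 x3) x4 (@UniformSpace.toTopologicalSpace x4 (@PseudoMetricSpace.toUniformSpace x4 (@MetricSpace.toPseudoMetricSpace x4 x5))) x6 (@Bundle.TotalSpace.proj x4 x1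 (@TangentSpace Real (@DenselyNormedField.toNontriviallyNormedField Real Real.denselyNormedField) x1 x2 x3 x1 (@UniformSpace.toTopologicalSpace x1 (@PseudoMetricSpace.toUniformSpace x1 (@SeminormedAddCommGroup.toPseudoMetricSpace x1 (@NormedAddCommGroup.toSeminormedAddCommGroup x1 x2)))) (@modelWithCornersSelf Real (@DenselyNormedField.toNontriviallyNormedField Real Real.denselyNormedField) x1 x2 x3) x4 (@UniformSpace.toTopologicalSpace x4 (@PseudoMetricSpace.toUniformSpace x4 (@MetricSpace.toPseudoMetricSpace x4 x5))) x6) x7)) (@AddGroup.toSubNegMonoid (@TangentSpace Real (@DenselyNormedField.toNontriviallyNormedField Real Real.denselyNormedField) x1 x2 x3 x1 (@UniformSpace.toTopologicalSpace x1 (@PseudoMetricSpace.toUniformSpace x1 (@SeminormedAddCommGroup.toPseudoMetricSpace x1 (@NormedAddCommGroup.toSeminormedAddCommGroup x1 x2)))) (@modelWithCornersSelf Real (@DenselyNormedField.toNontriviallyNormedField Real Real.denselyNormedField)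 x1 x2 x3) x4 (@UniformSpace.toTopologicalSpace x4 (@PseudoMetricSpace.toUniformSpace x4 (@MetricSpace.toPseudoMetricSpace x4 x5))) x6 (@Bundle.TotalSpace.proj x4 x1 (@TangentSpace Real (@DenselyNormedField.toNontriviallyNormedField Real Real.denselyNormedField) x1 x2 x3 x1 (@UniformSpace.toTopologicalSpace x1 (@PseudoMetricSpace.toUniformSpace x1 (@SeminormedAddCommGroup.toPseudoMetricSpace x1 (@NormedAddCommGroup.toSeminormedAddCommGroup x1 x2)))) (@modelWithCornersSelf Real (@DenselyNormedField.toNontriviallyNormedField Real Real.denselyNormedField) x1 x2 x3) x4 (@UniformSpace.toTopologicalSpace x4 (@PseudoMetricSpace.toUniformSpace x4 (@MetricSpace.toPseudoMetricSpace x4 x5))) x6) x7)) (@AddCommGroup.toAddGroup (@TangentSpace Real (@DenselyNormedField.toNontriviallyNormedField Real Real.denselyNormedField) x1 x2 x3 x1 (@UniformSpace.toTopologicalSpace x1 (@PseudoMetricSpace.toUniformSpace x1 (@SeminormedAddCommGroup.toPseudoMetricSpace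 x1 (@NormedAddCommGroup.toSeminormedAddCommGroup x1 x2)))) (@modelWithCornersSelf Real (@DenselyNormedField.toNontriviallyNormedField Real Real.denselyNormedField) x1 x2 x3) x4 (@UniformSpace.toTopologicalSpace x4 (@PseudoMetricSpace.toUniformSpace x4 (@MetricSpace.toPseudoMetricSpace x4 x5))) x6 (@Bundle.TotalSpace.proj x4 x1 (@TangentSpace Real (@DenselyNormedField.toNontriviallyNormedField Real Real.denselyNormedField) x1 x2 x3 x1 (@UniformSpace.toTopologicalSpace x1 (@PseudoMetricSpace.toUniformSpace x1 (@SeminormedAddCommGroup.toPseudoMetricSpace x1 (@NormedAddCommGroup.toSeminormedAddCommGroup x1 x2)))) (@modelWithCornersSelf Real (@DenselyNormedField.toNontriviallyNormedField Real Real.denselyNormedField) x1 x2 x3) x4 (@UniformSpace.toTopologicalSpace x4 (@PseudoMetricSpace.toUniformSpace x4 (@MetricSpace.toPseudoMetricSpace x4 x5))) x6) x7)) (@instAddCommGroupTangentSpace Real (@DenselyNormedField.toNontriviallyNormedField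 Real Real.denselyNormedField) x1 x2 x3 x1 (@UniformSpace.toTopologicalSpace x1 (@PseudoMetricSpace.toUniformSpace x1 (@SeminormedAddCommGroup.toPseudoMetricSpace x1 (@NormedAddCommGroup.toSeminormedAddCommGroup x1 x2)))) (@modelWithCornersSelf Real (@DenselyNormedField.toNontriviallyNormedField Real Real.denselyNormedField) x1 x2 x3) x4 (@UniformSpace.toTopologicalSpace x4 (@PseudoMetricSpace.toUniformSpace x4 (@MetricSpace.toPseudoMetricSpace x4 x5))) x6 (@Bundle.TotalSpace.proj x4 x1 (@TangentSpace Real (@DenselyNormedField.toNontriviallyNormedField Real Real.denselyNormedField) x1 x2 x3 x1 (@UniformSpace.toTopologicalSpace x1 (@PseudoMetricSpace.toUniformSpace x1 (@SeminormedAddCommGroup.toPseudoMetricSpace x1 (@NormedAddCommGroup.toSeminormedAddCommGroup x1 x2)))) (@modelWithCornersSelf Real (@DenselyNormedField.toNontriviallyNormedField Real Real.denselyNormedField) x1 x2 x3) x4 (@UniformSpace.toTopologicalSpace x4 (@PseudoMetricSpace.toUniformSpace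 x4 (@MetricSpace.toPseudoMetricSpace x4 x5))) x6) x7)))))))) := inferInstance
theorem a65.{u1, u2} {x1 : Type u1} [x2 : NormedAddCommGroup x1] [x3 : NormedSpace ℝ x1] {x4 : Type u2} [x5 : MetricSpace x4] [x6 : ChartedSpace x1 x4] {x7 : x4} : ContinuousAdd (TangentSpace (modelWithCornersSelf ℝ x1) x7) := inferInstance
@[reducible] noncomputable def a66.{u1, u2} {x1 : Type u1} [x2 : NormedAddCommGroup x1] [x3 : NormedSpace ℝ x1] {x4 : Type u2} [x5 : MetricSpace x4] [x6 : ChartedSpace x1 x4] {x7 : ℕ → x4} {x8 : ℕ → ℕ} {x9 : ℕ} : SMulZeroClass ℝ (TangentSpace (modelWithCornersSelf ℝ x1) (x7 (x8 x9))) := inferInstance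
@[reducible] noncomputable def a67.{u1, u2} {x1 : Type u1} [x2 : NormedAddCommGroup x1] [x3 : NormedSpace ℝ x1] {x4 : Type u2} [x5 : MetricSpace x4] [x6 : ChartedSpace x1 x4] {x7 : x4} : SMul ℝ (TangentSpace (modelWithCornersSelf ℝ x1) x7 →L[ℝ] ℝ) := inferInstance
@[reducible] noncomputable def a68 : AddCommMonoid (@TangentSpace Real (@DenselyNormedField.toNontriviallyNormedField Real Real.denselyNormedField) Real Real.normedAddCommGroup (@InnerProductSpace.toNormedSpace Real Real Real.instRCLike (@NormedAddCommGroup.toSeminormedAddCommGroup Real Real.normedAddCommGroup) (@RCLike.toInnerProductSpaceReal Real Real.instRCLike)) Real (@UniformSpace.toTopologicalSpace Real (@PseudoMetricSpace.toUniformSpace Real (@SeminormedAddCommGroup.toPseudoMetricSpace Real (@NormedAddCommGroup.toSeminormedAddCommGroup Real Real.normedAddCommGroup)))) (@modelWithCornersSelf Real (@DenselyNormedField.toNontriviallyNormedField Real Real.denselyNormedField)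 Real Real.normedAddCommGroup (@InnerProductSpace.toNormedSpace Real Real Real.instRCLike (@NormedAddCommGroup.toSeminormedAddCommGroup Real Real.normedAddCommGroup) (@RCLike.toInnerProductSpaceReal Real Real.instRCLike))) Real (@UniformSpace.toTopologicalSpace Real (@PseudoMetricSpace.toUniformSpace Real Real.pseudoMetricSpace)) (@chartedSpaceSelf Real (@UniformSpace.toTopologicalSpace Real (@PseudoMetricSpace.toUniformSpace Real (@SeminormedAddCommGroup.toPseudoMetricSpace Real (@NormedAddCommGroup.toSeminormedAddCommGroup Real Real.normedAddCommGroup))))) (@OfNat.ofNat Real (nat_lit 0) (@Zero.toOfNat0 Real Real.instZero))) := inferInstance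
@[reducible] def a69.{u1} {x1 : Type u1} [x2 : NormedAddCommGroup x1] : TopologicalSpace (ModelProd x1 x1) := inferInstance
@[reducible] noncomputable def a70 : DistribMulAction ℚ≥0 ℝ := inferInstance
@[reducible] def a71.{u1, u2} {x1 : Type u1} {x2 : Type u2} [x3 : NormedAddCommGroup x1] [x4 : NormedAddCommGroup x2] [x5 : NormedSpace ℝ x1] [x6 : NormedSpace ℝ x2] : Module ℝ (x1 × x2 →L[ℝ] ℝ) := inferInstance
@[reducible] noncomputable def a72 : DistribMulAction ℚ ℝ := inferInstance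
@[reducible] noncomputable def a73.{u1, u2} {x1 : Type u1} [x2 : NormedAddCommGroup x1] [x3 : NormedSpace ℝ x1] {x4 : Type u2} [x5 : MetricSpace x4] [x6 : ChartedSpace x1 x4] {x7 : (x : x4) → TangentSpace (modelWithCornersSelf ℝ x1) x → x4} {x8 : x4} {x9 : TangentSpace (modelWithCornersSelf ℝ x1) x8} : AddCommMonoid (TangentSpace (modelWithCornersSelf ℝ x1) (x7 x8 (0 • x9))) := inferInstance
theorem a74 : ClosedIicTopology ℝ := inferInstance
theorem a75 : ContinuousSub ℝ := inferInstance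
end AFast7770f4x8a
attribute [local instance] AFast7770f4x8a.a0 AFast7770f4x8a.a1 AFast7770f4x8a.a2 AFast7770f4x8a.a3
  AFast7770f4x8a.a4 AFast7770f4x8a.a5 AFast7770f4x8a.a6 AFast7770f4x8a.a7 AFast7770f4x8a.a8
  AFast7770f4x8a.a9 AFast7770f4x8a.a10 AFast7770f4x8a.a11 AFast7770f4x8a.a12 AFast7770f4x8a.a13
  AFast7770f4x8a.a14 AFast7770f4x8a.a15 AFast7770f4x8a.a16 AFast7770f4x8a.a17 AFast7770f4x8a.a18
  AFast7770f4x8a.a19 AFast7770f4x8a.a20 AFast7770f4x8a.a21 AFast7770f4x8a.a22 AFast7770f4x8a.a23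
  AFast7770f4x8a.a24 AFast7770f4x8a.a25 AFast7770f4x8a.a26 AFast7770f4x8a.a27 AFast7770f4x8a.a28
  AFast7770f4x8a.a29 AFast7770f4x8a.a30 AFast7770f4x8a.a31 AFast7770f4x8a.a32 AFast7770f4x8a.a33
  AFast7770f4x8a.a34 AFast7770f4x8a.a35 AFast7770f4x8a.a36 AFast7770f4x8a.a37 AFast7770f4x8a.a38
  AFast7770f4x8a.a39 AFast7770f4x8a.a40 AFast7770f4x8a.a41 AFast7770f4x8a.a42 AFast7770f4x8a.a43
  AFast7770f4x8a.a44 AFast7770f4x8a.a45 AFast7770f4x8a.a46 AFast7770f4x8a.a47 AFast7770f4x8a.a48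
  AFast7770f4x8a.a49 AFast7770f4x8a.a50 AFast7770f4x8a.a51 AFast7770f4x8a.a52 AFast7770f4x8a.a53
  AFast7770f4x8a.a54 AFast7770f4x8a.a55 AFast7770f4x8a.a56 AFast7770f4x8a.a57 AFast7770f4x8a.a58
  AFast7770f4x8a.a59 AFast7770f4x8a.a60 AFast7770f4x8a.a61 AFast7770f4x8a.a62 AFast7770f4x8a.a63
  AFast7770f4x8a.a64 AFast7770f4x8a.a65 AFast7770f4x8a.a66 AFast7770f4x8a.a67 AFast7770f4x8a.a68
  AFast7770f4x8a.a69 AFast7770f4x8a.a70 AFast7770f4x8a.a71 AFast7770f4x8a.a72 AFast7770f4x8a.a73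
  AFast7770f4x8a.a74 AFast7770f4x8a.a75
namespace AFast7770f4x8b
@[reducible] noncomputable def a0.{u1, u2} {x1 : Type u1} [x2 : NormedAddCommGroup x1] [x3 : NormedSpace ℝ x1] {x4 : Type u2} [x5 : MetricSpace x4] [x6 : ChartedSpace x1 x4] [x7 : IsManifold (modelWithCornersSelf ℝ x1) (↑⊤) x4] : TopologicalSpace (TangentBundle (modelWithCornersSelf ℝ x1) x4) := inferInstance
theorem a1.{u1, u2} {x1 : Type u1} [x2 : NormedAddCommGroup x1] [x3 : NormedSpace ℝ x1] {x4 : Type u2} [x5 : MetricSpace x4] [x6 : ChartedSpace x1 x4] [x7 : IsManifold (modelWithCornersSelf ℝ x1) (↑⊤) x4] : IsManifold (modelWithCornersSelf ℝ x1) 1 x4 := inferInstance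
theorem a2.{u1, u2} {x1 : Type u1} [x2 : NormedAddCommGroup x1] [x3 : NormedSpace ℝ x1] {x4 : Type u2} [x5 : MetricSpace x4] [x6 : ChartedSpace x1 x4] [x7 : IsManifold (modelWithCornersSelf ℝ x1) (↑⊤) x4] : IsManifold (modelWithCornersSelf ℝ x1) 2 x4 := inferInstance
theorem a3.{u1, u2} {x1 : Type u1} [x2 : NormedAddCommGroup x1] [x3 : NormedSpace ℝ x1] {x4 : Type u2} [x5 : MetricSpace x4] [x6 : ChartedSpace x1 x4] [x7 : IsManifold (modelWithCornersSelf ℝ x1) (↑⊤) x4] : IsManifold (modelWithCornersSelf ℝ x1) 3 x4 := inferInstance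
theorem a4 : ContinuousSMul ℚ≥0 ℝ := inferInstance
theorem a5 : IsScalarTower ℚ≥0 ℚ ℝ := inferInstance
@[reducible] noncomputable def a6 : Module ℚ ℝ := inferInstance
@[reducible] noncomputable def a7.{u1} {x1 : Type u1} [x2 : NormedAddCommGroup x1] [x3 : NormedSpace ℝ x1] : NormedSpace ℝ (x1 →L[ℝ] x1 →L[ℝ] ℝ) := inferInstance
theorem a8 {x1 : ℕ} : Module.IsTorsionFree ℝ (Matrix (Fin x1) (Fin x1) ℝ) := inferInstance
@[reducible] noncomputable def a9.{u1} {x1 : Type u1} [x2 : NormedAddCommGroup x1] [x3 : NormedSpace ℝ x1] : NormedAddCommGroup (x1 →L[ℝ] x1 →L[ℝ] ℝ) := inferInstance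
theorem a10.{u1, u2} {x1 : Type u1} {x2 : Type u2} [x3 : NormedAddCommGroup x1] [x4 : NormedAddCommGroup x2] [x5 : NormedSpace ℝ x1] [x6 : NormedSpace ℝ x2] : SemilinearMapClass (x1 × x2 →L[ℝ] ℝ) (RingHom.id ℝ) (x1 × x2) ℝ := inferInstance
theorem a11.{u1, u2} {x1 : Type u1} [x2 : NormedAddCommGroup x1] [x3 : NormedSpace ℝ x1] {x4 : Type u2} [x5 : MetricSpace x4] [x6 : ChartedSpace x1 x4] {x7 : x4} : IsScalarTower ℝ ℝ (TangentSpace (modelWithCornersSelf ℝ x1) x7) := inferInstance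
theorem a12.{u1, u2} {x1 : Type u1} {x2 : Type u2} [x3 : NormedAddCommGroup x1] [x4 : NormedSpace ℝ x1] [x5 : NormedAddCommGroup x2] [x6 : NormedSpace ℝ x2] : ContinuousSMul ℝ (x1 × x2) := inferInstance
end AFast7770f4x8b
attribute [local instance] AFast7770f4x8b.a0 AFast7770f4x8b.a1 AFast7770f4x8b.a2 AFast7770f4x8b.a3
  AFast7770f4x8b.a4 AFast7770f4x8b.a5 AFast7770f4x8b.a6 AFast7770f4x8b.a7 AFast7770f4x8b.a8
  AFast7770f4x8b.a9 AFast7770f4x8b.a10 AFast7770f4x8b.a11 AFast7770f4x8b.a12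
section

section

section

/-! Potentials, their subdifferentials, and the statements of the main steps. -/

set_option maxSynthPendingDepth 3
set_option linter.unusedSectionVars false

open Bundle Manifold Set Filter
open scoped ContDiff Manifold Topology

namespace Vale.Agent.P234

noncomputable section

/-- A finite maximum of functions `a i - cost · (y i)`. -/
structure Pot (M : Type*) [MetricSpace M] where
  N : ℕ
  a : Fin N → ℝ
  y : Fin N → M
  phi : M → ℝ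
  lower : ∀ i x, a i - cost x (y i) ≤ phi x
  attained : ∀ x, ∃ i, phi x = a i - cost x (y i)

variable {E : Type*} [NormedAddCommGroup E] [NormedSpace ℝ E] [FiniteDimensional ℝ E]
  {M : Type*} [MetricSpace M] [ChartedSpace E M]
  [RiemannianBundle (fun x : M => TangentSpace 𝓘(ℝ, E) x)]

/-- Vertices of the subdifferential: minimizing vectors towards active points. -/
def Pot.vtx (P : Pot M) (e : ∀ x : M, TangentSpace 𝓘(ℝ, E) x → M) (z : M) :
    Set (TangentSpace 𝓘(ℝ, E) z) :=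
  {w | w ∈ segMin e z ∧ ∃ i, e z w = P.y i ∧ P.phi z = P.a i - cost z (P.y i)}

/-- The subdifferential. -/
def Pot.sub (P : Pot M) (e : ∀ x : M, TangentSpace 𝓘(ℝ, E) x → M) (z : M) :
    Set (TangentSpace 𝓘(ℝ, E) z) :=
  convexHull ℝ (P.vtx e z)

/-- The support property at time `τ`. -/
def Pot.A (P : Pot M) (e : ∀ x : M, TangentSpace 𝓘(ℝ, E) x → M) (τ : ℝ) : Prop :=
  ∀ (z : M), ∀ u ∈ P.sub e z, ∀ x : M,
    τ * ‖u‖ ^ 2 / 2 + P.phi z ≤ cost x (e z (τ • u)) / τ + P.phi x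

variable [IsManifold 𝓘(ℝ, E) ∞ M]
  [IsContMDiffRiemannianBundle 𝓘(ℝ, E) ∞ E (fun x : M => TangentSpace 𝓘(ℝ, E) x)]
  [CompactSpace M]
  {e : ∀ x : M, TangentSpace 𝓘(ℝ, E) x → M}

omit [ChartedSpace E M] [RiemannianBundle (fun x : M => TangentSpace 𝓘(ℝ, E) x)]
  [IsManifold 𝓘(ℝ, E) ∞ M]
  [IsContMDiffRiemannianBundle 𝓘(ℝ, E) ∞ E (fun x : M => TangentSpace 𝓘(ℝ, E) x)] in
lemma dist_le_diam_univ (x y : M) : dist x y ≤ Metric.diam (univ : Set M) :=
  Metric.dist_le_diam_of_mem isCompact_univ.isBounded (mem_univ x) (mem_univ y)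

lemma Pot.phi_sub_le (P : Pot M) (x x' : M) :
    P.phi x - P.phi x' ≤ Metric.diam (univ : Set M) * dist x x' := by
  obtain ⟨i, hi⟩ := P.attained x
  have h1 := P.lower i x'
  have h2 := dist_le_diam_univ x (P.y i)
  have h3 := dist_le_diam_univ x' (P.y i)
  have h4 : dist x' (P.y i) ≤ dist x x' + dist x (P.y i) := by
    have := dist_triangle x' x (P.y i)
    rwa [dist_comm x' x] at this
  have h5 : 0 ≤ dist x (P.y i) := dist_nonneg
  have h6 : 0 ≤ dist x' (P.y i) := dist_nonneg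
  have h7 : 0 ≤ dist x x' := dist_nonneg
  have h8 : P.phi x - P.phi x' ≤ cost x' (P.y i) - cost x (P.y i) := by linarith
  refine h8.trans ?_
  rw [cost, cost]
  linarith only [mul_nonneg (sub_nonneg.mpr h4) (add_nonneg h5 h6), mul_nonneg h7 (sub_nonneg.mpr h3), mul_nonneg h7 (sub_nonneg.mpr h2)]

/-- Lipschitz bound for the potential. -/
lemma Pot.phi_lipschitz (P : Pot M) (x x' : M) :
    |P.phi x - P.phi x'| ≤ Metric.diam (univ : Set M) * dist x x' := by
  rw [abs_le]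
  constructor
  · have := P.phi_sub_le x' x
    rw [dist_comm] at this
    linarith
  · exact P.phi_sub_le x x'

lemma Pot.continuous_phi (P : Pot M) : Continuous P.phi := by
  have : LipschitzWith (Real.toNNReal (Metric.diam (univ : Set M))) P.phi := by
    apply LipschitzWith.of_dist_le_mul
    intro x x'
    rw [Real.dist_eq, Real.coe_toNNReal _ Metric.diam_nonneg]
    exact P.phi_lipschitz x x'
  exact this.continuous

lemma Pot.norm_le_of_mem_vtx (P : Pot M) {z : M} {u : TangentSpace 𝓘(ℝ, E) z}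
    (hu : u ∈ P.vtx e z) : ‖u‖ ≤ Metric.diam (univ : Set M) := by
  have h : dist z (e z u) = ‖u‖ := hu.1
  rw [← h]
  exact dist_le_diam_univ _ _

lemma Pot.norm_le_of_mem_sub (P : Pot M) {z : M} {u : TangentSpace 𝓘(ℝ, E) z}
    (hu : u ∈ P.sub e z) : ‖u‖ ≤ Metric.diam (univ : Set M) := by
  have h : P.sub e z ⊆ Metric.closedBall (0 : TangentSpace 𝓘(ℝ, E) z)
      (Metric.diam (univ : Set M)) := by
    apply convexHull_min
    · intro w hw
      rw [mem_closedBall_zero_iff]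
      exact P.norm_le_of_mem_vtx hw
    · exact convex_closedBall _ _
  have := h hu
  rwa [mem_closedBall_zero_iff] at this

/-- Semiconvexity-type lower bound of the potential by smooth functions. -/
lemma Pot.phi_lower (P : Pot M) (he : IsExp e) {z : M} {w : TangentSpace 𝓘(ℝ, E) z}
    (hw : w ∈ P.vtx e z) {t : ℝ} (ht0 : 0 < t) (ht1 : t < 1) (x : M) :
    P.phi z + t * ‖w‖ ^ 2 / 2 - cost x (e z (t • w)) / t ≤ P.phi x := by
  obtain ⟨hseg, i, hi, hphi⟩ := hw
  have h1 := P.lower i x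
  have h2 : cost z (e z w) = ‖w‖ ^ 2 / 2 := by
    have : dist z (e z w) = ‖w‖ := hseg
    rw [cost, this]
  rw [← hi] at h1 hphi
  have h3 := cost_ineq x (e z (t • w)) (e z w) ht0 (sub_pos.mpr ht1)
  have h4 := segMin_cost he hseg ht0.le ht1.le (le_refl (1 : ℝ))
  rw [one_smul] at h4
  rw [h4] at h3
  have h5 : (1 - t) ^ 2 * ‖w‖ ^ 2 / 2 / (1 - t) = (1 - t) * ‖w‖ ^ 2 / 2 := by
    have : (1 - t) ≠ 0 := (sub_pos.mpr ht1).ne'
    field_simp
  rw [h5, add_sub_cancel, div_one] at h3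
  rw [h2] at hphi
  linarith only [h3, h1, hphi]

/-- Limits of vertices are vertices. -/
lemma Pot.vtx_closed (P : Pot M) (he : IsExp e) {z : ℕ → M}
    {w : ∀ k, TangentSpace 𝓘(ℝ, E) (z k)} {z₀ : M} {w₀ : TangentSpace 𝓘(ℝ, E) z₀}
    (h : TendstoTB w w₀) (hw : ∀ k, w k ∈ P.vtx e (z k)) : w₀ ∈ P.vtx e z₀ := by
  refine ⟨h.segMin he (fun k => (hw k).1), ?_⟩
  have hclosed : IsClosed (⋃ i : Fin P.N, {p : M × M | p.2 = P.y i ∧
      P.phi p.1 = P.a i - cost p.1 (P.y i)}) := by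
    apply isClosed_iUnion_of_finite
    intro i
    apply IsClosed.inter
    · exact isClosed_eq continuous_snd continuous_const
    · refine isClosed_eq (P.continuous_phi.comp continuous_fst) ?_
      have hc : Continuous (fun p : M × M => cost p.1 (P.y i)) :=
        continuous_cost.comp (continuous_fst.prodMk continuous_const)
      exact continuous_const.sub hc
  have hlim : Tendsto (fun k => (z k, e (z k) (w k))) atTop (𝓝 (z₀, e z₀ w₀)) :=
    h.base.prodMk_nhds (h.exp he)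
  have hmem := hclosed.mem_of_tendsto hlim (Eventually.of_forall fun k => by
    obtain ⟨i, hi1, hi2⟩ := (hw k).2
    exact mem_iUnion.mpr ⟨i, hi1, hi2⟩)
  obtain ⟨i, hi1, hi2⟩ := mem_iUnion.mp hmem
  exact ⟨i, hi1, hi2⟩

lemma Pot.isCompact_vtx (P : Pot M) (he : IsExp e) (z : M) : IsCompact (P.vtx e z) := by
  have : FiniteDimensional ℝ (TangentSpace 𝓘(ℝ, E) z) := inferInstanceAs (FiniteDimensional ℝ E)
  have : ProperSpace (TangentSpace 𝓘(ℝ, E) z) := FiniteDimensional.proper ℝ _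
  apply Metric.isCompact_of_isClosed_isBounded
  · apply IsSeqClosed.isClosed
    intro v v₀ hv hlim
    exact P.vtx_closed he (z := fun _ => z) (tendstoTB_const_base.mpr hlim) hv
  · refine (Metric.isBounded_closedBall (x := (0 : TangentSpace 𝓘(ℝ, E) z))
      (r := Metric.diam (univ : Set M))).subset ?_
    intro w hw
    rw [mem_closedBall_zero_iff]
    exact P.norm_le_of_mem_vtx hw

/-- Caratheodory with a fixed number of vertices. -/
lemma Pot.exists_rep (P : Pot M) {z : M} {u : TangentSpace 𝓘(ℝ, E) z} (hu : u ∈ P.sub e z) :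
    ∃ (lam : Fin (Module.finrank ℝ E + 1) → ℝ)
      (w : Fin (Module.finrank ℝ E + 1) → TangentSpace 𝓘(ℝ, E) z),
      (∀ j, 0 ≤ lam j) ∧ ∑ j, lam j = 1 ∧ (∀ j, w j ∈ P.vtx e z) ∧ ∑ j, lam j • w j = u := by
  classical
  have : FiniteDimensional ℝ (TangentSpace 𝓘(ℝ, E) z) := inferInstanceAs (FiniteDimensional ℝ E)
  obtain ⟨ι, hι, w, c, hw, hind, hc, hsum, hcomb⟩ := eq_pos_convex_span_of_mem_convexHull hu
  have hcard : Fintype.card ι ≤ Module.finrank ℝ E + 1 := by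
    have h1 := hind.card_le_finrank_succ
    have h2 : Module.finrank ℝ (vectorSpan ℝ (Set.range w))
        ≤ Module.finrank ℝ (TangentSpace 𝓘(ℝ, E) z) := Submodule.finrank_le _
    have h3 : Module.finrank ℝ (TangentSpace 𝓘(ℝ, E) z) = Module.finrank ℝ E := rfl
    omega
  have hne : Nonempty ι := by
    by_contra hemp
    rw [not_nonempty_iff] at hemp
    rw [Fintype.sum_empty] at hsum
    exact zero_ne_one hsum
  obtain ⟨i₀⟩ := hne
  obtain ⟨f⟩ : Nonempty (ι ↪ Fin (Module.finrank ℝ E + 1)) := by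
    apply Function.Embedding.nonempty_of_card_le
    rwa [Fintype.card_fin]
  refine ⟨Function.extend f c 0, Function.extend f w (fun _ => w i₀), ?_, ?_, ?_, ?_⟩
  · intro j
    by_cases hj : ∃ i, f i = j
    · obtain ⟨i, rfl⟩ := hj
      rw [f.injective.extend_apply]
      exact (hc i).le
    · rw [Function.extend_apply' _ _ _ hj]
      exact le_rfl
  · rw [← hsum]
    symm
    apply Fintype.sum_of_injective f f.injective
    · intro j hj
      rw [Function.extend_apply' _ _ _ (by simpa using hj)]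
      rfl
    · intro i
      rw [f.injective.extend_apply]
  · intro j
    by_cases hj : ∃ i, f i = j
    · obtain ⟨i, rfl⟩ := hj
      rw [f.injective.extend_apply]
      exact hw ⟨i, rfl⟩
    · rw [Function.extend_apply' _ _ _ hj]
      exact hw ⟨i₀, rfl⟩
  · rw [← hcomb]
    symm
    apply Fintype.sum_of_injective f f.injective
    · intro j hj
      rw [Function.extend_apply' c (0 : Fin (Module.finrank ℝ E + 1) → ℝ) j (by simpa using hj)]
      exact zero_smul ℝ _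
    · intro i
      rw [f.injective.extend_apply, f.injective.extend_apply]

/-- Extraction of convergent subsequences of subgradients with their representations. -/
lemma Pot.extract (P : Pot M) (he : IsExp e) (z : ℕ → M) (u : ∀ k, TangentSpace 𝓘(ℝ, E) (z k))
    (hu : ∀ k, u k ∈ P.sub e (z k)) :
    ∃ (φ : ℕ → ℕ) (z₀ : M) (lam : ℕ → Fin (Module.finrank ℝ E + 1) → ℝ)
      (w : ∀ k, Fin (Module.finrank ℝ E + 1) → TangentSpace 𝓘(ℝ, E) (z (φ k)))
      (lam₀ : Fin (Module.finrank ℝ E + 1) → ℝ)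
      (w₀ : Fin (Module.finrank ℝ E + 1) → TangentSpace 𝓘(ℝ, E) z₀),
      StrictMono φ ∧
      (∀ k j, 0 ≤ lam k j) ∧ (∀ k, ∑ j, lam k j = 1) ∧ (∀ k j, w k j ∈ P.vtx e (z (φ k))) ∧
      (∀ k, ∑ j, lam k j • w k j = u (φ k)) ∧
      (∀ j, Tendsto (fun k => lam k j) atTop (𝓝 (lam₀ j))) ∧
      (∀ j, TendstoTB (z := fun k => z (φ k)) (fun k => w k j) (w₀ j)) ∧
      Tendsto (fun k => z (φ k)) atTop (𝓝 z₀) ∧
      (∀ j, 0 ≤ lam₀ j) ∧ ∑ j, lam₀ j = 1 ∧ (∀ j, w₀ j ∈ P.vtx e z₀) ∧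
      TendstoTB (z := fun k => z (φ k)) (fun k => u (φ k)) (∑ j, lam₀ j • w₀ j) := by
  choose lam w h0 h1 hw hcomb using fun k => P.exists_rep (hu k)
  obtain ⟨z₀, w₀, φ₁, hφ₁, hz₁, hw₁⟩ := exists_tendstoTB_fin z w (Metric.diam (univ : Set M))
    (fun k j => P.norm_le_of_mem_vtx (hw k j))
  have hcpt : IsCompact (Set.pi univ (fun _ : Fin (Module.finrank ℝ E + 1) => Icc (0 : ℝ) 1)) :=
    isCompact_univ_pi fun _ => isCompact_Icc
  have hmem : ∀ k, lam (φ₁ k) ∈ Set.pi univ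
      (fun _ : Fin (Module.finrank ℝ E + 1) => Icc (0 : ℝ) 1) := by
    intro k j _
    refine ⟨h0 _ j, ?_⟩
    rw [← h1 (φ₁ k)]
    exact Finset.single_le_sum (f := fun j => lam (φ₁ k) j) (fun i _ => h0 _ i)
      (Finset.mem_univ j)
  obtain ⟨lam₀, hlam₀, φ₂, hφ₂, hlim⟩ := hcpt.tendsto_subseq hmem
  have hl : ∀ j, Tendsto (fun k => lam (φ₁ (φ₂ k)) j) atTop (𝓝 (lam₀ j)) := by
    intro j
    exact (tendsto_pi_nhds.mp hlim) j
  have hwl : ∀ j, TendstoTB (z := fun k => z (φ₁ (φ₂ k))) (fun k => w (φ₁ (φ₂ k)) j) (w₀ j) :=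
    fun j => (hw₁ j).subseq hφ₂
  have hzl : Tendsto (fun k => z (φ₁ (φ₂ k))) atTop (𝓝 z₀) := hz₁.comp hφ₂.tendsto_atTop
  have hsum0 : ∑ j, lam₀ j = 1 := by
    have h2 : Tendsto (fun k => ∑ j, lam (φ₁ (φ₂ k)) j) atTop (𝓝 (∑ j, lam₀ j)) :=
      tendsto_finsetSum _ fun j _ => hl j
    have h3 : (fun k => ∑ j, lam (φ₁ (φ₂ k)) j) = fun _ => (1 : ℝ) := by
      funext k; exact h1 _
    rw [h3] at h2
    exact (tendsto_nhds_unique h2 tendsto_const_nhds)
  refine ⟨fun k => φ₁ (φ₂ k), z₀, fun k => lam (φ₁ (φ₂ k)), fun k => w (φ₁ (φ₂ k)), lam₀, w₀,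
    hφ₁.comp hφ₂, fun k j => h0 _ j, fun k => h1 _, fun k j => hw _ j, fun k => hcomb _, hl, hwl,
    hzl, fun j => (hlam₀ j (mem_univ j)).1, hsum0,
    fun j => P.vtx_closed he (hwl j) (fun k => hw _ j), ?_⟩
  have h4 := TendstoTB.sum (z := fun k => z (φ₁ (φ₂ k))) (w := fun k => w (φ₁ (φ₂ k)))
    (c := fun k => lam (φ₁ (φ₂ k))) hzl hwl hl
  have h5 : (fun k => ∑ j, lam (φ₁ (φ₂ k)) j • w (φ₁ (φ₂ k)) j) = fun k => u (φ₁ (φ₂ k)) := by
    funext k; exact hcomb _
  rw [h5] at h4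
  exact h4

/-- `A τ` implies that `τ u` is minimizing. -/
lemma Pot.A.segMin {P : Pot M} (he : IsExp e) {τ : ℝ} (hτ : 0 < τ) (h : P.A e τ) {z : M}
    {u : TangentSpace 𝓘(ℝ, E) z} (hu : u ∈ P.sub e z) : τ • u ∈ Vale.Agent.P234.segMin e z := by
  rw [mem_segMin_iff_cost he]
  have h1 := h z u hu z
  have h2 : τ * ‖u‖ ^ 2 / 2 ≤ cost z (e z (τ • u)) / τ := by linarith
  rw [le_div_iff₀ hτ] at h2
  rw [norm_smul, Real.norm_of_nonneg hτ.le, mul_pow]
  linarith only [h2]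

/-- Closedness. -/
lemma Pot.A.of_tendsto {P : Pot M} (he : IsExp e) {τ : ℕ → ℝ} {τ₀ : ℝ} (hτ₀ : 0 < τ₀)
    (hτ : Tendsto τ atTop (𝓝 τ₀)) (h : ∀ k, P.A e (τ k)) : P.A e τ₀ := by
  intro z u hu x
  have h1 : Tendsto (fun k => τ k * ‖u‖ ^ 2 / 2 + P.phi z) atTop
      (𝓝 (τ₀ * ‖u‖ ^ 2 / 2 + P.phi z)) :=
    ((hτ.mul_const _).div_const _).add_const _
  have h2 : Tendsto (fun k => e z (τ k • u)) atTop (𝓝 (e z (τ₀ • u))) := by
    rw [tendsto_iff_dist_tendsto_zero]
    have h5 : Tendsto (fun k => |τ₀ - τ k| * ‖u‖) atTop (𝓝 0) := by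
      have h6 : Tendsto (fun k => |τ₀ - τ k| * ‖u‖) atTop (𝓝 (|τ₀ - τ₀| * ‖u‖)) :=
        ((tendsto_const_nhds.sub hτ).abs).mul_const _
      simpa using h6
    exact squeeze_zero (fun _ => dist_nonneg) (fun k => dist_exp_le he z u (τ k) τ₀) h5
  have hc : Continuous (fun q : M => cost x q) := by
    have h7 : Continuous (fun q : M => (x, q)) := by fun_prop
    exact (continuous_cost (M := M)).comp h7
  generalize e z (τ₀ • u) = q₀ at h2 ⊢
  have h3 : Tendsto (fun k => cost x (e z (τ k • u))) atTop (𝓝 (cost x q₀)) :=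
    (hc.tendsto q₀).comp h2
  have h4 : Tendsto (fun k => cost x (e z (τ k • u)) / τ k + P.phi x) atTop
      (𝓝 (cost x q₀ / τ₀ + P.phi x)) :=
    (h3.div hτ hτ₀.ne').add_const _
  exact le_of_tendsto_of_tendsto' h1 h4 (fun k => h k z u hu x)

/-- Two-piece cost with durations `θ` and `δ`. -/
def two (θ δ : ℝ) (x m y : M) : ℝ := cost x m / θ + cost m y / δ

end

end Vale.Agent.P234
end
end
end

section

section

section

/-! Base case of the continuity method. -/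

set_option maxSynthPendingDepth 3

open Bundle Manifold Set Filter
open scoped ContDiff Manifold Topology

namespace Vale.Agent.P234

noncomputable section

lemma base_two_le_infty : (2 : ℕ∞ω) ≤ ∞ := WithTop.coe_le_coe.2 (le_top : (2 : ℕ∞) ≤ ⊤)

/-- Taylor expansion in the first variable. -/
lemma taylor_partial {V W : Type*} [NormedAddCommGroup V] [NormedSpace ℝ V]
    [NormedAddCommGroup W] [NormedSpace ℝ W] {F : V × W → ℝ} {a₀ : V} {b₀ : W}
    (hF : ContDiffAt ℝ 2 F (a₀, b₀)) {ε : ℝ} (hε : 0 < ε) :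
    ∃ δ > 0, ∀ (a h : V) (b : W), ‖a - a₀‖ < δ → ‖b - b₀‖ < δ → ‖h‖ < δ →
      ∀ D : V →L[ℝ] ℝ, HasFDerivAt (fun a' : V => F (a', b)) D a →
      |F (a + h, b) - F (a, b) - D h - (1 / 2) * hess F (a₀, b₀) (h, 0) (h, 0)| ≤ ε * ‖h‖ ^ 2 := by
  obtain ⟨δ₁, hδ₁, h1⟩ := taylor2 hF hε
  have hev : ∀ᶠ p in 𝓝 (a₀, b₀), DifferentiableAt ℝ F p := by
    filter_upwards [hF.eventually (by simp)] with p hp
    exact hp.differentiableAt (by norm_num)
  obtain ⟨δ₂, hδ₂, h2⟩ := Metric.eventually_nhds_iff.1 hev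
  refine ⟨min δ₁ δ₂, lt_min hδ₁ hδ₂, ?_⟩
  intro a h b ha hb hh D hD
  have hnorm : ‖((a, b) : V × W) - (a₀, b₀)‖ < min δ₁ δ₂ := by
    rw [Prod.mk_sub_mk, Prod.norm_mk]
    exact max_lt ha hb
  have hnormh : ‖((h, 0) : V × W)‖ = ‖h‖ := by
    rw [Prod.norm_mk, norm_zero]
    exact max_eq_left (norm_nonneg _)
  have h3 := h1 (a, b) (h, 0) (hnorm.trans_le (min_le_left _ _))
    (by rw [hnormh]; exact hh.trans_le (min_le_left _ _))
  have hdiff : DifferentiableAt ℝ F (a, b) := by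
    apply h2
    rw [dist_eq_norm]
    exact hnorm.trans_le (min_le_right _ _)
  have h4 : HasFDerivAt (fun a' : V => F (a', b))
      ((fderiv ℝ F (a, b)).comp (ContinuousLinearMap.inl ℝ V W)) a :=
    hdiff.hasFDerivAt.comp a (hasFDerivAt_prodMk_left a b)
  have h5 : D h = fderiv ℝ F (a, b) (h, 0) := by
    rw [hD.unique h4]
    simp
  rw [h5]
  rw [hnormh] at h3
  simpa using h3

lemma iteratedDeriv_two_sq (c : ℝ) : iteratedDeriv 2 (fun t : ℝ => t ^ 2 * c / 2) 0 = c := by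
  have h1 : deriv (fun t : ℝ => t ^ 2 * c / 2) = fun t => t * c := by
    funext t
    have : HasDerivAt (fun t : ℝ => t ^ 2 * c / 2) (t * c) t := by
      have h := ((hasDerivAt_pow 2 t).mul_const c).div_const 2
      have h2 : (((2 : ℕ) : ℝ) * t ^ (2 - 1) * c / 2) = t * c := by
        norm_num
        ring
      rw [h2] at h
      exact h
    exact this.deriv
  rw [iteratedDeriv_succ, iteratedDeriv_one, h1]
  have : HasDerivAt (fun t : ℝ => t * c) c 0 := by
    simpa using (hasDerivAt_id (0 : ℝ)).mul_const c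
  exact this.deriv

variable {E : Type*} [NormedAddCommGroup E] [NormedSpace ℝ E] [FiniteDimensional ℝ E]
  {M : Type*} [MetricSpace M] [ChartedSpace E M]
  [RiemannianBundle (fun x : M => TangentSpace 𝓘(ℝ, E) x)]
  [IsManifold 𝓘(ℝ, E) ∞ M]
  [IsContMDiffRiemannianBundle 𝓘(ℝ, E) ∞ E (fun x : M => TangentSpace 𝓘(ℝ, E) x)]
  [CompactSpace M]
  {e : ∀ x : M, TangentSpace 𝓘(ℝ, E) x → M}

omit [CompactSpace M] in
/-- The derivatives of all costs at a point of a coordinate system factor through one linear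
map. -/
lemma exists_deriv_map (he : IsExp e) {z₀ z' : M} {β : TangentSpace 𝓘(ℝ, E) z₀}
    (hβ : e z₀ β = z') :
    ∃ A : TangentSpace 𝓘(ℝ, E) z₀ →L[ℝ] TangentSpace 𝓘(ℝ, E) z',
      ∀ v ∈ segMin e z', SmoothAt E z' (e z' v) →
        HasFDerivAt (fun a' : TangentSpace 𝓘(ℝ, E) z₀ => cost (e z₀ a') (e z' v))
          (-((innerSL ℝ v).comp A)) β := by
  subst hβ
  exact ⟨mfderiv 𝓘(ℝ, TangentSpace 𝓘(ℝ, E) z₀) 𝓘(ℝ, E) (e z₀) β,
    fun v hv hs => hasFDerivAt_cost he z₀ β v hv hs⟩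

omit [CompactSpace M] in
/-- The pure second derivative of the cost in the first variable at the diagonal. -/
lemma hess_diag (he : IsExp e) {z₀ : M} (hs : SmoothAt E z₀ z₀) (h : TangentSpace 𝓘(ℝ, E) z₀) :
    hess (fun p : TangentSpace 𝓘(ℝ, E) z₀ × TangentSpace 𝓘(ℝ, E) z₀ =>
      cost (e z₀ p.1) (e z₀ p.2)) (0, 0) (h, 0) (h, 0) = ‖h‖ ^ 2 := by
  have hs' : SmoothAt E (e z₀ (0 : TangentSpace 𝓘(ℝ, E) z₀)) (e z₀ (0 : TangentSpace 𝓘(ℝ, E) z₀)) := by
    rw [he.map_zero]; exact hs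
  have hc := (SmoothAt.coord he hs').of_le (m := 2) base_two_le_infty
  rw [← iteratedDeriv_two_line hc (h, 0)]
  obtain ⟨ρ, hρ, hmin⟩ := he.minimizing
  have hev : (fun t : ℝ => cost (e z₀ ((0, 0) + t • (h, (0 : TangentSpace 𝓘(ℝ, E) z₀))).1)
      (e z₀ (((0 : TangentSpace 𝓘(ℝ, E) z₀), (0 : TangentSpace 𝓘(ℝ, E) z₀)) + t • (h, 0)).2)) =ᶠ[𝓝 0]
      (fun t : ℝ => t ^ 2 * ‖h‖ ^ 2 / 2) := by
    have hev2 : ∀ᶠ t : ℝ in 𝓝 0, ‖h‖ * |t| < ρ := by
      have : Tendsto (fun t : ℝ => ‖h‖ * |t|) (𝓝 0) (𝓝 (‖h‖ * |0|)) := by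
        apply Continuous.tendsto
        fun_prop
      rw [abs_zero, mul_zero] at this
      exact this.eventually_lt_const hρ
    filter_upwards [hev2] with t ht
    have h1 := hmin z₀ h t 0 (by simpa using ht.le)
    simp only [Prod.smul_mk, Prod.mk_add_mk, zero_add, smul_zero]
    rw [zero_smul] at h1
    unfold cost
    rw [h1]
    simp only [zero_sub, abs_neg]
    rw [mul_pow, sq_abs]
    ring
  rw [hev.iteratedDeriv_eq]
  exact iteratedDeriv_two_sq _

/-- The main second order comparison behind the base case: contradiction from sequences. -/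
lemma base_contra (F : Facts e) (P : Pot M) (z : ℕ → M) (u : ∀ k, TangentSpace 𝓘(ℝ, E) (z k))
    (x : ℕ → M) (τ : ℕ → ℝ) (hτ0 : ∀ k, 0 < τ k) (hτ : Tendsto τ atTop (𝓝 0))
    {n : ℕ} (lam : ℕ → Fin n → ℝ) (w : ∀ k, Fin n → TangentSpace 𝓘(ℝ, E) (z k))
    {z₀ : M} (w₀ : Fin n → TangentSpace 𝓘(ℝ, E) z₀)
    (hlam : ∀ k j, 0 ≤ lam k j) (hsum : ∀ k, ∑ j, lam k j = 1)
    (hw : ∀ k j, w k j ∈ P.vtx e (z k)) (hu : ∀ k, ∑ j, lam k j • w k j = u k)
    (hwt : ∀ j, TendstoTB (z := z) (fun k => w k j) (w₀ j))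
    (hz : Tendsto z atTop (𝓝 z₀)) (hw₀ : ∀ j, w₀ j ∈ P.vtx e z₀)
    {u₀ : TangentSpace 𝓘(ℝ, E) z₀} (hut : TendstoTB (z := z) (fun k => u k) u₀)
    (hneg : ∀ k, cost (x k) (e (z k) (τ k • u k)) / τ k + P.phi (x k) <
      τ k * ‖u k‖ ^ 2 / 2 + P.phi (z k)) : False := by
  have he := F.isExp
  obtain ⟨ρ, hρ, hmin, hsmooth⟩ := F.short
  -- the points `y k`
  have hy : Tendsto (fun k => e (z k) (τ k • u k)) atTop (𝓝 z₀) := by
    have h1 := (hut.smul hτ).exp he
    rwa [zero_smul, he.map_zero] at h1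
  -- the points `m k j`
  have hm : ∀ j, Tendsto (fun k => e (z k) ((1 / 2 : ℝ) • w k j)) atTop
      (𝓝 (e z₀ ((1 / 2 : ℝ) • w₀ j))) := fun j =>
    ((hwt j).smul (c := fun _ => (1 / 2 : ℝ)) tendsto_const_nhds).exp he
  -- `x k` tends to `z₀`
  have hnormu : Tendsto (fun k => ‖u k‖) atTop (𝓝 ‖u₀‖) := hut.norm
  have hx : Tendsto x atTop (𝓝 z₀) := by
    set D := Metric.diam (univ : Set M) with hD
    have hD0 : 0 ≤ D := Metric.diam_nonneg
    have hcost : Tendsto (fun k => cost (x k) (e (z k) (τ k • u k))) atTop (𝓝 0) := by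
      have h1 : Tendsto (fun k => τ k * (τ k * ‖u k‖ ^ 2 / 2 + D * D)) atTop
          (𝓝 (0 * (0 * ‖u₀‖ ^ 2 / 2 + D * D))) :=
        hτ.mul (((hτ.mul (hnormu.pow 2)).div_const 2).add tendsto_const_nhds)
      rw [zero_mul] at h1
      apply squeeze_zero (fun k => cost_nonneg _ _) _ h1
      intro k
      have h2 := hneg k
      have h3 := P.phi_lipschitz (z k) (x k)
      have h4 : dist (z k) (x k) ≤ D :=
        Metric.dist_le_diam_of_mem isCompact_univ.isBounded (mem_univ _) (mem_univ _)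
      have h5 : P.phi (z k) - P.phi (x k) ≤ D * D := by
        have h6 := (abs_le.1 h3).2
        have h7 : D * dist (z k) (x k) ≤ D * D := by gcongr
        linarith
      have h8 : cost (x k) (e (z k) (τ k • u k)) / τ k ≤ τ k * ‖u k‖ ^ 2 / 2 + D * D := by
        linarith only [h5, h2]
      rw [div_le_iff₀ (hτ0 k)] at h8
      linarith only [h8]
    have hdist : Tendsto (fun k => dist (x k) (e (z k) (τ k • u k))) atTop (𝓝 0) := by
      have h1 : Tendsto (fun k => Real.sqrt (2 * cost (x k) (e (z k) (τ k • u k)))) atTop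
          (𝓝 (Real.sqrt (2 * 0))) := (hcost.const_mul 2).sqrt
      rw [mul_zero, Real.sqrt_zero] at h1
      refine h1.congr fun k => ?_
      unfold cost
      rw [mul_div_cancel₀ _ (two_ne_zero)]
      exact Real.sqrt_sq dist_nonneg
    rw [tendsto_iff_dist_tendsto_zero]
    have h1 : Tendsto (fun k => dist (x k) (e (z k) (τ k • u k)) +
        dist (e (z k) (τ k • u k)) z₀) atTop (𝓝 (0 + 0)) :=
      hdist.add (tendsto_iff_dist_tendsto_zero.1 hy)
    rw [add_zero] at h1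
    exact squeeze_zero (fun k => dist_nonneg) (fun k => dist_triangle _ _ _) h1
  -- coordinates at `z₀`
  have h0mem : (0 : TangentSpace 𝓘(ℝ, E) z₀) ∈ injDomain e z₀ := by
    refine ⟨2, by norm_num, ?_⟩
    rw [smul_zero, he.map_zero, dist_self, norm_zero, mul_zero]
  have hBmem : ∀ j, ((1 / 2 : ℝ) • w₀ j) ∈ injDomain e z₀ := fun j =>
    smul_mem_injDomain he (hw₀ j).1 (by norm_num) (by norm_num)
  obtain ⟨L₀, hL₀s, hL₀0, hL₀1, -⟩ := F.smoothLog h0mem
  rw [he.map_zero] at hL₀s hL₀0 hL₀1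
  choose L hLs hL0 hL1 _ using fun j => F.smoothLog (hBmem j)
  have hs00 : SmoothAt E z₀ z₀ := by
    have := F.smooth_cost z₀ 0 h0mem
    rwa [he.map_zero] at this
  have hsB : ∀ j, SmoothAt E z₀ (e z₀ ((1 / 2 : ℝ) • w₀ j)) := fun j =>
    F.smooth_cost z₀ _ (hBmem j)
  set G : TangentSpace 𝓘(ℝ, E) z₀ × TangentSpace 𝓘(ℝ, E) z₀ → ℝ :=
    fun p => cost (e z₀ p.1) (e z₀ p.2) with hG
  have hG00 : ContDiffAt ℝ 2 G (0, 0) := by
    have hs' : SmoothAt E (e z₀ (0 : TangentSpace 𝓘(ℝ, E) z₀))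
        (e z₀ (0 : TangentSpace 𝓘(ℝ, E) z₀)) := by
      rw [he.map_zero]; exact hs00
    exact (SmoothAt.coord he hs').of_le base_two_le_infty
  have hGB : ∀ j, ContDiffAt ℝ 2 G (0, (1 / 2 : ℝ) • w₀ j) := by
    intro j
    have hs' : SmoothAt E (e z₀ (0 : TangentSpace 𝓘(ℝ, E) z₀)) (e z₀ ((1 / 2 : ℝ) • w₀ j)) := by
      rw [he.map_zero]; exact hsB j
    exact (SmoothAt.coord he hs').of_le base_two_le_infty
  have hhess := hess_diag he hs00
  obtain ⟨δ₀, hδ₀, ht0⟩ := taylor_partial hG00 (ε := 1 / 4) (by norm_num)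
  choose δ hδ ht using fun j => taylor_partial (hGB j) (ε := 1) (by norm_num)
  -- limits of coordinates
  have hcont0 : ContinuousAt L₀ z₀ := hL₀s.continuousAt
  have hlim0 : ∀ q : ℕ → M, Tendsto q atTop (𝓝 z₀) → Tendsto (fun k => L₀ (q k)) atTop (𝓝 0) := by
    intro q hq
    have := hcont0.tendsto.comp hq
    rwa [hL₀0] at this
  have hevcoord : ∀ q : ℕ → M, Tendsto q atTop (𝓝 z₀) →
      ∀ᶠ k in atTop, e z₀ (L₀ (q k)) = q k := by
    intro q hq
    filter_upwards [hq.eventually hL₀1] with k hk using hk.2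
  have hnorm0 : ∀ q : ℕ → M, Tendsto q atTop (𝓝 z₀) → ∀ r : ℝ, 0 < r →
      ∀ᶠ k in atTop, ‖L₀ (q k)‖ < r := by
    intro q hq r hr
    have h1 := (hlim0 q hq).norm
    rw [norm_zero] at h1
    exact h1.eventually_lt_const hr
  have hmj : ∀ j, ∀ᶠ k in atTop, e z₀ (L j (e (z k) ((1 / 2 : ℝ) • w k j))) =
      e (z k) ((1 / 2 : ℝ) • w k j) := by
    intro j
    filter_upwards [(hm j).eventually (hL1 j)] with k hk using hk.2
  have hmn : ∀ j, ∀ᶠ k in atTop, ‖L j (e (z k) ((1 / 2 : ℝ) • w k j)) - (1 / 2 : ℝ) • w₀ j‖ < δ j := by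
    intro j
    have h1 : Tendsto (fun k => L j (e (z k) ((1 / 2 : ℝ) • w k j))) atTop
        (𝓝 ((1 / 2 : ℝ) • w₀ j)) := by
      have := (hLs j).continuousAt.tendsto.comp (hm j)
      rwa [hL0 j] at this
    have h2 := (tendsto_iff_norm_sub_tendsto_zero.1 h1)
    exact h2.eventually_lt_const (hδ j)
  have hsm0 : ∀ᶠ k in atTop, SmoothAt E (z k) (e (z k) (τ k • u k)) :=
    (hz.prodMk_nhds hy).eventually hs00.eventually
  have hsmj : ∀ j, ∀ᶠ k in atTop, SmoothAt E (z k) (e (z k) ((1 / 2 : ℝ) • w k j)) := fun j =>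
    (hz.prodMk_nhds (hm j)).eventually (hsB j).eventually
  have hsmall : ∀ᶠ k in atTop, ‖τ k • u k‖ < ρ := by
    have h1 : Tendsto (fun k => τ k * ‖u k‖) atTop (𝓝 (0 * ‖u₀‖)) := hτ.mul hnormu
    rw [zero_mul] at h1
    filter_upwards [h1.eventually_lt_const hρ] with k hk
    rwa [norm_smul, Real.norm_eq_abs, abs_of_pos (hτ0 k)]
  set C : Fin n → ℝ := fun j => (1 / 2) * ‖hess G (0, (1 / 2 : ℝ) • w₀ j)‖ + 1 with hC
  have hC0 : ∀ j, 0 ≤ C j := fun j => by simp only [hC]; positivity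
  have htau : ∀ᶠ k in atTop, τ k * (2 * (∑ j, C j)) < 1 / 4 := by
    have h1 : Tendsto (fun k => τ k * (2 * (∑ j, C j))) atTop (𝓝 (0 * (2 * (∑ j, C j)))) :=
      hτ.mul_const _
    rw [zero_mul] at h1
    exact h1.eventually_lt_const (by norm_num)
  -- smallness of all the coordinates
  have hallδ : ∃ r : ℝ, 0 < r ∧ r ≤ δ₀ ∧ ∀ j, r ≤ δ j := by
    by_cases hn : Nonempty (Fin n)
    · refine ⟨min δ₀ (Finset.univ.inf' Finset.univ_nonempty δ), ?_, min_le_left _ _, ?_⟩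
      · apply lt_min hδ₀
        rw [Finset.lt_inf'_iff]
        intro j _
        exact hδ j
      · intro j
        exact (min_le_right _ _).trans (Finset.inf'_le _ (Finset.mem_univ j))
    · exact ⟨δ₀, hδ₀, le_rfl, fun j => (hn ⟨j⟩).elim⟩
  obtain ⟨r, hr0, hrδ₀, hrδ⟩ := hallδ
  obtain ⟨k, hkx, hkz, hky, hknx, hknz, hkny, hkm, hkmn, hks0, hksj, hksm, hktau⟩ :=
    ((hevcoord x hx).and ((hevcoord z hz).and ((hevcoord _ hy).and
      ((hnorm0 x hx (r / 2) (by linarith)).and ((hnorm0 z hz (r / 2) (by linarith)).and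
      ((hnorm0 _ hy (r / 2) (by linarith)).and
      ((eventually_all.2 hmj).and ((eventually_all.2 hmn).and (hsm0.and
      ((eventually_all.2 hsmj).and (hsmall.and htau))))))))))).exists
  -- fix this `k`
  obtain ⟨A, hA⟩ := exists_deriv_map he hkz
  set β := L₀ (z k) with hβ
  set h := L₀ (x k) - L₀ (z k) with hh
  have hβh : β + h = L₀ (x k) := by rw [hh, hβ]; abel
  have hnh : ‖h‖ < r := by
    calc ‖h‖ ≤ ‖L₀ (x k)‖ + ‖L₀ (z k)‖ := norm_sub_le _ _
      _ < r / 2 + r / 2 := by linarith only [hknz, hknx]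
      _ = r := by ring
  have hnβ : ‖β - 0‖ < r := by rw [sub_zero]; linarith only [hknz, hr0]
  have hτk := hτ0 k
  -- main term
  have hseg0 : τ k • u k ∈ segMin e (z k) := by
    have h1 := hmin (z k) (τ k • u k) 0 1 (by simpa using hksm.le)
    rw [zero_smul, one_smul, he.map_zero] at h1
    change dist _ _ = _
    simpa using h1
  have hD0 := hA _ hseg0 hks0
  have hT0 := ht0 β h (L₀ (e (z k) (τ k • u k))) (hnβ.trans_le hrδ₀)
    (by rw [sub_zero]; linarith only [hkny, hrδ₀, hr0]) (hnh.trans_le hrδ₀) (-((innerSL ℝ (τ k • u k)).comp A))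
    (by simp only [hG, hky]; exact hD0)
  have hval0 : G (β, L₀ (e (z k) (τ k • u k))) = (τ k) ^ 2 * ‖u k‖ ^ 2 / 2 := by
    simp only [hG, hky, hkz]
    have h1 := segMin_cost he hseg0 (s := 0) (t := 1) le_rfl zero_le_one le_rfl
    rw [zero_smul, one_smul, he.map_zero] at h1
    rw [h1, norm_smul, Real.norm_eq_abs, mul_pow, sq_abs]
    ring
  have hval0' : G (β + h, L₀ (e (z k) (τ k • u k))) = cost (x k) (e (z k) (τ k • u k)) := by
    rw [hβh]
    simp only [hG, hky, hkx]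
  rw [hval0, hval0', hhess] at hT0
  -- the other terms
  have hTj : ∀ j, cost (x k) (e (z k) ((1 / 2 : ℝ) • w k j)) ≤
      (1 / 2) ^ 2 * ‖w k j‖ ^ 2 / 2 - (1 / 2) * inner ℝ (w k j) (A h) + C j * ‖h‖ ^ 2 := by
    intro j
    have hseg : (1 / 2 : ℝ) • w k j ∈ segMin e (z k) :=
      smul_mem_segMin he (hw k j).1 (by norm_num) (by norm_num)
    have hD := hA _ hseg (hksj j)
    have hT := ht j β h (L j (e (z k) ((1 / 2 : ℝ) • w k j))) (hnβ.trans_le (hrδ j))
      (hkmn j) (hnh.trans_le (hrδ j)) (-((innerSL ℝ ((1 / 2 : ℝ) • w k j)).comp A))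
      (by simp only [hG, hkm j]; exact hD)
    have hval : G (β, L j (e (z k) ((1 / 2 : ℝ) • w k j))) = (1 / 2) ^ 2 * ‖w k j‖ ^ 2 / 2 := by
      simp only [hG, hkm j, hkz]
      have h1 := segMin_cost he hseg (s := 0) (t := 1) le_rfl zero_le_one le_rfl
      rw [zero_smul, one_smul, he.map_zero] at h1
      rw [h1, norm_smul, Real.norm_eq_abs, mul_pow, sq_abs]
      ring
    have hval' : G (β + h, L j (e (z k) ((1 / 2 : ℝ) • w k j))) =
        cost (x k) (e (z k) ((1 / 2 : ℝ) • w k j)) := by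
      rw [hβh]
      simp only [hG, hkm j, hkx]
    rw [hval, hval'] at hT
    have h2 := (abs_le.1 hT).2
    have h3 : (-((innerSL ℝ ((1 / 2 : ℝ) • w k j)).comp A)) h = -((1 / 2) * inner ℝ (w k j) (A h)) := by
      simp
    rw [h3] at h2
    have h4 : hess G (0, (1 / 2 : ℝ) • w₀ j) (h, 0) (h, 0) ≤
        ‖hess G (0, (1 / 2 : ℝ) • w₀ j)‖ * ‖h‖ ^ 2 := by
      have h5 : ‖((h, 0) : TangentSpace 𝓘(ℝ, E) z₀ × TangentSpace 𝓘(ℝ, E) z₀)‖ = ‖h‖ := by
        rw [Prod.norm_mk, norm_zero]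
        exact max_eq_left (norm_nonneg _)
      have h6 := (le_abs_self _).trans
        ((hess G (0, (1 / 2 : ℝ) • w₀ j)).le_opNorm₂ (h, 0) (h, 0))
      rw [h5] at h6
      calc _ ≤ _ := h6
        _ = _ := by ring
    simp only [hC]
    linarith only [h4, h2]
  -- combination
  have h3 : (-((innerSL ℝ (τ k • u k)).comp A)) h = -(τ k * inner ℝ (u k) (A h)) := by
    simp
  rw [h3] at hT0
  have hT0' := (abs_le.1 hT0).1
  have hlow : ∀ j, P.phi (z k) + (1 / 2) * ‖w k j‖ ^ 2 / 2 -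
      cost (x k) (e (z k) ((1 / 2 : ℝ) • w k j)) / (1 / 2) ≤ P.phi (x k) := fun j =>
    P.phi_lower he (hw k j) (by norm_num) (by norm_num) (x k)
  have hlow' : ∀ j, P.phi (z k) - P.phi (x k) ≤
      - inner ℝ (w k j) (A h) + 2 * C j * ‖h‖ ^ 2 := by
    intro j
    have h1 := hlow j
    have h2 := hTj j
    have h4 : cost (x k) (e (z k) ((1 / 2 : ℝ) • w k j)) / (1 / 2) =
      2 * cost (x k) (e (z k) ((1 / 2 : ℝ) • w k j)) := by ring
    rw [h4] at h1
    linarith only [h2, h1]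
  have hcomb : P.phi (z k) - P.phi (x k) ≤ - inner ℝ (u k) (A h) + 2 * (∑ j, C j) * ‖h‖ ^ 2 := by
    have h1 : P.phi (z k) - P.phi (x k) = ∑ j, lam k j * (P.phi (z k) - P.phi (x k)) := by
      rw [← Finset.sum_mul, hsum k, one_mul]
    have h2 : inner ℝ (u k) (A h) = ∑ j, lam k j * inner ℝ (w k j) (A h) := by
      rw [← hu k, sum_inner]
      apply Finset.sum_congr rfl
      intro j _
      rw [real_inner_smul_left]
    have hlam1 : ∀ j, lam k j ≤ 1 := by
      intro j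
      rw [← hsum k]
      exact Finset.single_le_sum (fun i _ => hlam k i) (Finset.mem_univ j)
    rw [h1, h2]
    calc ∑ j, lam k j * (P.phi (z k) - P.phi (x k))
        ≤ ∑ j, (-(lam k j * inner ℝ (w k j) (A h)) + 2 * C j * ‖h‖ ^ 2) := by
          apply Finset.sum_le_sum
          intro j _
          have h4 := mul_le_mul_of_nonneg_left (hlow' j) (hlam k j)
          have h5 : lam k j * (2 * C j * ‖h‖ ^ 2) ≤ 1 * (2 * C j * ‖h‖ ^ 2) := by
            apply mul_le_mul_of_nonneg_right (hlam1 j)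
            have := hC0 j
            (clear * -; positivity)
          linarith only [h5, h4]
      _ = _ := by
          rw [Finset.sum_add_distrib, Finset.sum_neg_distrib, ← Finset.sum_mul, ← Finset.mul_sum]
  have hk := hneg k
  have hfin : cost (x k) (e (z k) (τ k • u k)) <
      τ k * (τ k * ‖u k‖ ^ 2 / 2 + (- inner ℝ (u k) (A h) + 2 * (∑ j, C j) * ‖h‖ ^ 2)) := by
    have h1 : cost (x k) (e (z k) (τ k • u k)) / τ k <
        τ k * ‖u k‖ ^ 2 / 2 + (- inner ℝ (u k) (A h) + 2 * (∑ j, C j) * ‖h‖ ^ 2) := by linarith only [hk, hcomb]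
    rw [div_lt_iff₀ hτk] at h1
    linarith only [h1]
  have hh2 : 0 ≤ ‖h‖ ^ 2 := by positivity
  have hfin2 : (1 / 4) * ‖h‖ ^ 2 < τ k * (2 * (∑ j, C j)) * ‖h‖ ^ 2 := by
    linarith only [hfin, hT0']
  have hfin3 : τ k * (2 * (∑ j, C j)) * ‖h‖ ^ 2 ≤ (1 / 4) * ‖h‖ ^ 2 :=
    mul_le_mul_of_nonneg_right hktau.le hh2
  linarith only [hfin3, hfin2]

/-- Base case: the support property holds for small times. -/
theorem baseCase (F : Facts e) (P : Pot M) : ∃ τ₀ : ℝ, 0 < τ₀ ∧ τ₀ < 1 ∧ P.A e τ₀ := by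
  by_contra hcon
  push Not at hcon
  have hτpos : ∀ k : ℕ, (0 : ℝ) < 1 / ((k : ℝ) + 2) := fun k => by positivity
  have hτlt : ∀ k : ℕ, 1 / ((k : ℝ) + 2) < 1 := by
    intro k
    rw [div_lt_one (by positivity)]
    have : (0 : ℝ) ≤ k := by positivity
    linarith
  have hfail : ∀ k : ℕ, ∃ (z : M) (u : TangentSpace 𝓘(ℝ, E) z) (x : M), u ∈ P.sub e z ∧
      cost x (e z ((1 / ((k : ℝ) + 2)) • u)) / (1 / ((k : ℝ) + 2)) + P.phi x <
        (1 / ((k : ℝ) + 2)) * ‖u‖ ^ 2 / 2 + P.phi z := by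
    intro k
    have h := hcon _ (hτpos k) (hτlt k)
    unfold Pot.A at h
    push Not at h
    obtain ⟨z, u, hu, x, hx⟩ := h
    exact ⟨z, u, x, hu, hx⟩
  choose z u x hu hx using hfail
  obtain ⟨φ, z₀, lam, w, lam₀, w₀, hφ, hlam, hsum, hw, hwu, -, hwt, hz, -, -, hw₀, hut⟩ :=
    P.extract F.isExp z u hu
  have hτlim : Tendsto (fun k : ℕ => 1 / (((φ k : ℕ) : ℝ) + 2)) atTop (𝓝 0) := by
    have h1 : Tendsto (fun k : ℕ => 1 / ((k : ℝ) + 2)) atTop (𝓝 0) := by
      have h2 : Tendsto (fun k : ℕ => (k : ℝ) + 2) atTop atTop :=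
        tendsto_atTop_add_const_right _ _ tendsto_natCast_atTop_atTop
      exact h2.inv_tendsto_atTop.congr fun k => by simp [one_div]
    exact h1.comp hφ.tendsto_atTop
  exact base_contra F P (fun k => z (φ k)) (fun k => u (φ k)) (fun k => x (φ k))
    (fun k => 1 / (((φ k : ℕ) : ℝ) + 2)) (fun k => hτpos (φ k)) hτlim lam w w₀ hlam hsum hw hwu
    hwt hz hw₀ hut (fun k => hx (φ k))

end

end Vale.Agent.P234
end
end
end

section

section

section

/-! The local exponential map and logarithm of a metric in a chart. -/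

open Set Filter Topology Metric
open scoped ContDiff

namespace Vale.Agent.P234

noncomputable section

variable {E : Type*} [NormedAddCommGroup E] [NormedSpace ℝ E] [FiniteDimensional ℝ E]

/-- The local exponential map `X` and logarithm `L` of a metric `G` near `x₀`. -/
theorem exists_flat {U : Set E} (hU : IsOpen U) {G : E → E →L[ℝ] E →L[ℝ] ℝ}
    (hG : ContDiffOn ℝ ∞ G U) (hsym : ∀ q ∈ U, ∀ a b : E, G q a b = G q b a)
    (hpos : ∀ q ∈ U, ∀ a : E, a ≠ 0 → 0 < G q a a) {x₀ : E} (hx₀ : x₀ ∈ U) :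
    ∃ X L : E × E → E,
      (∀ᶠ z in 𝓝 ((x₀, 0) : E × E), ContDiffAt ℝ ∞ X z) ∧
      (∀ᶠ z in 𝓝 ((x₀, 0) : E × E), X z ∈ U) ∧
      (∀ᶠ x in 𝓝 x₀, X (x, 0) = x) ∧
      (∀ᶠ x in 𝓝 x₀, HasFDerivAt (fun v : E => X (x, v)) (ContinuousLinearMap.id ℝ E) 0) ∧
      (∀ᶠ z in 𝓝 ((x₀, 0) : E × E), ∀ t ∈ Icc (0 : ℝ) 1,
        G (X (z.1, t • z.2)) (deriv (fun s : ℝ => X (z.1, s • z.2)) t)
          (deriv (fun s : ℝ => X (z.1, s • z.2)) t) = G z.1 z.2 z.2) ∧
      (∀ᶠ z in 𝓝 ((x₀, x₀) : E × E), ContDiffAt ℝ ∞ L z) ∧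
      L (x₀, x₀) = 0 ∧
      (∀ᶠ z in 𝓝 ((x₀, x₀) : E × E), X (z.1, L z) = z.2) ∧
      (∀ᶠ z in 𝓝 ((x₀, 0) : E × E), L (z.1, X z) = z.2) ∧
      (∀ᶠ z in 𝓝 ((x₀, x₀) : E × E), ∀ ζ : E,
        (fderiv ℝ (fun c : E => G z.1 (L (z.1, c)) (L (z.1, c))) z.2 ζ) ^ 2 ≤
          4 * G z.1 (L z) (L z) * G z.2 ζ ζ) := by
  have hcompl : CompleteSpace E := FiniteDimensional.complete ℝ E
  obtain ⟨S, hS, hspray⟩ := exists_spray hU hG hpos hx₀
  obtain ⟨X, hXc, hX0, hXd, hXode⟩ := exists_geodesic_map hS x₀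
  have hX00 : X (x₀, 0) = x₀ := hX0.self_of_nhds
  have hXc0 : ContDiffAt ℝ ∞ X (x₀, 0) := hXc.self_of_nhds
  have hXt : Tendsto X (𝓝 ((x₀, 0) : E × E)) (𝓝 x₀) := by
    have h1 := hXc0.continuousAt.tendsto
    rwa [hX00] at h1
  have hXU : ∀ᶠ z in 𝓝 ((x₀, 0) : E × E), X z ∈ U := hXt.eventually (hU.mem_nhds hx₀)
  have hXs := hXt.eventually hspray
  -- the local logarithm
  have hbij : Function.Bijective (fun v : E => fderiv ℝ X (x₀, 0) (0, v)) := by
    have h1 : HasFDerivAt (fun v : E => X (x₀, v)) (ContinuousLinearMap.id ℝ E) 0 :=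
      hXd.self_of_nhds
    have h2 : HasFDerivAt X (fderiv ℝ X (x₀, 0)) (x₀, 0) :=
      (hXc0.differentiableAt (by simp)).hasFDerivAt
    have h3 : HasFDerivAt (fun v : E => ((x₀, v) : E × E)) (ContinuousLinearMap.inr ℝ E E) 0 :=
      hasFDerivAt_prodMk_right x₀ 0
    have h4 : HasFDerivAt (fun v : E => X (x₀, v))
        ((fderiv ℝ X (x₀, 0)).comp (ContinuousLinearMap.inr ℝ E E)) 0 := h2.comp 0 h3
    have h5 := h4.unique h1
    have h6 : (fun v : E => fderiv ℝ X (x₀, 0) (0, v)) = id := by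
      funext v
      have := congrArg (fun T : E →L[ℝ] E => T v) h5
      simpa only [id_eq, ContinuousLinearMap.comp_apply, ContinuousLinearMap.inr_apply,     ContinuousLinearMap.id_apply] using this
    rw [h6]
    exact Function.bijective_id
  obtain ⟨L, hLc, hL0, hXL, hLX⟩ := param_inverse (n := ∞) hXc (by simp) hbij
  simp only [hX00] at hLc hL0 hXL
  have hLt : Tendsto L (𝓝 ((x₀, x₀) : E × E)) (𝓝 0) := by
    have h1 := hLc.self_of_nhds.continuousAt.tendsto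
    rwa [hL0] at h1
  -- a uniform radius
  obtain ⟨δ₁, hδ₁, h₁⟩ := Metric.eventually_nhds_iff_ball.1
    (hXc.and (hXU.and (hXs.and hXode)))
  obtain ⟨δ₂, hδ₂, h₂⟩ := Metric.eventually_nhds_iff_ball.1 (hX0.and hXd)
  have hball : ∀ x ∈ ball x₀ (min δ₁ δ₂), GeoBall G S x (fun v => X (x, v)) δ₁ := by
    intro x hx
    have hx2 : x ∈ ball x₀ δ₂ := ball_subset_ball (min_le_right _ _) hx
    have hx1 : x ∈ ball x₀ δ₁ := ball_subset_ball (min_le_left _ _) hx
    have hmem : ∀ v ∈ ball (0 : E) δ₁, ((x, v) : E × E) ∈ ball ((x₀, 0) : E × E) δ₁ := by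
      intro v hv
      rw [mem_ball, Prod.dist_eq]
      exact max_lt hx1 hv
    refine ⟨hδ₁, ?_, (h₂ x hx2).1, (h₂ x hx2).2, ?_, ?_, ?_, ?_, ?_⟩
    · intro v hv
      exact (h₁ _ (hmem v hv)).1.comp v (contDiffAt_const.prodMk contDiffAt_id)
    · intro v hv
      exact hG.contDiffAt (hU.mem_nhds (h₁ _ (hmem v hv)).2.1)
    · intro v hv
      exact hsym _ (h₁ _ (hmem v hv)).2.1
    · intro v hv
      exact hpos _ (h₁ _ (hmem v hv)).2.1
    · intro v hv
      exact (h₁ _ (hmem v hv)).2.2.1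
    · intro v hv
      exact (h₁ _ (hmem v hv)).2.2.2
  have hfst : ∀ᶠ z in 𝓝 ((x₀, 0) : E × E), z.1 ∈ ball x₀ (min δ₁ δ₂) :=
    (continuous_fst.tendsto ((x₀, 0) : E × E)).eventually (ball_mem_nhds _ (lt_min hδ₁ hδ₂))
  have hsnd : ∀ᶠ z in 𝓝 ((x₀, 0) : E × E), z.2 ∈ ball (0 : E) δ₁ :=
    (continuous_snd.tendsto ((x₀, 0) : E × E)).eventually (ball_mem_nhds _ hδ₁)
  have hfst' : ∀ᶠ z in 𝓝 ((x₀, x₀) : E × E), z.1 ∈ ball x₀ (min δ₁ δ₂) :=
    (continuous_fst.tendsto ((x₀, x₀) : E × E)).eventually (ball_mem_nhds _ (lt_min hδ₁ hδ₂))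
  refine ⟨X, L, hXc, hXU, hX0, hXd, ?_, hLc, hL0, hXL, hLX, ?_⟩
  · filter_upwards [hfst, hsnd] with z hz1 hz2 t ht
    exact (hball z.1 hz1).speed hz2 ht
  · filter_upwards [hfst', hLc, hLt.eventually (ball_mem_nhds _ hδ₁),
      eventually_eventually_nhds.2 hXL] with z hz1 hz2 hz3 hz4 ζ
    have h5 : ContDiffAt ℝ ∞ (fun c : E => L (z.1, c)) z.2 :=
      ContDiffAt.comp z.2 (g := L) (f := fun c : E => ((z.1, c) : E × E)) hz2
        (contDiffAt_const.prodMk contDiffAt_id)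
    have h6 : Tendsto (fun c : E => ((z.1, c) : E × E)) (𝓝 z.2) (𝓝 z) := by
      have h7 : Continuous (fun c : E => ((z.1, c) : E × E)) := by fun_prop
      exact h7.tendsto z.2
    exact (hball z.1 hz1).eikonal (L := fun c => L (z.1, c)) (h5.differentiableAt (by simp)) hz3
      (h6.eventually hz4) ζ

end

end Vale.Agent.P234
end
end
end

section

section

section

/-! Existence of local exponential maps. -/

set_option maxSynthPendingDepth 3
set_option linter.unusedSectionVars false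

open Bundle Manifold Set Filter
open scoped ContDiff Manifold Topology

namespace Vale.Agent.P234

noncomputable section

variable {E : Type*} [NormedAddCommGroup E] [NormedSpace ℝ E] [FiniteDimensional ℝ E]
  {M : Type*} [MetricSpace M] [ChartedSpace E M]
  [RiemannianBundle (fun x : M => TangentSpace 𝓘(ℝ, E) x)]
  [IsManifold 𝓘(ℝ, E) ∞ M]
  [IsContMDiffRiemannianBundle 𝓘(ℝ, E) ∞ E (fun x : M => TangentSpace 𝓘(ℝ, E) x)]

set_option backward.isDefEq.respectTransparency false in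
/-- Existence of the data in the chart. -/
theorem exists_flatData (x₀ : M) : ∃ G : E → E →L[ℝ] E →L[ℝ] ℝ, ∃ X L : E × E → E,
    FlatData x₀ G X L := by
  obtain ⟨G, hGs, hG⟩ := exists_chart_metric (E := E) x₀
  obtain ⟨X, L, h1, h2, h3, h4, h5, h6, h7, h8, h9, h10⟩ :=
    exists_flat (isOpen_extChartAt_target (I := 𝓘(ℝ, E)) x₀) hGs
      (fun c hc a b => by rw [hG c hc, hG c hc, real_inner_comm])
      (fun c hc a ha => by
        rw [hG c hc, real_inner_self_eq_norm_sq]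
        have h0 : dch x₀ c a ≠ 0 := fun h0 => ha (dch_injective x₀ hc (by rw [h0, map_zero]))
        have := norm_pos_iff.2 h0
        positivity)
      (mem_extChartAt_target x₀)
  exact ⟨G, X, L, ⟨hGs, hG, h1, h2, h3, h4, h5, h6, h7, h8, h9, h10⟩⟩

variable [IsRiemannianManifold 𝓘(ℝ, E) M]

set_option backward.isDefEq.respectTransparency false in
lemma ExLocal_tendsto_log {x₀ : M} {G : E → E →L[ℝ] E →L[ℝ] ℝ} {X L : E × E → E}
    (h : FlatData x₀ G X L) : Tendsto (fun q : M × M =>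
      (⟨q.1, locL x₀ L q.1 q.2⟩ : TangentBundle 𝓘(ℝ, E) M)) (𝓝 (x₀, x₀))
      (𝓝 (⟨x₀, 0⟩ : TangentBundle 𝓘(ℝ, E) M)) := by
  have h1 := h.smooth_locL.self_of_nhds.continuousAt.tendsto
  have h2 : locL x₀ L x₀ x₀ = (0 : TangentSpace 𝓘(ℝ, E) x₀) := by
    unfold locL
    rw [h.centerL, map_zero]
  simp only [h2] at h1
  exact h1

set_option backward.isDefEq.respectTransparency false in
lemma ExLocal_tendsto_exp {x₀ : M} {G : E → E →L[ℝ] E →L[ℝ] ℝ} {X L : E × E → E}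
    (h : FlatData x₀ G X L) : Tendsto (fun p : TangentBundle 𝓘(ℝ, E) M =>
      ((p.proj, locE x₀ X p.proj p.snd) : M × M)) (𝓝 (⟨x₀, 0⟩ : TangentBundle 𝓘(ℝ, E) M))
      (𝓝 (x₀, x₀)) := by
  have h1 := h.smooth_locE.self_of_nhds.continuousAt.tendsto
  have h2 : locE x₀ X x₀ (0 : TangentSpace 𝓘(ℝ, E) x₀) = x₀ := h.locE_zero.self_of_nhds
  simp only [h2] at h1
  have h3 : Tendsto (fun p : TangentBundle 𝓘(ℝ, E) M => p.proj)
      (𝓝 (⟨x₀, 0⟩ : TangentBundle 𝓘(ℝ, E) M)) (𝓝 x₀) :=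
    (FiberBundle.continuous_proj E (TangentSpace 𝓘(ℝ, E))).tendsto _
  exact h3.prodMk_nhds h1

set_option backward.isDefEq.respectTransparency false in
lemma ExLocal_norm_log {x₀ : M} {G : E → E →L[ℝ] E →L[ℝ] ℝ} {X L : E × E → E}
    (h : FlatData x₀ G X L) :
    ∀ᶠ q in 𝓝 ((x₀, x₀) : M × M), ‖locL x₀ L q.1 q.2‖ = dist q.1 q.2 := by
  have h1 := (ExLocal_tendsto_log h).eventually h.dist_ray_le
  have h2 : ∀ᶠ q in 𝓝 ((x₀, x₀) : M × M),
      locE x₀ X q.1 (0 : TangentSpace 𝓘(ℝ, E) q.1) = q.1 :=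
    (continuous_fst.tendsto (x₀, x₀)).eventually h.locE_zero
  filter_upwards [h1, h2, h.exp_log, h.norm_log_le] with q q1 q2 q3 q4
  refine le_antisymm q4 ?_
  have q5 := q1 0 ⟨le_rfl, zero_le_one⟩ 1 ⟨zero_le_one, le_rfl⟩
  simp only [zero_smul, one_smul] at q5
  rw [q2, q3] at q5
  simpa only [ge_iff_le, sub_zero, abs_one, one_mul] using q5

/-- The data in the chart give a local exponential map. -/
theorem FlatData.isLocExp {x₀ : M} {G : E → E →L[ℝ] E →L[ℝ] ℝ} {X L : E × E → E}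
    (h : FlatData x₀ G X L) : IsLocExp (E := E) x₀ (locE x₀ X) (locL x₀ L) := by
  refine ⟨h.smooth_locE, h.smooth_locL, h.exp_log, ExLocal_norm_log h, h.log_exp, ?_, h.velocity⟩
  have h1 := (ExLocal_tendsto_exp h).eventually (ExLocal_norm_log h)
  have h2 := eventually_ray_bundle (h1.and h.log_exp)
  filter_upwards [h2, h.dist_ray_le] with p p1 p2 s hs t ht
  refine le_antisymm (p2 s hs t ht) ?_
  have key : ∀ r ∈ Icc (0 : ℝ) 1, dist p.proj (locE x₀ X p.proj (r • p.snd)) = r * ‖p.snd‖ := by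
    intro r hr
    obtain ⟨q1, q2⟩ := p1 r hr
    rw [q2] at q1
    rw [← q1, norm_smul, Real.norm_of_nonneg hr.1]
  have k1 := key s hs
  have k2 := key t ht
  have t1 := dist_triangle p.proj (locE x₀ X p.proj (s • p.snd)) (locE x₀ X p.proj (t • p.snd))
  have t2 := dist_triangle p.proj (locE x₀ X p.proj (t • p.snd)) (locE x₀ X p.proj (s • p.snd))
  rw [dist_comm (locE x₀ X p.proj (t • p.snd))] at t2
  rw [k1, k2] at t1 t2
  rcases le_total s t with hst | hst
  · rw [abs_of_nonneg (sub_nonneg.2 hst), sub_mul]; linarith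
  · rw [abs_sub_comm, abs_of_nonneg (sub_nonneg.2 hst), sub_mul]; (clear G L h h1 h2 p1 p2 hs ht key k1 k2 t1 hst; linarith)

/-- Existence of local exponential maps. -/
theorem exists_isLocExp (x₀ : M) : ∃ (e₁ : ∀ x : M, TangentSpace 𝓘(ℝ, E) x → M)
    (L₁ : ∀ x : M, M → TangentSpace 𝓘(ℝ, E) x), IsLocExp x₀ e₁ L₁ := by
  obtain ⟨G, X, L, h⟩ := exists_flatData (E := E) x₀
  exact ⟨locE x₀ X, locL x₀ L, h.isLocExp⟩

end

end Vale.Agent.P234
end
end
end

section

section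

section

/-! Step D, abstract part. -/

set_option maxSynthPendingDepth 3

open Set Filter
open scoped ContDiff Topology

namespace Vale.Agent.P234

/-- Second order expansion along sequences. -/
lemma seq_taylor {Z Y ι : Type*} [NormedAddCommGroup Z] [NormedSpace ℝ Z] [FiniteDimensional ℝ Z]
    [NormedAddCommGroup Y] [NormedSpace ℝ Y] [Fintype ι] {Φ : ι → Z × Y → ℝ} {ζ₀ : Z} {η₀ : Y}
    (hΦ : ∀ j, ContDiffAt ℝ 2 (Φ j) (ζ₀, η₀)) {ζ ζ' : ℕ → Z} {η : ℕ → Y}
    (hζ : Tendsto ζ atTop (𝓝 ζ₀)) (hζ' : Tendsto ζ' atTop (𝓝 ζ₀)) (hη : Tendsto η atTop (𝓝 η₀))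
    (hne : ∀ k, ζ k ≠ ζ' k) {lam : ℕ → ι → ℝ} {lam₀ : ι → ℝ} (hlam : ∀ k j, 0 ≤ lam k j)
    (hlam₀ : ∀ j, Tendsto (fun k => lam k j) atTop (𝓝 (lam₀ j)))
    (hineq : ∀ k j, Φ j (ζ k, η k) ≤ Φ j (ζ' k, η k))
    (hcrit : ∀ᶠ k in atTop, ∀ h : Z, ∑ j, lam k j * fderiv ℝ (Φ j) (ζ' k, η k) (h, 0) = 0) :
    ∃ h : Z, h ≠ 0 ∧ (∀ j, fderiv ℝ (Φ j) (ζ₀, η₀) (h, 0) ≤ 0) ∧
      ∑ j, lam₀ j * hess (Φ j) (ζ₀, η₀) (h, 0) (h, 0) ≤ 0 := by
  have hP : ProperSpace Z := FiniteDimensional.proper ℝ Z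
  have hr : ∀ k, 0 < ‖ζ k - ζ' k‖ := fun k => norm_pos_iff.2 (sub_ne_zero.2 (hne k))
  have hr0 : Tendsto (fun k => ‖ζ k - ζ' k‖) atTop (𝓝 0) := by
    have := (hζ.sub hζ').norm
    simpa using this
  have hsph : ∀ k, ‖ζ k - ζ' k‖⁻¹ • (ζ k - ζ' k) ∈ Metric.sphere (0 : Z) 1 := by
    intro k
    simp only [mem_sphere_iff_norm, sub_zero, norm_smul, norm_inv, norm_norm, ne_eq, (hr k).ne', not_false_eq_true, inv_mul_cancel₀]
  obtain ⟨h, hh, φ, hφ, hlim⟩ := (isCompact_sphere (0 : Z) 1).tendsto_subseq hsph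
  have hh1 : ‖h‖ = 1 := by simpa only [mem_sphere_iff_norm, sub_zero] using hh
  refine ⟨h, by rw [← norm_ne_zero_iff, hh1]; exact one_ne_zero, ?_⟩
  -- notation for the normalized increments
  set d : ℕ → Z := fun k => ‖ζ (φ k) - ζ' (φ k)‖⁻¹ • (ζ (φ k) - ζ' (φ k)) with hd
  set r : ℕ → ℝ := fun k => ‖ζ (φ k) - ζ' (φ k)‖ with hrdef
  have hdlim : Tendsto d atTop (𝓝 h) := hlim
  have hrpos : ∀ k, 0 < r k := fun k => hr _
  have hrlim : Tendsto r atTop (𝓝 0) := hr0.comp hφ.tendsto_atTop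
  have hrd : ∀ k, r k • d k = ζ (φ k) - ζ' (φ k) := by
    intro k
    simp only [hd, hrdef, smul_smul]
    rw [mul_inv_cancel₀ (hr (φ k)).ne', one_smul]
  have hbase : Tendsto (fun k => (ζ' (φ k), η (φ k))) atTop (𝓝 (ζ₀, η₀)) :=
    (hζ'.comp hφ.tendsto_atTop).prodMk_nhds (hη.comp hφ.tendsto_atTop)
  have hDlim : ∀ j, Tendsto (fun k => fderiv ℝ (Φ j) (ζ' (φ k), η (φ k)) (d k, 0)) atTop
      (𝓝 (fderiv ℝ (Φ j) (ζ₀, η₀) (h, 0))) := by
    intro j
    have h1 : ContinuousAt (fderiv ℝ (Φ j)) (ζ₀, η₀) := by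
      have := (hΦ j).fderiv_right (m := 1) (by norm_num)
      exact this.continuousAt
    have h2 : Tendsto (fun k => fderiv ℝ (Φ j) (ζ' (φ k), η (φ k))) atTop
        (𝓝 (fderiv ℝ (Φ j) (ζ₀, η₀))) := h1.tendsto.comp hbase
    exact (isBoundedBilinearMap_apply.continuous.tendsto
      (fderiv ℝ (Φ j) (ζ₀, η₀), ((h, 0) : Z × Y))).comp
      (h2.prodMk_nhds (hdlim.prodMk_nhds tendsto_const_nhds))
  have hHlim : ∀ j, Tendsto (fun k => hess (Φ j) (ζ₀, η₀) (d k, 0) (d k, 0)) atTop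
      (𝓝 (hess (Φ j) (ζ₀, η₀) (h, 0) (h, 0))) := by
    intro j
    have h1 : Continuous (fun v : Z => hess (Φ j) (ζ₀, η₀) (v, 0) (v, 0)) := by (clear * -; fun_prop)
    exact (h1.tendsto h).comp hdlim
  have hexp : ∀ ε : ℝ, 0 < ε → ∀ j, ∀ᶠ k in atTop,
      fderiv ℝ (Φ j) (ζ' (φ k), η (φ k)) (d k, 0) +
        r k * (1 / 2 * hess (Φ j) (ζ₀, η₀) (d k, 0) (d k, 0) - ε) ≤ 0 := by
    intro ε hε j
    obtain ⟨δ, hδ, hT⟩ := taylor2 (hΦ j) hε
    have e1 : ∀ᶠ k in atTop, ‖(ζ' (φ k), η (φ k)) - (ζ₀, η₀)‖ < δ := by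
      have h1 : Tendsto (fun k => ‖(ζ' (φ k), η (φ k)) - (ζ₀, η₀)‖) atTop (𝓝 0) := by
        have := (hbase.sub_const (ζ₀, η₀)).norm
        simpa only [Prod.mk_sub_mk, Prod.norm_mk, sub_self, norm_zero] using this
      exact h1.eventually (gt_mem_nhds hδ)
    have e2 : ∀ᶠ k in atTop, r k < δ := hrlim.eventually (gt_mem_nhds hδ)
    filter_upwards [e1, e2] with k hk1 hk2
    have hn : ‖((ζ (φ k) - ζ' (φ k), 0) : Z × Y)‖ = r k := by
      simp only [Prod.norm_def, norm_zero, norm_nonneg, sup_of_le_left, hrdef]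
    have h2 := hT (ζ' (φ k), η (φ k)) (ζ (φ k) - ζ' (φ k), 0) hk1 (by rw [hn]; exact hk2)
    rw [hn] at h2
    have h3 : ((ζ' (φ k), η (φ k)) + (ζ (φ k) - ζ' (φ k), 0) : Z × Y) = (ζ (φ k), η (φ k)) := by
      simp
    rw [h3, ← hrd k] at h2
    have h4 : ((r k • d k, 0) : Z × Y) = r k • ((d k, 0) : Z × Y) := by simp
    rw [h4] at h2
    simp only [map_smul, smul_apply, smul_eq_mul] at h2
    have h5 := (abs_le.1 h2).1
    have h6 := hineq (φ k) j
    have h7 : 0 ≥ r k * (fderiv ℝ (Φ j) (ζ' (φ k), η (φ k)) (d k, 0) +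
        r k * (1 / 2 * hess (Φ j) (ζ₀, η₀) (d k, 0) (d k, 0) - ε)) := by
      linarith only [h6, h5]
    by_contra hcon
    push Not at hcon
    have := mul_pos (hrpos k) hcon
    linarith only [h5, h6, this]
  constructor
  · intro j
    have h1 : Tendsto (fun k => fderiv ℝ (Φ j) (ζ' (φ k), η (φ k)) (d k, 0) +
        r k * (1 / 2 * hess (Φ j) (ζ₀, η₀) (d k, 0) (d k, 0) - 1)) atTop
        (𝓝 (fderiv ℝ (Φ j) (ζ₀, η₀) (h, 0) +
          0 * (1 / 2 * hess (Φ j) (ζ₀, η₀) (h, 0) (h, 0) - 1))) :=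
      (hDlim j).add (hrlim.mul (((hHlim j).const_mul _).sub_const _))
    have h2 := le_of_tendsto h1 (hexp 1 one_pos j)
    simpa only [ge_iff_le, one_div, zero_mul, add_zero] using h2
  · have key : ∀ ε : ℝ, 0 < ε →
        ∑ j, lam₀ j * (1 / 2 * hess (Φ j) (ζ₀, η₀) (h, 0) (h, 0) - ε) ≤ 0 := by
      intro ε hε
      have h1 : Tendsto (fun k => ∑ j, lam (φ k) j *
          (1 / 2 * hess (Φ j) (ζ₀, η₀) (d k, 0) (d k, 0) - ε)) atTop
          (𝓝 (∑ j, lam₀ j * (1 / 2 * hess (Φ j) (ζ₀, η₀) (h, 0) (h, 0) - ε))) := by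
        refine tendsto_finsetSum _ fun j _ => ?_
        exact ((hlam₀ j).comp hφ.tendsto_atTop).mul (((hHlim j).const_mul _).sub_const _)
      refine le_of_tendsto h1 ?_
      have h2 := eventually_all.2 (fun j => hexp ε hε j)
      filter_upwards [h2, hφ.tendsto_atTop.eventually hcrit] with k hk hck
      have h3 : ∑ j, lam (φ k) j * (fderiv ℝ (Φ j) (ζ' (φ k), η (φ k)) (d k, 0) +
        r k * (1 / 2 * hess (Φ j) (ζ₀, η₀) (d k, 0) (d k, 0) - ε)) ≤ 0 :=
        Finset.sum_nonpos fun j _ => mul_nonpos_of_nonneg_of_nonpos (hlam _ _) (hk j)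
      have h4 : ∑ j, lam (φ k) j * (fderiv ℝ (Φ j) (ζ' (φ k), η (φ k)) (d k, 0) +
        r k * (1 / 2 * hess (Φ j) (ζ₀, η₀) (d k, 0) (d k, 0) - ε)) =
        r k * ∑ j, lam (φ k) j * (1 / 2 * hess (Φ j) (ζ₀, η₀) (d k, 0) (d k, 0) - ε) := by
        simp only [mul_add]
        rw [Finset.sum_add_distrib, hck, zero_add, Finset.mul_sum]
        exact Finset.sum_congr rfl fun j _ => by ring
      rw [h4] at h3
      by_contra hcon
      push Not at hcon
      have := mul_pos (hrpos k) hcon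
      linarith only [h3, this]
    by_contra hcon
    push Not at hcon
    have hS : 0 ≤ ∑ j, lam₀ j := Finset.sum_nonneg fun j _ =>
      ge_of_tendsto' (hlam₀ j) (fun k => hlam k j)
    set T := ∑ j, lam₀ j * hess (Φ j) (ζ₀, η₀) (h, 0) (h, 0) with hT
    have h1 := key (T / (4 * (∑ j, lam₀ j + 1))) (by (clear * - hcon hS; positivity))
    have h2 : ∑ j, lam₀ j * (1 / 2 * hess (Φ j) (ζ₀, η₀) (h, 0) (h, 0) -
        T / (4 * (∑ j, lam₀ j + 1))) = 1 / 2 * T - (∑ j, lam₀ j) *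
        (T / (4 * (∑ j, lam₀ j + 1))) := by
      simp only [mul_sub]
      rw [Finset.sum_sub_distrib, ← Finset.sum_mul, hT, Finset.mul_sum]
      congr 1
      exact Finset.sum_congr rfl fun j _ => by ring
    rw [h2] at h1
    have h3 : (∑ j, lam₀ j) * (T / (4 * (∑ j, lam₀ j + 1))) ≤ T / 4 := by
      have h4 : (∑ j, lam₀ j) * (T / (4 * (∑ j, lam₀ j + 1))) =
        T / 4 * ((∑ j, lam₀ j) / (∑ j, lam₀ j + 1)) := by (clear * - hS hcon; field_simp)
      rw [h4]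
      have h5 : (∑ j, lam₀ j) / (∑ j, lam₀ j + 1) ≤ 1 := by
        rw [div_le_one (by (clear * - hS; positivity))]
        linarith only []
      have : 0 ≤ T / 4 := by (clear * - hcon; positivity)
      linarith only [mul_nonneg (le_of_lt (sub_pos.2 hcon)) (sub_nonneg.2 h5)]
    linarith only [hcon, h1, h3]

namespace HessData

variable {V : Type*} [NormedAddCommGroup V] [InnerProductSpace ℝ V] (X : HessData V)

/-- Positivity of the second variation in the admissible directions. -/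
theorem second_variation_pos [FiniteDimensional ℝ V] {ι : Type*} [Fintype ι] {W : Set V}
    {θ τ₁ τ' : ℝ} (hθ : 0 < θ) (hθτ : θ < τ₁) (hττ : τ₁ < τ') (hτ' : τ' < 1) (hWS : W ⊆ X.S)
    (hWI : ∀ v ∈ convexHull ℝ W, τ₁ • v ∈ X.S) {lam : ι → ℝ} (hlam : ∀ j, 0 ≤ lam j)
    (hsum : ∑ j, lam j = 1) {w : ι → V} (hw : ∀ j, w j ∈ W) {u : V} (hu : ∑ j, lam j • w j = u)
    {ξ μ : V} (hne : ¬ (ξ = 0 ∧ μ = 0)) (hfirst : ∀ j, inner ℝ (w j - u) ξ ≤ 0) :
    0 < X.H (θ • u) ξ ξ / θ - 2 * inner ℝ ξ μ / θ + X.Q θ τ₁ u μ -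
      ∑ j, lam j * (X.H (τ' • w j) ξ ξ / τ') := by
  classical
  have hτ0 : 0 < τ₁ := hθ.trans hθτ
  have huW : u ∈ convexHull ℝ W := by
    rw [← hu]
    exact (convex_convexHull ℝ W).sum_mem (fun j _ => hlam j) hsum
      (fun j _ => subset_convexHull ℝ W (hw j))
  by_cases hξ : ξ = 0
  · have hμ : μ ≠ 0 := fun h => hne ⟨hξ, h⟩
    have h1 : 0 < X.Q θ τ₁ u μ := by
      refine X.Q_pos hθ hθτ (hττ.trans hτ') hWS hWI (Finset.univ.image w) ?_ u ?_ μ hμ
      · intro v hv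
        simp only [Finset.coe_image, Finset.coe_univ, image_univ, mem_range] at hv
        obtain ⟨j, rfl⟩ := hv
        exact hw j
      · rw [← hu]
        refine (convex_convexHull ℝ _).sum_mem (fun j _ => hlam j) hsum
          (fun j _ => subset_convexHull ℝ _ ?_)
        simp only [Finset.coe_image, Finset.coe_univ, image_univ, mem_range, exists_apply_eq_apply]
    simp only [hξ, map_zero, inner_zero_left, mul_zero, zero_div, sub_zero, zero_add,
      Finset.sum_const_zero]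
    exact h1
  · have hz : ∀ j, lam j * inner ℝ (w j - u) ξ = 0 := by
      have h0 : ∑ j, -(lam j * inner ℝ (w j - u) ξ) = 0 := by
        have h1 : ∑ j, lam j * inner ℝ (w j - u) ξ = inner ℝ (∑ j, lam j • (w j - u)) ξ := by
          rw [sum_inner]
          exact Finset.sum_congr rfl fun j _ => (real_inner_smul_left _ _ _).symm
        have h2 : ∑ j, lam j • (w j - u) = 0 := by
          simp only [smul_sub]
          rw [Finset.sum_sub_distrib, hu, ← Finset.sum_smul, hsum, one_smul, sub_self]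
        rw [Finset.sum_neg_distrib, h1, h2, inner_zero_left, neg_zero]
      intro j
      have h3 := (Finset.sum_eq_zero_iff_of_nonneg (fun j _ =>
        neg_nonneg.2 (mul_nonpos_of_nonneg_of_nonpos (hlam j) (hfirst j)))).1 h0 j
          (Finset.mem_univ j)
      linarith only [h3]
    have hwI : ∀ j, ∀ τ : ℝ, 0 ≤ τ → τ < 1 → τ • w j ∈ X.I := fun j τ h0 h1 =>
      X.smul_mem _ (hWS (hw j)) τ h0 h1
    have hc : Tendsto (fun τ => ∑ j, lam j * (X.H (τ • w j) ξ ξ / τ)) (𝓝[<] τ₁)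
        (𝓝 (∑ j, lam j * (X.H (τ₁ • w j) ξ ξ / τ₁))) := by
      refine tendsto_finsetSum _ fun j _ => ?_
      refine Tendsto.const_mul _ (Tendsto.div ?_ nhdsWithin_le_nhds hτ0.ne')
      have h1 : Tendsto (fun τ : ℝ => τ • w j) (𝓝[<] τ₁) (𝓝 (τ₁ • w j)) := by
        have : Continuous (fun τ : ℝ => τ • w j) := by (clear * -; fun_prop)
        exact (this.tendsto τ₁).mono_left nhdsWithin_le_nhds
      have h2 := (X.contH _ (hwI j τ₁ hτ0.le (hττ.trans hτ'))).tendsto.comp h1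
      have h4 : Continuous (fun B : V →L[ℝ] V →L[ℝ] ℝ => B ξ ξ) := by (clear * -; continuity)
      exact (h4.tendsto _).comp h2
    have key := X.key_limit hθ hθτ (hWI u huW) ξ μ hc (by
      have e2 : ∀ᶠ τ in 𝓝[<] τ₁, θ < τ :=
        (lt_mem_nhds hθτ : ∀ᶠ τ in 𝓝 τ₁, θ < τ).filter_mono nhdsWithin_le_nhds
      filter_upwards [e2, self_mem_nhdsWithin] with τ ha hb
      have hτp : 0 < τ := hθ.trans ha
      have hin : ∀ v ∈ convexHull ℝ W, τ • v ∈ X.I :=
        fun v hv => X.smul_mem' (hWI v hv) hτp.le hb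
      have hconc := X.concave ((fun v => τ • v) '' convexHull ℝ W) ((convex_convexHull ℝ W).smul τ)
        (by rintro _ ⟨v, hv, rfl⟩; exact hin v hv) (τ • u) ξ
      have hfil : ∀ g : ι → ℝ, (∀ j, lam j = 0 → g j = 0) →
          ∑ j ∈ Finset.univ.filter (fun j => lam j ≠ 0), g j = ∑ j, g j := by
        intro g hg
        refine Finset.sum_subset (Finset.filter_subset _ _) fun j _ hj => hg j ?_
        by_contra h
        exact hj (Finset.mem_filter.2 ⟨Finset.mem_univ j, h⟩)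
      have hfilV : ∀ g : ι → V, (∀ j, lam j = 0 → g j = 0) →
          ∑ j ∈ Finset.univ.filter (fun j => lam j ≠ 0), g j = ∑ j, g j := by
        intro g hg
        refine Finset.sum_subset (Finset.filter_subset _ _) fun j _ hj => hg j ?_
        by_contra h
        exact hj (Finset.mem_filter.2 ⟨Finset.mem_univ j, h⟩)
      have h1 := hconc.le_map_sum (t := Finset.univ.filter (fun j => lam j ≠ 0)) (w := lam)
        (p := fun j => τ • w j) (fun j _ => hlam j) (by rw [hfil lam (fun j h => h), hsum])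
        (fun j hj => ⟨⟨w j, subset_convexHull ℝ _ (hw j), rfl⟩, by
          have hj' : lam j ≠ 0 := (Finset.mem_filter.1 hj).2
          have hz' : inner ℝ (w j - u) ξ = 0 := by
            have := hz j
            exact (mul_eq_zero.1 this).resolve_left hj'
          simp only [Set.mem_ofPred_eq]
          rw [← smul_sub, real_inner_smul_left, hz', mul_zero]⟩)
      have h2 : ∑ j ∈ Finset.univ.filter (fun j => lam j ≠ 0), lam j • (τ • w j) = τ • u := by
        rw [hfilV _ (fun j h => by rw [h, zero_smul]), ← hu, Finset.smul_sum]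
        exact Finset.sum_congr rfl fun y _ => smul_comm _ _ _
      simp only [h2, smul_eq_mul] at h1
      rw [hfil _ (fun j h => by rw [h, zero_mul])] at h1
      rw [le_div_iff₀ hτp, Finset.sum_mul]
      refine le_trans (le_of_eq ?_) h1
      refine Finset.sum_congr rfl fun j _ => ?_
      (clear * - hτp; field_simp))
    have hlt : ∑ j, lam j * (X.H (τ' • w j) ξ ξ / τ') < ∑ j, lam j * (X.H (τ₁ • w j) ξ ξ / τ₁) := by
      have hs : ∀ j, X.H (τ' • w j) ξ ξ / τ' < X.H (τ₁ • w j) ξ ξ / τ₁ := fun j =>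
        X.strict (w j) τ₁ τ' hτ0 hττ (hwI j τ' (hτ0.trans hττ).le hτ') ξ hξ
      refine Finset.sum_lt_sum (fun j _ => mul_le_mul_of_nonneg_left (hs j).le (hlam j)) ?_
      have : ∃ j, lam j ≠ 0 := by
        by_contra h
        push Not at h
        simp only [h, Finset.sum_const_zero, zero_ne_one] at hsum
      obtain ⟨j, hj⟩ := this
      exact ⟨j, Finset.mem_univ j, mul_lt_mul_of_pos_left (hs j)
        (lt_of_le_of_ne (hlam j) (Ne.symm hj))⟩
    linarith

end HessData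

section Partial

variable {Z Y : Type*} [NormedAddCommGroup Z] [NormedSpace ℝ Z] [NormedAddCommGroup Y]
  [NormedSpace ℝ Y]

lemma fderiv_partial_left {Φ : Z × Y → ℝ} {ζ : Z} {η : Y} (hd : DifferentiableAt ℝ Φ (ζ, η))
    (h : Z) : fderiv ℝ Φ (ζ, η) (h, 0) = fderiv ℝ (fun z => Φ (z, η)) ζ h := by
  have h1 : HasFDerivAt (fun z : Z => (z, η)) (ContinuousLinearMap.inl ℝ Z Y) ζ :=
    hasFDerivAt_prodMk_left ζ η
  have h2 : HasFDerivAt (fun z => Φ (z, η))
      ((fderiv ℝ Φ (ζ, η)).comp (ContinuousLinearMap.inl ℝ Z Y)) ζ :=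
    hd.hasFDerivAt.comp ζ h1
  rw [h2.fderiv]
  simp only [ContinuousLinearMap.comp_apply, ContinuousLinearMap.inl_apply]

lemma fderiv_partial_right {Φ : Z × Y → ℝ} {ζ : Z} {η : Y} (hd : DifferentiableAt ℝ Φ (ζ, η))
    (h : Y) : fderiv ℝ Φ (ζ, η) (0, h) = fderiv ℝ (fun y => Φ (ζ, y)) η h := by
  have h1 : HasFDerivAt (fun y : Y => (ζ, y)) (ContinuousLinearMap.inr ℝ Z Y) η :=
    hasFDerivAt_prodMk_right ζ η
  have h2 : HasFDerivAt (fun y => Φ (ζ, y))
      ((fderiv ℝ Φ (ζ, η)).comp (ContinuousLinearMap.inr ℝ Z Y)) η :=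
    hd.hasFDerivAt.comp η h1
  rw [h2.fderiv]
  simp only [ContinuousLinearMap.comp_apply, ContinuousLinearMap.inr_apply]

lemma fderiv_partial_add {Φ : Z × Y → ℝ} {ζ : Z} {η : Y} (hd : DifferentiableAt ℝ Φ (ζ, η))
    (h : Z) (h' : Y) : fderiv ℝ Φ (ζ, η) (h, h') =
      fderiv ℝ (fun z => Φ (z, η)) ζ h + fderiv ℝ (fun y => Φ (ζ, y)) η h' := by
  rw [← fderiv_partial_left hd, ← fderiv_partial_right hd, ← map_add]
  simp

lemma hess_partial_left {Φ : Z × Y → ℝ} {ζ : Z} {η : Y} (hd : ContDiffAt ℝ 2 Φ (ζ, η))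
    (h h' : Z) : hess Φ (ζ, η) (h, 0) (h', 0) = hess (fun z => Φ (z, η)) ζ h h' := by
  have h1 := hess_comp_affine hd (ContinuousLinearMap.inl ℝ Z Y) ζ ((0, η) : Z × Y) (by simp only [ContinuousLinearMap.inl_apply, Prod.mk_add_mk, zero_add, add_zero]) h h'
  simp only [ContinuousLinearMap.inl_apply] at h1
  have h2 : (fun w : Z => Φ ((0, η) + (w, 0))) = fun z => Φ (z, η) := by
    funext w
    simp only [Prod.mk_add_mk, zero_add, add_zero]
  rw [← h1, h2]

lemma hess_of_snd {Φ : Y → ℝ} {ζ : Z} {η : Y} (hd : ContDiffAt ℝ 2 Φ η) (h h' : Z × Y) :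
    hess (fun z : Z × Y => Φ z.2) (ζ, η) h h' = hess Φ η h.2 h'.2 := by
  have h1 := hess_comp_affine hd (ContinuousLinearMap.snd ℝ Z Y) (ζ, η) (0 : Y) (by simp) h h'
  simpa only [ContinuousLinearMap.coe_snd', zero_add] using h1

lemma hess_of_fst {Φ : Z → ℝ} {ζ : Z} {η : Y} (hd : ContDiffAt ℝ 2 Φ ζ) (h h' : Z × Y) :
    hess (fun z : Z × Y => Φ z.1) (ζ, η) h h' = hess Φ ζ h.1 h'.1 := by
  have h1 := hess_comp_affine hd (ContinuousLinearMap.fst ℝ Z Y) (ζ, η) (0 : Z) (by simp) h h'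
  simpa only [ContinuousLinearMap.coe_fst', zero_add] using h1

lemma fderiv_of_snd {Φ : Y → ℝ} {ζ : Z} {η : Y} (hd : DifferentiableAt ℝ Φ η) (h : Z × Y) :
    fderiv ℝ (fun z : Z × Y => Φ z.2) (ζ, η) h = fderiv ℝ Φ η h.2 := by
  have h2 : HasFDerivAt (fun z : Z × Y => Φ z.2)
      ((fderiv ℝ Φ η).comp (ContinuousLinearMap.snd ℝ Z Y)) (ζ, η) :=
    HasFDerivAt.comp (x := ((ζ, η) : Z × Y)) (f := Prod.snd) (g := Φ) (g' := fderiv ℝ Φ η)
      hd.hasFDerivAt hasFDerivAt_snd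
  rw [h2.fderiv]
  simp only [ContinuousLinearMap.comp_apply, ContinuousLinearMap.coe_snd']

lemma fderiv_of_fst {Φ : Z → ℝ} {ζ : Z} {η : Y} (hd : DifferentiableAt ℝ Φ ζ) (h : Z × Y) :
    fderiv ℝ (fun z : Z × Y => Φ z.1) (ζ, η) h = fderiv ℝ Φ ζ h.1 := by
  have h2 : HasFDerivAt (fun z : Z × Y => Φ z.1)
      ((fderiv ℝ Φ ζ).comp (ContinuousLinearMap.fst ℝ Z Y)) (ζ, η) :=
    HasFDerivAt.comp (x := ((ζ, η) : Z × Y)) (f := Prod.fst) (g := Φ) (g' := fderiv ℝ Φ ζ)
      hd.hasFDerivAt hasFDerivAt_fst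
  rw [h2.fderiv]
  simp

end Partial

namespace HessData

variable {V : Type*} [NormedAddCommGroup V] [InnerProductSpace ℝ V] (X : HessData V)

/-- No bad sequences: abstract form of Step D. -/
theorem no_bad_sequence [FiniteDimensional ℝ V] {V' ι : Type*} [NormedAddCommGroup V']
    [NormedSpace ℝ V'] [Fintype ι] {A : V × V → ℝ} {Bf : V × V' → ℝ} {W : Set V}
    {θ τ₁ τ' δ : ℝ} (hθ : 0 < θ) (hδ : 0 < δ) (hθδ : τ₁ - θ = δ) (hττ : τ₁ < τ') (hτ' : τ' < 1)
    (hWS : W ⊆ X.S) (hWI : ∀ v ∈ convexHull ℝ W, τ₁ • v ∈ X.S)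
    {lam₀ : ι → ℝ} (hlam₀ : ∀ j, 0 ≤ lam₀ j) (hsum₀ : ∑ j, lam₀ j = 1) {w₀ : ι → V}
    (hw₀ : ∀ j, w₀ j ∈ W) {u : V} (hu : ∑ j, lam₀ j • w₀ j = u)
    (hA0 : ContDiffAt ℝ 2 A (0, θ • u)) (hAj : ∀ j, ContDiffAt ℝ 2 A (0, τ' • w₀ j))
    (hB : ContDiffAt ℝ 2 Bf (θ • u, 0))
    (gA : ∀ ξ, fderiv ℝ (fun a => A (a, θ • u)) 0 ξ = -inner ℝ (θ • u) ξ)
    (gAj : ∀ j ξ, fderiv ℝ (fun a => A (a, τ' • w₀ j)) 0 ξ = -inner ℝ (τ' • w₀ j) ξ)
    (gB : ∀ μ, fderiv ℝ (fun b => A (0, b)) (θ • u) μ / θ +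
      fderiv ℝ (fun b => Bf (b, 0)) (θ • u) μ / δ = 0)
    (hHess : ∀ ξ μ, hess A (0, θ • u) (ξ, μ) (ξ, μ) =
      X.H (θ • u) ξ ξ - 2 * inner ℝ ξ μ + ‖μ‖ ^ 2)
    (hHessj : ∀ j ξ, hess (fun a => A (a, τ' • w₀ j)) 0 ξ ξ = X.H (τ' • w₀ j) ξ ξ)
    (hK : ∀ μ, hess (fun b => Bf (b, 0)) (θ • u) μ μ = X.K (θ • u) (τ₁ • u) μ μ)
    {a a' b b' : ℕ → V} {c : ℕ → V'} {q : ℕ → ι → V} {th : ℕ → ℝ} {lam : ℕ → ι → ℝ}
    (ha : Tendsto a atTop (𝓝 0)) (ha' : Tendsto a' atTop (𝓝 0))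
    (hb : Tendsto b atTop (𝓝 (θ • u))) (hb' : Tendsto b' atTop (𝓝 (θ • u)))
    (hc : Tendsto c atTop (𝓝 0)) (hq : ∀ j, Tendsto (fun k => q k j) atTop (𝓝 (τ' • w₀ j)))
    (hth : Tendsto th atTop (𝓝 θ)) (hlam : ∀ k j, 0 ≤ lam k j)
    (hlamlim : ∀ j, Tendsto (fun k => lam k j) atTop (𝓝 (lam₀ j)))
    (hsum : ∀ k, ∑ j, lam k j = 1)
    (hne : ∀ k, (a k, b k) ≠ (a' k, b' k))
    (hineq : ∀ k j, A (a k, b k) / th k + Bf (b k, c k) / δ - A (a k, q k j) / τ' ≤
      A (a' k, b' k) / th k + Bf (b' k, c k) / δ - A (a' k, q k j) / τ')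
    (hca : ∀ᶠ k in atTop, ∀ ξ, fderiv ℝ (fun x => A (x, b' k)) (a' k) ξ / th k =
      ∑ j, lam k j * (fderiv ℝ (fun x => A (x, q k j)) (a' k) ξ / τ'))
    (hcb : ∀ᶠ k in atTop, ∀ μ, fderiv ℝ (fun x => A (a' k, x)) (b' k) μ / th k +
      fderiv ℝ (fun x => Bf (x, c k)) (b' k) μ / δ = 0) : False := by
  have hθτ : θ < τ₁ := by linarith only [hδ, hθδ]
  have hτ'0 : 0 < τ' := by linarith only [hθ, hδ, hθδ, hττ]
  let Φ : ι → (V × V) × (ℝ × V' × (ι → V)) → ℝ := fun j p =>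
    A p.1 / p.2.1 + Bf (p.1.2, p.2.2.1) / δ - A (p.1.1, p.2.2.2 j) / τ'
  let η₀ : ℝ × V' × (ι → V) := (θ, 0, fun j => τ' • w₀ j)
  have hf1 : ContDiffAt ℝ 2 (fun p : (V × V) × (ℝ × V' × (ι → V)) => A p.1)
      ((0, θ • u), η₀) := by
    have : ContDiffAt ℝ 2 (fun p : (V × V) × (ℝ × V' × (ι → V)) => p.1) ((0, θ • u), η₀) :=
      contDiffAt_fst
    exact ContDiffAt.comp (x := (((0, θ • u), η₀) : (V × V) × (ℝ × V' × (ι → V))))
      (g := A) (f := Prod.fst) hA0 this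
  have hf2 : ContDiffAt ℝ 2 (fun p : (V × V) × (ℝ × V' × (ι → V)) => Bf (p.1.2, p.2.2.1))
      ((0, θ • u), η₀) := by
    have : ContDiffAt ℝ 2 (fun p : (V × V) × (ℝ × V' × (ι → V)) => (p.1.2, p.2.2.1))
        ((0, θ • u), η₀) := by fun_prop
    exact ContDiffAt.comp (x := (((0, θ • u), η₀) : (V × V) × (ℝ × V' × (ι → V))))
      (g := Bf) (f := fun p => (p.1.2, p.2.2.1)) hB this
  have hf3 : ∀ j, ContDiffAt ℝ 2
      (fun p : (V × V) × (ℝ × V' × (ι → V)) => A (p.1.1, p.2.2.2 j)) ((0, θ • u), η₀) := by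
    intro j
    have : ContDiffAt ℝ 2 (fun p : (V × V) × (ℝ × V' × (ι → V)) => (p.1.1, p.2.2.2 j))
        ((0, θ • u), η₀) := by fun_prop
    exact ContDiffAt.comp (x := (((0, θ • u), η₀) : (V × V) × (ℝ × V' × (ι → V))))
      (g := A) (f := fun p => (p.1.1, p.2.2.2 j)) (hAj j) this
  have hΦ : ∀ j, ContDiffAt ℝ 2 (Φ j) ((0, θ • u), η₀) := by
    intro j
    have h1 : ContDiffAt ℝ 2 (fun p : (V × V) × (ℝ × V' × (ι → V)) => p.2.1)
        ((0, θ • u), η₀) := by fun_prop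
    exact ((hf1.div h1 hθ.ne').add (hf2.div_const δ)).sub ((hf3 j).div_const τ')
  -- differentiability near the limit
  have hη : Tendsto (fun k => ((th k, c k, q k) : ℝ × V' × (ι → V))) atTop (𝓝 η₀) :=
    hth.prodMk_nhds (hc.prodMk_nhds (tendsto_pi_nhds.2 hq))
  have hbase : Tendsto (fun k => (((a' k, b' k), (th k, c k, q k)) :
      (V × V) × (ℝ × V' × (ι → V)))) atTop (𝓝 ((0, θ • u), η₀)) :=
    (ha'.prodMk_nhds hb').prodMk_nhds hη
  have dA0 : ∀ᶠ k in atTop, DifferentiableAt ℝ A (a' k, b' k) :=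
    (ha'.prodMk_nhds hb').eventually (eventually_differentiableAt hA0)
  have dB : ∀ᶠ k in atTop, DifferentiableAt ℝ Bf (b' k, c k) :=
    (hb'.prodMk_nhds hc).eventually (eventually_differentiableAt hB)
  have dAj : ∀ᶠ k in atTop, ∀ j, DifferentiableAt ℝ A (a' k, q k j) :=
    eventually_all.2 fun j => (ha'.prodMk_nhds (hq j)).eventually
      (eventually_differentiableAt (hAj j))
  have dΦ : ∀ᶠ k in atTop, ∀ j, DifferentiableAt ℝ (Φ j) ((a' k, b' k), (th k, c k, q k)) :=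
    eventually_all.2 fun j => hbase.eventually (eventually_differentiableAt (hΦ j))
  -- formula for the partial derivative
  have hform : ∀ (j : ι) (x y : V) (t : ℝ) (y' : V') (r : ι → V),
      DifferentiableAt ℝ (Φ j) ((x, y), (t, y', r)) → DifferentiableAt ℝ A (x, y) →
      DifferentiableAt ℝ Bf (y, y') → DifferentiableAt ℝ A (x, r j) → ∀ ξ μ : V,
      fderiv ℝ (Φ j) ((x, y), (t, y', r)) ((ξ, μ), 0) =
        fderiv ℝ (fun s => A (s, y)) x ξ / t - fderiv ℝ (fun s => A (s, r j)) x ξ / τ' +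
        (fderiv ℝ (fun s => A (x, s)) y μ / t + fderiv ℝ (fun s => Bf (s, y')) y μ / δ) := by
    intro j x y t y' r h1 h2 h3 h4 ξ μ
    rw [fderiv_partial_left h1]
    have e1 : HasFDerivAt (fun z : V × V => A z) (fderiv ℝ A (x, y)) (x, y) := h2.hasFDerivAt
    have h3' : DifferentiableAt ℝ (fun s => Bf (s, y')) y :=
      DifferentiableAt.comp (x := y) (g := Bf) (f := fun s => (s, y')) h3 (by fun_prop)
    have h4' : DifferentiableAt ℝ (fun s => A (s, r j)) x :=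
      DifferentiableAt.comp (x := x) (g := A) (f := fun s => (s, r j)) h4 (by fun_prop)
    have e2 : HasFDerivAt (fun z : V × V => Bf (z.2, y'))
        (fderiv ℝ (fun z : V × V => Bf (z.2, y')) (x, y)) (x, y) :=
      (DifferentiableAt.comp (x := (x, y)) (g := fun s => Bf (s, y')) (f := Prod.snd) h3'
        (by fun_prop)).hasFDerivAt
    have e3 : HasFDerivAt (fun z : V × V => A (z.1, r j))
        (fderiv ℝ (fun z : V × V => A (z.1, r j)) (x, y)) (x, y) :=
      (DifferentiableAt.comp (x := (x, y)) (g := fun s => A (s, r j)) (f := Prod.fst) h4'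
        (by fun_prop)).hasFDerivAt
    have e4 := ((e1.mul_const t⁻¹).add (e2.mul_const δ⁻¹)).sub (e3.mul_const τ'⁻¹)
    have e5 : (fun z : V × V => Φ j (z, (t, y', r))) =
        fun z : V × V => A z * t⁻¹ + Bf (z.2, y') * δ⁻¹ - A (z.1, r j) * τ'⁻¹ := by
      funext z
      simp only [Φ, div_eq_mul_inv]
    rw [e5]
    have e6 := e4.fderiv
    have e7 := congrArg (fun L : V × V →L[ℝ] ℝ => L (ξ, μ)) e6
    simp only [sub_apply, add_apply, smul_apply, smul_eq_mul] at e7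
    refine e7.trans ?_
    rw [fderiv_partial_add h2, fderiv_of_snd (Φ := fun s => Bf (s, y')) h3' (ξ, μ),
      fderiv_of_fst (Φ := fun s => A (s, r j)) h4' (ξ, μ)]
    simp only [div_eq_mul_inv]
    ring
  obtain ⟨h, hh0, hfirst, hsecond⟩ := seq_taylor (Φ := Φ) (ζ₀ := (0, θ • u)) (η₀ := η₀) hΦ
    (ζ := fun k => (a k, b k)) (ζ' := fun k => (a' k, b' k)) (η := fun k => (th k, c k, q k))
    (ha.prodMk_nhds hb) (ha'.prodMk_nhds hb') hη hne hlam hlamlim hineq (by
      filter_upwards [dA0, dB, dAj, dΦ, hca, hcb] with k k1 k2 k3 k4 k5 k6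
      rintro ⟨ξ, μ⟩
      have h1 : ∀ j, lam k j * fderiv ℝ (Φ j) ((a' k, b' k), (th k, c k, q k)) ((ξ, μ), 0) =
          lam k j * (fderiv ℝ (fun s => A (s, b' k)) (a' k) ξ / th k) -
            lam k j * (fderiv ℝ (fun s => A (s, q k j)) (a' k) ξ / τ') := by
        intro j
        rw [hform j _ _ _ _ _ (k4 j) k1 k2 (k3 j) ξ μ, k6 μ]
        ring
      rw [Finset.sum_congr rfl fun j _ => h1 j, Finset.sum_sub_distrib, ← Finset.sum_mul, hsum,
        one_mul, k5 ξ, sub_self])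
  obtain ⟨ξ, μ⟩ := h
  have hne' : ¬ (ξ = 0 ∧ μ = 0) := fun h => hh0 (by rw [h.1, h.2]; rfl)
  have two_ne : (2 : WithTop ℕ∞) ≠ 0 := by norm_num
  have hfirst' : ∀ j, inner ℝ (w₀ j - u) ξ ≤ 0 := by
    intro j
    have h1 := hfirst j
    have h2 := hform j 0 (θ • u) θ 0 (fun j => τ' • w₀ j) ((hΦ j).differentiableAt two_ne)
      (hA0.differentiableAt two_ne) (hB.differentiableAt two_ne)
      ((hAj j).differentiableAt two_ne) ξ μ
    rw [gB, gA, gAj, add_zero] at h2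
    have h3 : -inner ℝ (θ • u) ξ / θ - -inner ℝ (τ' • w₀ j) ξ / τ' = inner ℝ (w₀ j - u) ξ := by
      rw [real_inner_smul_left, real_inner_smul_left, inner_sub_left]
      field_simp
      ring
    rw [h3] at h2
    rw [← h2]
    exact h1
  have hpos := X.second_variation_pos hθ hθτ hττ hτ' hWS hWI hlam₀ hsum₀ hw₀ hu hne' hfirst'
  have hsec : ∀ j, hess (Φ j) ((0, θ • u), η₀) ((ξ, μ), 0) ((ξ, μ), 0) =
      X.H (θ • u) ξ ξ / θ - 2 * inner ℝ ξ μ / θ + X.Q θ τ₁ u μ -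
        X.H (τ' • w₀ j) ξ ξ / τ' := by
    intro j
    rw [hess_partial_left (hΦ j)]
    have c3 : ContDiffAt ℝ 2 (fun s => Bf (s, 0)) (θ • u) :=
      ContDiffAt.comp (x := θ • u) (g := Bf) (f := fun s => (s, 0)) hB (by fun_prop)
    have c4 : ContDiffAt ℝ 2 (fun s => A (s, τ' • w₀ j)) 0 :=
      ContDiffAt.comp (x := (0 : V)) (g := A) (f := fun s => (s, τ' • w₀ j)) (hAj j) (by fun_prop)
    have c2' : ContDiffAt ℝ 2 (fun z : V × V => Bf (z.2, 0)) (0, θ • u) :=
      ContDiffAt.comp (x := ((0, θ • u) : V × V)) (g := fun s => Bf (s, 0)) (f := Prod.snd) c3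
        contDiffAt_snd
    have c3' : ContDiffAt ℝ 2 (fun z : V × V => A (z.1, τ' • w₀ j)) (0, θ • u) :=
      ContDiffAt.comp (x := ((0, θ • u) : V × V)) (g := fun s => A (s, τ' • w₀ j)) (f := Prod.fst)
        c4 contDiffAt_fst
    have e5 : (fun z : V × V => Φ j (z, η₀)) =
        fun z : V × V => (θ⁻¹ * A z + δ⁻¹ * Bf (z.2, 0)) + (-τ'⁻¹) * A (z.1, τ' • w₀ j) := by
      funext z
      simp only [Φ, η₀, div_eq_mul_inv]
      ring
    rw [e5, hess_add ((contDiffAt_const.mul hA0).add (contDiffAt_const.mul c2'))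
      (contDiffAt_const.mul c3'), hess_add (contDiffAt_const.mul hA0) (contDiffAt_const.mul c2'),
      hess_const_mul hA0, hess_const_mul c2', hess_const_mul c3']
    simp only [add_apply, smul_apply, smul_eq_mul]
    rw [hHess, hess_of_snd (Φ := fun s => Bf (s, 0)) c3 (ξ, μ) (ξ, μ),
      hess_of_fst (Φ := fun s => A (s, τ' • w₀ j)) c4 (ξ, μ) (ξ, μ)]
    simp only
    rw [hK, hHessj, Q, hθδ]
    ring
  have hfin : ∑ j, lam₀ j * hess (Φ j) ((0, θ • u), η₀) ((ξ, μ), 0) ((ξ, μ), 0) =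
      X.H (θ • u) ξ ξ / θ - 2 * inner ℝ ξ μ / θ + X.Q θ τ₁ u μ -
      ∑ j, lam₀ j * (X.H (τ' • w₀ j) ξ ξ / τ') := by
    rw [Finset.sum_congr rfl fun j _ => by rw [hsec j, mul_sub], Finset.sum_sub_distrib,
      ← Finset.sum_mul, hsum₀, one_mul]
  rw [hfin] at hsecond
  linarith

end HessData

end Vale.Agent.P234
end
end
end

section

section

section

/-! Step A: critical points. -/

set_option maxSynthPendingDepth 3

open Bundle Manifold Set Filter
open scoped ContDiff Manifold Topology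

namespace Vale.Agent.P234

noncomputable section

variable {E : Type*} [NormedAddCommGroup E] [NormedSpace ℝ E] [FiniteDimensional ℝ E]
  {M : Type*} [MetricSpace M] [ChartedSpace E M]
  [RiemannianBundle (fun x : M => TangentSpace 𝓘(ℝ, E) x)]
  [IsManifold 𝓘(ℝ, E) ∞ M]
  [IsContMDiffRiemannianBundle 𝓘(ℝ, E) ∞ E (fun x : M => TangentSpace 𝓘(ℝ, E) x)]
  [CompactSpace M]
  {e : ∀ x : M, TangentSpace 𝓘(ℝ, E) x → M}

/-- Difference quotients along a sequence of nearby points. -/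
lemma tendsto_slope_of_strict {V : Type*} [NormedAddCommGroup V] [NormedSpace ℝ V]
    {f : V → ℝ} {f' : V →L[ℝ] ℝ} {p : V} (hf : HasStrictFDerivAt f f' p) {r : ℕ → ℝ}
    (hr : Tendsto r atTop (𝓝 0)) (hr0 : ∀ k, 0 < r k) {v : ℕ → V}
    (hv : Tendsto v atTop (𝓝 p)) (ξ : V) :
    Tendsto (fun k => (f (v k + r k • ξ) - f (v k)) / r k) atTop (𝓝 (f' ξ)) := by
  have h1 : Tendsto (fun k => (v k + r k • ξ, v k)) atTop (𝓝 (p, p)) := by
    have : Tendsto (fun k => v k + r k • ξ) atTop (𝓝 (p + (0 : ℝ) • ξ)) :=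
      hv.add (hr.smul_const ξ)
    rw [zero_smul, add_zero] at this
    rw [nhds_prod_eq]
    exact this.prodMk hv
  have h2 := hf.isLittleO.comp_tendsto h1
  have h3 : (fun k => f (v k + r k • ξ) - f (v k) - r k * f' ξ) =o[atTop] fun k => r k := by
    have h4 : (fun k => f (v k + r k • ξ) - f (v k) - r k * f' ξ) =o[atTop]
        fun k => r k • ξ := by
      refine (h2.congr (fun k => ?_) (fun k => ?_))
      · simp only [Function.comp, add_sub_cancel_left, map_smul, smul_eq_mul, sub_sub]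
      · simp only [Function.comp, add_sub_cancel_left]
    refine h4.trans_isBigO ?_
    refine Asymptotics.IsBigO.of_bound ‖ξ‖ (Eventually.of_forall fun k => ?_)
    rw [norm_smul, mul_comm]
  have h5 := h3.tendsto_div_nhds_zero
  have h6 : Tendsto (fun k => (f (v k + r k • ξ) - f (v k) - r k * f' ξ) / r k + f' ξ) atTop
      (𝓝 (0 + f' ξ)) := h5.add_const _
  rw [zero_add] at h6
  refine h6.congr (fun k => ?_)
  have := (hr0 k).ne'
  field_simp
  ring

set_option backward.isDefEq.respectTransparency false in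
/-- The subdifferential is compact. -/
lemma Pot.isCompact_sub (P : Pot M) (he : IsExp e) (z : M) : IsCompact (P.sub e z) := by
  classical
  set n := Module.finrank ℝ E + 1 with hn
  have hc : IsCompact ((stdSimplex ℝ (Fin n)) ×ˢ
      (Set.pi univ (fun _ : Fin n => P.vtx e z))) :=
    (isCompact_stdSimplex ℝ (Fin n)).prod (isCompact_univ_pi fun _ => P.isCompact_vtx he z)
  have hcont : Continuous (fun p : (Fin n → ℝ) × (Fin n → TangentSpace 𝓘(ℝ, E) z) =>
      ∑ j, p.1 j • p.2 j) := by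
    fun_prop
  have himg := hc.image hcont
  have heq : P.sub e z = (fun p : (Fin n → ℝ) × (Fin n → TangentSpace 𝓘(ℝ, E) z) =>
      ∑ j, p.1 j • p.2 j) '' ((stdSimplex ℝ (Fin n)) ×ˢ
      (Set.pi univ (fun _ : Fin n => P.vtx e z))) := by
    apply Set.Subset.antisymm
    · intro u hu
      obtain ⟨lam, w, h0, h1, hw, hsum⟩ := P.exists_rep hu
      exact ⟨(lam, w), ⟨⟨h0, h1⟩, fun j _ => hw j⟩, hsum⟩
    · rintro _ ⟨⟨lam, w⟩, ⟨⟨h0, h1⟩, hw⟩, rfl⟩
      exact (convex_convexHull ℝ _).sum_mem (fun j _ => h0 j) h1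
        (fun j _ => subset_convexHull ℝ _ (hw j (mem_univ _)))
  rw [heq]
  exact himg

set_option backward.isDefEq.respectTransparency false in
omit [CompactSpace M] in
/-- Upper first variation of the cost. -/
lemma cost_variation (F : Facts e) {x₀ : M} {v : TangentSpace 𝓘(ℝ, E) x₀}
    (hv : v ∈ segMin e x₀) (ξ : TangentSpace 𝓘(ℝ, E) x₀) {r : ℕ → ℝ}
    (hr : Tendsto r atTop (𝓝 0)) (hr0 : ∀ k, 0 < r k) :
    ∃ u : ℕ → ℝ, (∀ k, (cost (e x₀ (r k • ξ)) (e x₀ v) - cost x₀ (e x₀ v)) / r k ≤ u k) ∧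
      Tendsto u atTop (𝓝 (-(inner ℝ v ξ))) := by
  have he := F.isExp
  set v' : TangentSpace 𝓘(ℝ, E) x₀ := (1 / 2 : ℝ) • v with hv'
  have hv'i : v' ∈ injDomain e x₀ := smul_mem_injDomain he hv (by norm_num) (by norm_num)
  have hv's : v' ∈ segMin e x₀ := injDomain_subset_segMin he x₀ hv'i
  have hsm : SmoothAt E x₀ (e x₀ v') := F.smooth_cost x₀ v' hv'i
  set m := e x₀ v' with hm
  have hx0 : e x₀ (0 : TangentSpace 𝓘(ℝ, E) x₀) = x₀ := he.map_zero x₀
  have hder := hasFDerivAt_cost_zero he x₀ v' hv's hsm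
  have hsm' : SmoothAt E (e x₀ (0 : TangentSpace 𝓘(ℝ, E) x₀)) (e x₀ v') := by
    rw [hx0]; exact hsm
  have hcd : ContDiffAt ℝ ∞ (fun a : TangentSpace 𝓘(ℝ, E) x₀ => cost (e x₀ a) (e x₀ v')) 0 := by
    have h1 := SmoothAt.coord he (a := (0 : TangentSpace 𝓘(ℝ, E) x₀)) (b := v') hsm'
    have h2 : ContDiffAt ℝ ∞ (fun a : TangentSpace 𝓘(ℝ, E) x₀ => (a, v')) 0 :=
      contDiffAt_id.prodMk contDiffAt_const
    exact h1.comp (0 : TangentSpace 𝓘(ℝ, E) x₀) h2
  have hstrict : HasStrictFDerivAt (fun a : TangentSpace 𝓘(ℝ, E) x₀ => cost (e x₀ a) m)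
      (-(innerSL ℝ v')) 0 := by
    have := hcd.hasStrictFDerivAt (by simp)
    rwa [hder.fderiv] at this
  have hlim := tendsto_slope_of_strict hstrict hr hr0
    (tendsto_const_nhds : Tendsto (fun _ : ℕ => (0 : TangentSpace 𝓘(ℝ, E) x₀)) atTop _) ξ
  refine ⟨fun k => 2 * ((cost (e x₀ (0 + r k • ξ)) m - cost (e x₀ 0) m) / r k),
    fun k => ?_, ?_⟩
  · have h1 := cost_ineq (e x₀ (r k • ξ)) m (e x₀ v) (s := 1 / 2) (t := 1 / 2)
      (by norm_num) (by norm_num)
    have h2 : cost x₀ (e x₀ v) = ‖v‖ ^ 2 / 2 := by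
      have := segMin_cost he hv (s := 0) (t := 1) le_rfl zero_le_one le_rfl
      rw [zero_smul, one_smul, hx0] at this
      rw [this]; ring
    have h3 : cost x₀ m = ‖v‖ ^ 2 / 8 := by
      have := segMin_cost he hv (s := 0) (t := 1 / 2) le_rfl (by norm_num) (by norm_num)
      rw [zero_smul, hx0] at this
      rw [hm, hv', this]; ring
    have h4 : cost m (e x₀ v) = ‖v‖ ^ 2 / 8 := by
      have := segMin_cost he hv (s := 1 / 2) (t := 1) (by norm_num) (by norm_num) le_rfl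
      rw [one_smul] at this
      rw [hm, hv', this]; ring
    beta_reduce
    rw [zero_add, hx0, h2, h3]
    rw [h4] at h1
    rw [← mul_div_assoc]
    apply div_le_div_of_nonneg_right _ (hr0 k).le
    norm_num at h1
    linarith only [h1]
  · have := hlim.const_mul 2
    convert this using 2
    simp [hv']

set_option backward.isDefEq.respectTransparency false in
/-- Upper first variation of the potential along a sequence. -/
lemma Pot.phi_variation (F : Facts e) (P : Pot M) {x₀ : M} (ξ : TangentSpace 𝓘(ℝ, E) x₀)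
    {r : ℕ → ℝ} (hr : Tendsto r atTop (𝓝 0)) (hr0 : ∀ k, 0 < r k) :
    ∃ (φ : ℕ → ℕ) (u : ℕ → ℝ) (w₀ : TangentSpace 𝓘(ℝ, E) x₀), StrictMono φ ∧
      w₀ ∈ P.vtx e x₀ ∧
      (∀ k, (P.phi (e x₀ (r (φ k) • ξ)) - P.phi x₀) / r (φ k) ≤ u k) ∧
      Tendsto u atTop (𝓝 (inner ℝ w₀ ξ)) := by
  have he := F.isExp
  have hx0 : e x₀ (0 : TangentSpace 𝓘(ℝ, E) x₀) = x₀ := he.map_zero x₀
  -- the moving points
  have hexpc : Continuous (e x₀) := (contMDiff_exp_fiber he x₀).continuous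
  have hxlim : Tendsto (fun k => e x₀ (r k • ξ)) atTop (𝓝 x₀) := by
    have h1 : Tendsto (fun k => r k • ξ) atTop (𝓝 ((0 : ℝ) • ξ)) := hr.smul_const ξ
    rw [zero_smul] at h1
    have h2 := (hexpc.tendsto 0).comp h1
    rwa [hx0] at h2
  -- active indices and minimizing vectors
  have hact : ∀ k, ∃ w : TangentSpace 𝓘(ℝ, E) (e x₀ (r k • ξ)), w ∈ P.vtx e (e x₀ (r k • ξ)) := by
    intro k
    obtain ⟨i, hi⟩ := P.attained (e x₀ (r k • ξ))
    obtain ⟨w, hw1, hw2⟩ := F.hopfRinow (e x₀ (r k • ξ)) (P.y i)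
    refine ⟨w, ?_, i, hw1, hi⟩
    show dist _ _ = _
    rw [hw1, hw2]
  choose w hw using hact
  obtain ⟨z₀, w₀, φ, hφ, hlim⟩ := exists_tendstoTB (fun k => e x₀ (r k • ξ)) w
    (Metric.diam (univ : Set M)) (fun k => P.norm_le_of_mem_sub (subset_convexHull ℝ _ (hw k)))
  have hz : z₀ = x₀ :=
    tendsto_nhds_unique hlim.base (hxlim.comp hφ.tendsto_atTop)
  subst hz
  have hw0 : w₀ ∈ P.vtx e z₀ := P.vtx_closed he hlim (fun k => hw (φ k))
  -- half points
  have hhalf : TendstoTB (z := fun k => e z₀ (r (φ k) • ξ)) (fun k => (1 / 2 : ℝ) • w (φ k))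
      ((1 / 2 : ℝ) • w₀) := hlim.smul tendsto_const_nhds
  have hq : Tendsto (fun k => e (e z₀ (r (φ k) • ξ)) ((1 / 2 : ℝ) • w (φ k))) atTop
      (𝓝 (e z₀ ((1 / 2 : ℝ) • w₀))) := hhalf.exp he
  set q₀ : M := e z₀ ((1 / 2 : ℝ) • w₀) with hq0
  have hqi : (1 / 2 : ℝ) • w₀ ∈ injDomain e z₀ :=
    smul_mem_injDomain he hw0.1 (by norm_num) (by norm_num)
  have hqs : (1 / 2 : ℝ) • w₀ ∈ segMin e z₀ := injDomain_subset_segMin he z₀ hqi
  have hsm : SmoothAt E z₀ q₀ := F.smooth_cost z₀ _ hqi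
  -- coordinates of the half points at `q₀`
  have hb : ∀ k, ∃ b : TangentSpace 𝓘(ℝ, E) q₀,
      e q₀ b = e (e z₀ (r (φ k) • ξ)) ((1 / 2 : ℝ) • w (φ k)) ∧
      dist q₀ (e (e z₀ (r (φ k) • ξ)) ((1 / 2 : ℝ) • w (φ k))) = ‖b‖ := fun k =>
    F.hopfRinow q₀ _
  choose b hb1 hb2 using hb
  have hb0 : Tendsto b atTop (𝓝 0) := by
    rw [tendsto_zero_iff_norm_tendsto_zero]
    have h1 : Tendsto (fun k => dist q₀ (e (e z₀ (r (φ k) • ξ)) ((1 / 2 : ℝ) • w (φ k)))) atTop
        (𝓝 (dist q₀ q₀)) := tendsto_const_nhds.dist hq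
    rw [dist_self] at h1
    exact h1.congr hb2
  have hq00 : e q₀ (0 : TangentSpace 𝓘(ℝ, E) q₀) = q₀ := he.map_zero q₀
  have hsm' : SmoothAt E (e z₀ (0 : TangentSpace 𝓘(ℝ, E) z₀))
      (e q₀ (0 : TangentSpace 𝓘(ℝ, E) q₀)) := by
    rw [hx0, hq00]; exact hsm
  have hcd := SmoothAt.coord he hsm'
  set G : TangentSpace 𝓘(ℝ, E) z₀ × TangentSpace 𝓘(ℝ, E) q₀ → ℝ :=
    fun p => cost (e z₀ p.1) (e q₀ p.2) with hG
  have hstrict : HasStrictFDerivAt G (fderiv ℝ G (0, 0)) (0, 0) :=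
    hcd.hasStrictFDerivAt (by simp)
  have hder := hasFDerivAt_cost_zero he z₀ ((1 / 2 : ℝ) • w₀) hqs hsm
  have hGξ : fderiv ℝ G (0, 0) (ξ, 0) = -(inner ℝ ((1 / 2 : ℝ) • w₀) ξ) := by
    have h1 : HasFDerivAt (fun a : TangentSpace 𝓘(ℝ, E) z₀ =>
        (a, (0 : TangentSpace 𝓘(ℝ, E) q₀)))
        (ContinuousLinearMap.inl ℝ (TangentSpace 𝓘(ℝ, E) z₀) (TangentSpace 𝓘(ℝ, E) q₀)) 0 :=
      hasFDerivAt_prodMk_left 0 0
    have h2 : HasFDerivAt (fun a : TangentSpace 𝓘(ℝ, E) z₀ =>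
        G (a, (0 : TangentSpace 𝓘(ℝ, E) q₀)))
        ((fderiv ℝ G (0, 0)).comp
          (ContinuousLinearMap.inl ℝ (TangentSpace 𝓘(ℝ, E) z₀) (TangentSpace 𝓘(ℝ, E) q₀))) 0 :=
      HasFDerivAt.comp (g := G) (f := fun a : TangentSpace 𝓘(ℝ, E) z₀ =>
        (a, (0 : TangentSpace 𝓘(ℝ, E) q₀))) (0 : TangentSpace 𝓘(ℝ, E) z₀) hstrict.hasFDerivAt h1
    have h3 : (fun a : TangentSpace 𝓘(ℝ, E) z₀ => G (a, (0 : TangentSpace 𝓘(ℝ, E) q₀))) =
        fun a => cost (e z₀ a) (e z₀ ((1 / 2 : ℝ) • w₀)) := by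
      funext a
      simp only [hG]
      rw [hq00]
    rw [h3] at h2
    have h4 := h2.unique hder
    have h5 := congrArg (fun L => L ξ) h4
    rw [real_inner_smul_left]
    simpa using h5
  have hlim2 := tendsto_slope_of_strict hstrict (hr.comp hφ.tendsto_atTop)
    (fun k => hr0 (φ k)) (v := fun k => ((0 : TangentSpace 𝓘(ℝ, E) z₀), b k))
    (by
      rw [nhds_prod_eq]
      exact tendsto_const_nhds.prodMk hb0) (ξ, (0 : TangentSpace 𝓘(ℝ, E) q₀))
  refine ⟨φ, fun k => -2 * ((G ((0, b k) + r (φ k) • (ξ, (0 : TangentSpace 𝓘(ℝ, E) q₀))) -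
    G (0, b k)) / r (φ k)), w₀, hφ, hw0, fun k => ?_, ?_⟩
  · have hGa : G ((0, b k) + r (φ k) • (ξ, (0 : TangentSpace 𝓘(ℝ, E) q₀))) =
        cost (e z₀ (r (φ k) • ξ)) (e q₀ (b k)) := by
      simp only [hG, Prod.smul_mk, smul_zero, Prod.mk_add_mk, zero_add, add_zero]
    have hGb : G (0, b k) = cost z₀ (e q₀ (b k)) := by
      simp only [hG]
      rw [hx0]
    beta_reduce
    rw [hGa, hGb]
    set x := e z₀ (r (φ k) • ξ) with hx
    set q := e x ((1 / 2 : ℝ) • w (φ k)) with hqdef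
    have hbq : e q₀ (b k) = q := hb1 k
    rw [hbq]
    obtain ⟨hwm, i, hwi, hphi⟩ := hw (φ k)
    have h1 := P.lower i z₀
    have h2 := cost_ineq z₀ q (P.y i) (s := 1 / 2) (t := 1 / 2) (by norm_num) (by norm_num)
    have h3 : cost x (P.y i) = ‖w (φ k)‖ ^ 2 / 2 := by
      have := segMin_cost he hwm (s := 0) (t := 1) le_rfl zero_le_one le_rfl
      rw [zero_smul, one_smul, he.map_zero] at this
      rw [← hwi, this]; ring
    have h4 : cost x q = ‖w (φ k)‖ ^ 2 / 8 := by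
      have := segMin_cost he hwm (s := 0) (t := 1 / 2) le_rfl (by norm_num) (by norm_num)
      rw [zero_smul, he.map_zero] at this
      rw [hqdef, this]; ring
    have h5 : cost q (P.y i) = ‖w (φ k)‖ ^ 2 / 8 := by
      have := segMin_cost he hwm (s := 1 / 2) (t := 1) (by norm_num) (by norm_num) le_rfl
      rw [one_smul] at this
      rw [hqdef, ← hwi, this]; ring
    rw [← mul_div_assoc]
    apply div_le_div_of_nonneg_right _ (hr0 (φ k)).le
    norm_num at h2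
    linarith only [h2, h5, h4, h3, h1, hphi]
  · have h := hlim2.const_mul (-2)
    rw [hGξ, real_inner_smul_left] at h
    have h' : -2 * -(1 / 2 * inner ℝ w₀ ξ) = inner ℝ w₀ ξ := by ring
    rw [h'] at h
    exact h

set_option backward.isDefEq.respectTransparency false in
/-- Step A: at a local minimizer of `cost · y / τ + φ`, minimizing vectors towards `y`,
divided by `τ`, are subgradients. -/
theorem stepA (F : Facts e) (P : Pot M) {τ : ℝ} (hτ : 0 < τ) {x₀ y : M}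
    (hmin : ∀ᶠ x in 𝓝 x₀, cost x₀ y / τ + P.phi x₀ ≤ cost x y / τ + P.phi x)
    {v : TangentSpace 𝓘(ℝ, E) x₀} (hv : v ∈ segMin e x₀) (hy : e x₀ v = y) :
    (1 / τ) • v ∈ P.sub e x₀ := by
  by_contra hnot
  have he := F.isExp
  have hx0 : e x₀ (0 : TangentSpace 𝓘(ℝ, E) x₀) = x₀ := he.map_zero x₀
  obtain ⟨f, c, hf1, hf2⟩ := geometric_hahn_banach_closed_point (convex_convexHull ℝ _)
    (P.isCompact_sub he x₀).isClosed hnot
  have : FiniteDimensional ℝ (TangentSpace 𝓘(ℝ, E) x₀) := inferInstanceAs (FiniteDimensional ℝ E)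
  have : CompleteSpace (TangentSpace 𝓘(ℝ, E) x₀) := FiniteDimensional.complete ℝ _
  set ξ : TangentSpace 𝓘(ℝ, E) x₀ := (InnerProductSpace.toDual ℝ _).symm f with hξ
  have hfξ : ∀ w, f w = inner ℝ w ξ := by
    intro w
    rw [real_inner_comm, hξ, InnerProductSpace.toDual_symm_apply]
  set r : ℕ → ℝ := fun k => 1 / ((k : ℝ) + 1) with hr
  have hr0 : ∀ k, 0 < r k := fun k => by (clear * -; positivity)
  have hrlim : Tendsto r atTop (𝓝 0) := tendsto_one_div_add_atTop_nhds_zero_nat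
  obtain ⟨φ, u, w₀, hφ, hw0, hu1, hu2⟩ := P.phi_variation F ξ hrlim hr0
  obtain ⟨u', hu1', hu2'⟩ := cost_variation F hv ξ (hrlim.comp hφ.tendsto_atTop)
    (fun k => hr0 (φ k))
  have hexpc : Continuous (e x₀) := (contMDiff_exp_fiber he x₀).continuous
  have hxlim : Tendsto (fun k => e x₀ (r k • ξ)) atTop (𝓝 x₀) := by
    have h1 : Tendsto (fun k => r k • ξ) atTop (𝓝 ((0 : ℝ) • ξ)) := hrlim.smul_const ξ
    rw [zero_smul] at h1
    have h2 := (hexpc.tendsto 0).comp h1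
    rwa [hx0] at h2
  have hev := (hxlim.comp hφ.tendsto_atTop).eventually hmin
  have hlim : Tendsto (fun k => (1 / τ) * u' k + u k) atTop
      (𝓝 ((1 / τ) * (-(inner ℝ v ξ)) + inner ℝ w₀ ξ)) := (hu2'.const_mul _).add hu2
  have hge : 0 ≤ (1 / τ) * (-(inner ℝ v ξ)) + inner ℝ w₀ ξ := by
    refine ge_of_tendsto hlim (hev.mono fun k hk => ?_)
    have h1 := hu1 k
    have h2 := hu1' k
    have hrk := hr0 (φ k)
    simp only [Function.comp] at h2 hk
    rw [hy] at h2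
    rw [div_le_iff₀ hrk] at h1 h2
    have h3 : 0 ≤ (cost (e x₀ (r (φ k) • ξ)) y - cost x₀ y) / τ +
        (P.phi (e x₀ (r (φ k) • ξ)) - P.phi x₀) := by
      rw [sub_div]; linarith only [hk]
    have h4 : (cost (e x₀ (r (φ k) • ξ)) y - cost x₀ y) / τ ≤ (u' k * r (φ k)) / τ :=
      div_le_div_of_nonneg_right h2 hτ.le
    have h5 : 0 ≤ ((1 / τ) * u' k + u k) * r (φ k) := by
      have : ((1 / τ) * u' k + u k) * r (φ k) = (u' k * r (φ k)) / τ + u k * r (φ k) := by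
        ring
      rw [this]; linarith only [h1, h3, h4]
    exact nonneg_of_mul_nonneg_left h5 hrk
  have h1 := hf1 w₀ (subset_convexHull ℝ _ hw0)
  rw [hfξ] at h1 hf2
  rw [real_inner_smul_left] at hf2
  have : (1 / τ) * (-(inner ℝ v ξ)) = - ((1 / τ) * inner ℝ v ξ) := by ring
  rw [this] at hge
  linarith only [hf2, hge, h1]

end

end Vale.Agent.P234
end
end
end

section

section

section

/-! Hessian estimates inside the injectivity domain, from `Facts`. -/

set_option maxSynthPendingDepth 3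

open Bundle Manifold Set Filter
open scoped ContDiff Manifold Topology

namespace Vale.Agent.P234

noncomputable section

section Aux

variable {V : Type*} [NormedAddCommGroup V] [InnerProductSpace ℝ V]

lemma contDiff_half_sq : ContDiff ℝ ∞ (fun b : V => ‖b‖ ^ 2 / 2) :=
  (contDiff_norm_sq ℝ).div_const 2

lemma hess_half_sq (x μ ν : V) : hess (fun b : V => ‖b‖ ^ 2 / 2) x μ ν = inner ℝ μ ν := by
  have h1 : fderiv ℝ (fun b : V => ‖b‖ ^ 2 / 2) = fun b => innerSL ℝ b := by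
    funext b
    have h2 : HasFDerivAt (fun b : V => ‖b‖ ^ 2 / 2) ((1 / 2 : ℝ) • (2 • innerSL ℝ b)) b := by
      have h3 := (hasStrictFDerivAt_norm_sq b).hasFDerivAt.const_mul (1 / 2 : ℝ)
      refine h3.congr_of_eventuallyEq ?_
      filter_upwards with c
      ring
    rw [h2.fderiv]
    ext c
    simp
  unfold hess
  rw [h1]
  have h4 : fderiv ℝ (fun b : V => innerSL ℝ b) x = innerSL ℝ :=
    (innerSL ℝ : V →L[ℝ] V →L[ℝ] ℝ).fderiv
  rw [h4]
  rfl

lemma quad_iter (A D B : ℝ) :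
    iteratedDeriv 2 (fun r : ℝ => A + r * D + r ^ 2 * B) 0 = 2 * B := by
  have h1 : deriv (fun r : ℝ => A + r * D + r ^ 2 * B) = fun r => D + 2 * r * B := by
    funext r
    have : HasDerivAt (fun r : ℝ => A + r * D + r ^ 2 * B) (D + 2 * r * B) r := by
      have h1 := (((hasDerivAt_id r).mul_const D).const_add A).add
        (((hasDerivAt_id r).pow 2).mul_const B)
      simp only [id_eq, Pi.pow_apply, one_mul, Nat.cast_ofNat, Nat.add_one_sub_one, pow_one, mul_one] at h1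
      exact h1
    exact this.deriv
  rw [iteratedDeriv_succ, iteratedDeriv_one, h1]
  have : HasDerivAt (fun r : ℝ => D + 2 * r * B) (2 * 1 * B) 0 :=
    (((hasDerivAt_id (0 : ℝ)).const_mul 2).mul_const B).const_add D
  rw [this.deriv]
  ring

end Aux

variable {E : Type*} [NormedAddCommGroup E] [NormedSpace ℝ E] [FiniteDimensional ℝ E]
  {M : Type*} [MetricSpace M] [ChartedSpace E M]
  [RiemannianBundle (fun x : M => TangentSpace 𝓘(ℝ, E) x)]
  [IsManifold 𝓘(ℝ, E) ∞ M]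
  [IsContMDiffRiemannianBundle 𝓘(ℝ, E) ∞ E (fun x : M => TangentSpace 𝓘(ℝ, E) x)]
  [CompactSpace M]
  {e : ∀ x : M, TangentSpace 𝓘(ℝ, E) x → M}

omit [CompactSpace M] in
lemma smul_mem_injDomain_of_lt (he : IsExp e) {z : M} {w : TangentSpace 𝓘(ℝ, E) z} {s s' : ℝ}
    (hs : 0 ≤ s) (hss : s < s') (hw : s' • w ∈ segMin e z) : s • w ∈ injDomain e z := by
  have hs' : 0 < s' := lt_of_le_of_lt hs hss
  have h1 : s • w = (s / s') • (s' • w) := by
    rw [smul_smul]
    congr 1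
    (clear * - hs'; field_simp)
  rw [h1]
  exact smul_mem_injDomain he hw (div_nonneg hs hs'.le) ((div_lt_one hs').mpr hss)

lemma Facts.smooth_pair (F : Facts e) {z : M} {w : TangentSpace 𝓘(ℝ, E) z} {s s' a : ℝ}
    (hs : 0 ≤ s) (hss : s ≤ s') (hsa : s' ≤ a) (ha : 0 < a) (hw : a • w ∈ segMin e z)
    (h : s' - s < a) : SmoothAt E (e z (s • w)) (e z (s' • w)) := by
  have h1 : s • w = (s / a) • (a • w) := by
    rw [smul_smul]
    congr 1
    (clear * - ha; field_simp)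
  have h2 : s' • w = (s' / a) • (a • w) := by
    rw [smul_smul]
    congr 1
    field_simp
  rw [h1, h2]
  apply F.smooth_between hw (div_nonneg hs ha.le) ((div_le_one ha).mpr (hss.trans hsa))
    (div_nonneg (hs.trans hss) ha.le) ((div_le_one ha).mpr hsa)
  rw [← sub_div, abs_of_nonneg (div_nonneg (sub_nonneg.mpr hss) ha.le), div_lt_one ha]
  exact h

lemma Facts.key_ineq (F : Facts e) {z : M} {w : TangentSpace 𝓘(ℝ, E) z} {s s' : ℝ}
    (hs : 0 < s) (hss : s < s') (hw : s' • w ∈ injDomain e z) (ξ μ : TangentSpace 𝓘(ℝ, E) z) :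
    costHess e z (s' • w) ξ ξ / s' ≤
      costHess e z (s • w) ξ ξ / s - 2 * inner ℝ ξ μ / s + ‖μ‖ ^ 2 / s +
        midHess e z (s • w) (s' • w) μ μ / (s' - s) := by
  have hwm := injDomain_subset_segMin F.isExp z hw
  have h1 : s • w ∈ injDomain e z := smul_mem_injDomain_of_lt F.isExp hs.le hss hwm
  exact Vale.Agent.P234.key_ineq F.isExp hs hss (F.eventually_segMin h1) hwm
    (F.smooth_cost z _ h1) (F.smooth_cost z _ hw)
    (F.smooth_pair hs.le hss.le le_rfl (hs.trans hss) hwm (by linarith)) ξ μ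

lemma Facts.costHess_strict (F : Facts e) {z : M} {w : TangentSpace 𝓘(ℝ, E) z} {s s' : ℝ}
    (hs : 0 < s) (hss : s < s') (hw : s' • w ∈ injDomain e z) {ξ : TangentSpace 𝓘(ℝ, E) z}
    (hξ : ξ ≠ 0) : costHess e z (s' • w) ξ ξ / s' < costHess e z (s • w) ξ ξ / s := by
  have hwm := injDomain_subset_segMin F.isExp z hw
  have h1 : s • w ∈ injDomain e z := smul_mem_injDomain_of_lt F.isExp hs.le hss hwm
  exact Vale.Agent.P234.costHess_strict F.isExp hs hss (F.eventually_segMin h1) hwm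
    (F.smooth_cost z _ h1) (F.smooth_cost z _ hw)
    (F.smooth_pair hs.le hss.le le_rfl (hs.trans hss) hwm (by linarith)) hξ

/-- Concavity consequence of weak MTW. -/
lemma Facts.concaveOn_costHess (F : Facts e) (hW : WeakMTW e) (z : M)
    {K : Set (TangentSpace 𝓘(ℝ, E) z)} (hK : Convex ℝ K) (hKI : K ⊆ injDomain e z)
    (w₀ ξ : TangentSpace 𝓘(ℝ, E) z) :
    ConcaveOn ℝ (K ∩ {u | inner ℝ (u - w₀) ξ = 0}) (fun u => costHess e z u ξ ξ) := by
  have hconv : Convex ℝ (K ∩ {u | inner ℝ (u - w₀) ξ = 0}) := by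
    apply hK.inter
    intro u hu v hv a b ha hb hab
    simp only [Set.mem_ofPred_eq] at hu hv ⊢
    have h1 : a • u + b • v - w₀ = a • (u - w₀) + b • (v - w₀) := by
      have : w₀ = a • w₀ + b • w₀ := by rw [← add_smul, hab, one_smul]
      rw [smul_sub, smul_sub]
      nth_rewrite 1 [this]
      abel
    rw [h1, inner_add_left, inner_smul_left, inner_smul_left, hu, hv]
    simp
  refine ⟨hconv, ?_⟩
  intro u0 hu0 u1 hu1 a b ha hb hab
  set η := u1 - u0 with hη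
  have hperp : inner ℝ ξ η = 0 := by
    have h0 : inner ℝ (u0 - w₀) ξ = 0 := hu0.2
    have h1 : inner ℝ (u1 - w₀) ξ = 0 := hu1.2
    have h2 : η = (u1 - w₀) - (u0 - w₀) := by rw [hη]; abel
    rw [real_inner_comm, h2, inner_sub_left, h0, h1, sub_zero]
  set f : ℝ → ℝ := fun t => costHess e z (u0 + t • η) ξ ξ with hf
  have hseg : ∀ t ∈ Icc (0 : ℝ) 1, u0 + t • η ∈ injDomain e z := by
    intro t ht
    apply hKI
    have h3 : u0 + t • η = (1 - t) • u0 + t • u1 := by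
      rw [hη, smul_sub, sub_smul, one_smul]
      abel
    rw [h3]
    exact hK hu0.1 hu1.1 (by linarith [ht.2]) ht.1 (by ring)
  have hsmooth : ∀ t ∈ Icc (0 : ℝ) 1, ContDiffAt ℝ ∞ f t := by
    intro t ht
    have h1 : ContDiffAt ℝ ∞ (costHess e z) (u0 + t • η) :=
      contDiffAt_costHess F.isExp (F.smooth_cost z _ (hseg t ht))
    have h2 : ContDiffAt ℝ ∞ (fun t : ℝ => u0 + t • η) t := by
      apply ContDiffAt.add contDiffAt_const
      exact contDiffAt_id.smul contDiffAt_const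
    have h3 : ContDiffAt ℝ ∞ (fun t : ℝ => costHess e z (u0 + t • η)) t :=
      ContDiffAt.comp (g := costHess e z) t h1 h2
    exact (h3.clm_apply contDiffAt_const).clm_apply contDiffAt_const
  have hconc : ConcaveOn ℝ (Icc (0 : ℝ) 1) f := by
    apply concaveOn_of_deriv2_nonpos' (convex_Icc 0 1)
    · intro t ht
      exact ((hsmooth t ht).differentiableAt (by simp)).differentiableWithinAt
    · intro t ht
      have h1 : ContDiffAt ℝ 1 (fderiv ℝ f) t :=
        (hsmooth t ht).fderiv_right (m := 1) (by norm_cast)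
      have h2 : DifferentiableAt ℝ (deriv f) t :=
        (h1.differentiableAt (by simp)).clm_apply (differentiableAt_const (1 : ℝ))
      exact h2.differentiableWithinAt
    · intro t ht
      have hv := hseg t ht
      have hm := hW z (u0 + t • η) hv ξ η hperp
      unfold mtw at hm
      have h1 : (fun s : ℝ => iteratedDeriv 2
          (fun r : ℝ => cost (e z (r • ξ)) (e z (u0 + t • η + s • η))) 0)
          =ᶠ[𝓝 0] (fun s : ℝ => f (t + s)) := by
        have h2 : ∀ᶠ s in 𝓝 (0 : ℝ), u0 + t • η + s • η ∈ injDomain e z := by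
          have h3 : ContinuousAt (fun s : ℝ => u0 + t • η + s • η) 0 := by
            apply Continuous.continuousAt
            exact continuous_const.add (continuous_id.smul continuous_const)
          have h4 : injDomain e z ∈ 𝓝 (u0 + t • η + (0 : ℝ) • η) := by
            rw [zero_smul, add_zero]
            exact (F.isOpen_injDomain z).mem_nhds hv
          exact h3 h4
        filter_upwards [h2] with s hs
        rw [iteratedDeriv_cost_eq F.isExp (F.smooth_cost z _ hs)]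
        simp only [hf]
        rw [add_smul, add_assoc]
      rw [h1.iteratedDeriv_eq 2] at hm
      have h5 := congrFun (iteratedDeriv_comp_const_add 2 f t) 0
      simp only [add_zero] at h5
      rw [h5] at hm
      have h6 : iteratedDeriv 2 f t = deriv^[2] f t := by
        rw [iteratedDeriv_eq_iterate]
      rw [h6] at hm
      linarith only [hm]
  have h7 := hconc.2 (left_mem_Icc.mpr zero_le_one) (right_mem_Icc.mpr zero_le_one) ha hb hab
  simp only [hf, zero_smul, add_zero, smul_eq_mul, one_smul, mul_zero, mul_one, zero_add] at h7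
  have h8 : u0 + η = u1 := by rw [hη]; abel
  have h9 : u0 + b • η = a • u0 + b • u1 := by
    have : a = 1 - b := by linarith only [hab]
    rw [hη, this, smul_sub, sub_smul, one_smul]
    abel
  rw [h8, h9] at h7
  exact h7

omit [FiniteDimensional ℝ E] [IsManifold 𝓘(ℝ, E) ∞ M]
  [IsContMDiffRiemannianBundle 𝓘(ℝ, E) ∞ E fun x : M => TangentSpace 𝓘(ℝ, E) x]
  [CompactSpace M] in
/-- cost to the point reached by a minimizing vector -/
lemma cost_of_segMin {z : M} {b : TangentSpace 𝓘(ℝ, E) z} (hb : b ∈ segMin e z) :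
    cost z (e z b) = ‖b‖ ^ 2 / 2 := by
  have h : dist z (e z b) = ‖b‖ := hb
  unfold cost
  rw [h]

/-- Nonnegativity of the Hessian of the two-piece functional along a minimizing geodesic. -/
lemma Facts.midHess_nonneg (F : Facts e) {z : M} {w : TangentSpace 𝓘(ℝ, E) z} {s s' : ℝ}
    (hs : 0 < s) (hss : s < s') (hw : s' • w ∈ segMin e z) (μ : TangentSpace 𝓘(ℝ, E) z) :
    0 ≤ ‖μ‖ ^ 2 / s + midHess e z (s • w) (s' • w) μ μ / (s' - s) := by
  have hs' : 0 < s' := hs.trans hss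
  have hd : 0 < s' - s := sub_pos.mpr hss
  have h1 : s • w ∈ injDomain e z := smul_mem_injDomain_of_lt F.isExp hs.le hss hw
  have h1m := injDomain_subset_segMin F.isExp z h1
  have hsm : SmoothAt E (e z (s • w)) (e z (s' • w)) :=
    F.smooth_pair hs.le hss.le le_rfl hs' hw (by linarith only [hs])
  set y := e z (s' • w) with hy
  set f1 : TangentSpace 𝓘(ℝ, E) z → ℝ := fun b => ‖b‖ ^ 2 / 2 with hf1
  set f2 : TangentSpace 𝓘(ℝ, E) z → ℝ := fun b => cost (e z b) y with hf2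
  have hc1 : ContDiffAt ℝ 2 f1 (s • w) := by
    have := (contDiff_half_sq (V := TangentSpace 𝓘(ℝ, E) z)).contDiffAt (x := s • w)
    exact this.of_le (by norm_cast)
  have hc2 : ContDiffAt ℝ 2 f2 (s • w) := by
    have h2 := SmoothAt.coord F.isExp (x := z) (q := z) (a := s • w) (b := s' • w) hsm
    have h3 : ContDiffAt ℝ ∞ (fun b : TangentSpace 𝓘(ℝ, E) z => (b, s' • w)) (s • w) :=
      contDiffAt_id.prodMk contDiffAt_const
    have h4 := ContDiffAt.comp (g := fun p : TangentSpace 𝓘(ℝ, E) z × TangentSpace 𝓘(ℝ, E) z =>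
      cost (e z p.1) (e z p.2)) (s • w) h2 h3
    exact h4.of_le (by norm_cast)
  set g : TangentSpace 𝓘(ℝ, E) z → ℝ := fun b => (1 / s) * f1 b + (1 / (s' - s)) * f2 b with hg
  have hcg : ContDiffAt ℝ 2 g (s • w) :=
    (contDiffAt_const.mul hc1).add (contDiffAt_const.mul hc2)
  have hmin : IsLocalMin g (s • w) := by
    have hev := F.eventually_segMin h1
    filter_upwards [hev] with b hb
    have h5 := cost_ineq z (e z b) y hs hd
    rw [cost_of_segMin hb] at h5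
    have h6 : cost z y = s' ^ 2 * ‖w‖ ^ 2 / 2 := by
      rw [hy, cost_of_segMin hw, norm_smul, mul_pow, Real.norm_eq_abs, sq_abs]
    have h7 : f2 (s • w) = (s' - s) ^ 2 * ‖w‖ ^ 2 / 2 := by
      have h8 := segMin_cost F.isExp hw (s := s / s') (t := 1) (div_nonneg hs.le hs'.le)
        ((div_le_one hs').mpr hss.le) le_rfl
      rw [one_smul, smul_smul, div_mul_cancel₀ _ hs'.ne'] at h8
      simp only [hf2]
      rw [hy, h8, norm_smul, Real.norm_eq_abs, abs_of_pos hs']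
      field_simp
    have h9 : g (s • w) = cost z y / (s + (s' - s)) := by
      simp only [hg]
      rw [h7, h6]
      simp only [hf1]
      rw [norm_smul, Real.norm_eq_abs, abs_of_pos hs]
      have h10 : s + (s' - s) = s' := by ring
      rw [h10]
      field_simp
      ring
    rw [h9]
    refine h5.trans (le_of_eq ?_)
    simp only [hg, hf1, hf2]
    ring
  have hh := hess_nonneg_of_isLocalMin hcg hmin μ
  rw [hg, hess_add (contDiffAt_const.mul hc1) (contDiffAt_const.mul hc2), hess_const_mul hc1,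
    hess_const_mul hc2] at hh
  have h11 : hess f1 (s • w) μ μ = ‖μ‖ ^ 2 := by
    rw [hf1, hess_half_sq, real_inner_self_eq_norm_sq]
  have h12 : hess f2 (s • w) μ μ = midHess e z (s • w) (s' • w) μ μ := rfl
  simp only [add_apply, smul_apply, h11, smul_eq_mul, h12] at hh
  refine hh.trans (le_of_eq ?_)
  ring

omit [CompactSpace M] in
lemma contDiffAt_cost_left (he : IsExp e) {z : M} {p : TangentSpace 𝓘(ℝ, E) z} {y : M}
    (q : TangentSpace 𝓘(ℝ, E) z) (hq : e z q = y) (h : SmoothAt E (e z p) y) :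
    ContDiffAt ℝ 2 (fun b : TangentSpace 𝓘(ℝ, E) z => cost (e z b) y) p := by
  subst hq
  have h2 := SmoothAt.coord he (x := z) (q := z) (a := p) (b := q) h
  have h3 : ContDiffAt ℝ ∞ (fun b : TangentSpace 𝓘(ℝ, E) z => (b, q)) p :=
    contDiffAt_id.prodMk contDiffAt_const
  have h4 := ContDiffAt.comp (g := fun p : TangentSpace 𝓘(ℝ, E) z × TangentSpace 𝓘(ℝ, E) z =>
    cost (e z p.1) (e z p.2)) p h2 h3
  exact h4.of_le (by norm_cast)

/-- Strict positivity when the geodesic is minimizing a little longer. -/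
lemma Facts.midHess_pos (F : Facts e) {z : M} {w : TangentSpace 𝓘(ℝ, E) z} {s s' : ℝ}
    (hs : 0 < s) (hss : s < s') (hw : s' • w ∈ injDomain e z) {μ : TangentSpace 𝓘(ℝ, E) z}
    (hμ : μ ≠ 0) : 0 < ‖μ‖ ^ 2 / s + midHess e z (s • w) (s' • w) μ μ / (s' - s) := by
  have hs' : 0 < s' := hs.trans hss
  obtain ⟨a, ha, haw⟩ := (mem_injDomain_iff F.isExp).mp hw
  rw [smul_smul] at haw
  set A := a * s' with hA
  have hA' : s' < A := by
    rw [hA]
    linarith only [mul_pos (sub_pos.2 ha) (sub_pos.2 hss), mul_pos (sub_pos.2 hs) (sub_pos.2 ha)]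
  set s'' := (s' + A) / 2 with hs''
  have h1 : s' < s'' := by rw [hs'']; linarith only [hA']
  have h2 : s'' < A := by rw [hs'']; linarith
  have hApos : 0 < A := hs'.trans hA'
  have hwI : s'' • w ∈ injDomain e z :=
    smul_mem_injDomain_of_lt F.isExp (hs'.trans h1).le h2 haw
  have hwm := injDomain_subset_segMin F.isExp z hwI
  have hpI : s • w ∈ injDomain e z :=
    smul_mem_injDomain_of_lt F.isExp hs.le ((hss.trans h1).trans h2) haw
  -- the flow vector at the middle point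
  obtain ⟨p, hp'⟩ : ∃ p, e z (s • w) = p := ⟨_, rfl⟩
  have hp : p = e z (s • w) := hp'.symm
  obtain ⟨wf, hwf, hflow⟩ := F.flow' w s hp'
  set y := e z (s' • w) with hy
  set y' := e z (s'' • w) with hy'
  have hyf : e p ((s' - s) • wf) = y := by
    rw [hflow, hy]
    congr 2
    ring
  have hyf' : e p ((s'' - s) • wf) = y' := by
    rw [hflow, hy']
    congr 2
    ring
  have hAf : (A - s) • wf ∈ segMin e p := by
    show dist p (e p ((A - s) • wf)) = ‖(A - s) • wf‖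
    rw [hflow]
    have h3 := segMin_dist F.isExp haw (s := s / A) (t := 1) (div_nonneg hs.le hApos.le)
      ((div_le_one hApos).mpr (by linarith only [hss, hA'])) le_rfl
    rw [one_smul, smul_smul, div_mul_cancel₀ _ hApos.ne', hp'] at h3
    have h4 : s + (A - s) = A := by ring
    rw [h4, h3, norm_smul, norm_smul, hwf, Real.norm_eq_abs, Real.norm_eq_abs,
      abs_of_pos hApos, abs_of_pos (by linarith only [hss, hA'] : 0 < A - s)]
    (clear * - hApos; field_simp)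
  have hI' : (s'' - s) • wf ∈ injDomain e p :=
    smul_mem_injDomain_of_lt F.isExp (by linarith only [hss, h1]) (by linarith) hAf
  have hI : (s' - s) • wf ∈ injDomain e p :=
    smul_mem_injDomain_of_lt F.isExp (by linarith only [hss]) (by linarith only [hA']) hAf
  have hS : SmoothAt E p y := by
    rw [← hyf]
    exact F.smooth_cost p _ hI
  have hS' : SmoothAt E p y' := by
    rw [← hyf']
    exact F.smooth_cost p _ hI'
  -- the function in coordinates at the middle point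
  set c1 : ℝ := 1 / (s' - s) with hc1
  set c2 : ℝ := -(1 / (s'' - s)) with hc2
  set g : TangentSpace 𝓘(ℝ, E) p → ℝ := fun a => c1 * cost (e p a) y + c2 * cost (e p a) y'
    with hg
  have he0 : e p 0 = p := F.isExp.map_zero p
  have hg1 : ContDiffAt ℝ 2 (fun a : TangentSpace 𝓘(ℝ, E) p => cost (e p a) y) 0 :=
    contDiffAt_cost_left F.isExp _ hyf (by rw [he0]; exact hS)
  have hg2 : ContDiffAt ℝ 2 (fun a : TangentSpace 𝓘(ℝ, E) p => cost (e p a) y') 0 :=
    contDiffAt_cost_left F.isExp _ hyf' (by rw [he0]; exact hS')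
  have hgs : ContDiffAt ℝ 2 g 0 :=
    (contDiffAt_const.mul hg1).add (contDiffAt_const.mul hg2)
  have hcrit : fderiv ℝ g 0 = 0 := by
    have h3 := hasFDerivAt_cost_zero F.isExp p ((s' - s) • wf)
      (injDomain_subset_segMin F.isExp p hI) (by rw [hyf]; exact hS)
    have h4 := hasFDerivAt_cost_zero F.isExp p ((s'' - s) • wf)
      (injDomain_subset_segMin F.isExp p hI') (by rw [hyf']; exact hS')
    rw [hyf] at h3
    rw [hyf'] at h4
    have h5 := (h3.const_mul c1).add (h4.const_mul c2)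
    have h6 := h5.fderiv
    have h7 : fderiv ℝ g 0 = c1 • -(innerSL ℝ) ((s' - s) • wf) +
        c2 • -(innerSL ℝ) ((s'' - s) • wf) := h6
    rw [h7]
    ext ξ
    simp only [add_apply, smul_apply, neg_apply, innerSL_apply_apply, inner_smul_left, smul_eq_mul, zero_apply]
    have e1 : s' - s ≠ 0 := by linarith only [hss]
    have e2 : s'' - s ≠ 0 := by linarith only [hss, h1]
    rw [hc1, hc2]
    simp only [RCLike.conj_to_real]
    field_simp
    ring
  have hpos : ∀ ξ : TangentSpace 𝓘(ℝ, E) p, ξ ≠ 0 → 0 < hess g 0 ξ ξ := by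
    intro ξ hξ
    have h3 := F.costHess_strict (z := p) (w := wf) (s := s' - s) (s' := s'' - s)
      (by linarith only [hss]) (by linarith only [h1]) hI' hξ
    rw [hg, hess_add (contDiffAt_const.mul hg1) (contDiffAt_const.mul hg2), hess_const_mul hg1,
      hess_const_mul hg2]
    have h4 : hess (fun a : TangentSpace 𝓘(ℝ, E) p => cost (e p a) y) 0
        = costHess e p ((s' - s) • wf) := by
      unfold costHess
      rw [hyf]
    have h5 : hess (fun a : TangentSpace 𝓘(ℝ, E) p => cost (e p a) y') 0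
        = costHess e p ((s'' - s) • wf) := by
      unfold costHess
      rw [hyf']
    rw [h4, h5]
    simp only [add_apply, smul_apply, smul_eq_mul, hc1, hc2]
    have h6 : 1 / (s' - s) * costHess e p ((s' - s) • wf) ξ ξ +
        -(1 / (s'' - s)) * costHess e p ((s'' - s) • wf) ξ ξ
        = costHess e p ((s' - s) • wf) ξ ξ / (s' - s) -
          costHess e p ((s'' - s) • wf) ξ ξ / (s'' - s) := by ring
    rw [h6]
    linarith only [h3]
  -- change of coordinates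
  have h0I : (0 : TangentSpace 𝓘(ℝ, E) p) ∈ injDomain e p := by
    have h3 := smul_mem_injDomain_of_lt F.isExp (le_refl (0 : ℝ))
      (by linarith only [hss, hA'] : (0 : ℝ) < A - s) hAf
    rwa [zero_smul] at h3
  obtain ⟨L, hL, hL0, hLe, hLb⟩ := F.smoothLog h0I
  obtain ⟨L', hL', hL0', hLe', hLb'⟩ := F.smoothLog hpI
  rw [he0] at hL hL0 hLe
  set ψ : TangentSpace 𝓘(ℝ, E) z → TangentSpace 𝓘(ℝ, E) p := fun b => L (e z b) with hψ
  have hψ0 : ψ (s • w) = 0 := by
    simp only [hψ, hp']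
    exact hL0
  have hez := contMDiff_exp_fiber F.isExp z
  have hep := contMDiff_exp_fiber F.isExp p
  have hψs : ContDiffAt ℝ ∞ ψ (s • w) := by
    rw [← contMDiffAt_iff_contDiffAt]
    refine ContMDiffAt.comp (s • w) ?_ hez.contMDiffAt
    rw [hp']
    exact hL
  have hΦs : ContDiffAt ℝ ∞ (fun a : TangentSpace 𝓘(ℝ, E) p => L' (e p a)) 0 := by
    rw [← contMDiffAt_iff_contDiffAt]
    refine ContMDiffAt.comp (0 : TangentSpace 𝓘(ℝ, E) p) ?_ hep.contMDiffAt
    rw [he0, hp]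
    exact hL'
  have hcont : Tendsto (e z) (𝓝 (s • w)) (𝓝 p) := by
    rw [hp]
    exact hez.continuous.continuousAt
  have hev : ∀ᶠ b in 𝓝 (s • w), e p (ψ b) = e z b :=
    (hcont.eventually hLe).mono fun b hb => hb.2
  have hcomp : ∀ᶠ b in 𝓝 (s • w), L' (e p (ψ b)) = b := by
    filter_upwards [hev, hLb'] with b hb1 hb2
    rw [hb1, hb2]
  have hinj : fderiv ℝ ψ (s • w) μ ≠ 0 := by
    intro h0
    have h3 : HasFDerivAt ψ (fderiv ℝ ψ (s • w)) (s • w) :=
      (hψs.differentiableAt (by simp)).hasFDerivAt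
    have h4 : HasFDerivAt (fun a : TangentSpace 𝓘(ℝ, E) p => L' (e p a))
        (fderiv ℝ (fun a : TangentSpace 𝓘(ℝ, E) p => L' (e p a)) 0) (ψ (s • w)) := by
      rw [hψ0]
      exact (hΦs.differentiableAt (by simp)).hasFDerivAt
    have h5 := h4.comp (s • w) h3
    have h6 : HasFDerivAt (fun b : TangentSpace 𝓘(ℝ, E) z => L' (e p (ψ b)))
        (ContinuousLinearMap.id ℝ (TangentSpace 𝓘(ℝ, E) z)) (s • w) := by
      refine (hasFDerivAt_id (s • w)).congr_of_eventuallyEq ?_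
      exact hcomp
    have h7 := h5.unique h6
    have h8 := congrArg (fun T : TangentSpace 𝓘(ℝ, E) z →L[ℝ] TangentSpace 𝓘(ℝ, E) z => T μ) h7
    simp only [ContinuousLinearMap.comp_apply, h0, map_zero, ContinuousLinearMap.id_apply] at h8
    exact hμ h8.symm
  have hmain : 0 < hess (fun b : TangentSpace 𝓘(ℝ, E) z => g (ψ b)) (s • w) μ μ := by
    rw [hess_comp_crit (hψs.of_le (by norm_cast)) (by rw [hψ0]; exact hgs)
      (by rw [hψ0]; exact hcrit), hψ0]
    exact hpos _ hinj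
  have hSz : SmoothAt E (e z (s • w)) y := by rw [hp']; exact hS
  have hSz' : SmoothAt E (e z (s • w)) y' := by rw [hp']; exact hS'
  have hf1 : ContDiffAt ℝ 2 (fun b : TangentSpace 𝓘(ℝ, E) z => cost (e z b) y) (s • w) :=
    contDiffAt_cost_left F.isExp _ hy.symm hSz
  have hf2 : ContDiffAt ℝ 2 (fun b : TangentSpace 𝓘(ℝ, E) z => cost (e z b) y') (s • w) :=
    contDiffAt_cost_left F.isExp _ hy'.symm hSz'
  have hgψ : (fun b : TangentSpace 𝓘(ℝ, E) z => g (ψ b)) =ᶠ[𝓝 (s • w)]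
      (fun b : TangentSpace 𝓘(ℝ, E) z => c1 * cost (e z b) y + c2 * cost (e z b) y') := by
    filter_upwards [hev] with b hb
    simp only [hg, hb]
  have hhess : hess (fun b : TangentSpace 𝓘(ℝ, E) z => g (ψ b)) (s • w)
      = c1 • midHess e z (s • w) (s' • w) + c2 • midHess e z (s • w) (s'' • w) := by
    have h3 : hess (fun b : TangentSpace 𝓘(ℝ, E) z => g (ψ b)) (s • w)
        = hess (fun b : TangentSpace 𝓘(ℝ, E) z =>
          c1 * cost (e z b) y + c2 * cost (e z b) y') (s • w) := by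
      unfold hess
      exact hgψ.fderiv.fderiv_eq
    rw [h3, hess_add (contDiffAt_const.mul hf1) (contDiffAt_const.mul hf2), hess_const_mul hf1,
      hess_const_mul hf2]
    rfl
  rw [hhess] at hmain
  simp only [hc1, hc2, add_apply, smul_apply, smul_eq_mul] at hmain
  have hnn := F.midHess_nonneg (s := s) (s' := s'') hs (hss.trans h1) hwm μ
  have h9 : 1 / (s' - s) * midHess e z (s • w) (s' • w) μ μ +
      -(1 / (s'' - s)) * midHess e z (s • w) (s'' • w) μ μ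
      = midHess e z (s • w) (s' • w) μ μ / (s' - s)
        - midHess e z (s • w) (s'' • w) μ μ / (s'' - s) := by ring
  rw [h9] at hmain
  linarith only [hmain, hnn]

omit [ChartedSpace E M] [RiemannianBundle (fun x : M => TangentSpace 𝓘(ℝ, E) x)]
  [IsManifold 𝓘(ℝ, E) ∞ M]
  [IsContMDiffRiemannianBundle 𝓘(ℝ, E) ∞ E fun x : M => TangentSpace 𝓘(ℝ, E) x]
  [CompactSpace M] in
/-- Equality case of the two-piece inequality. -/
lemma cost_eq_case (x m y : M) {s t : ℝ} (hs : 0 < s) (ht : 0 < t)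
    (h : cost x y / (s + t) = cost x m / s + cost m y / t) :
    dist x m + dist m y = dist x y ∧ (s + t) * dist x m = s * dist x y := by
  unfold cost at h
  have hD := dist_triangle x m y
  have ha := dist_nonneg (x := x) (y := m)
  have hb := dist_nonneg (x := m) (y := y)
  have hD0 := dist_nonneg (x := x) (y := y)
  set a := dist x m
  set b := dist m y
  set D := dist x y
  have hst : 0 < s + t := by linarith only [hs, ht]
  have h1 : (t * a - s * b) ^ 2 + s * t * ((a + b) ^ 2 - D ^ 2) = 0 := by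
    field_simp at h
    linarith
  have h2 : D ^ 2 ≤ (a + b) ^ 2 := by nlinarith only [hD, hD0]
  have h3 : 0 ≤ s * t * ((a + b) ^ 2 - D ^ 2) := mul_nonneg (by positivity) (by linarith only [h2])
  have h4 : (t * a - s * b) ^ 2 = 0 := by nlinarith only [h1, h3]
  have h5 : s * t * ((a + b) ^ 2 - D ^ 2) = 0 := by linarith
  have h6 : t * a - s * b = 0 := by simpa only [ne_eq, OfNat.ofNat_ne_zero, not_false_eq_true, pow_eq_zero_iff] using h4
  have h7 : (a + b) ^ 2 = D ^ 2 := by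
    have : (a + b) ^ 2 - D ^ 2 = 0 := by
      rcases mul_eq_zero.mp h5 with h8 | h8
      · exact absurd h8 (by positivity)
      · exact h8
    linarith only [this]
  have h8 : a + b = D := by
    have := abs_eq_abs.mpr (sq_eq_sq_iff_eq_or_eq_neg.mp h7)
    rwa [abs_of_nonneg (by linarith only [ha, hb]), abs_of_nonneg hD0] at this
  refine ⟨h8, ?_⟩
  rw [← h8]
  linarith only [h6]

/-- For endpoints near `z` there are optimal middle points near `e z (s • w)`. -/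
lemma Facts.exists_mid_near (F : Facts e) {z : M} {w : TangentSpace 𝓘(ℝ, E) z} {s s' : ℝ}
    (hs : 0 < s) (hss : s < s') (hw : s' • w ∈ injDomain e z) (ξ : TangentSpace 𝓘(ℝ, E) z)
    {δ : ℝ} (hδ : 0 < δ) :
    ∀ᶠ r in 𝓝 (0 : ℝ), ∃ b : TangentSpace 𝓘(ℝ, E) z, ‖b - s • w‖ < δ ∧
      cost (e z (r • ξ)) (e z (s' • w)) / s' =
        cost (e z (r • ξ)) (e z b) / s + cost (e z b) (e z (s' • w)) / (s' - s) := by
  by_contra hcon
  rw [Filter.not_eventually] at hcon
  obtain ⟨r, hr, hrn⟩ := exists_seq_forall_of_frequently hcon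
  have hs' : 0 < s' := hs.trans hss
  have hd : 0 < s' - s := sub_pos.mpr hss
  have hwm := injDomain_subset_segMin F.isExp z hw
  have hpI : s • w ∈ injDomain e z := smul_mem_injDomain_of_lt F.isExp hs.le hss hwm
  set y := e z (s' • w) with hy
  choose n hn using fun k => F.exists_between (e z (r k • ξ)) y hs hd
  obtain ⟨n0, φ, hφ, hnφ⟩ := CompactSpace.tendsto_subseq n
  choose u hu1 hu2 using fun k => F.hopfRinow z (n k)
  have hst : s + (s' - s) = s' := by ring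
  -- the limit point is the middle point
  have hx : Tendsto (fun k => e z (r (φ k) • ξ)) atTop (𝓝 z) := by
    have h1 : Continuous (fun t : ℝ => e z (t • ξ)) :=
      (contMDiff_exp_fiber F.isExp z).continuous.comp (continuous_id.smul continuous_const)
    have h2 : Tendsto (fun k => e z (r (φ k) • ξ)) atTop (𝓝 (e z ((0 : ℝ) • ξ))) :=
      (h1.tendsto 0).comp (hr.comp hφ.tendsto_atTop)
    rwa [zero_smul, F.isExp.map_zero] at h2
  have hlim : cost z y / (s + (s' - s)) = cost z n0 / s + cost n0 y / (s' - s) := by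
    have h1 : Tendsto (fun k => cost (e z (r (φ k) • ξ)) y / (s + (s' - s))) atTop
        (𝓝 (cost z y / (s + (s' - s)))) :=
      ((continuous_cost.tendsto (z, y)).comp (hx.prodMk_nhds tendsto_const_nhds)).div_const _
    have h2 : Tendsto (fun k => cost (e z (r (φ k) • ξ)) (n (φ k)) / s +
        cost (n (φ k)) y / (s' - s)) atTop (𝓝 (cost z n0 / s + cost n0 y / (s' - s))) :=
      (((continuous_cost.tendsto (z, n0)).comp (hx.prodMk_nhds hnφ)).div_const _).add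
        (((continuous_cost.tendsto (n0, y)).comp (hnφ.prodMk_nhds tendsto_const_nhds)).div_const _)
    refine tendsto_nhds_unique h1 (h2.congr fun k => ?_)
    exact (hn (φ k)).symm
  obtain ⟨h1, h2⟩ := cost_eq_case z n0 y hs hd hlim
  rw [hst] at h2
  obtain ⟨w', hw', hw'y, t, ht0, ht1, htn, htd⟩ := F.between h1
  have h3 : w' = s' • w := F.injDomain_unique hw hw' (by rw [hw'y])
  have h4 : n0 = e z (s • w) := by
    rw [← htn, h3, smul_smul]
    by_cases hw0 : w = 0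
    · rw [hw0, smul_zero, smul_zero]
    · congr 2
      have h5 : 0 < ‖w'‖ := by
        rw [h3, norm_smul, Real.norm_eq_abs, abs_of_pos hs']
        exact mul_pos hs' (norm_pos_iff.mpr hw0)
      have h6 : dist z y = ‖w'‖ := by
        rw [← hw'y]
        exact hw'
      rw [htd, h6] at h2
      have h7 : (s' * t - s) * ‖w'‖ = 0 := by linarith only [h2]
      rcases mul_eq_zero.mp h7 with h8 | h8
      · linarith only [h8]
      · exact absurd h8 h5.ne'
  rw [h4] at hnφ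
  -- minimizing vectors converge
  have hTB : TendstoTB (z := fun _ => z) (fun k => u (φ k)) (s • w) := by
    apply F.segMin_tendsto tendsto_const_nhds hpI
    · intro k
      show dist z (e z (u (φ k))) = ‖u (φ k)‖
      rw [hu1, hu2]
    · simp only [hu1]
      exact hnφ
  rw [tendstoTB_const_base] at hTB
  have hev : ∀ᶠ k in atTop, ‖u (φ k) - s • w‖ < δ := by
    have h5 := (tendsto_iff_norm_sub_tendsto_zero.mp hTB).eventually (gt_mem_nhds hδ)
    exact h5
  obtain ⟨k, hk⟩ := hev.exists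
  apply hrn (φ k)
  refine ⟨u (φ k), hk, ?_⟩
  have h5 := hn (φ k)
  rw [hst] at h5
  rw [h5, hu1]

/-- Lower bound for the Hessian by completing the square: if the two-piece functional
is uniformly convex in the middle point, the Hessian is bounded below. -/
lemma Facts.costHess_lower (F : Facts e) {z : M} {w : TangentSpace 𝓘(ℝ, E) z} {s s' κ : ℝ}
    (hs : 0 < s) (hss : s < s') (hw : s' • w ∈ injDomain e z) (hκ : 0 < κ)
    (hQ : ∀ μ : TangentSpace 𝓘(ℝ, E) z,
      κ * ‖μ‖ ^ 2 ≤ ‖μ‖ ^ 2 / s + midHess e z (s • w) (s' • w) μ μ / (s' - s))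
    (ξ : TangentSpace 𝓘(ℝ, E) z) :
    costHess e z (s • w) ξ ξ / s - ‖ξ‖ ^ 2 / (s ^ 2 * κ) ≤ costHess e z (s' • w) ξ ξ / s' := by
  have hs' : 0 < s' := hs.trans hss
  have hd : 0 < s' - s := sub_pos.mpr hss
  have hwm := injDomain_subset_segMin F.isExp z hw
  have hpI : s • w ∈ injDomain e z := smul_mem_injDomain_of_lt F.isExp hs.le hss hwm
  have hN := F.eventually_segMin hpI
  have hS1 := F.smooth_cost z _ hpI
  have hS2 := F.smooth_cost z _ hw
  have hS3 : SmoothAt E (e z (s • w)) (e z (s' • w)) :=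
    F.smooth_pair hs.le hss.le le_rfl hs' hwm (by linarith)
  have he0 : e z 0 = z := F.isExp.map_zero z
  set y := e z (s' • w) with hy
  set F1 : TangentSpace 𝓘(ℝ, E) z × TangentSpace 𝓘(ℝ, E) z → ℝ :=
    fun p => cost (e z p.1) (e z p.2) with hF1
  set f2 : TangentSpace 𝓘(ℝ, E) z → ℝ := fun b => cost (e z b) y with hf2
  set F2 : TangentSpace 𝓘(ℝ, E) z × TangentSpace 𝓘(ℝ, E) z → ℝ := fun p => f2 p.2 with hF2
  have hF1c : ContDiffAt ℝ 2 F1 (0, s • w) := by
    have h1 := SmoothAt.coord F.isExp (x := z) (q := z) (a := 0) (b := s • w)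
      (by rw [he0]; exact hS1)
    exact h1.of_le (by norm_cast)
  have hf2c : ContDiffAt ℝ 2 f2 (s • w) := contDiffAt_cost_left F.isExp _ hy.symm hS3
  have hF2c : ContDiffAt ℝ 2 F2 (0, s • w) :=
    ContDiffAt.comp (g := f2) ((0 : TangentSpace 𝓘(ℝ, E) z), s • w) hf2c contDiffAt_snd
  set G : TangentSpace 𝓘(ℝ, E) z × TangentSpace 𝓘(ℝ, E) z → ℝ :=
    fun p => (1 / s) * F1 p + (1 / (s' - s)) * F2 p with hG
  have hGc : ContDiffAt ℝ 2 G (0, s • w) :=
    (contDiffAt_const.mul hF1c).add (contDiffAt_const.mul hF2c)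
  -- second derivative of the two-piece functional
  have hGh : ∀ α μ : TangentSpace 𝓘(ℝ, E) z, hess G (0, s • w) (α, μ) (α, μ)
      = costHess e z (s • w) α α / s - 2 * inner ℝ α μ / s + (‖μ‖ ^ 2 / s +
        midHess e z (s • w) (s' • w) μ μ / (s' - s)) := by
    intro α μ
    rw [hG, hess_add (contDiffAt_const.mul hF1c) (contDiffAt_const.mul hF2c),
      hess_const_mul hF1c, hess_const_mul hF2c]
    have h1 := hess_pair F.isExp hN hS1 α μ
    have h2 : hess F2 (0, s • w) (α, μ) (α, μ) = midHess e z (s • w) (s' • w) μ μ := by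
      have h3 := hess_comp_affine (f := f2) (x₀ := s • w) hf2c
        (ContinuousLinearMap.snd ℝ (TangentSpace 𝓘(ℝ, E) z) (TangentSpace 𝓘(ℝ, E) z))
        ((0 : TangentSpace 𝓘(ℝ, E) z), s • w) 0 (by simp) (α, μ) (α, μ)
      simp only [zero_add] at h3
      exact h3
    simp only [add_apply, smul_apply, smul_eq_mul]
    rw [h2]
    have h4 : hess F1 (0, s • w) (α, μ) (α, μ)
        = costHess e z (s • w) α α - 2 * inner ℝ α μ + ‖μ‖ ^ 2 := h1
    rw [h4]
    ring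
  -- the partial derivative in the middle variable vanishes
  have hmin : IsLocalMin (fun b : TangentSpace 𝓘(ℝ, E) z => G (0, b)) (s • w) := by
    filter_upwards [hN] with b hb
    have h5 := cost_ineq z (e z b) y hs hd
    have h6 : cost z y = s' ^ 2 * ‖w‖ ^ 2 / 2 := by
      rw [hy, cost_of_segMin hwm, norm_smul, mul_pow, Real.norm_eq_abs, sq_abs]
    have h8 := segMin_cost F.isExp hwm (s := s / s') (t := 1) (div_nonneg hs.le hs'.le)
        ((div_le_one hs').mpr hss.le) le_rfl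
    rw [one_smul, smul_smul, div_mul_cancel₀ _ hs'.ne', norm_smul, Real.norm_eq_abs,
      abs_of_pos hs', ← hy] at h8
    have h9 : cost z (e z (s • w)) = s ^ 2 * ‖w‖ ^ 2 / 2 := by
      rw [cost_of_segMin (injDomain_subset_segMin F.isExp z hpI), norm_smul, mul_pow,
        Real.norm_eq_abs, sq_abs]
    have h10 : G (0, s • w) = cost z y / (s + (s' - s)) := by
      simp only [hG, hF1, hF2, hf2, he0]
      rw [h8, h9, h6]
      have h10 : s + (s' - s) = s' := by ring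
      rw [h10]
      field_simp
      ring
    rw [h10]
    refine h5.trans (le_of_eq ?_)
    simp only [hG, hF1, hF2, hf2, he0]
    ring
  have hDb : ∀ μ : TangentSpace 𝓘(ℝ, E) z, fderiv ℝ G (0, s • w) (0, μ) = 0 := by
    intro μ
    have h1 : HasFDerivAt G (fderiv ℝ G (0, s • w)) (0, s • w) :=
      (hGc.differentiableAt (by simp)).hasFDerivAt
    have h2 : HasFDerivAt (fun b : TangentSpace 𝓘(ℝ, E) z =>
        ((0 : TangentSpace 𝓘(ℝ, E) z), b)) (ContinuousLinearMap.inr ℝ _ _) (s • w) :=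
      hasFDerivAt_prodMk_right _ _
    have h3 := h1.comp (s • w) h2
    have h4 := hmin.hasFDerivAt_eq_zero h3
    have h5 := congrArg (fun T : TangentSpace 𝓘(ℝ, E) z →L[ℝ] ℝ => T μ) h4
    exact h5
  set Hs := costHess e z (s • w) ξ ξ with hHs
  set D : ℝ := fderiv ℝ G (0, s • w) (ξ, 0) with hD
  set h0 : ℝ := cost z y / s' with hh0
  have hG0 : G (0, s • w) = h0 := by
    have h1 := hmin
    have h8 := segMin_cost F.isExp hwm (s := s / s') (t := 1) (div_nonneg hs.le hs'.le)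
        ((div_le_one hs').mpr hss.le) le_rfl
    rw [one_smul, smul_smul, div_mul_cancel₀ _ hs'.ne', norm_smul, Real.norm_eq_abs,
      abs_of_pos hs', ← hy] at h8
    have h9 : cost z (e z (s • w)) = s ^ 2 * ‖w‖ ^ 2 / 2 := by
      rw [cost_of_segMin (injDomain_subset_segMin F.isExp z hpI), norm_smul, mul_pow,
        Real.norm_eq_abs, sq_abs]
    have h6 : cost z y = s' ^ 2 * ‖w‖ ^ 2 / 2 := by
      rw [hy, cost_of_segMin hwm, norm_smul, mul_pow, Real.norm_eq_abs, sq_abs]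
    simp only [hG, hF1, hF2, hf2, he0, hh0]
    rw [h8, h9, h6]
    field_simp
    ring
  -- for every small epsilon
  have hclaim : ∀ ε : ℝ, 0 < ε → 2 * ε < κ →
      Hs / s - ‖ξ‖ ^ 2 / (s ^ 2 * (κ - 2 * ε)) - 2 * ε * ‖ξ‖ ^ 2 ≤
        costHess e z (s' • w) ξ ξ / s' := by
    intro ε hε hεκ
    obtain ⟨δ, hδ, hT⟩ := taylor2 hGc hε
    set B : ℝ := (Hs / s - ‖ξ‖ ^ 2 / (s ^ 2 * (κ - 2 * ε)) - 2 * ε * ‖ξ‖ ^ 2) / 2 with hB
    have hk : 0 < κ - 2 * ε := by linarith only [hεκ]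
    have hsmall : ∀ᶠ r in 𝓝 (0 : ℝ), ‖r • ξ‖ < δ := by
      have h1 : Tendsto (fun r : ℝ => ‖r • ξ‖) (𝓝 0) (𝓝 ‖(0 : ℝ) • ξ‖) :=
        ((continuous_id.smul continuous_const).norm).tendsto 0
      rw [zero_smul, norm_zero] at h1
      exact h1.eventually (gt_mem_nhds hδ)
    have hlow : ∀ᶠ r in 𝓝 (0 : ℝ),
        h0 + r * D + r ^ 2 * B ≤ cost (e z (r • ξ)) y / s' := by
      filter_upwards [F.exists_mid_near hs hss hw ξ hδ, hsmall] with r hr1 hr2
      obtain ⟨b, hb, hbe⟩ := hr1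
      rw [hbe]
      set h : TangentSpace 𝓘(ℝ, E) z := b - s • w with hh
      have h1 := hT (0, s • w) (r • ξ, h) (by simpa using hδ) (by
        rw [Prod.norm_def]
        exact max_lt hr2 hb)
      have h2 : ((0 : TangentSpace 𝓘(ℝ, E) z), s • w) + (r • ξ, h) = (r • ξ, b) := by
        rw [Prod.mk_add_mk, zero_add, hh]
        congr 1
        abel
      rw [h2, hG0, hGh] at h1
      have h3 : fderiv ℝ G (0, s • w) (r • ξ, h) = r * D := by
        have h4 : ((r • ξ, h) : TangentSpace 𝓘(ℝ, E) z × TangentSpace 𝓘(ℝ, E) z)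
            = r • (ξ, (0 : TangentSpace 𝓘(ℝ, E) z)) + ((0 : TangentSpace 𝓘(ℝ, E) z), h) := by
          simp
        rw [h4, map_add, map_smul, hDb, add_zero, smul_eq_mul, hD]
      rw [h3] at h1
      have h4 : ‖((r • ξ, h) : TangentSpace 𝓘(ℝ, E) z × TangentSpace 𝓘(ℝ, E) z)‖ ^ 2
          ≤ r ^ 2 * ‖ξ‖ ^ 2 + ‖h‖ ^ 2 := by
        rw [Prod.norm_def]
        have h5 : ‖r • ξ‖ ^ 2 = r ^ 2 * ‖ξ‖ ^ 2 := by
          rw [norm_smul, mul_pow, Real.norm_eq_abs, sq_abs]
        rcases max_cases ‖r • ξ‖ ‖h‖ with ⟨h6, -⟩ | ⟨h6, -⟩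
        · simp only [h6, h5]
          linarith only [sq_nonneg ‖h‖]
        · simp only [h6]
          have : 0 ≤ r ^ 2 * ‖ξ‖ ^ 2 := by (clear * -; positivity)
          linarith only [this]
      have h5 := hQ h
      have h6 : costHess e z (s • w) (r • ξ) (r • ξ) = r ^ 2 * Hs := by
        rw [map_smul, hHs]
        simp only [smul_apply, map_smul, smul_eq_mul]
        ring
      have h7 : inner ℝ (r • ξ) h = r * inner ℝ ξ h := by
        rw [inner_smul_left]
        simp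
      rw [h6, h7] at h1
      have h8 : |inner ℝ ξ h| ≤ ‖ξ‖ * ‖h‖ := abs_real_inner_le_norm ξ h
      have h9 : G (r • ξ, b) = cost (e z (r • ξ)) (e z b) / s + cost (e z b) y / (s' - s) := by
        simp only [hG, hF1, hF2, hf2]
        ring
      rw [h9] at h1
      have h10 := (abs_le.mp h1).1
      -- complete the square
      have h11 : - (r ^ 2 * ‖ξ‖ ^ 2 / (2 * s ^ 2 * (κ - 2 * ε))) ≤
          (κ - 2 * ε) / 2 * ‖h‖ ^ 2 - r * inner ℝ ξ h / s := by
        have h12 : r * inner ℝ ξ h / s ≤ |r| * (‖ξ‖ * ‖h‖) / s := by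
          apply div_le_div_of_nonneg_right _ hs.le
          calc r * inner ℝ ξ h ≤ |r * inner ℝ ξ h| := le_abs_self _
            _ = |r| * |inner ℝ ξ h| := abs_mul _ _
            _ ≤ |r| * (‖ξ‖ * ‖h‖) := mul_le_mul_of_nonneg_left h8 (abs_nonneg r)
        have h13 : 0 ≤ ((κ - 2 * ε) * s * ‖h‖ - |r| * ‖ξ‖) ^ 2 / (2 * s ^ 2 * (κ - 2 * ε)) := by
          (clear * - hs hεκ; positivity)
        have h14 : ((κ - 2 * ε) * s * ‖h‖ - |r| * ‖ξ‖) ^ 2 / (2 * s ^ 2 * (κ - 2 * ε))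
            = (κ - 2 * ε) / 2 * ‖h‖ ^ 2 - |r| * (‖ξ‖ * ‖h‖) / s
              + r ^ 2 * ‖ξ‖ ^ 2 / (2 * s ^ 2 * (κ - 2 * ε)) := by
          rw [← sq_abs r]
          field_simp
          ring
        rw [h14] at h13
        linarith only [h13, h12]
      have h15 : r ^ 2 * B = r ^ 2 * Hs / s / 2 - r ^ 2 * ‖ξ‖ ^ 2 / (2 * s ^ 2 * (κ - 2 * ε))
          - ε * (r ^ 2 * ‖ξ‖ ^ 2) := by
        rw [hB]
        (clear * - hk hs; field_simp)
      rw [h15]
      have h16 := mul_le_mul_of_nonneg_left h4 hε.le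
      have h17 : r ^ 2 * Hs / s = r ^ 2 * Hs / s := rfl
      have h18 : 2 * (r * inner ℝ ξ h) / s = 2 * (r * inner ℝ ξ h / s) := by ring
      rw [h18] at h10
      linarith only [h5, h10, h11, h16]
    have hgc : ContDiffAt ℝ 2 (fun a : TangentSpace 𝓘(ℝ, E) z => cost (e z a) y) 0 :=
      contDiffAt_cost_left F.isExp _ hy.symm (by rw [he0]; exact hS2)
    have hgr : ContDiffAt ℝ 2 (fun r : ℝ => cost (e z (r • ξ)) y) 0 := by
      refine ContDiffAt.comp (g := fun a : TangentSpace 𝓘(ℝ, E) z => cost (e z a) y)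
        (f := fun r : ℝ => r • ξ) (0 : ℝ) ?_ (contDiffAt_id.smul contDiffAt_const)
      rw [zero_smul]
      exact hgc
    have hqr : ContDiffAt ℝ 2 (fun r : ℝ => h0 + r * D + r ^ 2 * B) 0 := by
      apply ContDiff.contDiffAt
      fun_prop
    have hmin2 : IsLocalMin (fun r : ℝ => (1 / s') * cost (e z (r • ξ)) y +
        (-1) * (h0 + r * D + r ^ 2 * B)) 0 := by
      filter_upwards [hlow] with r hr
      rw [zero_smul, he0]
      have h1 : 1 / s' * cost z y + -1 * (h0 + 0 * D + 0 ^ 2 * B) = 0 := by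
        rw [hh0]
        ring
      rw [h1]
      have h2 : 1 / s' * cost (e z (r • ξ)) y = cost (e z (r • ξ)) y / s' := by ring
      rw [h2]
      linarith only [hr]
    have h20 := hess_nonneg_of_isLocalMin
      ((contDiffAt_const.mul hgr).add (contDiffAt_const.mul hqr)) hmin2 1
    rw [hess_add (contDiffAt_const.mul hgr) (contDiffAt_const.mul hqr), hess_const_mul hgr,
      hess_const_mul hqr] at h20
    simp only [add_apply, smul_apply, smul_eq_mul] at h20
    have h21 := iteratedDeriv_two_line hgr (1 : ℝ)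
    have h22 := iteratedDeriv_two_line hqr (1 : ℝ)
    simp only [smul_eq_mul, mul_one, zero_add] at h21 h22
    rw [← h21, ← h22, quad_iter] at h20
    have h23 := iteratedDeriv_cost_eq F.isExp (z := z) (v := s' • w) hS2 ξ
    rw [← hy] at h23
    rw [h23] at h20
    have h24 : 1 / s' * costHess e z (s' • w) ξ ξ = costHess e z (s' • w) ξ ξ / s' := by ring
    rw [h24] at h20
    rw [hB] at h20
    linarith only [h20]
  -- let epsilon tend to zero
  have hlim : Tendsto (fun ε : ℝ => Hs / s - ‖ξ‖ ^ 2 / (s ^ 2 * (κ - 2 * ε)) - 2 * ε * ‖ξ‖ ^ 2)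
      (𝓝[>] 0) (𝓝 (Hs / s - ‖ξ‖ ^ 2 / (s ^ 2 * κ))) := by
    have h1 : ContinuousAt (fun ε : ℝ => Hs / s - ‖ξ‖ ^ 2 / (s ^ 2 * (κ - 2 * ε))
        - 2 * ε * ‖ξ‖ ^ 2) 0 := by
      apply ContinuousAt.sub
      · apply ContinuousAt.sub continuousAt_const
        apply ContinuousAt.div continuousAt_const
        · fun_prop
        · simp only [mul_zero, sub_zero]
          positivity
      · fun_prop
    have h2 := h1.tendsto
    simp only [mul_zero, sub_zero, zero_mul] at h2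
    exact h2.mono_left nhdsWithin_le_nhds
  apply le_of_tendsto hlim
  have h1 : ∀ᶠ ε in 𝓝[>] (0 : ℝ), 2 * ε < κ := by
    have h2 : ∀ᶠ ε in 𝓝 (0 : ℝ), 2 * ε < κ := by
      have h3 : ContinuousAt (fun ε : ℝ => 2 * ε) 0 := by fun_prop
      apply h3.eventually (gt_mem_nhds _)
      simpa using hκ
    exact h2.filter_mono nhdsWithin_le_nhds
  filter_upwards [h1, self_mem_nhdsWithin] with ε hε1 hε2
  exact hclaim ε hε2 hε1

end

end Vale.Agent.P234
end
end
end

section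

section

section

/-! Step B: nondegeneracy (no focal points). -/

set_option maxSynthPendingDepth 3

open Bundle Manifold Set Filter
open scoped ContDiff Manifold Topology

namespace Vale.Agent.P234

noncomputable section

variable {E : Type*} [NormedAddCommGroup E] [NormedSpace ℝ E] [FiniteDimensional ℝ E]
  {M : Type*} [MetricSpace M] [ChartedSpace E M]
  [RiemannianBundle (fun x : M => TangentSpace 𝓘(ℝ, E) x)]
  [IsManifold 𝓘(ℝ, E) ∞ M]
  [IsContMDiffRiemannianBundle 𝓘(ℝ, E) ∞ E (fun x : M => TangentSpace 𝓘(ℝ, E) x)]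
  [CompactSpace M]
  {e : ∀ x : M, TangentSpace 𝓘(ℝ, E) x → M}

lemma Facts.smoothAt_mid (F : Facts e) {z : M} {w : TangentSpace 𝓘(ℝ, E) z} {θ τ₁ : ℝ}
    (hθ : 0 < θ) (hθτ : θ < τ₁) (hw : τ₁ • w ∈ segMin e z) :
    SmoothAt E (e z (θ • w)) (e z (τ₁ • w)) := by
  have h1 : 0 < τ₁ := lt_trans hθ hθτ
  have h2 := F.smooth_between hw (s := θ / τ₁) (t := 1) (by positivity)
    ((div_le_one h1).2 hθτ.le) zero_le_one le_rfl (by
      rw [abs_of_nonneg]
      · have : 0 < θ / τ₁ := by positivity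
        linarith only [this]
      · have : θ / τ₁ ≤ 1 := (div_le_one h1).2 hθτ.le
        linarith only [this])
  rwa [smul_smul, div_mul_cancel₀ _ h1.ne', one_smul] at h2

/-- The abstract Hessian data of a tangent space. -/
def Facts.hessData (F : Facts e) (hW : WeakMTW e) (z : M) :
    HessData (TangentSpace 𝓘(ℝ, E) z) where
  I := injDomain e z
  S := segMin e z
  H := costHess e z
  K := midHess e z
  smul_mem _ hw _ h0 h1 := smul_mem_injDomain F.isExp hw h0 h1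
  contH w hw := (contDiffAt_costHess F.isExp (F.smooth_cost z w hw)).continuousAt
  symm w hw a b := costHess_symm F.isExp (F.smooth_cost z w hw) a b
  radial w hw a := costHess_radial F.isExp (injDomain_subset_segMin F.isExp z hw)
    (F.smooth_cost z w hw) a
  smoothK _ _ _ hs hss hw := contDiffAt_midHess F.isExp (F.smoothAt_mid hs hss hw)
  key _ _ _ hs hss hw ξ μ := F.key_ineq hs hss hw ξ μ
  strict _ _ _ hs hss hw _ hξ := F.costHess_strict hs hss hw hξ
  concave _ hD hDI w₀ ξ := F.concaveOn_costHess hW z hD hDI w₀ ξ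
  mid_nonneg _ _ _ hs hss hw μ := F.midHess_nonneg hs hss hw μ
  mid_pos _ _ _ hs hss hw _ hμ := F.midHess_pos hs hss hw hμ
  lower _ _ _ _ hs hss hw hκ hQ ξ := F.costHess_lower hs hss hw hκ hQ ξ

end

end Vale.Agent.P234
end
end
end

section

section

section

/-! Step D: uniform strict local minimality. -/

set_option maxSynthPendingDepth 3

open Bundle Manifold Set Filter
open scoped ContDiff Manifold Topology

namespace Vale.Agent.P234

noncomputable section

variable {E : Type*} [NormedAddCommGroup E] [NormedSpace ℝ E] [FiniteDimensional ℝ E]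
  {M : Type*} [MetricSpace M] [ChartedSpace E M]
  [RiemannianBundle (fun x : M => TangentSpace 𝓘(ℝ, E) x)]
  [IsManifold 𝓘(ℝ, E) ∞ M]
  [IsContMDiffRiemannianBundle 𝓘(ℝ, E) ∞ E (fun x : M => TangentSpace 𝓘(ℝ, E) x)]
  [CompactSpace M]
  {e : ∀ x : M, TangentSpace 𝓘(ℝ, E) x → M}

set_option backward.isDefEq.respectTransparency false in
omit [CompactSpace M] in
/-- Gradient formula with a free centre: the same linear map works for all targets. -/
lemma exists_dexp (he : IsExp e) {x z : M} {a : TangentSpace 𝓘(ℝ, E) x} (hz : e x a = z) :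
    ∃ L : TangentSpace 𝓘(ℝ, E) x →L[ℝ] TangentSpace 𝓘(ℝ, E) z,
      ∀ v ∈ segMin e z, ∀ y, e z v = y → SmoothAt E z y → ∀ ξ,
        fderiv ℝ (fun a' : TangentSpace 𝓘(ℝ, E) x => cost (e x a') y) a ξ = -inner ℝ v (L ξ) := by
  subst hz
  refine ⟨mfderiv 𝓘(ℝ, TangentSpace 𝓘(ℝ, E) x) 𝓘(ℝ, E) (e x) a, ?_⟩
  rintro v hv y rfl hs ξ
  have h := (hasFDerivAt_cost he x a v hv hs).fderiv
  exact congrArg (fun L : TangentSpace 𝓘(ℝ, E) x →L[ℝ] ℝ => L ξ) h

/-- The two-piece functional is critical at the middle point. -/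
lemma Facts.mid_crit (F : Facts e) {θ δ ρ : ℝ} (hθ : 0 < θ) (hδ : 0 < δ)
    (hρmin : ∀ (x : M) (v : TangentSpace 𝓘(ℝ, E) x) (s t : ℝ),
      ‖v‖ * |t - s| ≤ ρ → dist (e x (s • v)) (e x (t • v)) = ‖v‖ * |t - s|)
    {x z : M} {b : TangentSpace 𝓘(ℝ, E) x} {u : TangentSpace 𝓘(ℝ, E) z}
    (hb : e x b = e z (θ • u)) (hu : θ • u ∈ injDomain e z) (h2 : 2 * δ * ‖u‖ ≤ ρ)
    (μ : TangentSpace 𝓘(ℝ, E) x) :
    fderiv ℝ (fun s : TangentSpace 𝓘(ℝ, E) x => cost z (e x s)) b μ / θ +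
      fderiv ℝ (fun s : TangentSpace 𝓘(ℝ, E) x => cost (e x s) (e z ((θ + δ) • u))) b μ / δ
        = 0 := by
  obtain ⟨L, hL⟩ := exists_dexp F.isExp hb
  obtain ⟨w, hw, hfl⟩ := F.flow z u θ
  have hus : θ • u ∈ segMin e z := injDomain_subset_segMin F.isExp z hu
  have h1 : e (e z (θ • u)) ((-θ) • w) = z := by
    rw [hfl]
    simp [F.isExp.map_zero]
  have h3 : (-θ) • w ∈ segMin e (e z (θ • u)) := by
    have h4 : dist z (e z (θ • u)) = ‖θ • u‖ := hus
    show dist _ _ = _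
    rw [h1, dist_comm, h4, norm_smul, norm_smul, hw, norm_neg]
  have h5 : e (e z (θ • u)) (δ • w) = e z ((θ + δ) • u) := hfl δ
  have h6 : δ • w ∈ injDomain e (e z (θ • u)) := by
    refine ⟨2, one_lt_two, ?_⟩
    have h7 := hρmin z u θ (θ + 2 * δ) (by
      rw [add_sub_cancel_left, abs_of_pos (by positivity)]
      linarith only [h2])
    rw [smul_smul, hfl, h7, add_sub_cancel_left, abs_of_pos (by positivity), norm_smul, hw,
      Real.norm_of_nonneg hδ.le]
    ring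
  have h8 : SmoothAt E (e z (θ • u)) z := (F.smooth_cost z _ hu).symm
  have h9 : SmoothAt E (e z (θ • u)) (e z ((θ + δ) • u)) := by
    have := F.smooth_cost _ _ h6
    rwa [h5] at this
  have e1 := hL _ h3 z h1 h8 μ
  have e2 := hL _ (injDomain_subset_segMin F.isExp _ h6) _ h5 h9 μ
  have e3 : (fun s : TangentSpace 𝓘(ℝ, E) x => cost z (e x s)) =
      fun s : TangentSpace 𝓘(ℝ, E) x => cost (e x s) z := funext fun s => cost_comm _ _
  rw [e3, e1, e2, real_inner_smul_left, real_inner_smul_left]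
  field_simp
  ring

/-- Minimizing vectors from a fixed base point towards a convergent sequence converge. -/
lemma Facts.exists_coords (F : Facts e) {z₀ : M} {v : TangentSpace 𝓘(ℝ, E) z₀}
    (hv : v ∈ injDomain e z₀) {x : ℕ → M} (hx : Tendsto x atTop (𝓝 (e z₀ v))) :
    ∃ a : ℕ → TangentSpace 𝓘(ℝ, E) z₀, (∀ k, e z₀ (a k) = x k) ∧ Tendsto a atTop (𝓝 v) := by
  choose a ha1 ha2 using fun k => F.hopfRinow z₀ (x k)
  refine ⟨a, ha1, ?_⟩
  refine tendstoTB_const_base.1 (F.segMin_tendsto tendsto_const_nhds hv a (fun k => ?_) ?_)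
  · show dist _ _ = _
    rw [ha1, ha2]
  · simpa only [ha1] using hx

/-- Core of Step D: there is no bad sequence. -/
lemma stepD_core (F : Facts e) (hW : WeakMTW e) (P : Pot M) {τ₁ δ ρ : ℝ} (hδ : 0 < δ)
    (hδτ : δ < τ₁) (hτ₁ : τ₁ < 1) (hA : P.A e τ₁)
    (hρmin : ∀ (x : M) (v : TangentSpace 𝓘(ℝ, E) x) (s t : ℝ),
      ‖v‖ * |t - s| ≤ ρ → dist (e x (s • v)) (e x (t • v)) = ‖v‖ * |t - s|)
    (hδρ : ∀ (z : M), ∀ u ∈ P.sub e z, 2 * δ * ‖u‖ ≤ ρ)
    {ι : Type*} [Fintype ι] (z : ℕ → M) (lam : ℕ → ι → ℝ)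
    (w : ∀ k, ι → TangentSpace 𝓘(ℝ, E) (z k)) (u : ∀ k, TangentSpace 𝓘(ℝ, E) (z k)) (τ : ℕ → ℝ)
    (hlam : ∀ k j, 0 ≤ lam k j) (hsum : ∀ k, ∑ j, lam k j = 1)
    (hw : ∀ k j, w k j ∈ P.vtx e (z k)) (hu : ∀ k, ∑ j, lam k j • w k j = u k)
    (z₀ : M) (lam₀ : ι → ℝ) (w₀ : ι → TangentSpace 𝓘(ℝ, E) z₀) (u₀ : TangentSpace 𝓘(ℝ, E) z₀)
    (hu₀ : ∑ j, lam₀ j • w₀ j = u₀)
    (hz : Tendsto z atTop (𝓝 z₀))
    (hlam₀ : ∀ j, Tendsto (fun k => lam k j) atTop (𝓝 (lam₀ j)))
    (hw₀ : ∀ j, TendstoTB (fun k => w k j) (w₀ j)) (hulim : TendstoTB u u₀)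
    (hτ : Tendsto τ atTop (𝓝 τ₁))
    (x n : ℕ → M) (hx : Tendsto x atTop (𝓝 z₀))
    (hn : Tendsto n atTop (𝓝 (e z₀ ((τ₁ - δ) • u₀))))
    (hne : ∀ k, (x k, n k) ≠ (z k, e (z k) ((τ k - δ) • u k)))
    (hbad : ∀ k, two (τ k - δ) δ (x k) (n k) (e (z k) (τ k • u k)) + P.phi (x k) ≤
      two (τ k - δ) δ (z k) (e (z k) ((τ k - δ) • u k)) (e (z k) (τ k • u k)) + P.phi (z k)) :
    False := by
  have he := F.isExp
  have hτ0 : 0 < τ₁ := hδ.trans hδτ
  set θ : ℝ := τ₁ - δ with hθdef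
  have hθ : 0 < θ := sub_pos.2 hδτ
  have hθτ : θ < τ₁ := by linarith only [hδ]
  obtain ⟨τ', hτ'1, hτ'2⟩ := exists_between hτ₁
  have hτ'0 : 0 < τ' := hτ0.trans hτ'1
  have hsum₀ : ∑ j, lam₀ j = 1 := by
    have h1 : Tendsto (fun k => ∑ j, lam k j) atTop (𝓝 (∑ j, lam₀ j)) :=
      tendsto_finsetSum _ fun j _ => hlam₀ j
    simp only [hsum] at h1
    exact (tendsto_nhds_unique h1 tendsto_const_nhds)
  have hlam₀0 : ∀ j, 0 ≤ lam₀ j := fun j => ge_of_tendsto' (hlam₀ j) fun k => hlam k j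
  have hw₀v : ∀ j, w₀ j ∈ P.vtx e z₀ := fun j => P.vtx_closed he (hw₀ j) fun k => hw k j
  have hu₀s : u₀ ∈ P.sub e z₀ := by
    rw [← hu₀]
    exact (convex_convexHull ℝ _).sum_mem (fun j _ => hlam₀0 j) hsum₀
      (fun j _ => subset_convexHull ℝ _ (hw₀v j))
  have hus : ∀ k, u k ∈ P.sub e (z k) := by
    intro k
    rw [← hu k]
    exact (convex_convexHull ℝ _).sum_mem (fun j _ => hlam k j) (hsum k)
      (fun j _ => subset_convexHull ℝ _ (hw k j))
  have hθI : θ • u₀ ∈ injDomain e z₀ :=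
    smul_mem_injDomain_of_lt he hθ.le hθτ (hA.segMin he hτ0 hu₀s)
  -- eventual facts
  have hth : Tendsto (fun k => τ k - δ) atTop (𝓝 θ) := hτ.sub_const δ
  have eth : ∀ᶠ k in atTop, 0 < τ k - δ ∧ τ k - δ < τ₁ :=
    (hth.eventually (lt_mem_nhds hθ)).and (hth.eventually (gt_mem_nhds hθτ))
  have huI : ∀ᶠ k in atTop, (τ k - δ) • u k ∈ injDomain e (z k) := by
    filter_upwards [eth] with k hk
    exact smul_mem_injDomain_of_lt he hk.1.le hk.2 (hA.segMin he hτ0 (hus k))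
  -- coordinates
  have h0I : (0 : TangentSpace 𝓘(ℝ, E) z₀) ∈ injDomain e z₀ := zero_mem_injDomain he z₀
  have hw₀I : ∀ j, τ' • w₀ j ∈ injDomain e z₀ := fun j =>
    smul_mem_injDomain he (hw₀v j).1 hτ'0.le hτ'2
  obtain ⟨a, ha1, ha⟩ := F.exists_coords h0I (x := x) (by rw [he.map_zero]; exact hx)
  obtain ⟨a', ha'1, ha'⟩ := F.exists_coords h0I (x := z) (by rw [he.map_zero]; exact hz)
  obtain ⟨b, hb1, hb⟩ := F.exists_coords hθI (x := n) hn
  obtain ⟨b', hb'1, hb'⟩ := F.exists_coords hθI (x := fun k => e (z k) ((τ k - δ) • u k))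
    ((hulim.smul hth).exp he)
  have hq' : ∀ j, ∃ q : ℕ → TangentSpace 𝓘(ℝ, E) z₀, (∀ k, e z₀ (q k) = e (z k) (τ' • w k j)) ∧
      Tendsto q atTop (𝓝 (τ' • w₀ j)) := fun j =>
    F.exists_coords (hw₀I j) (x := fun k => e (z k) (τ' • w k j))
      (((hw₀ j).smul tendsto_const_nhds).exp he)
  choose q hq1 hq using hq'
  obtain ⟨y₀, hy₀⟩ : ∃ y₀, y₀ = e z₀ (τ₁ • u₀) := ⟨_, rfl⟩
  obtain ⟨c, hc1, hc⟩ := F.exists_coords (zero_mem_injDomain he y₀)
    (x := fun k => e (z k) (τ k • u k)) (by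
      rw [he.map_zero, hy₀]
      exact (hulim.smul hτ).exp he)
  have hsm0 : SmoothAt E z₀ (e z₀ (θ • u₀)) := F.smooth_cost _ _ hθI
  have hsm1 : SmoothAt E (e z₀ (θ • u₀)) y₀ := by
    rw [hy₀]
    exact F.smoothAt_mid hθ hθτ (hA.segMin he hτ0 hu₀s)
  refine (F.hessData hW z₀).no_bad_sequence
    (A := fun p => cost (e z₀ p.1) (e z₀ p.2)) (Bf := fun p => cost (e z₀ p.1) (e y₀ p.2))
    (W := P.vtx e z₀) (θ := θ) (τ₁ := τ₁) (τ' := τ') (δ := δ) hθ hδ (by rw [hθdef]; ring) hτ'1 hτ'2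
    (fun v hv => hv.1) (fun v hv => hA.segMin he hτ0 hv) hlam₀0 hsum₀ (w₀ := w₀) hw₀v hu₀
    ?_ ?_ ?_ ?_ ?_ ?_ ?_ ?_ ?_ (a := a) (a' := a') (b := b) (b' := b') (c := c)
    (q := fun k j => q j k) (th := fun k => τ k - δ) (lam := lam) ha ha' hb hb' hc hq hth hlam
    hlam₀ hsum ?_ ?_ ?_ ?_
  · refine (SmoothAt.coord he (a := (0 : TangentSpace 𝓘(ℝ, E) z₀)) (b := θ • u₀) ?_).of_le
      ENat.LEInfty.out
    rw [he.map_zero]
    exact hsm0
  · intro j
    refine (SmoothAt.coord he (a := (0 : TangentSpace 𝓘(ℝ, E) z₀)) (b := τ' • w₀ j) ?_).of_le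
      ENat.LEInfty.out
    rw [he.map_zero]
    exact F.smooth_cost _ _ (hw₀I j)
  · refine (SmoothAt.coord he (a := θ • u₀) (b := (0 : TangentSpace 𝓘(ℝ, E) y₀)) ?_).of_le
      ENat.LEInfty.out
    rw [he.map_zero]
    exact hsm1
  · intro ξ
    have h := (hasFDerivAt_cost_zero he z₀ _ (injDomain_subset_segMin he z₀ hθI) hsm0).fderiv
    exact congrArg (fun L : TangentSpace 𝓘(ℝ, E) z₀ →L[ℝ] ℝ => L ξ) h
  · intro j ξ
    have h := (hasFDerivAt_cost_zero he z₀ _ (injDomain_subset_segMin he z₀ (hw₀I j))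
      (F.smooth_cost _ _ (hw₀I j))).fderiv
    exact congrArg (fun L : TangentSpace 𝓘(ℝ, E) z₀ →L[ℝ] ℝ => L ξ) h
  · intro μ
    have h := F.mid_crit hθ hδ hρmin (x := z₀) (z := z₀) (b := θ • u₀) (u := u₀) rfl hθI
      (hδρ z₀ u₀ hu₀s) μ
    have h1 : θ + δ = τ₁ := by rw [hθdef]; ring
    rw [h1] at h
    simp only [he.map_zero]
    rw [hy₀]
    exact h
  · intro ξ μ
    exact hess_pair he (F.eventually_segMin hθI) hsm0 ξ μ
  · intro j ξ
    rfl
  · intro μ
    simp only [he.map_zero]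
    rw [hy₀]
    rfl
  · intro k h
    apply hne k
    have h1 : a k = a' k := congrArg Prod.fst h
    have h2 : b k = b' k := congrArg Prod.snd h
    have h3 : x k = z k := by rw [← ha1, ← ha'1, h1]
    have h4 : n k = e (z k) ((τ k - δ) • u k) := by rw [← hb1, ← hb'1, h2]
    rw [h3, h4]
  · intro k j
    simp only [ha1, ha'1, hb1, hb'1, hc1, hq1]
    have h1 := hbad k
    have h2 := P.phi_lower he (hw k j) hτ'0 hτ'2 (x k)
    have h3 : cost (z k) (e (z k) (τ' • w k j)) = τ' ^ 2 * ‖w k j‖ ^ 2 / 2 := by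
      have h4 := segMin_cost he (hw k j).1 le_rfl hτ'0.le hτ'2.le
      rw [zero_smul, he.map_zero, sub_zero] at h4
      exact h4
    have h5 : cost (z k) (e (z k) (τ' • w k j)) / τ' = τ' * ‖w k j‖ ^ 2 / 2 := by
      rw [h3]
      (clear * - hτ'0; field_simp)
    simp only [two] at h1
    rw [h5]
    linarith only [h2, h1]
  · filter_upwards [huI, eth] with k hk1 hk2
    intro ξ
    obtain ⟨L, hL⟩ := exists_dexp he (ha'1 k)
    have h1 := hL _ (injDomain_subset_segMin he _ hk1) _ rfl (F.smooth_cost _ _ hk1) ξ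
    simp only [hb'1, hq1]
    rw [h1]
    have h2 : ∀ j, fderiv ℝ (fun x : TangentSpace 𝓘(ℝ, E) z₀ =>
        cost (e z₀ x) (e (z k) (τ' • w k j))) (a' k) ξ = -inner ℝ (τ' • w k j) (L ξ) := fun j =>
      have hj : τ' • w k j ∈ injDomain e (z k) := smul_mem_injDomain he (hw k j).1 hτ'0.le hτ'2
      hL _ (injDomain_subset_segMin he _ hj) _ rfl (F.smooth_cost _ _ hj) ξ
    simp only [h2]
    have h3 : ∀ j, lam k j * (-inner ℝ (τ' • w k j) (L ξ) / τ') =
        -inner ℝ (lam k j • w k j) (L ξ) := by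
      intro j
      rw [real_inner_smul_left, real_inner_smul_left]
      (clear * - hτ'0; field_simp)
    rw [Finset.sum_congr rfl fun j _ => h3 j, Finset.sum_neg_distrib, ← sum_inner, hu k,
      real_inner_smul_left]
    have := hk2.1.ne'
    field_simp
  · filter_upwards [huI, eth] with k hk1 hk2
    intro μ
    have h := F.mid_crit hk2.1 hδ hρmin (hb'1 k) hk1 (hδρ _ _ (hus k)) μ
    have h1 : τ k - δ + δ = τ k := by ring
    rw [h1] at h
    simp only [ha'1, hc1]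
    exact h

/-- Step D: uniform strict local minimality, in sequential form. -/
theorem stepD (F : Facts e) (hW : WeakMTW e) (P : Pot M) {τ₁ δ ρ : ℝ} (hδ : 0 < δ) (hδτ : δ < τ₁)
    (hτ₁ : τ₁ < 1) (hA : P.A e τ₁) (hρ : 0 < ρ)
    (hρmin : ∀ (x : M) (v : TangentSpace 𝓘(ℝ, E) x) (s t : ℝ),
      ‖v‖ * |t - s| ≤ ρ → dist (e x (s • v)) (e x (t • v)) = ‖v‖ * |t - s|)
    (hδρ : ∀ (z : M), ∀ u ∈ P.sub e z, 2 * δ * ‖u‖ ≤ ρ)
    {ι : Type*} [Fintype ι] (z : ℕ → M) (lam : ℕ → ι → ℝ)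
    (w : ∀ k, ι → TangentSpace 𝓘(ℝ, E) (z k)) (τ : ℕ → ℝ)
    (hlam : ∀ k j, 0 ≤ lam k j) (hsum : ∀ k, ∑ j, lam k j = 1)
    (hw : ∀ k j, w k j ∈ P.vtx e (z k))
    (z₀ : M) (lam₀ : ι → ℝ) (w₀ : ι → TangentSpace 𝓘(ℝ, E) z₀)
    (hz : Tendsto z atTop (𝓝 z₀))
    (hlam₀ : ∀ j, Tendsto (fun k => lam k j) atTop (𝓝 (lam₀ j)))
    (hw₀ : ∀ j, TendstoTB (fun k => w k j) (w₀ j))
    (hτ : Tendsto τ atTop (𝓝 τ₁)) (hτge : ∀ k, τ₁ ≤ τ k)
    (x n : ℕ → M) (hx : Tendsto x atTop (𝓝 z₀))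
    (hn : Tendsto n atTop (𝓝 (e z₀ ((τ₁ - δ) • ∑ j, lam₀ j • w₀ j))))
    (hne : ∀ k, (x k, n k) ≠ (z k, e (z k) ((τ k - δ) • ∑ j, lam k j • w k j))) :
    ∀ᶠ k in atTop,
      two (τ k - δ) δ (z k) (e (z k) ((τ k - δ) • ∑ j, lam k j • w k j))
          (e (z k) (τ k • ∑ j, lam k j • w k j)) + P.phi (z k) <
        two (τ k - δ) δ (x k) (n k) (e (z k) (τ k • ∑ j, lam k j • w k j)) + P.phi (x k) := by
  by_contra hcon
  rw [Filter.not_eventually] at hcon
  obtain ⟨φ, hφ, hbad⟩ := Filter.extraction_of_frequently_atTop hcon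
  have hφ' := hφ.tendsto_atTop
  refine stepD_core F hW P hδ hδτ hτ₁ hA hρmin hδρ (fun k => z (φ k)) (fun k => lam (φ k))
    (fun k => w (φ k)) (fun k => ∑ j, lam (φ k) j • w (φ k) j) (fun k => τ (φ k))
    (fun k j => hlam _ j) (fun k => hsum _) (fun k j => hw _ j) (fun k => rfl) z₀ lam₀ w₀ _ rfl
    (hz.comp hφ') (fun j => (hlam₀ j).comp hφ') (fun j => (hw₀ j).subseq hφ)
    ?_ (hτ.comp hφ') (fun k => x (φ k)) (fun k => n (φ k)) (hx.comp hφ') (hn.comp hφ')
    (fun k => hne _) (fun k => not_lt.1 (hbad k))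
  exact (TendstoTB.sum hz hw₀ hlam₀).subseq hφ

end

end Vale.Agent.P234
end
end
end

section

section

section

/-! Openness of the support property. -/

set_option maxSynthPendingDepth 3

open Bundle Manifold Set Filter
open scoped ContDiff Manifold Topology

namespace Vale.Agent.P234

noncomputable section

variable {E : Type*} [NormedAddCommGroup E] [NormedSpace ℝ E] [FiniteDimensional ℝ E]
  {M : Type*} [MetricSpace M] [ChartedSpace E M]
  [RiemannianBundle (fun x : M => TangentSpace 𝓘(ℝ, E) x)]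
  [IsManifold 𝓘(ℝ, E) ∞ M]
  [IsContMDiffRiemannianBundle 𝓘(ℝ, E) ∞ E (fun x : M => TangentSpace 𝓘(ℝ, E) x)]
  [CompactSpace M]
  {e : ∀ x : M, TangentSpace 𝓘(ℝ, E) x → M}

set_option backward.isDefEq.respectTransparency false in
omit [FiniteDimensional ℝ E] [CompactSpace M] [IsManifold 𝓘(ℝ, E) ∞ M]
  [IsContMDiffRiemannianBundle 𝓘(ℝ, E) ∞ E (fun x : M => TangentSpace 𝓘(ℝ, E) x)] in
/-- Value of the two-piece functional along a geodesic. -/
lemma two_eq {θ δ ρ : ℝ} (hθ : 0 < θ) (hδ : 0 < δ)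
    (hρmin : ∀ (x : M) (v : TangentSpace 𝓘(ℝ, E) x) (s t : ℝ),
      ‖v‖ * |t - s| ≤ ρ → dist (e x (s • v)) (e x (t • v)) = ‖v‖ * |t - s|)
    {z : M} {u : TangentSpace 𝓘(ℝ, E) z} (hu : θ • u ∈ segMin e z) (hs : ‖u‖ * δ ≤ ρ) :
    two θ δ z (e z (θ • u)) (e z ((θ + δ) • u)) = (θ + δ) * ‖u‖ ^ 2 / 2 := by
  have h1 : dist z (e z (θ • u)) = θ * ‖u‖ := by
    have : dist z (e z (θ • u)) = ‖θ • u‖ := hu
    rw [this, norm_smul, Real.norm_of_nonneg hθ.le]
  have h2 : dist (e z (θ • u)) (e z ((θ + δ) • u)) = ‖u‖ * δ := by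
    have h3 := hρmin z u θ (θ + δ) (by simpa only [add_sub_cancel_left, abs_of_pos hδ] using hs)
    rw [h3]; simp [abs_of_pos hδ]
  unfold two cost
  rw [h1, h2]
  (clear * - hθ hδ; field_simp)

set_option backward.isDefEq.respectTransparency false in
/-- Critical points of the two-piece functional. -/
lemma crit_two (F : Facts e) (P : Pot M) {θ δ : ℝ} (hθ : 0 < θ) (hδ : 0 < δ)
    {x₁ n₁ y : M}
    (hmin : ∀ᶠ p : M × M in 𝓝 (x₁, n₁),
      two θ δ x₁ n₁ y + P.phi x₁ ≤ two θ δ p.1 p.2 y + P.phi p.1)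
    (hs1 : SmoothAt E x₁ n₁) (hs2 : SmoothAt E n₁ y) :
    ∃ u ∈ P.sub e x₁, e x₁ (θ • u) = n₁ ∧ e x₁ ((θ + δ) • u) = y ∧
      two θ δ x₁ n₁ y = (θ + δ) * ‖u‖ ^ 2 / 2 := by
  have he := F.isExp
  obtain ⟨p, hp1, hp2⟩ := F.hopfRinow n₁ x₁
  obtain ⟨q, hq1, hq2⟩ := F.hopfRinow n₁ y
  have hn0 : e n₁ (0 : TangentSpace 𝓘(ℝ, E) n₁) = n₁ := he.map_zero n₁
  have hps : p ∈ segMin e n₁ := by
    show dist _ _ = _
    rw [hp1, hp2]
  have hqs : q ∈ segMin e n₁ := by
    show dist _ _ = _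
    rw [hq1, hq2]
  have hsp : SmoothAt E n₁ (e n₁ p) := by rw [hp1]; exact hs1.symm
  have hsq : SmoothAt E n₁ (e n₁ q) := by rw [hq1]; exact hs2
  have hd1 := hasFDerivAt_cost_zero he n₁ p hps hsp
  have hd2 := hasFDerivAt_cost_zero he n₁ q hqs hsq
  rw [hp1] at hd1
  rw [hq1] at hd2
  have hexpc : Continuous (e n₁) := (contMDiff_exp_fiber he n₁).continuous
  -- first order condition in the middle point
  have hloc : IsLocalMin (fun a : TangentSpace 𝓘(ℝ, E) n₁ =>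
      (1 / θ) * cost (e n₁ a) x₁ + (1 / δ) * cost (e n₁ a) y) 0 := by
    have h1 : Tendsto (fun a : TangentSpace 𝓘(ℝ, E) n₁ => (x₁, e n₁ a)) (𝓝 0) (𝓝 (x₁, n₁)) := by
      rw [nhds_prod_eq]
      refine tendsto_const_nhds.prodMk ?_
      have := hexpc.tendsto 0
      rwa [hn0] at this
    filter_upwards [h1.eventually hmin] with a ha
    simp only [two] at ha
    rw [hn0]
    rw [cost_comm (e n₁ a) x₁, cost_comm n₁ x₁]
    have e1 : ∀ c : ℝ, 1 / θ * c = c / θ := fun c => by ring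
    have e2 : ∀ c : ℝ, 1 / δ * c = c / δ := fun c => by ring
    rw [e1, e1, e2, e2]
    linarith
  have hder := (hd1.const_mul (1 / θ)).add (hd2.const_mul (1 / δ))
  have hzero := hloc.hasFDerivAt_eq_zero hder
  have hpq : (1 / θ) • p + (1 / δ) • q = 0 := by
    have h1 : ∀ ζ : TangentSpace 𝓘(ℝ, E) n₁, inner ℝ ((1 / θ) • p + (1 / δ) • q) ζ = 0 := by
      intro ζ
      have h2 := congrArg (fun L => L ζ) hzero
      rw [inner_add_left, real_inner_smul_left, real_inner_smul_left]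
      simp at h2
      have e1 : ∀ c : ℝ, 1 / θ * c = θ⁻¹ * c := fun c => by ring
      have e2 : ∀ c : ℝ, 1 / δ * c = δ⁻¹ * c := fun c => by ring
      rw [e1, e2]
      linarith only [h2]
    exact inner_self_eq_zero.1 (h1 _)
  have hqp : q = (-(δ / θ)) • p := by
    have h1 : (1 / δ) • q = -((1 / θ) • p) := by
      rw [eq_neg_iff_add_eq_zero, add_comm]; exact hpq
    have h2 : q = δ • ((1 / δ) • q) := by
      rw [smul_smul]; simp [hδ.ne']
    rw [h2, h1, ← neg_smul, smul_smul]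
    congr 1; ring
  -- go to the base point `x₁`
  obtain ⟨w', hw'1, hw'2⟩ := F.flow' p 1 (x' := x₁) (by rw [one_smul, hp1])
  set u : TangentSpace 𝓘(ℝ, E) x₁ := (-(1 / θ)) • w' with hu
  have hexp : ∀ t : ℝ, e x₁ (t • u) = e n₁ ((1 - t / θ) • p) := by
    intro t
    have h1 : t • u = (-(t / θ)) • w' := by
      rw [hu, smul_smul]; congr 1; ring
    rw [h1, hw'2]
    congr 1
  have hθu : e x₁ (θ • u) = n₁ := by
    rw [hexp, div_self hθ.ne', sub_self, zero_smul, hn0]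
  have hyu : e x₁ ((θ + δ) • u) = y := by
    rw [hexp, ← hq1, hqp]
    congr 2
    field_simp
    ring
  have hnu : ‖u‖ = ‖p‖ / θ := by
    rw [hu, norm_smul, hw'1, norm_neg, Real.norm_of_nonneg (by positivity)]
    ring
  have hseg : θ • u ∈ segMin e x₁ := by
    show dist _ _ = _
    rw [hθu, norm_smul, Real.norm_of_nonneg hθ.le, hnu, dist_comm, hp2]
    field_simp
  refine ⟨u, ?_, hθu, hyu, ?_⟩
  · have h1 := stepA F P hθ (x₀ := x₁) (y := n₁) ?_ hseg hθu
    · rw [smul_smul] at h1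
      have h2 : 1 / θ * θ = 1 := by field_simp
      rwa [h2, one_smul] at h1
    · have h1 : Tendsto (fun x : M => (x, n₁)) (𝓝 x₁) (𝓝 (x₁, n₁)) := by
        rw [nhds_prod_eq]
        exact tendsto_id.prodMk tendsto_const_nhds
      filter_upwards [h1.eventually hmin] with x hx
      simp only [two] at hx
      linarith only [hx]
  · have h1 : dist x₁ n₁ = θ * ‖u‖ := by
      rw [dist_comm, hp2, hnu]; field_simp
    have h2 : dist n₁ y = δ * ‖u‖ := by
      rw [hq2, hqp, norm_smul, hnu, norm_neg, Real.norm_of_nonneg (by positivity)]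
      ring
    unfold two cost
    rw [h1, h2]
    field_simp

/-- Scales: everything at scale `δ` is short. -/
lemma exists_scale (F : Facts e) (P : Pot M) {τ₁ : ℝ} (h0 : 0 < τ₁) :
    ∃ δ ρ : ℝ, 0 < δ ∧ δ < τ₁ ∧ 0 < ρ ∧
      (∀ (x : M) (v : TangentSpace 𝓘(ℝ, E) x) (s t : ℝ),
        ‖v‖ * |t - s| ≤ ρ → dist (e x (s • v)) (e x (t • v)) = ‖v‖ * |t - s|) ∧
      (∀ x y : M, dist x y < ρ → SmoothAt E x y) ∧
      (∀ (z : M), ∀ u ∈ P.sub e z, 2 * δ * ‖u‖ ≤ ρ) := by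
  obtain ⟨ρ, hρ, hmin, hsm⟩ := F.short
  have hD : 0 ≤ Metric.diam (univ : Set M) := Metric.diam_nonneg
  refine ⟨min (τ₁ / 2) (ρ / (4 * (Metric.diam (univ : Set M) + 1))), ρ, ?_, ?_, hρ, hmin, hsm, ?_⟩
  · exact lt_min (by linarith) (by positivity)
  · exact (min_le_left _ _).trans_lt (by linarith only [h0])
  · intro z u hu
    have h1 := P.norm_le_of_mem_sub hu
    have h2 : min (τ₁ / 2) (ρ / (4 * (Metric.diam (univ : Set M) + 1))) ≤
        ρ / (4 * (Metric.diam (univ : Set M) + 1)) := min_le_right _ _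
    have h3 : 0 < min (τ₁ / 2) (ρ / (4 * (Metric.diam (univ : Set M) + 1))) :=
      lt_min (by linarith only [h0]) (by positivity)
    calc 2 * min (τ₁ / 2) (ρ / (4 * (Metric.diam (univ : Set M) + 1))) * ‖u‖
        ≤ 2 * (ρ / (4 * (Metric.diam (univ : Set M) + 1))) * (Metric.diam (univ : Set M) + 1) := by
          gcongr
          linarith only [h1]
      _ = ρ / 2 := by field_simp; ring
      _ ≤ ρ := by linarith only [hρ]

set_option backward.isDefEq.respectTransparency false in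
/-- Strict local minimality of the two-piece functional. -/
lemma strict_local (F : Facts e) (hW : WeakMTW e) (P : Pot M) {τ₁ δ ρ : ℝ} (hδ : 0 < δ)
    (hδτ : δ < τ₁) (hτ₁ : τ₁ < 1) (hA : P.A e τ₁) (hρ : 0 < ρ)
    (hρmin : ∀ (x : M) (v : TangentSpace 𝓘(ℝ, E) x) (s t : ℝ),
      ‖v‖ * |t - s| ≤ ρ → dist (e x (s • v)) (e x (t • v)) = ‖v‖ * |t - s|)
    (hδρ : ∀ (z : M), ∀ u ∈ P.sub e z, 2 * δ * ‖u‖ ≤ ρ)
    {z₀ : M} {u₀ : TangentSpace 𝓘(ℝ, E) z₀} (hu₀ : u₀ ∈ P.sub e z₀) :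
    ∃ r > 0, ∀ x n : M, dist x z₀ ≤ r → dist n (e z₀ ((τ₁ - δ) • u₀)) ≤ r →
      (x, n) ≠ (z₀, e z₀ ((τ₁ - δ) • u₀)) →
      two (τ₁ - δ) δ z₀ (e z₀ ((τ₁ - δ) • u₀)) (e z₀ (τ₁ • u₀)) + P.phi z₀ <
        two (τ₁ - δ) δ x n (e z₀ (τ₁ • u₀)) + P.phi x := by
  by_contra hcon
  push Not at hcon
  obtain ⟨lam, w, hl0, hl1, hw, hsum⟩ := P.exists_rep hu₀
  have hk : ∀ k : ℕ, ∃ p : M × M, dist p.1 z₀ ≤ 1 / ((k : ℝ) + 1) ∧
      dist p.2 (e z₀ ((τ₁ - δ) • u₀)) ≤ 1 / ((k : ℝ) + 1) ∧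
      p ≠ (z₀, e z₀ ((τ₁ - δ) • u₀)) ∧
      two (τ₁ - δ) δ p.1 p.2 (e z₀ (τ₁ • u₀)) + P.phi p.1 ≤
        two (τ₁ - δ) δ z₀ (e z₀ ((τ₁ - δ) • u₀)) (e z₀ (τ₁ • u₀)) + P.phi z₀ := by
    intro k
    obtain ⟨x, n, h1, h2, h3, h4⟩ := hcon (1 / ((k : ℝ) + 1)) (by (clear * -; positivity))
    exact ⟨(x, n), h1, h2, h3, h4⟩
  choose p hp1 hp2 hp3 hp4 using hk
  have hx : Tendsto (fun k => (p k).1) atTop (𝓝 z₀) := by
    rw [tendsto_iff_dist_tendsto_zero]
    exact squeeze_zero (fun _ => dist_nonneg) hp1 tendsto_one_div_add_atTop_nhds_zero_nat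
  have hn : Tendsto (fun k => (p k).2) atTop (𝓝 (e z₀ ((τ₁ - δ) • u₀))) := by
    rw [tendsto_iff_dist_tendsto_zero]
    exact squeeze_zero (fun _ => dist_nonneg) hp2 tendsto_one_div_add_atTop_nhds_zero_nat
  have hD := stepD F hW P hδ hδτ hτ₁ hA hρ hρmin hδρ (fun _ => z₀) (fun _ => lam) (fun _ => w)
    (fun _ => τ₁) (fun _ => hl0) (fun _ => hl1) (fun _ => hw) z₀ lam w tendsto_const_nhds
    (fun _ => tendsto_const_nhds) (fun _ => tendsto_const_nhds) tendsto_const_nhds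
    (fun _ => le_rfl) (fun k => (p k).1) (fun k => (p k).2) hx (by rw [hsum]; exact hn)
    (fun k => by rw [hsum]; exact hp3 k)
  obtain ⟨k, hk⟩ := hD.exists
  rw [hsum] at hk
  exact absurd hk (not_lt.2 (hp4 k))

set_option backward.isDefEq.respectTransparency false in
omit [CompactSpace M] in
/-- Difference quotients of the cost with a moving second point. -/
lemma slope_cost (F : Facts e) {x q : M} {V : TangentSpace 𝓘(ℝ, E) x} (hV : V ∈ segMin e x)
    (hq : e x V = q) (hs : SmoothAt E x q) (ζ : TangentSpace 𝓘(ℝ, E) x) {r : ℕ → ℝ}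
    (hr : Tendsto r atTop (𝓝 0)) (hr0 : ∀ k, 0 < r k) {q' : ℕ → M}
    (hq' : Tendsto q' atTop (𝓝 q)) :
    Tendsto (fun k => (cost (e x (r k • ζ)) (q' k) - cost x (q' k)) / r k) atTop
      (𝓝 (-(inner ℝ V ζ))) := by
  have he := F.isExp
  have hx0 : e x (0 : TangentSpace 𝓘(ℝ, E) x) = x := he.map_zero x
  have hq0 : e q (0 : TangentSpace 𝓘(ℝ, E) q) = q := he.map_zero q
  have hb : ∀ k, ∃ b : TangentSpace 𝓘(ℝ, E) q, e q b = q' k ∧ dist q (q' k) = ‖b‖ :=
    fun k => F.hopfRinow q _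
  choose b hb1 hb2 using hb
  have hb0 : Tendsto b atTop (𝓝 0) := by
    rw [tendsto_zero_iff_norm_tendsto_zero]
    have h1 : Tendsto (fun k => dist q (q' k)) atTop (𝓝 (dist q q)) :=
      tendsto_const_nhds.dist hq'
    rw [dist_self] at h1
    exact h1.congr hb2
  have hsm' : SmoothAt E (e x (0 : TangentSpace 𝓘(ℝ, E) x)) (e q (0 : TangentSpace 𝓘(ℝ, E) q)) := by
    rw [hx0, hq0]; exact hs
  have hcd := SmoothAt.coord he hsm'
  set G : TangentSpace 𝓘(ℝ, E) x × TangentSpace 𝓘(ℝ, E) q → ℝ :=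
    fun p => cost (e x p.1) (e q p.2) with hG
  have hstrict : HasStrictFDerivAt G (fderiv ℝ G (0, 0)) (0, 0) :=
    hcd.hasStrictFDerivAt (by simp)
  have hder := hasFDerivAt_cost_zero he x V hV (by rw [hq]; exact hs)
  have hGξ : fderiv ℝ G (0, 0) (ζ, 0) = -(inner ℝ V ζ) := by
    have h1 : HasFDerivAt (fun a : TangentSpace 𝓘(ℝ, E) x =>
        (a, (0 : TangentSpace 𝓘(ℝ, E) q)))
        (ContinuousLinearMap.inl ℝ (TangentSpace 𝓘(ℝ, E) x) (TangentSpace 𝓘(ℝ, E) q)) 0 :=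
      hasFDerivAt_prodMk_left 0 0
    have h2 : HasFDerivAt (fun a : TangentSpace 𝓘(ℝ, E) x =>
        G (a, (0 : TangentSpace 𝓘(ℝ, E) q)))
        ((fderiv ℝ G (0, 0)).comp
          (ContinuousLinearMap.inl ℝ (TangentSpace 𝓘(ℝ, E) x) (TangentSpace 𝓘(ℝ, E) q))) 0 :=
      HasFDerivAt.comp (g := G) (f := fun a : TangentSpace 𝓘(ℝ, E) x =>
        (a, (0 : TangentSpace 𝓘(ℝ, E) q))) (0 : TangentSpace 𝓘(ℝ, E) x) hstrict.hasFDerivAt h1
    have h3 : (fun a : TangentSpace 𝓘(ℝ, E) x => G (a, (0 : TangentSpace 𝓘(ℝ, E) q))) =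
        fun a => cost (e x a) (e x V) := by
      funext a
      simp only [hG]
      rw [hq0, hq]
    rw [h3] at h2
    have h4 := h2.unique hder
    have h5 := congrArg (fun L => L ζ) h4
    simpa only [ContinuousLinearMap.comp_apply, ContinuousLinearMap.inl_apply, neg_apply, coe_innerSL_apply] using     h5
  have hlim2 := tendsto_slope_of_strict hstrict hr hr0
    (v := fun k => ((0 : TangentSpace 𝓘(ℝ, E) x), b k))
    (by
      rw [nhds_prod_eq]
      exact tendsto_const_nhds.prodMk hb0) (ζ, (0 : TangentSpace 𝓘(ℝ, E) q))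
  rw [hGξ] at hlim2
  refine hlim2.congr (fun k => ?_)
  have hGa : G ((0, b k) + r k • (ζ, (0 : TangentSpace 𝓘(ℝ, E) q))) =
      cost (e x (r k • ζ)) (e q (b k)) := by
    simp [hG]
  have hGb : G (0, b k) = cost x (e q (b k)) := by
    simp only [hG]
    rw [hx0]
  rw [hGa, hGb, hb1]

lemma continuous_two (P : Pot M) (θ δ : ℝ) :
    Continuous (fun q : (M × M) × M => two θ δ q.1.1 q.1.2 q.2 + P.phi q.1.1) := by
  have hc := continuous_cost (M := M)
  have h1 : Continuous (fun q : (M × M) × M => cost q.1.1 q.1.2) := hc.comp continuous_fst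
  have h2 : Continuous (fun q : (M × M) × M => cost q.1.2 q.2) :=
    hc.comp ((continuous_snd.comp continuous_fst).prodMk continuous_snd)
  have h3 : Continuous (fun q : (M × M) × M => P.phi q.1.1) :=
    P.continuous_phi.comp (continuous_fst.comp continuous_fst)
  exact ((h1.div_const θ).add (h2.div_const δ)).add h3

/-- Minimizers of a perturbed functional converge to the strict minimizer. -/
lemma exists_min_seq {X Y : Type*} [TopologicalSpace X] [FirstCountableTopology X]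
    [TopologicalSpace Y] {G : X → Y → ℝ}
    (hG : Continuous (fun q : X × Y => G q.1 q.2)) {K : Set X} (hK : IsCompact K) {a : X}
    (ha : a ∈ K) {y : Y} (hstrict : ∀ b ∈ K, b ≠ a → G a y < G b y) {y' : ℕ → Y}
    (hy : Tendsto y' atTop (𝓝 y)) :
    ∃ (ψ : ℕ → ℕ) (q : ℕ → X), StrictMono ψ ∧ Tendsto q atTop (𝓝 a) ∧ (∀ k, q k ∈ K) ∧
      ∀ k, ∀ b ∈ K, G (q k) (y' (ψ k)) ≤ G b (y' (ψ k)) := by
  have hmin : ∀ k, ∃ q ∈ K, ∀ b ∈ K, G q (y' k) ≤ G b (y' k) := by
    intro k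
    have hck : Continuous (fun q : X => G q (y' k)) :=
      hG.comp (continuous_id.prodMk continuous_const)
    obtain ⟨q, hq1, hq2⟩ := hK.exists_isMinOn ⟨_, ha⟩ hck.continuousOn
    exact ⟨q, hq1, fun b hb => hq2 hb⟩
  choose q hqN hqmin using hmin
  obtain ⟨qs, hqs, ψ, hψ, hψlim⟩ := hK.tendsto_subseq hqN
  have hlimeq : qs = a := by
    by_contra hne
    have h2 := hstrict qs hqs hne
    have h3 : Tendsto (fun k => G (q (ψ k)) (y' (ψ k))) atTop (𝓝 (G qs y)) := by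
      have h4 : Tendsto (fun k => (q (ψ k), y' (ψ k))) atTop (𝓝 (qs, y)) := by
        rw [nhds_prod_eq]
        exact hψlim.prodMk (hy.comp hψ.tendsto_atTop)
      exact (hG.tendsto (qs, y)).comp h4
    have h5 : Tendsto (fun k => G a (y' (ψ k))) atTop (𝓝 (G a y)) := by
      have h4 : Tendsto (fun k => (a, y' (ψ k))) atTop (𝓝 (a, y)) := by
        rw [nhds_prod_eq]
        exact tendsto_const_nhds.prodMk (hy.comp hψ.tendsto_atTop)
      exact (hG.tendsto (a, y)).comp h4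
    have h6 := le_of_tendsto_of_tendsto' h3 h5 (fun k => hqmin (ψ k) _ ha)
    linarith
  rw [hlimeq] at hψlim
  exact ⟨ψ, q ∘ ψ, hψ, hψlim, fun k => hqN _, fun k => hqmin _⟩

/-- Perturbed minimizers of the two-piece functional. -/
lemma perturbed (F : Facts e) (P : Pot M) {τ₁ θ δ r : ℝ} (hθ0 : 0 < θ)
    (hδ : 0 < δ) (hθδ : θ + δ = τ₁) (hr : 0 < r) (hA : P.A e τ₁) {z z' m y : M}
    (hstrict : ∀ x n : M, dist x z ≤ r → dist n m ≤ r → (x, n) ≠ (z, m) →
      two θ δ z m y + P.phi z < two θ δ x n y + P.phi x)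
    (hsm1 : SmoothAt E z m) (hsm2 : SmoothAt E m y)
    (hle0 : cost z' y / τ₁ + P.phi z' ≤ two θ δ z m y + P.phi z)
    {Y : ℕ → M} (hYlim : Tendsto Y atTop (𝓝 y)) :
    ∃ (ψ : ℕ → ℕ) (n : ℕ → M), StrictMono ψ ∧ Tendsto n atTop (𝓝 m) ∧
      ∀ᶠ k in atTop, (cost (n k) (Y (ψ k)) - cost (n k) y) / δ ≤
          (cost z' (Y (ψ k)) - cost z' y) / τ₁ := by
  have hcpt : IsCompact (Metric.closedBall z r ×ˢ Metric.closedBall m r) :=
    (Metric.isClosed_closedBall.isCompact).prod (Metric.isClosed_closedBall.isCompact)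
  have hmem : (z, m) ∈ Metric.closedBall z r ×ˢ Metric.closedBall m r :=
    ⟨Metric.mem_closedBall_self hr.le, Metric.mem_closedBall_self hr.le⟩
  obtain ⟨ψ, q, hψ, hψlim, hqN, hqmin⟩ := exists_min_seq
    (G := fun (a : M × M) (b : M) => two θ δ a.1 a.2 b + P.phi a.1)
    (continuous_two P θ δ) hcpt hmem (y := y)
    (fun b hb hne => hstrict b.1 b.2 (Metric.mem_closedBall.1 hb.1)
      (Metric.mem_closedBall.1 hb.2) hne) hYlim
  have hx : Tendsto (fun k => (q k).1) atTop (𝓝 z) :=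
    (continuous_fst.tendsto (z, m)).comp hψlim
  have hn : Tendsto (fun k => (q k).2) atTop (𝓝 m) :=
    (continuous_snd.tendsto (z, m)).comp hψlim
  have hYψ : Tendsto (fun k => Y (ψ k)) atTop (𝓝 y) := hYlim.comp hψ.tendsto_atTop
  refine ⟨ψ, fun k => (q k).2, hψ, hn, ?_⟩
  -- the inequality at each large `k`
  have e1 : ∀ᶠ k in atTop, (q k).1 ∈ Metric.ball z r :=
    hx.eventually (Metric.ball_mem_nhds z hr)
  have e2 : ∀ᶠ k in atTop, (q k).2 ∈ Metric.ball m r :=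
    hn.eventually (Metric.ball_mem_nhds m hr)
  have e3 : ∀ᶠ k in atTop, SmoothAt E (q k).1 (q k).2 :=
    hψlim.eventually hsm1.eventually
  have e4 : ∀ᶠ k in atTop, SmoothAt E (q k).2 (Y (ψ k)) := by
    have h4 : Tendsto (fun k => ((q k).2, Y (ψ k))) atTop (𝓝 (m, y)) := by
      rw [nhds_prod_eq]
      exact hn.prodMk hYψ
    exact h4.eventually hsm2.eventually
  filter_upwards [e1, e2, e3, e4] with k k1 k2 k3 k4
  have hnb : Metric.ball z r ×ˢ Metric.ball m r ∈ 𝓝 ((q k).1, (q k).2) :=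
    prod_mem_nhds (Metric.isOpen_ball.mem_nhds k1) (Metric.isOpen_ball.mem_nhds k2)
  obtain ⟨uk, huk, hθk, hτk, hvk⟩ := crit_two F P hθ0 hδ (x₁ := (q k).1)
    (n₁ := (q k).2) (y := Y (ψ k)) (by
      filter_upwards [hnb] with a ha
      exact hqmin k a ⟨Metric.ball_subset_closedBall ha.1,
        Metric.ball_subset_closedBall ha.2⟩) k3 k4
  have h2 := hA (q k).1 uk huk z'
  rw [hθδ] at hτk hvk
  rw [hτk] at h2
  have h3 : two θ δ z m y + P.phi z ≤
      two θ δ (q k).1 (q k).2 y + P.phi (q k).1 := by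
    by_cases hc : ((q k).1, (q k).2) = (z, m)
    · rw [Prod.mk.injEq] at hc
      rw [hc.1, hc.2]
    · exact (hstrict _ _ (Metric.mem_closedBall.1 (hqN k).1)
        (Metric.mem_closedBall.1 (hqN k).2) hc).le
  have h4 : two θ δ (q k).1 (q k).2 (Y (ψ k)) -
      two θ δ (q k).1 (q k).2 y =
      (cost (q k).2 (Y (ψ k)) - cost (q k).2 y) / δ := by
    unfold two; ring
  rw [← h4, sub_div]
  linarith only [h3, h2, hvk, hle0]

set_option backward.isDefEq.respectTransparency false in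
/-- The first variation of the perturbed inequality. -/
lemma inj_key (F : Facts e) (P : Pot M) {τ₁ θ δ r : ℝ} (h0 : 0 < τ₁) (hθ0 : 0 < θ)
    (hδ : 0 < δ) (hθδ : θ + δ = τ₁) (hr : 0 < r) (hA : P.A e τ₁) {z z' m y : M}
    (hstrict : ∀ x n : M, dist x z ≤ r → dist n m ≤ r → (x, n) ≠ (z, m) →
      two θ δ z m y + P.phi z < two θ δ x n y + P.phi x)
    (hsm1 : SmoothAt E z m) (hsm2 : SmoothAt E m y)
    (hle0 : cost z' y / τ₁ + P.phi z' ≤ two θ δ z m y + P.phi z)
    {p p' : TangentSpace 𝓘(ℝ, E) y} (hV : (-δ) • p ∈ segMin e y) (hVm : e y ((-δ) • p) = m)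
    (hV' : (-τ₁) • p' ∈ segMin e y) (hVz' : e y ((-τ₁) • p') = z')
    (ζ : TangentSpace 𝓘(ℝ, E) y) : inner ℝ p ζ ≤ inner ℝ p' ζ := by
  have he := F.isExp
  set ε : ℕ → ℝ := fun k => 1 / ((k : ℝ) + 1) with hε
  have hε0 : ∀ k, 0 < ε k := fun k => by (clear * -; positivity)
  have hεlim : Tendsto ε atTop (𝓝 0) := tendsto_one_div_add_atTop_nhds_zero_nat
  have hy0 : e y (0 : TangentSpace 𝓘(ℝ, E) y) = y := he.map_zero y
  have hYlim : Tendsto (fun k => e y (ε k • ζ)) atTop (𝓝 y) := by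
    have h2 : Tendsto (fun k => ε k • ζ) atTop (𝓝 ((0 : ℝ) • ζ)) := hεlim.smul_const ζ
    rw [zero_smul] at h2
    have h3 := ((contMDiff_exp_fiber he y).continuous.tendsto 0).comp h2
    rwa [hy0] at h3
  obtain ⟨ψ, n, hψ, hn, hev⟩ := perturbed F P hθ0 hδ hθδ hr hA hstrict hsm1 hsm2 hle0 hYlim
  have hεψ : Tendsto (fun k => ε (ψ k)) atTop (𝓝 0) := hεlim.comp hψ.tendsto_atTop
  have hL : Tendsto (fun k => (cost (e y (ε (ψ k) • ζ)) (n k) - cost y (n k)) / ε (ψ k))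
      atTop (𝓝 (-(inner ℝ ((-δ) • p) ζ))) :=
    slope_cost F hV hVm hsm2.symm ζ hεψ (fun k => hε0 _) hn
  obtain ⟨U, hU1, hU2⟩ := cost_variation F hV' ζ hεψ (fun k => hε0 _)
  rw [hVz'] at hU1
  have hfin := le_of_tendsto_of_tendsto (hL.div_const δ) (hU2.div_const τ₁) (by
    filter_upwards [hev] with k hk
    have h2 := hU1 k
    have h3 := hε0 (ψ k)
    have h4 : (cost (e y (ε (ψ k) • ζ)) (n k) - cost y (n k)) / ε (ψ k) / δ =
        ((cost (n k) (e y (ε (ψ k) • ζ)) - cost (n k) y) / δ) / ε (ψ k) := by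
      rw [cost_comm (e y (ε (ψ k) • ζ)), cost_comm y]; ring
    have h5 : ((cost z' (e y (ε (ψ k) • ζ)) - cost z' y) / τ₁) / ε (ψ k) ≤ U k / τ₁ := by
      rw [div_right_comm]
      apply div_le_div_of_nonneg_right _ h0.le
      rw [cost_comm z', cost_comm z']
      exact h2
    rw [h4]
    exact (div_le_div_of_nonneg_right hk h3.le).trans h5)
  rw [real_inner_smul_left, real_inner_smul_left] at hfin
  have e1 : -(-δ * inner ℝ p ζ) / δ = inner ℝ p ζ := by (clear * - hδ; field_simp)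
  have e2 : -(-τ₁ * inner ℝ p' ζ) / τ₁ = inner ℝ p' ζ := by field_simp
  rwa [e1, e2] at hfin

set_option backward.isDefEq.respectTransparency false in
/-- Case I: the endpoint determines the subgradient. -/
lemma inj_of_A (F : Facts e) (hW : WeakMTW e) (P : Pot M) {τ₁ : ℝ} (h0 : 0 < τ₁) (h1 : τ₁ < 1)
    (hA : P.A e τ₁) {z z' : M} {u : TangentSpace 𝓘(ℝ, E) z} {u' : TangentSpace 𝓘(ℝ, E) z'}
    (hu : u ∈ P.sub e z) (hu' : u' ∈ P.sub e z') (h : e z (τ₁ • u) = e z' (τ₁ • u')) :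
    (⟨z, u⟩ : TangentBundle 𝓘(ℝ, E) M) = ⟨z', u'⟩ := by
  have he := F.isExp
  obtain ⟨δ, ρ, hδ, hδτ, hρ, hρmin, hsm, hδρ⟩ := exists_scale F P h0
  obtain ⟨r, hr, hstrict⟩ := strict_local F hW P hδ hδτ h1 hA hρ hρmin hδρ hu
  have hsegz : τ₁ • u ∈ segMin e z := hA.segMin he h0 hu
  have hsegz' : τ₁ • u' ∈ segMin e z' := hA.segMin he h0 hu'
  set θ := τ₁ - δ with hθ
  have hθ0 : 0 < θ := by linarith only [hδτ]
  have hθδ : θ + δ = τ₁ := by rw [hθ]; ring
  obtain ⟨y, hy⟩ : ∃ y, y = e z (τ₁ • u) := ⟨_, rfl⟩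
  obtain ⟨m, hm⟩ : ∃ m, m = e z (θ • u) := ⟨_, rfl⟩
  have hy' : e z' (τ₁ • u') = y := by rw [← h, hy]
  rw [← hy, ← hm] at hstrict
  -- smoothness
  have hθseg : θ • u ∈ injDomain e z := by
    have h2 : θ • u = (θ / τ₁) • (τ₁ • u) := by
      rw [smul_smul]; congr 1; (clear * - h0 hθ0; field_simp)
    rw [h2]
    exact smul_mem_injDomain he hsegz (by (clear * - hδτ h0; positivity)) (by rw [div_lt_one h0]; linarith only [hδ])
  have hsm1 : SmoothAt E z m := by rw [hm]; exact F.smooth_cost z _ hθseg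
  have hδu : 0 ≤ δ * ‖u‖ := by (clear * - hδ; positivity)
  have hδu2 := hδρ z u hu
  have habs : |τ₁ - θ| = δ := by rw [hθ]; simp [abs_of_pos hδ]
  have hdmy : dist m y = ‖u‖ * δ := by
    have h3 := hρmin z u θ τ₁ (by rw [habs]; linarith only [hρ, hδu2])
    rw [hm, hy, h3, habs]
  have hlt : ‖u‖ * δ < ρ := by linarith only [hδu2, hρ]
  have hsm2 : SmoothAt E m y := hsm m y (by rw [hdmy]; exact hlt)
  -- velocities at `y`
  obtain ⟨p, hpn, hp⟩ := F.flow' u τ₁ hy.symm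
  obtain ⟨p', hpn', hp'⟩ := F.flow' u' τ₁ hy'
  have hVm : e y ((-δ) • p) = m := by
    rw [hp, hm]; congr 2
  have hVz' : e y ((-τ₁) • p') = z' := by
    rw [hp', add_neg_cancel, zero_smul]; exact he.map_zero z'
  have hV : (-δ) • p ∈ segMin e y := by
    show dist _ _ = _
    rw [hVm, norm_smul, norm_neg, Real.norm_of_nonneg hδ.le, hpn, dist_comm, hdmy, mul_comm]
  have hV' : (-τ₁) • p' ∈ segMin e y := by
    show dist _ _ = _
    rw [hVz', norm_smul, norm_neg, Real.norm_of_nonneg h0.le, hpn', dist_comm]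
    have : dist z' (e z' (τ₁ • u')) = ‖τ₁ • u'‖ := hsegz'
    rw [hy', norm_smul, Real.norm_of_nonneg h0.le] at this
    exact this
  -- values
  have hval : two θ δ z m y = τ₁ * ‖u‖ ^ 2 / 2 := by
    have hθseg' : θ • u ∈ segMin e z := injDomain_subset_segMin he z hθseg
    have := two_eq hθ0 hδ hρmin hθseg' hlt.le
    rw [hθδ] at this
    rw [hm, hy]
    exact this
  have hle0 : cost z' y / τ₁ + P.phi z' ≤ two θ δ z m y + P.phi z := by
    have h2 := hA z' u' hu' z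
    rw [hy'] at h2
    have h3 := cost_exp_le he z (τ₁ • u)
    have h4 := cost_exp_le he z' (τ₁ • u')
    rw [← hy, norm_smul, Real.norm_of_nonneg h0.le] at h3
    rw [hy', norm_smul, Real.norm_of_nonneg h0.le] at h4
    have h5 : cost z y / τ₁ ≤ τ₁ * ‖u‖ ^ 2 / 2 := by
      rw [div_le_iff₀ h0]; linarith only [h3]
    have h6 : cost z' y / τ₁ ≤ τ₁ * ‖u'‖ ^ 2 / 2 := by
      rw [div_le_iff₀ h0]; linarith only [h4]
    rw [hval]
    (clear * - h2 h5 h6; linarith)
  have hkey : ∀ ζ : TangentSpace 𝓘(ℝ, E) y, inner ℝ p ζ ≤ inner ℝ p' ζ :=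
    fun ζ => inj_key F P h0 hθ0 hδ hθδ hr hA hstrict hsm1 hsm2 hle0 hV hVm hV' hVz' ζ
  have hpp : p = p' := by
    have h2 := hkey (p - p')
    have h3 : inner ℝ (p - p') (p - p') ≤ 0 := by
      rw [inner_sub_left]; linarith only [h2]
    exact sub_eq_zero.1 (real_inner_self_nonpos.1 h3)
  have hall : ∀ t : ℝ, e z (t • u) = e z' (t • u') := by
    intro t
    have h2 := hp (t - τ₁)
    have h3 := hp' (t - τ₁)
    rw [← hpp, h2] at h3
    simpa using h3
  have hzz : z = z' := by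
    have h2 := hall 0
    rwa [zero_smul, zero_smul, he.map_zero, he.map_zero] at h2
  subst hzz
  have huu : u = u' := eq_of_exp_smul_eq he hall
  rw [huu]

set_option backward.isDefEq.respectTransparency false in
/-- A sequence of failures of the support property cannot accumulate at `τ₁`. -/
lemma no_failure (F : Facts e) (hW : WeakMTW e) (P : Pot M) {τ₁ δ ρ : ℝ} (h0 : 0 < τ₁)
    (h1 : τ₁ < 1) (hA : P.A e τ₁) (hδ : 0 < δ) (hδτ : δ < τ₁) (hρ : 0 < ρ)
    (hρmin : ∀ (x : M) (v : TangentSpace 𝓘(ℝ, E) x) (s t : ℝ),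
      ‖v‖ * |t - s| ≤ ρ → dist (e x (s • v)) (e x (t • v)) = ‖v‖ * |t - s|)
    (hδρ : ∀ (z : M), ∀ u ∈ P.sub e z, 2 * δ * ‖u‖ ≤ ρ)
    {τ : ℕ → ℝ} (hτgt : ∀ k, τ₁ < τ k) (hτle : ∀ k, τ k - δ ≤ τ₁)
    (hτlim : Tendsto τ atTop (𝓝 τ₁))
    {z z' y : ℕ → M} {u : ∀ k, TangentSpace 𝓘(ℝ, E) (z k)}
    {u' : ∀ k, TangentSpace 𝓘(ℝ, E) (z' k)} (hu : ∀ k, u k ∈ P.sub e (z k))
    (hu' : ∀ k, u' k ∈ P.sub e (z' k)) (hy : ∀ k, e (z k) (τ k • u k) = y k)
    (hy' : ∀ k, e (z' k) (τ k • u' k) = y k) (hseg : ∀ k, τ k • u' k ∈ segMin e (z' k))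
    (hlt : ∀ k, τ k * ‖u' k‖ ^ 2 / 2 + P.phi (z' k) < τ k * ‖u k‖ ^ 2 / 2 + P.phi (z k)) :
    False := by
  have he := F.isExp
  obtain ⟨φ, z₀, lam, w, lam₀, w₀, hφ, hl0, hl1, hw, hws, hlam, hwlim, hzlim, hl0', hl1', hw0,
    hulim⟩ := P.extract he z u hu
  obtain ⟨φ', z₀', -, -, lam₀', w₀', hφ', -, -, -, -, -, -, hzlim', hm0', hm1', hw0',
    hulim'⟩ := P.extract he (fun k => z' (φ k)) (fun k => u' (φ k)) (fun k => hu' (φ k))
  have hu₀ : ∑ j, lam₀ j • w₀ j ∈ P.sub e z₀ :=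
    (convex_convexHull ℝ _).sum_mem (fun j _ => hl0' j) hl1'
      (fun j _ => subset_convexHull ℝ _ (hw0 j))
  have hu₀' : ∑ j, lam₀' j • w₀' j ∈ P.sub e z₀' :=
    (convex_convexHull ℝ _).sum_mem (fun j _ => hm0' j) hm1'
      (fun j _ => subset_convexHull ℝ _ (hw0' j))
  have hφφ : StrictMono (fun k => φ (φ' k)) := fun a b hab => hφ (hφ' hab)
  have hτφ : Tendsto (fun k => τ (φ (φ' k))) atTop (𝓝 τ₁) := hτlim.comp hφφ.tendsto_atTop
  have hulim2 := hulim.subseq hφ'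
  have hend : e z₀ (τ₁ • ∑ j, lam₀ j • w₀ j) = e z₀' (τ₁ • ∑ j, lam₀' j • w₀' j) := by
    have t1 := (hulim2.smul hτφ).exp he
    have t2 := (hulim'.smul hτφ).exp he
    have t3 : (fun k => e (z (φ (φ' k))) (τ (φ (φ' k)) • u (φ (φ' k)))) =
        fun k => e (z' (φ (φ' k))) (τ (φ (φ' k)) • u' (φ (φ' k))) := by
      funext k
      rw [hy, hy']
    exact tendsto_nhds_unique (t3 ▸ t1) t2
  have hinj := inj_of_A F hW P h0 h1 hA hu₀ hu₀' hend
  have hz00 : z₀' = z₀ := (congrArg (fun p : TangentBundle 𝓘(ℝ, E) M => p.proj) hinj).symm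
  have hmm : e z₀' ((τ₁ - δ) • ∑ j, lam₀' j • w₀' j) = e z₀ ((τ₁ - δ) • ∑ j, lam₀ j • w₀ j) :=
    (congrArg (fun p : TangentBundle 𝓘(ℝ, E) M => e p.proj ((τ₁ - δ) • p.snd)) hinj).symm
  have hτpos : ∀ k, 0 < τ k - δ := fun k => by have := hτgt k; linarith only [hδτ, this]
  have hval : ∀ k, two (τ k - δ) δ (z k) (e (z k) ((τ k - δ) • u k)) (y k) =
      τ k * ‖u k‖ ^ 2 / 2 := by
    intro k
    have hs : (τ k - δ) • u k ∈ segMin e (z k) := by
      have h2 : (τ k - δ) • u k = ((τ k - δ) / τ₁) • (τ₁ • u k) := by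
        rw [smul_smul]; congr 1; (clear * - h0; field_simp)
      rw [h2]
      exact smul_mem_segMin he (hA.segMin he h0 (hu k)) (div_nonneg (hτpos k).le h0.le)
        (by rw [div_le_one h0]; exact hτle k)
    have h3 := two_eq (hτpos k) hδ hρmin hs (by
      have := hδρ _ _ (hu k)
      have h4 : 0 ≤ δ * ‖u k‖ := by (clear * - hδ; positivity)
      linarith only [hρ, this])
    rw [sub_add_cancel, hy] at h3
    exact h3
  have hval' : ∀ k, two (τ k - δ) δ (z' k) (e (z' k) ((τ k - δ) • u' k)) (y k) =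
      τ k * ‖u' k‖ ^ 2 / 2 := by
    intro k
    have hτk : 0 < τ k := h0.trans (hτgt k)
    have hs : (τ k - δ) • u' k ∈ segMin e (z' k) := by
      have h2 : (τ k - δ) • u' k = ((τ k - δ) / τ k) • (τ k • u' k) := by
        rw [smul_smul]; congr 1; (clear * - hτk; field_simp)
      rw [h2]
      exact smul_mem_segMin he (hseg k) (div_nonneg (hτpos k).le hτk.le)
        (by rw [div_le_one hτk]; linarith only [hδ])
    have h3 := two_eq (hτpos k) hδ hρmin hs (by
      have := hδρ _ _ (hu' k)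
      have h4 : 0 ≤ δ * ‖u' k‖ := by (clear * - hδ; positivity)
      linarith only [hρ, this])
    rw [sub_add_cancel, hy'] at h3
    exact h3
  have hD := stepD F hW P hδ hδτ h1 hA hρ hρmin hδρ (fun k => z (φ (φ' k)))
    (fun k => lam (φ' k)) (fun k => w (φ' k)) (fun k => τ (φ (φ' k)))
    (fun k => hl0 (φ' k)) (fun k => hl1 (φ' k)) (fun k => hw (φ' k)) z₀ lam₀ w₀
    (hzlim.comp hφ'.tendsto_atTop) (fun j => (hlam j).comp hφ'.tendsto_atTop)
    (fun j => (hwlim j).subseq hφ') hτφ (fun k => (hτgt _).le)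
    (fun k => z' (φ (φ' k)))
    (fun k => e (z' (φ (φ' k))) ((τ (φ (φ' k)) - δ) • u' (φ (φ' k))))
    (by rw [← hz00]; exact hzlim')
    (by
      rw [← hmm]
      exact (hulim'.smul (hτφ.sub_const δ)).exp he)
    (fun k => by
      rw [hws]
      intro hcon
      rw [Prod.mk.injEq] at hcon
      obtain ⟨hc1, hc2⟩ := hcon
      have a1 := hval (φ (φ' k))
      have a2 := hval' (φ (φ' k))
      rw [hc2] at a2
      have a3 := hlt (φ (φ' k))
      rw [← a1, ← a2, hc1] at a3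
      exact lt_irrefl _ a3)
  obtain ⟨k, hk⟩ := hD.exists
  rw [hws, hy, hval, hval'] at hk
  have := hlt (φ (φ' k))
  linarith only [hk, this]

set_option backward.isDefEq.respectTransparency false in
/-- Openness: the support property propagates. -/
theorem openStep (F : Facts e) (hW : WeakMTW e) (P : Pot M) {τ₁ : ℝ} (h0 : 0 < τ₁) (h1 : τ₁ < 1)
    (hA : P.A e τ₁) : ∃ τ₂ : ℝ, τ₁ < τ₂ ∧ τ₂ ≤ 1 ∧ P.A e τ₂ := by
  by_contra hcon
  push Not at hcon
  have he := F.isExp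
  obtain ⟨δ, ρ, hδ, hδτ, hρ, hρmin, hsm, hδρ⟩ := exists_scale F P h0
  have hc : 0 < min (1 - τ₁) δ := lt_min (by linarith only [h1]) hδ
  set τ : ℕ → ℝ := fun k => τ₁ + min (1 - τ₁) δ * (1 / ((k : ℝ) + 1)) with hτ
  have hτgt : ∀ k, τ₁ < τ k := fun k => by
    have : 0 < min (1 - τ₁) δ * (1 / ((k : ℝ) + 1)) := by (clear * - h1 hδ; positivity)
    simp only [hτ]; linarith only [this]
  have hτmin : ∀ k, τ k ≤ τ₁ + min (1 - τ₁) δ := fun k => by
    have h2 : 1 / ((k : ℝ) + 1) ≤ 1 := by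
      rw [div_le_one (by (clear * -; positivity))]
      have : (0 : ℝ) ≤ k := Nat.cast_nonneg k
      linarith only []
    have : min (1 - τ₁) δ * (1 / ((k : ℝ) + 1)) ≤ min (1 - τ₁) δ * 1 := by (clear * - h2 h1 hδ; gcongr)
    simp only [hτ]; linarith only [this]
  have hτle : ∀ k, τ k - δ ≤ τ₁ := fun k => by
    have := hτmin k
    have := min_le_right (1 - τ₁) δ
    linarith
  have hτ1 : ∀ k, τ k ≤ 1 := fun k => by
    have := hτmin k
    have := min_le_left (1 - τ₁) δ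
    linarith
  have hτlim : Tendsto τ atTop (𝓝 τ₁) := by
    have h2 : Tendsto (fun k : ℕ => τ₁ + min (1 - τ₁) δ * (1 / ((k : ℝ) + 1))) atTop
        (𝓝 (τ₁ + min (1 - τ₁) δ * 0)) :=
      (tendsto_one_div_add_atTop_nhds_zero_nat.const_mul _).const_add _
    rwa [mul_zero, add_zero] at h2
  have hτ0 : ∀ k, 0 < τ k := fun k => h0.trans (hτgt k)
  have hfail : ∀ k, ∃ (z : M) (u : TangentSpace 𝓘(ℝ, E) z), u ∈ P.sub e z ∧
      ∃ x, cost x (e z (τ k • u)) / τ k + P.phi x < τ k * ‖u‖ ^ 2 / 2 + P.phi z := by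
    intro k
    have h2 := hcon (τ k) (hτgt k) (hτ1 k)
    unfold Pot.A at h2
    push Not at h2
    obtain ⟨z, u, hu, x, hx⟩ := h2
    exact ⟨z, u, hu, x, hx⟩
  choose z u hu x hx using hfail
  have hmin : ∀ k, ∃ z' : M, ∀ x', cost z' (e (z k) (τ k • u k)) / τ k + P.phi z' ≤
      cost x' (e (z k) (τ k • u k)) / τ k + P.phi x' := by
    intro k
    have hck : Continuous (fun x' : M => cost x' (e (z k) (τ k • u k)) / τ k + P.phi x') :=
      ((continuous_cost.comp (continuous_id.prodMk continuous_const)).div_const _).add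
        P.continuous_phi
    obtain ⟨z', -, h2⟩ := isCompact_univ.exists_isMinOn ⟨z k, mem_univ _⟩ hck.continuousOn
    exact ⟨z', fun x' => h2 (mem_univ x')⟩
  choose z' hz' using hmin
  have hv : ∀ k, ∃ v' : TangentSpace 𝓘(ℝ, E) (z' k), e (z' k) v' = e (z k) (τ k • u k) ∧
      dist (z' k) (e (z k) (τ k • u k)) = ‖v'‖ := fun k => F.hopfRinow _ _
  choose v' hv1 hv2 using hv
  have hvs : ∀ k, v' k ∈ segMin e (z' k) := fun k => by
    show dist _ _ = _
    rw [hv1, hv2]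
  have hτv : ∀ k, τ k • ((1 / τ k) • v' k) = v' k := fun k => by
    have := (hτ0 k).ne'
    rw [smul_smul]
    have h2 : τ k * (1 / τ k) = 1 := by field_simp
    rw [h2, one_smul]
  refine no_failure F hW P h0 h1 hA hδ hδτ hρ hρmin hδρ hτgt hτle hτlim (z := z) (z' := z')
    (y := fun k => e (z k) (τ k • u k)) (u := u) (u' := fun k => (1 / τ k) • v' k) hu
    (fun k => stepA F P (hτ0 k) (Eventually.of_forall (hz' k)) (hvs k) (hv1 k))
    (fun k => rfl) (fun k => by rw [hτv, hv1]) (fun k => by rw [hτv]; exact hvs k)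
    (fun k => ?_)
  have h2 : τ k * ‖(1 / τ k) • v' k‖ ^ 2 / 2 = cost (z' k) (e (z k) (τ k • u k)) / τ k := by
    have := (hτ0 k).ne'
    unfold cost
    rw [hv2, norm_smul, Real.norm_of_nonneg (by have := hτ0 k; (clear * - h0 h1 hδ; positivity))]
    (clear * - this; field_simp)
  rw [h2]
  exact (hz' k (x k)).trans_lt (hx k)

end

end Vale.Agent.P234
end
end
end

section

section

section

/-! Conclusion from the interface facts. -/

set_option maxSynthPendingDepth 3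

open Bundle Manifold Set Filter
open scoped ContDiff Manifold Topology

namespace Vale.Agent.P234

noncomputable section

variable {E : Type*} [NormedAddCommGroup E] [NormedSpace ℝ E] [FiniteDimensional ℝ E]
  {M : Type*} [MetricSpace M] [ChartedSpace E M]
  [RiemannianBundle (fun x : M => TangentSpace 𝓘(ℝ, E) x)]
  [IsManifold 𝓘(ℝ, E) ∞ M]
  [IsContMDiffRiemannianBundle 𝓘(ℝ, E) ∞ E (fun x : M => TangentSpace 𝓘(ℝ, E) x)]
  [CompactSpace M]
  {e : ∀ x : M, TangentSpace 𝓘(ℝ, E) x → M}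

/-- The support property holds at time one. -/
theorem support_one (F : Facts e) (hW : WeakMTW e) (P : Pot M) : P.A e 1 := by
  obtain ⟨τ₀, h0, h1, hA0⟩ := baseCase F P
  let S : Set ℝ := {τ | τ₀ ≤ τ ∧ τ ≤ 1 ∧ P.A e τ}
  have hne : S.Nonempty := ⟨τ₀, le_rfl, h1.le, hA0⟩
  have hbdd : BddAbove S := ⟨1, fun τ hτ => hτ.2.1⟩
  have hs0 : τ₀ ≤ sSup S := le_csSup hbdd ⟨le_rfl, h1.le, hA0⟩
  have hs1 : sSup S ≤ 1 := csSup_le hne (fun τ hτ => hτ.2.1)
  obtain ⟨τ, -, hτlim, hτS⟩ := exists_seq_tendsto_sSup hne hbdd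
  have hAs : P.A e (sSup S) :=
    Pot.A.of_tendsto F.isExp (by linarith) hτlim (fun k => (hτS k).2.2)
  by_contra hcon
  have hs : sSup S < 1 := lt_of_le_of_ne hs1 (fun h => hcon (h ▸ hAs))
  obtain ⟨τ₂, h12, h21, hA2⟩ := openStep F hW P (by linarith) hs hAs
  have : τ₂ ≤ sSup S := le_csSup hbdd ⟨by linarith, h21, hA2⟩
  linarith

/-- Convexity of the set of minimizing vectors. -/
theorem convex_segMin (F : Facts e) (hW : WeakMTW e) (z : M) : Convex ℝ (segMin e z) := by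
  intro v₀ h₀ v₁ h₁ a b ha hb hab
  have c0 : cost z (e z v₀) = ‖v₀‖ ^ 2 / 2 := by
    have : dist z (e z v₀) = ‖v₀‖ := h₀
    rw [cost, this]
  have c1 : cost z (e z v₁) = ‖v₁‖ ^ 2 / 2 := by
    have : dist z (e z v₁) = ‖v₁‖ := h₁
    rw [cost, this]
  let P : Pot M :=
    { N := 2
      a := fun i => if i = 0 then ‖v₀‖ ^ 2 / 2 else ‖v₁‖ ^ 2 / 2
      y := fun i => if i = 0 then e z v₀ else e z v₁
      phi := fun x => max (‖v₀‖ ^ 2 / 2 - cost x (e z v₀)) (‖v₁‖ ^ 2 / 2 - cost x (e z v₁))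
      lower := by
        intro i x
        by_cases hi : i = 0
        · simp only [hi, if_true]
          exact le_max_left _ _
        · simp only [hi, if_false]
          exact le_max_right _ _
      attained := by
        intro x
        rcases le_total (‖v₀‖ ^ 2 / 2 - cost x (e z v₀)) (‖v₁‖ ^ 2 / 2 - cost x (e z v₁)) with h | h
        · refine ⟨1, ?_⟩
          rw [max_eq_right h, if_neg (by decide), if_neg (by decide)]
        · refine ⟨0, ?_⟩
          rw [max_eq_left h, if_pos rfl, if_pos rfl] }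
  have hphi : P.phi z = 0 := by
    change max (‖v₀‖ ^ 2 / 2 - cost z (e z v₀)) (‖v₁‖ ^ 2 / 2 - cost z (e z v₁)) = 0
    rw [c0, c1, sub_self, sub_self, max_self]
  have hv0 : v₀ ∈ P.vtx e z := by
    refine ⟨h₀, (0 : Fin 2), ?_, ?_⟩
    · change e z v₀ = if (0 : Fin 2) = 0 then e z v₀ else e z v₁
      rw [if_pos rfl]
    · rw [hphi]
      change 0 = (if (0 : Fin 2) = 0 then ‖v₀‖ ^ 2 / 2 else ‖v₁‖ ^ 2 / 2)
        - cost z (if (0 : Fin 2) = 0 then e z v₀ else e z v₁)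
      rw [if_pos rfl, if_pos rfl, c0, sub_self]
  have hv1 : v₁ ∈ P.vtx e z := by
    refine ⟨h₁, (1 : Fin 2), ?_, ?_⟩
    · change e z v₁ = if (1 : Fin 2) = 0 then e z v₀ else e z v₁
      rw [if_neg (by decide)]
    · rw [hphi]
      change 0 = (if (1 : Fin 2) = 0 then ‖v₀‖ ^ 2 / 2 else ‖v₁‖ ^ 2 / 2)
        - cost z (if (1 : Fin 2) = 0 then e z v₀ else e z v₁)
      rw [if_neg (by decide), if_neg (by decide), c1, sub_self]
  have hu : a • v₀ + b • v₁ ∈ P.sub e z :=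
    (convex_convexHull ℝ (P.vtx e z)) (subset_convexHull ℝ _ hv0) (subset_convexHull ℝ _ hv1)
      ha hb hab
  have := Pot.A.segMin F.isExp one_pos (support_one F hW P) hu
  rwa [one_smul] at this

/-- Main theorem from the interface facts. -/
theorem convex_injDomain (F : Facts e) (hW : WeakMTW e) (z : M) : Convex ℝ (injDomain e z) := by
  intro v₀ h₀ v₁ h₁ a b ha hb hab
  obtain ⟨t₀, ht₀, hv₀⟩ := (mem_injDomain_iff F.isExp).mp h₀
  obtain ⟨t₁, ht₁, hv₁⟩ := (mem_injDomain_iff F.isExp).mp h₁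
  rw [mem_injDomain_iff F.isExp]
  have key : ∀ (v : TangentSpace 𝓘(ℝ, E) z) (s t : ℝ), 1 < t → t ≤ s → s • v ∈ segMin e z →
      t • v ∈ segMin e z := by
    intro v s t ht hts hs
    have hs0 : 0 < s := by linarith only [ht, hts]
    have h := smul_mem_segMin F.isExp hs (t := t / s) (div_nonneg (by linarith only [ht]) hs0.le)
      ((div_le_one hs0).mpr hts)
    rwa [smul_smul, div_mul_cancel₀ _ hs0.ne'] at h
  have hmin : 1 < min t₀ t₁ := lt_min ht₀ ht₁
  refine ⟨min t₀ t₁, hmin, ?_⟩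
  have k0 := key v₀ t₀ (min t₀ t₁) hmin (min_le_left _ _) hv₀
  have k1 := key v₁ t₁ (min t₀ t₁) hmin (min_le_right _ _) hv₁
  have := convex_segMin F hW z k0 k1 ha hb hab
  rw [smul_add, smul_comm _ a, smul_comm _ b]
  exact this

end

end Vale.Agent.P234
end
end
end

section

section

section

/-! The logarithm is minus the gradient of the cost. -/

set_option maxSynthPendingDepth 3
set_option linter.unusedSectionVars false

open Bundle Manifold Set Filter
open scoped ContDiff Manifold Topology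

namespace Vale.Agent.P234

noncomputable section

/-- A function with nonnegative values on the right of a zero has nonnegative derivative. -/
lemma exCanon_deriv_nonneg {φ : ℝ → ℝ} {a r : ℝ} (hr : 0 < r) (hd : HasDerivAt φ a 0)
    (h0 : φ 0 = 0) (h : ∀ t : ℝ, 0 < t → t < r → 0 ≤ φ t) : 0 ≤ a := by
  have h1 := hd.tendsto_slope_zero_right
  refine ge_of_tendsto h1 ?_
  have h2 : ∀ᶠ t : ℝ in 𝓝[>] 0, t < r := by
    filter_upwards [Ioo_mem_nhdsGT hr] with t ht using ht.2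
  filter_upwards [h2, self_mem_nhdsWithin] with t ht ht0
  have ht0 : 0 < t := ht0
  rw [zero_add, h0, sub_zero, smul_eq_mul]
  exact mul_nonneg (inv_nonneg.2 ht0.le) (h t ht0 ht)

/-- The derivative of a function given by a square on the right. -/
lemma exCanon_deriv_sq {g : ℝ → ℝ} {a c : ℝ} (hd : HasDerivAt g a 0)
    (h : ∀ t ∈ Icc (0 : ℝ) 1, g t = (1 - t) ^ 2 * c / 2) : a = -c := by
  have h1 : HasDerivWithinAt g a (Icc 0 1) 0 := hd.hasDerivWithinAt
  have h2 : HasDerivAt (fun t : ℝ => (1 - t) ^ 2 * c / 2) (-c) 0 := by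
    have h3 : HasDerivAt (fun t : ℝ => 1 - t) (-1) 0 := (hasDerivAt_id (0 : ℝ)).const_sub 1
    have h4 := ((h3.pow 2).mul_const c).div_const 2
    refine h4.congr_deriv ?_
    norm_num
    ring
  have h3 : HasDerivWithinAt g (-c) (Icc 0 1) 0 :=
    h2.hasDerivWithinAt.congr h (h 0 (left_mem_Icc.2 zero_le_one))
  exact UniqueDiffWithinAt.eq_deriv _ (uniqueDiffOn_Icc zero_lt_one 0
    (left_mem_Icc.2 zero_le_one)) h1 h3

variable {E : Type*} [NormedAddCommGroup E] [NormedSpace ℝ E] [FiniteDimensional ℝ E]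
  {M : Type*} [MetricSpace M] [ChartedSpace E M]
  [RiemannianBundle (fun x : M => TangentSpace 𝓘(ℝ, E) x)]
  [IsManifold 𝓘(ℝ, E) ∞ M]
  [IsContMDiffRiemannianBundle 𝓘(ℝ, E) ∞ E (fun x : M => TangentSpace 𝓘(ℝ, E) x)]

omit [FiniteDimensional ℝ E] [RiemannianBundle (fun x : M => TangentSpace 𝓘(ℝ, E) x)]
  [IsManifold 𝓘(ℝ, E) ∞ M]
  [IsContMDiffRiemannianBundle 𝓘(ℝ, E) ∞ E (fun x : M => TangentSpace 𝓘(ℝ, E) x)] in
/-- The differential of a function vanishes at a minimum. -/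
lemma exCanon_mfderiv_min {f : M → ℝ} {b : M} (hf : MDifferentiableAt 𝓘(ℝ, E) 𝓘(ℝ, ℝ) f b)
    (h : ∀ z : M, f b ≤ f z) (ξ : TangentSpace 𝓘(ℝ, E) b) :
    (mfderiv 𝓘(ℝ, E) 𝓘(ℝ, ℝ) f b : E →L[ℝ] ℝ) ξ = 0 := by
  have h1 : (mfderiv 𝓘(ℝ, E) 𝓘(ℝ, ℝ) f b : E →L[ℝ] ℝ) =
      fderiv ℝ (fun c : E => f ((chartAt E b).symm c)) (chartAt E b b) := by
    rw [hf.mfderiv]
    simp only [writtenInExtChartAt, extChartAt, OpenPartialHomeomorph.extend, modelWithCornersSelf_partialEquiv, PartialEquiv.trans_refl, OpenPartialHomeomorph.toFun_eq_coe, OpenPartialHomeomorph.coe_toPartialEquiv_symm, modelWithCornersSelf_coe, range_id, fderivWithin_univ]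
    rfl
  rw [h1]
  have h2 : IsLocalMin (fun c : E => f ((chartAt E b).symm c)) (chartAt E b b) := by
    refine Filter.Eventually.of_forall (fun c => ?_)
    simp only [(chartAt E b).left_inv (mem_chart_source E b)]
    exact h _
  rw [h2.fderiv_eq_zero]
  rfl

omit [FiniteDimensional ℝ E] [RiemannianBundle (fun x : M => TangentSpace 𝓘(ℝ, E) x)]
  [IsManifold 𝓘(ℝ, E) ∞ M]
  [IsContMDiffRiemannianBundle 𝓘(ℝ, E) ∞ E (fun x : M => TangentSpace 𝓘(ℝ, E) x)] in
lemma exCanon_mfderiv_congr {f : M → ℝ} {p q : M} (h : q = p) (w : E) :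
    (mfderiv 𝓘(ℝ, E) 𝓘(ℝ, ℝ) f q : E →L[ℝ] ℝ) w = (mfderiv 𝓘(ℝ, E) 𝓘(ℝ, ℝ) f p : E →L[ℝ] ℝ) w := by
  subst h
  rfl

omit [FiniteDimensional ℝ E]
  [IsContMDiffRiemannianBundle 𝓘(ℝ, E) ∞ E (fun x : M => TangentSpace 𝓘(ℝ, E) x)] in
/-- Derivative of the cost along a ray. -/
lemma exCanon_hasDerivAt {x y : M} {f : TangentSpace 𝓘(ℝ, E) x → M} (hf0 : f 0 = x)
    (hd : MDifferentiableAt 𝓘(ℝ, E) 𝓘(ℝ, ℝ) (fun z : M => cost z y) x)
    (hc : ∀ w : TangentSpace 𝓘(ℝ, E) x,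
      MDifferentiableAt 𝓘(ℝ, ℝ) 𝓘(ℝ, E) (fun t : ℝ => f (t • w)) 0)
    (hv : ∀ w : TangentSpace 𝓘(ℝ, E) x,
      mfderiv 𝓘(ℝ, ℝ) 𝓘(ℝ, E) (fun t : ℝ => f (t • w)) 0 (1 : ℝ) = w)
    (w : TangentSpace 𝓘(ℝ, E) x) :
    HasDerivAt (fun t : ℝ => cost (f (t • w)) y) (dfun (fun z : M => cost z y) x w) 0 := by
  have hp0 : f ((0 : ℝ) • w) = x := by rw [zero_smul, hf0]
  have hf : MDifferentiableAt 𝓘(ℝ, E) 𝓘(ℝ, ℝ) (fun z : M => cost z y) (f ((0 : ℝ) • w)) := by
    rw [hp0]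
    exact hd
  have h1 : mfderiv 𝓘(ℝ, ℝ) 𝓘(ℝ, ℝ) ((fun z : M => cost z y) ∘ fun t : ℝ => f (t • w))
      0 (1 : ℝ) = mfderiv 𝓘(ℝ, E) 𝓘(ℝ, ℝ) (fun z : M => cost z y) (f ((0 : ℝ) • w))
        (mfderiv 𝓘(ℝ, ℝ) 𝓘(ℝ, E) (fun t : ℝ => f (t • w)) 0 (1 : ℝ)) :=
    mfderiv_comp_apply (0 : ℝ) hf (hc w) 1
  have h2 : DifferentiableAt ℝ (fun t : ℝ => cost (f (t • w)) y) 0 :=
    mdifferentiableAt_iff_differentiableAt.1
      (MDifferentiableAt.comp (g := fun z : M => cost z y) (0 : ℝ) hf (hc w))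
  have h5 := congrArg (fun u => mfderiv 𝓘(ℝ, E) 𝓘(ℝ, ℝ) (fun z : M => cost z y)
    (f ((0 : ℝ) • w)) u) (hv w)
  have h6 := exCanon_mfderiv_congr (E := E) (f := fun z : M => cost z y) hp0 w
  have h7 : mfderiv 𝓘(ℝ, ℝ) 𝓘(ℝ, ℝ) ((fun z : M => cost z y) ∘ fun t : ℝ => f (t • w))
      0 (1 : ℝ) = dfun (fun z : M => cost z y) x w := (h1.trans h5).trans h6
  rw [mfderiv_eq_fderiv] at h7
  exact h2.hasDerivAt.congr_deriv h7

omit [FiniteDimensional ℝ E]
  [IsContMDiffRiemannianBundle 𝓘(ℝ, E) ∞ E (fun x : M => TangentSpace 𝓘(ℝ, E) x)] in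
/-- The gradient of the cost at one point. -/
lemma exCanon_grad_point {x y : M} {f : TangentSpace 𝓘(ℝ, E) x → M}
    {u : TangentSpace 𝓘(ℝ, E) x} {r : ℝ} (hr : 0 < r) (hf0 : f 0 = x)
    (hray : ∀ v : TangentSpace 𝓘(ℝ, E) x, ‖v‖ < r → dist x (f v) = ‖v‖)
    (hu : ∀ t ∈ Icc (0 : ℝ) 1, dist (f (t • u)) y = (1 - t) * ‖u‖)
    (hd : MDifferentiableAt 𝓘(ℝ, E) 𝓘(ℝ, ℝ) (fun z : M => cost z y) x)
    (hc : ∀ w : TangentSpace 𝓘(ℝ, E) x,
      MDifferentiableAt 𝓘(ℝ, ℝ) 𝓘(ℝ, E) (fun t : ℝ => f (t • w)) 0)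
    (hv : ∀ w : TangentSpace 𝓘(ℝ, E) x,
      mfderiv 𝓘(ℝ, ℝ) 𝓘(ℝ, E) (fun t : ℝ => f (t • w)) 0 (1 : ℝ) = w)
    (w : TangentSpace 𝓘(ℝ, E) x) :
    dfun (fun z : M => cost z y) x w = -(inner ℝ u w) := by
  have hxy : dist x y = ‖u‖ := by
    have := hu 0 (left_mem_Icc.2 zero_le_one)
    rwa [zero_smul, hf0, sub_zero, one_mul] at this
  have hder := exCanon_hasDerivAt hf0 hd hc hv
  -- the upper bound
  have hle : ∀ b : TangentSpace 𝓘(ℝ, E) x,
      dfun (fun z : M => cost z y) x b ≤ ‖u‖ * ‖b‖ := by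
    intro b
    have h1 : HasDerivAt (fun t : ℝ => (‖u‖ + t * ‖b‖) ^ 2 / 2 - cost (f (t • b)) y)
        (‖u‖ * ‖b‖ - dfun (fun z : M => cost z y) x b) 0 := by
      have h2 : HasDerivAt (fun t : ℝ => ‖u‖ + t * ‖b‖) ‖b‖ 0 := by
        have := ((hasDerivAt_id (0 : ℝ)).mul_const ‖b‖).const_add ‖u‖
        simpa using this
      have h3 := ((h2.pow 2).div_const 2).sub (hder b)
      refine h3.congr_deriv ?_
      simp only [Nat.cast_ofNat, zero_mul, add_zero, Nat.add_one_sub_one, pow_one, sub_left_inj]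
      ring
    have h2 := exCanon_deriv_nonneg (r := r / (‖b‖ + 1)) (by positivity) h1 ?_ ?_
    · linarith only [h2]
    · rw [zero_smul, hf0, zero_mul, add_zero, cost, hxy, sub_self]
    · intro t ht0 ht1
      have h4 : ‖t • b‖ = t * ‖b‖ := by
        rw [norm_smul, Real.norm_eq_abs, abs_of_pos ht0]
      have h5 : ‖t • b‖ < r := by
        rw [h4]
        rw [lt_div_iff₀ (by (clear * -; positivity))] at ht1
        linarith only [ht1, ht0]
      have h6 := hray _ h5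
      rw [h4] at h6
      have h7 : dist (f (t • b)) y ≤ ‖u‖ + t * ‖b‖ := by
        have h8 := dist_triangle (f (t • b)) x y
        rw [dist_comm (f (t • b)) x, h6, hxy] at h8
        linarith only [h8]
      have h8 := pow_le_pow_left₀ dist_nonneg h7 2
      rw [cost]
      linarith only [h8]
  -- the value at u
  have hval : dfun (fun z : M => cost z y) x u = -(‖u‖ ^ 2) := by
    refine exCanon_deriv_sq (hder u) (fun t ht => ?_)
    rw [cost, hu t ht]
    ring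
  set ℓ : TangentSpace 𝓘(ℝ, E) x →L[ℝ] ℝ :=
    mfderiv 𝓘(ℝ, E) 𝓘(ℝ, ℝ) (fun z : M => cost z y) x with hℓ
  have hℓd : ∀ b : TangentSpace 𝓘(ℝ, E) x, ℓ b = dfun (fun z : M => cost z y) x b := fun b => rfl
  have habs : ∀ b : TangentSpace 𝓘(ℝ, E) x, |ℓ b| ≤ ‖u‖ * ‖b‖ := by
    intro b
    rw [abs_le]
    constructor
    · have h1 := hle (-b)
      rw [← hℓd, map_neg, norm_neg] at h1
      linarith only [h1]
    · have h1 := hle b
      rwa [← hℓd] at h1
  rw [← hℓd] at hval ⊢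
  by_cases hu0 : u = 0
  · have h1 := habs w
    rw [hu0, norm_zero, zero_mul] at h1
    have h2 : ℓ w = 0 := abs_eq_zero.1 (le_antisymm h1 (abs_nonneg _))
    rw [h2, hu0, inner_zero_left, neg_zero]
  · have hun : 0 < ‖u‖ := norm_pos_iff.2 hu0
    have h1 := functional_eq_inner ((-(‖u‖⁻¹)) • ℓ) (fun b => ?_) (u := u) ?_ hu0 w
    · rw [smul_apply, smul_eq_mul] at h1
      field_simp at h1
      linarith only [h1]
    · rw [smul_apply, smul_eq_mul, abs_mul, abs_neg, abs_of_pos (inv_pos.2 hun)]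
      have h2 := habs b
      rw [inv_mul_le_iff₀ hun]
      exact h2
    · rw [smul_apply, smul_eq_mul, hval]
      (clear * - hu0; field_simp)

omit [FiniteDimensional ℝ E] [RiemannianBundle (fun x : M => TangentSpace 𝓘(ℝ, E) x)]
  [IsContMDiffRiemannianBundle 𝓘(ℝ, E) ∞ E (fun x : M => TangentSpace 𝓘(ℝ, E) x)] in
lemma exCanon_contMDiff_fiber (z : M) (w : TangentSpace 𝓘(ℝ, E) z) :
    ContMDiff 𝓘(ℝ, ℝ) (𝓘(ℝ, E).tangent) ∞
      (fun t : ℝ => (⟨z, t • w⟩ : TangentBundle 𝓘(ℝ, E) M)) := by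
  intro t
  rw [Bundle.contMDiffAt_totalSpace]
  refine ⟨contMDiffAt_const, ?_⟩
  have hz : z ∈ (trivializationAt E (TangentSpace 𝓘(ℝ, E)) z).baseSet :=
    FiberBundle.mem_baseSet_trivializationAt' z
  have h2 : ContMDiffAt 𝓘(ℝ, ℝ) 𝓘(ℝ, E) ∞ (fun s : ℝ => s •
      ((trivializationAt E (TangentSpace 𝓘(ℝ, E)) z).continuousLinearMapAt ℝ z w)) t :=
    (contDiff_id.smul contDiff_const).contMDiff.contMDiffAt
  refine h2.congr_of_eventuallyEq (Filter.Eventually.of_forall fun s => ?_)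
  have h3 := ((trivializationAt E (TangentSpace 𝓘(ℝ, E)) z).continuousLinearMapAt ℝ
    z).map_smul s w
  refine Eq.trans ?_ h3
  simp only [Trivialization.continuousLinearMapAt_apply,
    Trivialization.coe_linearMapAt_of_mem _ hz]

/-- The cost is differentiable near the diagonal. -/
lemma exCanon_mdiff {x₀ : M} {e₁ : ∀ x : M, TangentSpace 𝓘(ℝ, E) x → M}
    {L₁ : ∀ x : M, M → TangentSpace 𝓘(ℝ, E) x} (h : IsLocExp x₀ e₁ L₁) :
    ∀ᶠ q in 𝓝 ((x₀, x₀) : M × M),
      MDifferentiableAt 𝓘(ℝ, E) 𝓘(ℝ, ℝ) (fun z : M => cost z q.2) q.1 := by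
  filter_upwards [h.smooth_log, eventually_eventually_nhds.2 h.norm_log] with q h1 h2
  have h3 : ContMDiffAt 𝓘(ℝ, E) (𝓘(ℝ, E).prod 𝓘(ℝ, E)) ∞ (fun z : M => (z, q.2)) q.1 :=
    contMDiffAt_id.prodMk contMDiffAt_const
  have h4 : ContMDiffAt 𝓘(ℝ, E) 𝓘(ℝ, E).tangent ∞
      (fun z : M => (⟨z, L₁ z q.2⟩ : TangentBundle 𝓘(ℝ, E) M)) q.1 :=
    ContMDiffAt.comp (g := fun q : M × M => (⟨q.1, L₁ q.1 q.2⟩ : TangentBundle 𝓘(ℝ, E) M))
      q.1 h1 h3
  have h5 : ContMDiffAt 𝓘(ℝ, E) 𝓘(ℝ, ℝ) ∞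
      (fun z : M => inner ℝ (L₁ z q.2) (L₁ z q.2)) q.1 :=
    ContMDiffAt.inner_bundle h4 h4
  have h6 : ContMDiffAt 𝓘(ℝ, E) 𝓘(ℝ, ℝ) ∞
      (fun z : M => (1 / 2 : ℝ) * inner ℝ (L₁ z q.2) (L₁ z q.2)) q.1 :=
    (contMDiffAt_const (c := (1 / 2 : ℝ))).mul h5
  have h7 : (fun z : M => cost z q.2) =ᶠ[𝓝 q.1]
      (fun z : M => (1 / 2 : ℝ) * inner ℝ (L₁ z q.2) (L₁ z q.2)) := by
    have h8 : Tendsto (fun z : M => (z, q.2)) (𝓝 q.1) (𝓝 q) :=
      (continuous_id.prodMk continuous_const).tendsto q.1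
    filter_upwards [h8.eventually h2] with z hz
    rw [cost, ← hz, real_inner_self_eq_norm_sq]
    ring
  exact (h6.congr_of_eventuallyEq h7).mdifferentiableAt (by simp)

/-- The gradient of the cost near the diagonal. -/
theorem IsLocExp.grad {x₀ : M} {e₁ : ∀ x : M, TangentSpace 𝓘(ℝ, E) x → M}
    {L₁ : ∀ x : M, M → TangentSpace 𝓘(ℝ, E) x} (h : IsLocExp x₀ e₁ L₁) :
    ∀ᶠ q in 𝓝 ((x₀, x₀) : M × M),
      MDifferentiableAt 𝓘(ℝ, E) 𝓘(ℝ, ℝ) (fun z : M => cost z q.2) q.1 ∧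
      ∀ w : TangentSpace 𝓘(ℝ, E) q.1,
        dfun (fun z : M => cost z q.2) q.1 w = -(inner ℝ (L₁ q.1 q.2) w) := by
  obtain ⟨r, hr, hball⟩ := eventually_ball_bundle (h.smooth.and h.ray)
  have hfst : Tendsto (fun q : M × M => q.1) (𝓝 (x₀, x₀)) (𝓝 x₀) :=
    continuous_fst.tendsto (x₀, x₀)
  have hfst2 : Tendsto (fun q : M × M => (q.1, q.1)) (𝓝 (x₀, x₀)) (𝓝 (x₀, x₀)) :=
    (continuous_fst.prodMk continuous_fst).tendsto (x₀, x₀)
  have hd0 : ∀ᶠ q in 𝓝 ((x₀, x₀) : M × M), dist q.1 x₀ < r := by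
    have h1 : Tendsto (fun q : M × M => dist q.1 x₀) (𝓝 (x₀, x₀)) (𝓝 (dist x₀ x₀)) :=
      (continuous_fst.dist continuous_const).tendsto (x₀, x₀)
    rw [dist_self] at h1
    exact h1.eventually (gt_mem_nhds hr)
  have hd1 : ∀ᶠ q in 𝓝 ((x₀, x₀) : M × M), dist q.1 q.2 < r := by
    have h1 : Tendsto (fun q : M × M => dist q.1 q.2) (𝓝 (x₀, x₀)) (𝓝 (dist x₀ x₀)) :=
      continuous_dist.tendsto (x₀, x₀)
    rw [dist_self] at h1
    exact h1.eventually (gt_mem_nhds hr)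
  filter_upwards [exCanon_mdiff h, h.exp_log, h.norm_log, hfst2.eventually h.exp_log,
    hfst2.eventually h.norm_log, hfst.eventually h.velocity, hd0, hd1]
    with q hmd hexp hnorm hexp0 hnorm0 hvel hq0 hq1
  refine ⟨hmd, ?_⟩
  have hL0 : L₁ q.1 q.1 = 0 := by
    rw [dist_self] at hnorm0
    exact norm_eq_zero.1 hnorm0
  have hf0 : e₁ q.1 0 = q.1 := by
    rw [← hL0]
    exact hexp0
  refine exCanon_grad_point (f := e₁ q.1) hr hf0 ?_ ?_ hmd ?_ hvel
  · intro v hv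
    have h1 := (hball q.1 hq0 v hv).2 0 (left_mem_Icc.2 zero_le_one) 1
      (right_mem_Icc.2 zero_le_one)
    simp only [zero_smul, one_smul, hf0, sub_zero, abs_one, one_mul] at h1
    exact h1
  · intro t ht
    have h1 := (hball q.1 hq0 (L₁ q.1 q.2) (by rw [hnorm]; exact hq1)).2 t ht 1
      (right_mem_Icc.2 zero_le_one)
    simp only [one_smul, hexp] at h1
    rw [h1, abs_of_nonneg (by linarith only [ht.2])]
  · intro w
    have h1 := (hball q.1 hq0 0 (by rw [norm_zero]; exact hr)).1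
    have h2 := exCanon_contMDiff_fiber q.1 w 0
    have h3 : (⟨q.1, (0 : ℝ) • w⟩ : TangentBundle 𝓘(ℝ, E) M) = ⟨q.1, 0⟩ := by rw [zero_smul]
    rw [← h3] at h1
    exact (ContMDiffAt.comp (g := fun p : TangentBundle 𝓘(ℝ, E) M => e₁ p.proj p.snd)
      (0 : ℝ) h1 h2).mdifferentiableAt (by simp)

/-- No corner at a midpoint, from the gradient formula. -/
theorem corner_of_grad {a b c : M} {u w : TangentSpace 𝓘(ℝ, E) b}
    (hda : MDifferentiableAt 𝓘(ℝ, E) 𝓘(ℝ, ℝ) (fun z : M => cost z a) b)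
    (hdc : MDifferentiableAt 𝓘(ℝ, E) 𝓘(ℝ, ℝ) (fun z : M => cost z c) b)
    (ha : ∀ ξ : TangentSpace 𝓘(ℝ, E) b, dfun (fun z : M => cost z a) b ξ = -(inner ℝ u ξ))
    (hc : ∀ ξ : TangentSpace 𝓘(ℝ, E) b, dfun (fun z : M => cost z c) b ξ = -(inner ℝ w ξ))
    (h1 : dist b c = dist a b) (h2 : dist a c = 2 * dist a b) : w = -u := by
  have hd : MDifferentiableAt 𝓘(ℝ, E) 𝓘(ℝ, ℝ)
      ((fun z : M => cost z a) + fun z : M => cost z c) b := hda.add hdc
  have hmin : ∀ z : M, ((fun z : M => cost z a) + fun z : M => cost z c) b ≤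
      ((fun z : M => cost z a) + fun z : M => cost z c) z := by
    intro z
    have h3 := cost_ineq a z c one_pos one_pos
    rw [cost_comm a z, div_one, div_one] at h3
    have h4 : cost a c / (1 + 1) = cost b a + cost b c := by
      unfold cost
      rw [h1, h2, dist_comm b a]
      ring
    rw [h4] at h3
    exact h3
  have h5 : ∀ ξ : TangentSpace 𝓘(ℝ, E) b, inner ℝ (u + w) ξ = 0 := by
    intro ξ
    have h6 := exCanon_mfderiv_min hd hmin ξ
    have h7 : (mfderiv 𝓘(ℝ, E) 𝓘(ℝ, ℝ) ((fun z : M => cost z a) + fun z : M => cost z c) b :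
        E →L[ℝ] ℝ) ξ = dfun (fun z : M => cost z a) b ξ + dfun (fun z : M => cost z c) b ξ := by
      rw [mfderiv_add hda hdc]
      rfl
    rw [h6, ha ξ, hc ξ] at h7
    have haux : ∀ A B : ℝ, 0 = -A + -B → A + B = 0 := fun A B h => by linarith only [h]
    have h8 : inner ℝ u ξ + inner ℝ w ξ = 0 := haux _ _ h7
    exact (inner_add_left u w ξ).trans h8
  have h6 : u + w = 0 := by
    have := h5 (u + w)
    exact inner_self_eq_zero.1 this
  exact (eq_neg_of_add_eq_zero_right h6)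

end

end Vale.Agent.P234
end
end
end

section

section

section

/-! Gluing of the local exponential maps. -/

set_option maxSynthPendingDepth 3
set_option linter.unusedSectionVars false

open Bundle Manifold Set Filter
open scoped ContDiff Manifold Topology

namespace Vale.Agent.P234

noncomputable section

variable {E : Type*} [NormedAddCommGroup E] [NormedSpace ℝ E] [FiniteDimensional ℝ E]
  {M : Type*} [MetricSpace M] [ChartedSpace E M]
  [RiemannianBundle (fun x : M => TangentSpace 𝓘(ℝ, E) x)]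
  [IsManifold 𝓘(ℝ, E) ∞ M]
  [IsContMDiffRiemannianBundle 𝓘(ℝ, E) ∞ E (fun x : M => TangentSpace 𝓘(ℝ, E) x)]

/-- A local exponential map on explicit balls. -/
structure BallExp (x₀ : M) (r : ℝ) (e₁ : ∀ x : M, TangentSpace 𝓘(ℝ, E) x → M)
    (L₁ : ∀ x : M, M → TangentSpace 𝓘(ℝ, E) x) : Prop where
  pos : 0 < r
  smooth : ∀ p : TangentBundle 𝓘(ℝ, E) M, dist p.proj x₀ < r → ‖p.snd‖ < r →
    ContMDiffAt 𝓘(ℝ, E).tangent 𝓘(ℝ, E) ∞
      (fun p : TangentBundle 𝓘(ℝ, E) M => e₁ p.proj p.snd) p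
  smooth_log : ∀ x y : M, dist x x₀ < r → dist y x₀ < r →
    ContMDiffAt (𝓘(ℝ, E).prod 𝓘(ℝ, E)) 𝓘(ℝ, E).tangent ∞
      (fun q : M × M => (⟨q.1, L₁ q.1 q.2⟩ : TangentBundle 𝓘(ℝ, E) M)) (x, y)
  exp_log : ∀ x y : M, dist x x₀ < r → dist y x₀ < r → e₁ x (L₁ x y) = y
  norm_log : ∀ x y : M, dist x x₀ < r → dist y x₀ < r → ‖L₁ x y‖ = dist x y
  log_exp : ∀ (x : M) (v : TangentSpace 𝓘(ℝ, E) x), dist x x₀ < r → ‖v‖ < r →
    L₁ x (e₁ x v) = v
  ray : ∀ (x : M) (v : TangentSpace 𝓘(ℝ, E) x), dist x x₀ < r → ‖v‖ < r →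
    ∀ s ∈ Icc (0 : ℝ) 1, ∀ t ∈ Icc (0 : ℝ) 1, dist (e₁ x (s • v)) (e₁ x (t • v)) = |t - s| * ‖v‖
  velocity : ∀ (x : M) (v : TangentSpace 𝓘(ℝ, E) x), dist x x₀ < r →
    mfderiv 𝓘(ℝ, ℝ) 𝓘(ℝ, E) (fun t : ℝ => e₁ x (t • v)) 0 (1 : ℝ) = v
  diff : ∀ x y : M, dist x x₀ < r → dist y x₀ < r →
    MDifferentiableAt 𝓘(ℝ, E) 𝓘(ℝ, ℝ) (fun z : M => cost z y) x
  grad : ∀ x y : M, dist x x₀ < r → dist y x₀ < r → ∀ w : TangentSpace 𝓘(ℝ, E) x,
    dfun (fun z : M => cost z y) x w = -(inner ℝ (L₁ x y) w)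

theorem IsLocExp.exists_ball {x₀ : M} {e₁ : ∀ x : M, TangentSpace 𝓘(ℝ, E) x → M}
    {L₁ : ∀ x : M, M → TangentSpace 𝓘(ℝ, E) x} (h : IsLocExp x₀ e₁ L₁) :
    ∃ r : ℝ, BallExp x₀ r e₁ L₁ := by
  obtain ⟨r1, hr1, H1⟩ := eventually_ball_bundle (h.smooth.and (h.log_exp.and h.ray))
  obtain ⟨r2, hr2, H2⟩ := Metric.eventually_nhds_iff.1
    (h.smooth_log.and (h.exp_log.and (h.norm_log.and h.grad)))
  obtain ⟨r3, hr3, H3⟩ := Metric.eventually_nhds_iff.1 h.velocity
  have hpair : ∀ x y : M, dist x x₀ < min r1 (min r2 r3) → dist y x₀ < min r1 (min r2 r3) →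
      dist ((x, y) : M × M) (x₀, x₀) < r2 := by
    intro x y hx hy
    rw [Prod.dist_eq]
    exact max_lt (hx.trans_le ((min_le_right _ _).trans (min_le_left _ _)))
      (hy.trans_le ((min_le_right _ _).trans (min_le_left _ _)))
  have hb : ∀ {a : ℝ}, a < min r1 (min r2 r3) → a < r1 := fun ha => ha.trans_le (min_le_left _ _)
  refine ⟨min r1 (min r2 r3), lt_min hr1 (lt_min hr2 hr3), ?_, ?_, ?_, ?_, ?_, ?_, ?_, ?_, ?_⟩
  · intro p hp hv
    exact (H1 p.proj (hb hp) p.snd (hb hv)).1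
  · intro x y hx hy
    exact (H2 (hpair x y hx hy)).1
  · intro x y hx hy
    exact (H2 (hpair x y hx hy)).2.1
  · intro x y hx hy
    exact (H2 (hpair x y hx hy)).2.2.1
  · intro x v hx hv
    exact (H1 x (hb hx) v (hb hv)).2.1
  · intro x v hx hv
    exact (H1 x (hb hx) v (hb hv)).2.2
  · intro x v hx
    exact H3 (hx.trans_le ((min_le_right _ _).trans (min_le_right _ _))) v
  · intro x y hx hy
    exact (H2 (hpair x y hx hy)).2.2.2.1
  · intro x y hx hy
    exact (H2 (hpair x y hx hy)).2.2.2.2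

theorem BallExp.exp_zero {x₀ : M} {r : ℝ} {e₁ : ∀ x : M, TangentSpace 𝓘(ℝ, E) x → M}
    {L₁ : ∀ x : M, M → TangentSpace 𝓘(ℝ, E) x} (h : BallExp x₀ r e₁ L₁) {x : M}
    (hx : dist x x₀ < r) : e₁ x 0 = x := by
  have h1 := h.norm_log x x hx hx
  rw [dist_self, norm_eq_zero] at h1
  have h2 := h.exp_log x x hx hx
  rwa [h1] at h2

theorem BallExp.dist_exp {x₀ : M} {r : ℝ} {e₁ : ∀ x : M, TangentSpace 𝓘(ℝ, E) x → M}
    {L₁ : ∀ x : M, M → TangentSpace 𝓘(ℝ, E) x} (h : BallExp x₀ r e₁ L₁) {x : M}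
    (hx : dist x x₀ < r) {v : TangentSpace 𝓘(ℝ, E) x} (hv : ‖v‖ < r) :
    dist x (e₁ x v) = ‖v‖ := by
  have h1 := h.ray x v hx hv 0 ⟨le_refl _, zero_le_one⟩ 1 ⟨zero_le_one, le_refl _⟩
  rw [zero_smul, one_smul, h.exp_zero hx, sub_zero, abs_one, one_mul] at h1
  exact h1

/-- The logarithms of two local exponential maps agree. -/
theorem BallExp.log_unique {x₀ x₁ : M} {r₀ r₁ : ℝ} {e₁ e₂ : ∀ x : M, TangentSpace 𝓘(ℝ, E) x → M}
    {L₁ L₂ : ∀ x : M, M → TangentSpace 𝓘(ℝ, E) x} (h₁ : BallExp x₀ r₀ e₁ L₁)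
    (h₂ : BallExp x₁ r₁ e₂ L₂) {x y : M} (hx : dist x x₀ < r₀) (hy : dist y x₀ < r₀)
    (hx' : dist x x₁ < r₁) (hy' : dist y x₁ < r₁) : L₁ x y = L₂ x y := by
  refine ext_inner_right ℝ fun w => ?_
  have h3 := h₁.grad x y hx hy w
  have h4 := h₂.grad x y hx' hy' w
  exact neg_injective (h3.symm.trans h4)

lemma exGlue_contMDiff_normSq : ContMDiff (𝓘(ℝ, E).tangent) 𝓘(ℝ, ℝ) ∞
    (fun p : TangentBundle 𝓘(ℝ, E) M => inner ℝ p.snd p.snd) := by
  have h : ContMDiff (𝓘(ℝ, E).tangent) (𝓘(ℝ, E).prod 𝓘(ℝ, E)) ∞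
      (fun p : TangentBundle 𝓘(ℝ, E) M => (⟨p.proj, p.snd⟩ : TangentBundle 𝓘(ℝ, E) M)) :=
    contMDiff_id
  exact ContMDiff.inner_bundle h h

lemma exGlue_continuous_norm : Continuous (fun p : TangentBundle 𝓘(ℝ, E) M => ‖p.snd‖) := by
  have h : Continuous (fun p : TangentBundle 𝓘(ℝ, E) M => Real.sqrt (inner ℝ p.snd p.snd)) :=
    Real.continuous_sqrt.comp exGlue_contMDiff_normSq.continuous
  refine h.congr (fun p => ?_)
  rw [real_inner_self_eq_norm_sq, Real.sqrt_sq (norm_nonneg _)]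

/-- Gluing by compactness. -/
theorem exists_nearExp [CompactSpace M] [Nonempty M]
    (h : ∀ x₀ : M, ∃ (e₁ : ∀ x : M, TangentSpace 𝓘(ℝ, E) x → M)
      (L₁ : ∀ x : M, M → TangentSpace 𝓘(ℝ, E) x), IsLocExp x₀ e₁ L₁) :
    ∃ (ε : ℝ) (e₀ : ∀ x : M, TangentSpace 𝓘(ℝ, E) x → M)
      (L : ∀ x : M, M → TangentSpace 𝓘(ℝ, E) x), NearExp ε e₀ L := by
  classical
  choose e L hloc using h
  choose r hB using fun x₀ => (hloc x₀).exists_ball
  obtain ⟨t, -, ht⟩ := isCompact_univ.elim_nhds_subcover (fun x => Metric.ball x (r x / 2))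
    (fun x _ => Metric.ball_mem_nhds x (half_pos (hB x).pos))
  have hcov : ∀ x : M, ∃ c ∈ t, dist x c < r c / 2 := by
    intro x
    obtain ⟨c, hc, hxc⟩ := mem_iUnion₂.1 (ht (mem_univ x))
    exact ⟨c, hc, hxc⟩
  have htne : t.Nonempty := by
    obtain ⟨x⟩ := (inferInstance : Nonempty M)
    obtain ⟨c, hc, -⟩ := hcov x
    exact ⟨c, hc⟩
  obtain ⟨x1, hx1, hmin⟩ := t.exists_min_image (fun x => r x / 2) htne
  choose c hct hc using hcov
  set δ : ℝ := r x1 / 2 with hδ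
  have hδpos : 0 < δ := half_pos (hB x1).pos
  have hδle : ∀ x : M, δ ≤ r (c x) / 2 := fun x => hmin (c x) (hct x)
  have hrpos : ∀ x : M, 0 < r (c x) := fun x => (hB (c x)).pos
  have hcx : ∀ x : M, dist x (c x) < r (c x) := fun x => (hc x).trans (half_lt_self (hrpos x))
  have hcy : ∀ x y : M, dist x y < δ → dist y (c x) < r (c x) := by
    intro x y hxy
    have h1 := dist_triangle y x (c x)
    rw [dist_comm y x] at h1
    have h2 := hc x
    have h3 := hδle x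
    linarith only [h3, h2, h1, hxy]
  have hlt : ∀ (x : M) {a : ℝ}, a < δ → a < r (c x) := by
    intro x a ha
    have h1 := hδle x
    have h2 := hrpos x
    linarith only [hδpos, ha, h1]
  -- independence of the centre
  have hL : ∀ x x' y' : M, dist x' (c x) < r (c x) → dist y' (c x) < r (c x) → dist x' y' < δ →
      L (c x') x' y' = L (c x) x' y' := by
    intro x x' y' h1 h2 h3
    exact (hB (c x')).log_unique (hB (c x)) (hcx x') (hcy x' y' h3) h1 h2
  have hE : ∀ (x x' : M) (v' : TangentSpace 𝓘(ℝ, E) x'), dist x' (c x) < r (c x) →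
      ‖v'‖ < δ → ‖v'‖ + dist x' (c x) < r (c x) → e (c x') x' v' = e (c x) x' v' := by
    intro x x' v' h1 h2 h3
    have h4 : ‖v'‖ < r (c x) := hlt x h2
    have h5 : dist x' (e (c x) x' v') = ‖v'‖ := (hB (c x)).dist_exp h1 h4
    have h6 : dist x' (e (c x) x' v') < δ := by rw [h5]; exact h2
    have h7 : dist (e (c x) x' v') (c x) < r (c x) := by
      have := dist_triangle (e (c x) x' v') x' (c x)
      rw [dist_comm (e (c x) x' v') x', h5] at this
      linarith only [h3, this]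
    have h8 := hL x x' _ h1 h7 h6
    rw [(hB (c x)).log_exp x' v' h1 h4] at h8
    have h9 := (hB (c x')).exp_log x' (e (c x) x' v') (hcx x') (hcy x' _ h6)
    rw [h8] at h9
    exact h9
  refine ⟨δ, fun x v => e (c x) x v, fun x y => L (c x) x y, hδpos, ?_, ?_, ?_, ?_, ?_, ?_, ?_, ?_⟩
  · -- smoothness
    intro p hp
    have h1 := (hB (c p.proj)).smooth p (hcx p.proj) (hlt p.proj hp)
    refine h1.congr_of_eventuallyEq ?_
    have hproj : Continuous (fun p' : TangentBundle 𝓘(ℝ, E) M => p'.proj) :=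
      FiberBundle.continuous_proj E (TangentSpace 𝓘(ℝ, E))
    have hn : Continuous (fun p' : TangentBundle 𝓘(ℝ, E) M => ‖p'.snd‖) := exGlue_continuous_norm
    have hd : Continuous (fun p' : TangentBundle 𝓘(ℝ, E) M => dist p'.proj (c p.proj)) :=
      hproj.dist continuous_const
    have e1 : ∀ᶠ p' in 𝓝 p, ‖p'.snd‖ < δ := (hn.tendsto p).eventually (gt_mem_nhds hp)
    have e2 : ∀ᶠ p' : TangentBundle 𝓘(ℝ, E) M in 𝓝 p, dist p'.proj (c p.proj) < r (c p.proj) :=
      (hd.tendsto p).eventually (gt_mem_nhds (hcx p.proj))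
    have e3 : ∀ᶠ p' : TangentBundle 𝓘(ℝ, E) M in 𝓝 p,
        ‖p'.snd‖ + dist p'.proj (c p.proj) < r (c p.proj) := by
      have hs : Continuous (fun p' : TangentBundle 𝓘(ℝ, E) M =>
          ‖p'.snd‖ + dist p'.proj (c p.proj)) := hn.add hd
      refine (hs.tendsto p).eventually (gt_mem_nhds ?_)
      have a1 := hc p.proj
      have a2 := hδle p.proj
      linarith only [hp, a1, a2]
    filter_upwards [e1, e2, e3] with p' h1 h2 h3
    exact hE p.proj p'.proj p'.snd h2 h1 h3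
  · -- smoothness of the logarithm
    intro x y hxy
    have h1 := (hB (c x)).smooth_log x y (hcx x) (hcy x y hxy)
    refine h1.congr_of_eventuallyEq ?_
    have c1 : Continuous (fun q : M × M => dist q.1 q.2) := continuous_fst.dist continuous_snd
    have c2 : Continuous (fun q : M × M => dist q.1 (c x)) := continuous_fst.dist continuous_const
    have c3 : Continuous (fun q : M × M => dist q.2 (c x)) := continuous_snd.dist continuous_const
    have e1 : ∀ᶠ q : M × M in 𝓝 (x, y), dist q.1 q.2 < δ :=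
      (c1.tendsto (x, y)).eventually (gt_mem_nhds hxy)
    have e2 : ∀ᶠ q : M × M in 𝓝 (x, y), dist q.1 (c x) < r (c x) :=
      (c2.tendsto (x, y)).eventually (gt_mem_nhds (hcx x))
    have e3 : ∀ᶠ q : M × M in 𝓝 (x, y), dist q.2 (c x) < r (c x) :=
      (c3.tendsto (x, y)).eventually (gt_mem_nhds (hcy x y hxy))
    filter_upwards [e1, e2, e3] with q h1 h2 h3
    have := hL x q.1 q.2 h2 h3 h1
    simp only [this]
  · intro x y hxy
    exact (hB (c x)).exp_log x y (hcx x) (hcy x y hxy)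
  · intro x y hxy
    exact (hB (c x)).norm_log x y (hcx x) (hcy x y hxy)
  · intro x v hv
    exact (hB (c x)).log_exp x v (hcx x) (hlt x hv)
  · intro x v hv
    exact (hB (c x)).ray x v (hcx x) (hlt x hv)
  · intro x v
    exact (hB (c x)).velocity x v (hcx x)
  · intro a b c' h1 h2 h3
    have ha : dist b a < δ := by
      rw [dist_comm]
      have : 0 ≤ dist a b := dist_nonneg
      linarith only [hδpos, h2, h3]
    have hc' : dist b c' < δ := by
      rw [h1, dist_comm a b]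
      exact ha
    exact corner_of_grad ((hB (c b)).diff b a (hcx b) (hcy b a ha))
      ((hB (c b)).diff b c' (hcx b) (hcy b c' hc'))
      (fun ξ => (hB (c b)).grad b a (hcx b) (hcy b a ha) ξ)
      (fun ξ => (hB (c b)).grad b c' (hcx b) (hcy b c' hc') ξ) h1 h2

end

end Vale.Agent.P234
end
end
end

section

section

section

/-! Existence of the exponential map. -/

set_option maxSynthPendingDepth 3
set_option linter.unusedSectionVars false

open Bundle Manifold Set Filter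
open scoped ContDiff Manifold Topology

namespace Vale.Agent.P234

noncomputable section

variable {E : Type*} [NormedAddCommGroup E] [NormedSpace ℝ E] [FiniteDimensional ℝ E]
  {M : Type*} [MetricSpace M] [ChartedSpace E M]
  [RiemannianBundle (fun x : M => TangentSpace 𝓘(ℝ, E) x)]
  [IsManifold 𝓘(ℝ, E) ∞ M]
  [IsContMDiffRiemannianBundle 𝓘(ℝ, E) ∞ E (fun x : M => TangentSpace 𝓘(ℝ, E) x)]
  {ε : ℝ} {e₀ : ∀ x : M, TangentSpace 𝓘(ℝ, E) x → M}
  {L : ∀ x : M, M → TangentSpace 𝓘(ℝ, E) x}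

/-- The number of steps for a vector of norm `r`. -/
def nst (ε r : ℝ) : ℕ := ⌊3 * r / ε⌋₊ + 1

/-- The exponential map obtained from a near exponential map by chains. -/
def gexp (ε : ℝ) (e₀ : ∀ x : M, TangentSpace 𝓘(ℝ, E) x → M)
    (L : ∀ x : M, M → TangentSpace 𝓘(ℝ, E) x) (x : M) (v : TangentSpace 𝓘(ℝ, E) x) : M :=
  chn e₀ L x ((1 / (nst ε ‖v‖ : ℝ)) • v) (nst ε ‖v‖)

lemma one_le_nst (ε r : ℝ) : 1 ≤ nst ε r := by
  unfold nst; omega

lemma lt_nst {ε r : ℝ} (hε : 0 < ε) (hr : 0 ≤ r) : 2 * r < ε * nst ε r := by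
  have h1 : 3 * r / ε < (⌊3 * r / ε⌋₊ : ℝ) + 1 := Nat.lt_floor_add_one _
  rw [div_lt_iff₀ hε] at h1
  unfold nst
  push_cast
  linarith

/-- The exponential map is given by any fine enough chain. -/
lemma NearExp.gexp_eq (h : NearExp ε e₀ L) {x : M} (v : TangentSpace 𝓘(ℝ, E) x) {N : ℕ}
    (hN : 1 ≤ N) (h1 : 2 * ‖v‖ < ε * N) :
    gexp ε e₀ L x v = chn e₀ L x ((1 / (N : ℝ)) • v) N :=
  h.chn_indep v (one_le_nst _ _) hN (lt_nst h.pos (norm_nonneg _)) h1

lemma continuous_normTM : Continuous (fun p : TangentBundle 𝓘(ℝ, E) M => ‖p.snd‖) := by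
  have h0 : ContMDiff (𝓘(ℝ, E).tangent) 𝓘(ℝ, ℝ) ∞
      (fun p : TangentBundle 𝓘(ℝ, E) M => inner ℝ p.snd p.snd) := by
    have h : ContMDiff (𝓘(ℝ, E).tangent) (𝓘(ℝ, E).prod 𝓘(ℝ, E)) ∞
        (fun p : TangentBundle 𝓘(ℝ, E) M => (⟨p.proj, p.snd⟩ : TangentBundle 𝓘(ℝ, E) M)) :=
      contMDiff_id
    exact ContMDiff.inner_bundle h h
  have h : Continuous (fun p : TangentBundle 𝓘(ℝ, E) M => Real.sqrt (inner ℝ p.snd p.snd)) :=
    Real.continuous_sqrt.comp h0.continuous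
  refine h.congr (fun p => ?_)
  rw [real_inner_self_eq_norm_sq, Real.sqrt_sq (norm_nonneg _)]

/-- Scaling of the tangent bundle is smooth. -/
lemma contMDiff_scale (c : ℝ) : ContMDiff 𝓘(ℝ, E).tangent 𝓘(ℝ, E).tangent ∞
    (fun p : TangentBundle 𝓘(ℝ, E) M => (⟨p.proj, c • p.snd⟩ : TangentBundle 𝓘(ℝ, E) M)) := by
  intro p₀
  have hid : ContMDiffAt 𝓘(ℝ, E).tangent 𝓘(ℝ, E).tangent ∞
    (fun p : TangentBundle 𝓘(ℝ, E) M => p) p₀ := contMDiffAt_id
  rw [contMDiffAt_totalSpace] at hid ⊢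
  refine ⟨hid.1, ?_⟩
  have h2 := (contDiff_const_smul (𝕜 := ℝ) (F := E) (n := ∞) c).contMDiff.contMDiffAt.comp p₀ hid.2
  refine h2.congr_of_eventuallyEq ?_
  have hb : ∀ᶠ p in 𝓝 p₀, p.proj ∈
      (trivializationAt E (fun x : M => TangentSpace 𝓘(ℝ, E) x) p₀.proj).baseSet := by
    have hc : Continuous (fun p : TangentBundle 𝓘(ℝ, E) M => p.proj) :=
      FiberBundle.continuous_proj E (fun x : M => TangentSpace 𝓘(ℝ, E) x)
    exact hc.continuousAt.eventually_mem
      ((trivializationAt E (fun x : M => TangentSpace 𝓘(ℝ, E) x) p₀.proj).open_baseSet.mem_nhds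
        (mem_baseSet_trivializationAt E (fun x : M => TangentSpace 𝓘(ℝ, E) x) p₀.proj))
  filter_upwards [hb] with p hp
  simp only [Function.comp_apply]
  have := ((trivializationAt E (fun x : M => TangentSpace 𝓘(ℝ, E) x) p₀.proj).linear ℝ hp).map_smul
    c p.snd
  exact this

lemma NearExp.gexp_smooth (h : NearExp ε e₀ L) :
    ContMDiff 𝓘(ℝ, E).tangent 𝓘(ℝ, E) ∞
      (fun p : TangentBundle 𝓘(ℝ, E) M => gexp ε e₀ L p.proj p.snd) := by
  intro p
  set N := nst ε ‖p.snd‖ with hN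
  have hN1 : 1 ≤ N := one_le_nst _ _
  have hN0 : (0 : ℝ) < N := by exact_mod_cast hN1
  have hlt : 2 * ‖p.snd‖ < ε * N := lt_nst h.pos (norm_nonneg _)
  have h1 : ∀ᶠ q in 𝓝 p, 2 * ‖q.snd‖ < ε * N := by
    have hc : Continuous (fun q : TangentBundle 𝓘(ℝ, E) M => 2 * ‖q.snd‖) :=
      continuous_const.mul continuous_normTM
    exact hc.continuousAt.eventually_lt continuousAt_const hlt
  have h2 : ContMDiffAt 𝓘(ℝ, E).tangent 𝓘(ℝ, E) ∞
      (fun q : TangentBundle 𝓘(ℝ, E) M => chn e₀ L q.proj ((1 / (N : ℝ)) • q.snd) N) p := by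
    have h3 := h.contMDiffAt_chn N (p := (⟨p.proj, (1 / (N : ℝ)) • p.snd⟩ :
      TangentBundle 𝓘(ℝ, E) M)) (by
        change ‖(1 / (N : ℝ)) • p.snd‖ < ε
        rw [norm_smul, Real.norm_eq_abs, abs_of_pos (by positivity), one_div,
          inv_mul_lt_iff₀ hN0]
        linarith only [norm_nonneg p.snd, hlt])
    exact ContMDiffAt.comp (I' := 𝓘(ℝ, E).tangent)
      (g := fun q : TangentBundle 𝓘(ℝ, E) M => chn e₀ L q.proj q.snd N)
      (f := fun q : TangentBundle 𝓘(ℝ, E) M =>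
        (⟨q.proj, (1 / (N : ℝ)) • q.snd⟩ : TangentBundle 𝓘(ℝ, E) M)) p h3
      (contMDiff_scale (1 / (N : ℝ)) p)
  refine h2.congr_of_eventuallyEq ?_
  filter_upwards [h1] with q hq
  exact h.gexp_eq q.snd hN1 hq

lemma continuous_rayTM (x : M) (v : TangentSpace 𝓘(ℝ, E) x) :
    Continuous (fun t : ℝ => (⟨x, t • v⟩ : TangentBundle 𝓘(ℝ, E) M)) := by
  rw [continuous_iff_continuousAt]
  intro t
  rw [FiberBundle.continuousAt_totalSpace]
  refine ⟨continuousAt_const, ?_⟩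
  have hx : x ∈ (trivializationAt E (TangentSpace 𝓘(ℝ, E)) x).baseSet :=
    FiberBundle.mem_baseSet_trivializationAt' x
  have h1 : ∀ r : ℝ, (trivializationAt E (TangentSpace 𝓘(ℝ, E)) x
      (⟨x, r • v⟩ : TangentBundle 𝓘(ℝ, E) M)).2 =
      r • (trivializationAt E (TangentSpace 𝓘(ℝ, E)) x (⟨x, v⟩ : TangentBundle 𝓘(ℝ, E) M)).2 :=
    fun r => ((trivializationAt E (TangentSpace 𝓘(ℝ, E)) x).linear ℝ hx).map_smul r v
  have h2 : Continuous (fun r : ℝ =>
      r • (trivializationAt E (TangentSpace 𝓘(ℝ, E)) x (⟨x, v⟩ : TangentBundle 𝓘(ℝ, E) M)).2) :=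
    continuous_id.smul continuous_const
  exact (h2.congr (fun r => (h1 r).symm)).continuousAt

lemma NearExp.continuous_gexp_ray (h : NearExp ε e₀ L) (x : M) (v : TangentSpace 𝓘(ℝ, E) x) :
    Continuous (fun t : ℝ => gexp ε e₀ L x (t • v)) := by
  have h1 := h.gexp_smooth.continuous
  exact Continuous.comp (g := fun p : TangentBundle 𝓘(ℝ, E) M => gexp ε e₀ L p.proj p.snd)
    (f := fun t : ℝ => (⟨x, t • v⟩ : TangentBundle 𝓘(ℝ, E) M)) h1 (continuous_rayTM x v)

/-- Rational times are chain points. -/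
lemma NearExp.gexp_rat (h : NearExp ε e₀ L) {x : M} (v : TangentSpace 𝓘(ℝ, E) x) {N : ℕ}
    (hN : 1 ≤ N) (h1 : 2 * ‖v‖ < ε * N) (k : ℕ) :
    gexp ε e₀ L x (((k : ℝ) / N) • v) = chn e₀ L x ((1 / (N : ℝ)) • v) k := by
  have hN0 : (0 : ℝ) < N := by exact_mod_cast hN
  rcases Nat.eq_zero_or_pos k with rfl | hk
  · rw [chn_zero]
    have h2 := h.gexp_eq ((((0 : ℕ) : ℝ) / N) • v) (N := 1) le_rfl (by
      simp only [CharP.cast_eq_zero, zero_div, zero_smul, norm_zero, mul_zero, Nat.cast_one, mul_one, h.pos])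
    rw [h2, chn_one]
    simp only [Nat.cast_one, ne_eq, one_ne_zero, not_false_eq_true, div_self, CharP.cast_eq_zero, zero_div, zero_smul, smul_zero, h.exp_zero]
  · have hk0 : (0 : ℝ) < k := by exact_mod_cast hk
    have h2 := h.gexp_eq (((k : ℝ) / N) • v) (N := k) hk (by
      rw [norm_smul, Real.norm_eq_abs, abs_of_pos (by positivity)]
      calc 2 * ((k : ℝ) / N * ‖v‖) = (k / N) * (2 * ‖v‖) := by ring
        _ < (k / N) * (ε * N) := by
            apply mul_lt_mul_of_pos_left h1; (clear * - hk hN; positivity)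
        _ = ε * k := by (clear * - hN hk; field_simp))
    rw [h2, smul_smul]
    congr 2
    field_simp

lemma NearExp.gexp_velocity (h : NearExp ε e₀ L) (x : M) (v : TangentSpace 𝓘(ℝ, E) x) :
    mfderiv 𝓘(ℝ, ℝ) 𝓘(ℝ, E) (fun t : ℝ => gexp ε e₀ L x (t • v)) 0 (1 : ℝ) = v := by
  have h1 : (fun t : ℝ => gexp ε e₀ L x (t • v)) =ᶠ[𝓝 0] (fun t : ℝ => e₀ x (t • v)) := by
    have h2 : ∀ᶠ t : ℝ in 𝓝 0, 2 * ‖t • v‖ < ε := by
      have hc : Continuous (fun t : ℝ => 2 * ‖t • v‖) := by fun_prop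
      apply hc.continuousAt.eventually_lt continuousAt_const
      simp [h.pos]
    filter_upwards [h2] with t ht
    have h3 := h.gexp_eq (t • v) (N := 1) le_rfl (by simpa only [Nat.cast_one, mul_one] using ht)
    rw [h3, chn_one]
    simp
  have h2 := h1.mfderiv_eq (I := 𝓘(ℝ, ℝ)) (I' := 𝓘(ℝ, E))
  have h3 := h.velocity x v
  exact (congrArg (fun A : ℝ →L[ℝ] E => A 1) h2).trans h3

/-- Distances at rational times with the same sign. -/
lemma NearExp.gexp_dist_nat (h : NearExp ε e₀ L) (x : M) (v : TangentSpace 𝓘(ℝ, E) x) {N : ℕ}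
    (hN : 1 ≤ N) (h1 : 2 * ‖v‖ < ε * N) (j k : ℕ) (hjk : (k : ℝ) / N * ‖v‖ < ε) :
    dist (gexp ε e₀ L x (((j : ℝ) / N) • v)) (gexp ε e₀ L x ((((j + k : ℕ) : ℝ) / N) • v)) =
      (k : ℝ) / N * ‖v‖ := by
  have hN0 : (0 : ℝ) < N := by exact_mod_cast hN
  have hn : ‖(1 / (N : ℝ)) • v‖ = ‖v‖ / N := by
    rw [norm_smul, Real.norm_eq_abs, abs_of_pos (by positivity)]
    ring
  have hlt : ‖(1 / (N : ℝ)) • v‖ < ε := by
    rw [hn, div_lt_iff₀ hN0]
    linarith only [norm_nonneg v, h1]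
  rw [h.gexp_rat v hN h1, h.gexp_rat v hN h1]
  have h2 := h.seq_dist (z := chn e₀ L x ((1 / (N : ℝ)) • v)) (l := ‖(1 / (N : ℝ)) • v‖)
    (fun k => h.dist_chn hlt k) (fun k => chn_add_two x _ k) j k (by
      rw [hn]
      calc (k : ℝ) * (‖v‖ / N) = (k : ℝ) / N * ‖v‖ := by ring
        _ < ε := hjk) hlt
  rw [h2, hn]
  ring

lemma NearExp.gexp_dist_neg (h : NearExp ε e₀ L) (x : M) (v : TangentSpace 𝓘(ℝ, E) x) {N : ℕ}
    (hN : 1 ≤ N) (h1 : 2 * ‖v‖ < ε * N) (j k : ℕ) (hjk : ((j : ℝ) + k) / N * ‖v‖ < ε) :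
    dist (gexp ε e₀ L x ((-((j : ℝ) / N)) • v)) (gexp ε e₀ L x (((k : ℝ) / N) • v)) =
      ((j : ℝ) + k) / N * ‖v‖ := by
  have hN0 : (0 : ℝ) < N := by exact_mod_cast hN
  have hn : ‖(1 / (N : ℝ)) • v‖ = ‖v‖ / N := by
    rw [norm_smul, Real.norm_eq_abs, abs_of_pos (by positivity)]
    ring
  have hlt2 : 2 * ‖(1 / (N : ℝ)) • v‖ < ε := by
    rw [hn, ← mul_div_assoc, div_lt_iff₀ hN0]
    exact h1
  have hlt : ‖(1 / (N : ℝ)) • v‖ < ε := by
    linarith only [hlt2, norm_nonneg ((1 / (N : ℝ)) • v)]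
  have e1 : (-((j : ℝ) / N)) • v = ((j : ℝ) / N) • (-v) := by
    rw [smul_neg, neg_smul]
  rw [e1, h.gexp_rat v hN h1, h.gexp_rat (-v) hN (by rwa [norm_neg]), smul_neg]
  have h2 := h.dist_chn_neg hlt j k (by
      rw [hn]
      calc ((j : ℝ) + k) * (‖v‖ / N) = ((j : ℝ) + k) / N * ‖v‖ := by ring
        _ < ε := hjk) hlt2
  rw [h2, hn]
  ring

/-- Distances at rational times. -/
lemma NearExp.gexp_dist_int (h : NearExp ε e₀ L) (x : M) (v : TangentSpace 𝓘(ℝ, E) x) {N : ℕ}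
    (hN : 1 ≤ N) (h1 : 2 * ‖v‖ < ε * N) (j k : ℤ) (hjk : |(k : ℝ) - j| / N * ‖v‖ < ε) :
    dist (gexp ε e₀ L x (((j : ℝ) / N) • v)) (gexp ε e₀ L x (((k : ℝ) / N) • v)) =
      |(k : ℝ) - j| / N * ‖v‖ := by
  wlog hle : j ≤ k generalizing j k
  · have h3 := this k j (by rwa [abs_sub_comm]) (by omega)
    rw [dist_comm, h3, abs_sub_comm]
  have habs : |(k : ℝ) - j| = (k : ℝ) - j := by
    have : (j : ℝ) ≤ k := by exact_mod_cast hle
    exact abs_of_nonneg (by linarith only [this])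
  rw [habs] at hjk ⊢
  rcases le_total 0 j with hj | hj
  · -- both nonnegative
    obtain ⟨a, rfl⟩ := Int.eq_ofNat_of_zero_le hj
    obtain ⟨b, hb⟩ := Int.eq_ofNat_of_zero_le (sub_nonneg.2 hle)
    have hk : k = ((a + b : ℕ) : ℤ) := by push_cast; omega
    subst hk
    have e1 : (((a + b : ℕ) : ℤ) : ℝ) - ((a : ℕ) : ℤ) = (b : ℝ) := by push_cast; ring
    rw [e1] at hjk ⊢
    have := h.gexp_dist_nat x v hN h1 a b hjk
    rw [Int.cast_natCast, Int.cast_natCast]
    exact this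
  · rcases le_total 0 k with hk | hk
    · obtain ⟨a, ha⟩ := Int.eq_ofNat_of_zero_le (neg_nonneg.2 hj)
      obtain ⟨b, rfl⟩ := Int.eq_ofNat_of_zero_le hk
      have hj2 : j = -((a : ℕ) : ℤ) := by omega
      subst hj2
      have e1 : ((b : ℤ) : ℝ) - ((-(a : ℤ) : ℤ) : ℝ) = (a : ℝ) + b := by push_cast; ring
      rw [e1] at hjk ⊢
      have := h.gexp_dist_neg x v hN h1 a b hjk
      have e2 : (((-(a : ℤ) : ℤ) : ℝ) / N) = -((a : ℝ) / N) := by push_cast; ring
      rw [e2, Int.cast_natCast]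
      exact this
    · -- both nonpositive
      obtain ⟨b, hb⟩ := Int.eq_ofNat_of_zero_le (neg_nonneg.2 hk)
      obtain ⟨a, ha⟩ := Int.eq_ofNat_of_zero_le (sub_nonneg.2 hle)
      have hk2 : k = -((b : ℕ) : ℤ) := by omega
      have hj2 : j = -((b + a : ℕ) : ℤ) := by push_cast; omega
      subst hk2
      subst hj2
      have e1 : ((-(b : ℤ) : ℤ) : ℝ) - ((-((b + a : ℕ) : ℤ) : ℤ) : ℝ) = (a : ℝ) := by
        push_cast; ring
      rw [e1] at hjk ⊢
      have := h.gexp_dist_nat x (-v) hN (by rwa [norm_neg]) b a (by rwa [norm_neg])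
      rw [norm_neg, dist_comm] at this
      rw [← this]
      congr 2
      · rw [smul_neg, ← neg_smul]
        congr 1
        push_cast; ring
      · rw [smul_neg, ← neg_smul]
        congr 1
        push_cast; ring

lemma tendsto_floor_div (s : ℝ) :
    Tendsto (fun n : ℕ => ((⌊s * n⌋ : ℤ) : ℝ) / n) atTop (𝓝 s) := by
  have h1 : Tendsto (fun n : ℕ => s - 1 / (n : ℝ)) atTop (𝓝 (s - 0)) :=
    tendsto_const_nhds.sub tendsto_one_div_atTop_nhds_zero_nat
  rw [sub_zero] at h1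
  refine tendsto_of_tendsto_of_tendsto_of_le_of_le' h1 tendsto_const_nhds ?_ ?_
  · filter_upwards [eventually_gt_atTop 0] with n hn
    have hn0 : (0 : ℝ) < n := by exact_mod_cast hn
    rw [le_div_iff₀ hn0, sub_mul, one_div, inv_mul_cancel₀ hn0.ne']
    linarith only [Int.lt_floor_add_one (s * n)]
  · filter_upwards [eventually_gt_atTop 0] with n hn
    have hn0 : (0 : ℝ) < n := by exact_mod_cast hn
    rw [div_le_iff₀ hn0]
    exact Int.floor_le _

lemma NearExp.gexp_dist (h : NearExp ε e₀ L) (x : M) (v : TangentSpace 𝓘(ℝ, E) x) (s t : ℝ)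
    (hst : ‖v‖ * |t - s| ≤ ε / 2) :
    dist (gexp ε e₀ L x (s • v)) (gexp ε e₀ L x (t • v)) = ‖v‖ * |t - s| := by
  have hlt : ‖v‖ * |t - s| < ε := by linarith only [h.pos, hst]
  have hs := tendsto_floor_div s
  have ht := tendsto_floor_div t
  have hc := h.continuous_gexp_ray x v
  have hd : Tendsto (fun n : ℕ => dist (gexp ε e₀ L x ((((⌊s * n⌋ : ℤ) : ℝ) / n) • v))
      (gexp ε e₀ L x ((((⌊t * n⌋ : ℤ) : ℝ) / n) • v))) atTop
      (𝓝 (dist (gexp ε e₀ L x (s • v)) (gexp ε e₀ L x (t • v)))) :=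
    ((hc.tendsto s).comp hs).dist ((hc.tendsto t).comp ht)
  have hr : Tendsto (fun n : ℕ => |((⌊t * n⌋ : ℤ) : ℝ) / n - ((⌊s * n⌋ : ℤ) : ℝ) / n| * ‖v‖) atTop
      (𝓝 (|t - s| * ‖v‖)) := ((ht.sub hs).abs).mul_const _
  have he : ∀ᶠ n : ℕ in atTop, |((⌊t * n⌋ : ℤ) : ℝ) / n - ((⌊s * n⌋ : ℤ) : ℝ) / n| * ‖v‖ < ε :=
    hr.eventually_lt_const (by rw [mul_comm]; exact hlt)
  have hN : ∀ᶠ n : ℕ in atTop, 2 * ‖v‖ / ε < n := tendsto_natCast_atTop_atTop.eventually_gt_atTop _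
  have heq : ∀ᶠ n : ℕ in atTop, dist (gexp ε e₀ L x ((((⌊s * n⌋ : ℤ) : ℝ) / n) • v))
      (gexp ε e₀ L x ((((⌊t * n⌋ : ℤ) : ℝ) / n) • v)) =
      |((⌊t * n⌋ : ℤ) : ℝ) / n - ((⌊s * n⌋ : ℤ) : ℝ) / n| * ‖v‖ := by
    filter_upwards [he, hN, eventually_gt_atTop 0] with n h1 h2 h3
    have hn0 : (0 : ℝ) < n := by exact_mod_cast h3
    have e1 : |((⌊t * n⌋ : ℤ) : ℝ) / n - ((⌊s * n⌋ : ℤ) : ℝ) / n| =
        |((⌊t * n⌋ : ℤ) : ℝ) - ((⌊s * n⌋ : ℤ) : ℝ)| / n := by
      rw [← sub_div, abs_div, abs_of_pos hn0]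
    rw [e1] at h1 ⊢
    rw [div_lt_iff₀ h.pos] at h2
    exact h.gexp_dist_int x v h3 (by linarith only [h2]) _ _ h1
  have h5 := tendsto_nhds_unique (hd.congr' heq) hr
  rw [h5, mul_comm]

/-- A near exponential map extends to an exponential map. -/
theorem NearExp.isExp (h : NearExp ε e₀ L) : IsExp (gexp ε e₀ L) where
  smooth := h.gexp_smooth
  map_zero x := by
    have h2 := h.gexp_eq (0 : TangentSpace 𝓘(ℝ, E) x) (N := 1) le_rfl (by simp only [norm_zero, mul_zero, Nat.cast_one, mul_one, h.pos])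
    rw [h2, chn_one]
    simp [h.exp_zero]
  velocity := h.gexp_velocity
  minimizing := ⟨ε / 2, by linarith only [h.pos], fun x v s t hst => h.gexp_dist x v s t hst⟩

/-- Existence of the exponential map of a compact Riemannian manifold. -/
theorem exists_isExp [IsRiemannianManifold 𝓘(ℝ, E) M] [CompactSpace M] :
    ∃ e : ∀ x : M, TangentSpace 𝓘(ℝ, E) x → M, IsExp e := by
  rcases isEmpty_or_nonempty M with hM | hM
  · refine ⟨fun x _ => x, ⟨fun p => (hM.false p.proj).elim, fun x => rfl,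
      fun x => (hM.false x).elim, 1, one_pos, fun x => (hM.false x).elim⟩⟩
  · obtain ⟨ε, e₀, L, h⟩ := exists_nearExp (E := E) (M := M) (fun x₀ => exists_isLocExp x₀)
    exact ⟨gexp ε e₀ L, h.isExp⟩

end

end Vale.Agent.P234
end
end
end

section

section

section

/-! The complete theorem. -/

open Bundle Manifold
open scoped ContDiff Manifold

namespace Vale.Agent.P234

/-- Existence and uniqueness of the exponential map, and convexity of the injectivity domains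
under the weak Ma-Trudinger-Wang condition. -/
theorem main_unconditional {E : Type*} [NormedAddCommGroup E] [NormedSpace ℝ E]
    [FiniteDimensional ℝ E] {M : Type*} [MetricSpace M] [ChartedSpace E M]
    [IsManifold 𝓘(ℝ, E) ∞ M] [RiemannianBundle (fun x : M => TangentSpace 𝓘(ℝ, E) x)]
    [IsContMDiffRiemannianBundle 𝓘(ℝ, E) ∞ E (fun x : M => TangentSpace 𝓘(ℝ, E) x)]
    [IsRiemannianManifold 𝓘(ℝ, E) M] [CompactSpace M] [ConnectedSpace M] :
    ∃ e : ∀ x : M, TangentSpace 𝓘(ℝ, E) x → M, IsExp e ∧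
      (∀ e' : ∀ x : M, TangentSpace 𝓘(ℝ, E) x → M, IsExp e' → e' = e) ∧
      (WeakMTW e → ∀ x : M, Convex ℝ (injDomain e x)) := by
  obtain ⟨e, he⟩ := exists_isExp (E := E) (M := M)
  exact ⟨e, he, fun e' he' => isExp_unique he he',
    fun hW x => convex_injDomain (facts_of_isExp he) hW x⟩

end Vale.Agent.P234
end
end
end

section

section

section

open Matrix Finset Real
open scoped ContDiff

namespace Vale.Agent.P231.Ode

open Kazdan

variable {N : ℕ} (X : JSys N)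

/-- Hypotheses of closed geodesic type. -/
structure Closed (q : Matrix.orthogonalGroup (Fin N) ℝ) : Prop where
  hC : ∀ t, X.C (t + π) = q.1 * X.C t
  hS : ∀ t, X.S (t + π) = q.1 * X.S t
  hinv : ∀ s t, s < t → t < s + π / 2 → (X.A s t).det ≠ 0

variable {X} {q : Matrix.orthogonalGroup (Fin N) ℝ}

end Vale.Agent.P231.Ode
end
end
end

section

section

section

open Matrix Finset Real
open scoped ContDiff Topology

namespace Vale.Agent.P231.Ode

open Kazdan

variable {N : ℕ} (X : JSys N) (c : ℝ)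

end Vale.Agent.P231.Ode
end
end
end

section

section

section

open Matrix Finset Real
open scoped ContDiff Topology

namespace Vale.Agent.P231.Ode

open Kazdan

variable {N : ℕ}

variable {X : JSys N} {q : Matrix.orthogonalGroup (Fin N) ℝ}

end Vale.Agent.P231.Ode
end
end
end

section

section

section

open Matrix Finset Real MeasureTheory
open scoped ContDiff Topology

namespace Vale.Agent.P231.Ode

open Kazdan

variable {N : ℕ} {X : JSys N} {q : Matrix.orthogonalGroup (Fin N) ℝ}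

end Vale.Agent.P231.Ode
end
end
end
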